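import Crest.Agent.Lib.Bc.Q3Q8
/-!
# Row 163, `Cert 3`: the pointwise majorants, for one relabelling

For `x, y` in the simplex, `Z = 3 ∑ x_i y_i`, `w = Z - 1`, `ν = 27 e₂(x ⊙ y)`, `ŷ = x ⊙ y / ∑ x_i y_i`:

* `Z · g(ŷ) ≥ L := Z/4 + (1/2) v v' P(w) - (3/4) (ν² U₃(w) + E(w))`,
* `Z · a(ŷ) ≤ Z - ν (1 - w + w² - w³)`.
-/
namespace Crest.Agent.Lib.Bc.Q3

/-- the majorant of `1/Z²` -/
noncomputable def P3 (w : ℝ) : ℝ := 1 - 2 * w + (27 / 10) * w ^ 2 - 2 * w ^ 3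
/-- the main part of the majorant of `1/Z³` -/
noncomputable def U3 (w : ℝ) : ℝ :=
  1 - 3 * w + (32 / 5) * w ^ 2 - (151 / 10) * w ^ 3 + (333 / 10) * w ^ 4 - (184 / 5) * w ^ 5
    + (72 / 5) * w ^ 6
/-- the correction: it is `≥ 0` and vanishes at `w = 0` and `w = 2` -/
noncomputable def E3 (w : ℝ) : ℝ := (3 / 100) * (4 * w ^ 2 - 4 * w ^ 3 + w ^ 4)

lemma E3_nonneg (w : ℝ) : 0 ≤ E3 w := by
  have : E3 w = (3 / 100) * (w * (2 - w)) ^ 2 := by unfold E3; ring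
  rw [this]; positivity

lemma P3_mul_le (Z : ℝ) (hZ : 0 ≤ Z) : P3 (Z - 1) * Z ^ 2 ≤ 1 := by
  have key : 1 - P3 (Z - 1) * Z ^ 2
      = (Z - 1) ^ 2 * (2 * Z * ((Z - 1) - 3 / 10) ^ 2
          + ((1 / 2) * ((Z - 1) - 19 / 50) ^ 2 + 239 / 5000)) := by
    unfold P3; ring
  have : 0 ≤ (Z - 1) ^ 2 * (2 * Z * ((Z - 1) - 3 / 10) ^ 2
          + ((1 / 2) * ((Z - 1) - 19 / 50) ^ 2 + 239 / 5000)) := by positivity
  linarith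

lemma P3_le (Z : ℝ) (hZ : 0 < Z) : P3 (Z - 1) ≤ 1 / Z ^ 2 := by
  rw [le_div_iff₀ (by positivity)]
  exact P3_mul_le Z hZ.le

/-- the key property of `U₃` and `E` -/
lemma U3_key (Z : ℝ) (hZ0 : 0 ≤ Z) (hZ3 : Z ≤ 3) : Z ≤ E3 (Z - 1) + Z ^ 4 * U3 (Z - 1) := by
  have h := Q8_nonneg (Z - 1) (by linarith) (by linarith)
  have e : E3 (Z - 1) + Z ^ 4 * U3 (Z - 1) - Z = (Z - 1) ^ 2 * Q8 (Z - 1) := by
    simp only [E3, U3, Q8]; ring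
  have : 0 ≤ (Z - 1) ^ 2 * Q8 (Z - 1) := by positivity
  linarith

/-- the majorant of `ν²/Z³` -/
lemma maj_U (Z n : ℝ) (hZ0 : 0 < Z) (hZ3 : Z ≤ 3) (hn0 : 0 ≤ n) (hn : n ≤ Z ^ 2) :
    n ^ 2 / Z ^ 3 ≤ n ^ 2 * U3 (Z - 1) + E3 (Z - 1) := by
  have hE := E3_nonneg (Z - 1)
  have hk := U3_key Z hZ0.le hZ3
  have hn2 : n ^ 2 ≤ Z ^ 4 := by
    have : n ^ 2 ≤ (Z ^ 2) ^ 2 := pow_le_pow_left₀ hn0 hn 2
    calc n ^ 2 ≤ (Z ^ 2) ^ 2 := this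
      _ = Z ^ 4 := by ring
  have hZ3' : 0 < Z ^ 3 := by positivity
  have e : n ^ 2 / Z ^ 3 = n ^ 2 * (1 / Z ^ 3) := by ring
  rw [e]
  by_cases hr : 1 / Z ^ 3 ≤ U3 (Z - 1)
  · have := mul_le_mul_of_nonneg_left hr (sq_nonneg n)
    linarith
  · push Not at hr
    have hr' : 0 ≤ 1 / Z ^ 3 - U3 (Z - 1) := by linarith
    have h1 := mul_le_mul_of_nonneg_right hn2 hr'
    have h2 : Z ^ 4 * (1 / Z ^ 3 - U3 (Z - 1)) = Z - Z ^ 4 * U3 (Z - 1) := by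
      field_simp
    rw [h2] at h1
    nlinarith

/-- `Z g(ŷ)` in closed form -/
lemma g_star_pos (u0 u1 u2 : ℝ) (hS : 0 < u0 + u1 + u2) :
    (3 * (u0 + u1 + u2)) * (cI (u0 / (u0 + u1 + u2)) (u1 / (u0 + u1 + u2)) (u2 / (u0 + u1 + u2))
        - (3 / 4) * (aI (u0 / (u0 + u1 + u2)) (u1 / (u0 + u1 + u2)) (u2 / (u0 + u1 + u2))) ^ 2)
      = (3 * (u0 + u1 + u2)) / 4
        + (729 * (u0 * u1 * u2)) / (2 * (3 * (u0 + u1 + u2)) ^ 2)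
        - (3 / 4) * ((27 * (u0 * u1 + u0 * u2 + u1 * u2)) ^ 2 / (3 * (u0 + u1 + u2)) ^ 3) := by
  have hS' : u0 + u1 + u2 ≠ 0 := hS.ne'
  simp only [cI, aI]
  set S := u0 + u1 + u2 with hSdef
  field_simp
  ring

/-- `Z a(ŷ)` in closed form -/
lemma a_star_pos (u0 u1 u2 : ℝ) (hS : 0 < u0 + u1 + u2) :
    (3 * (u0 + u1 + u2)) * aI (u0 / (u0 + u1 + u2)) (u1 / (u0 + u1 + u2)) (u2 / (u0 + u1 + u2))
      = 3 * (u0 + u1 + u2)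
        - (27 * (u0 * u1 + u0 * u2 + u1 * u2)) / (3 * (u0 + u1 + u2)) := by
  have hS' : u0 + u1 + u2 ≠ 0 := hS.ne'
  simp only [aI]
  set S := u0 + u1 + u2 with hSdef
  field_simp
  ring

/-- **Term of CERT I** -/
theorem term_I (x0 x1 x2 y0 y1 y2 V V' s0 s1 s2 : ℝ)
    (hx0 : 0 ≤ x0) (hx1 : 0 ≤ x1) (hx2 : 0 ≤ x2) (hy0 : 0 ≤ y0) (hy1 : 0 ≤ y1) (hy2 : 0 ≤ y2)
    (hxs : x0 + x1 + x2 = 1) (hys : y0 + y1 + y2 = 1)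
    (hV : V = 27 * (x0 * x1 * x2)) (hV' : V' = 27 * (y0 * y1 * y2))
    (hs0 : x0 * y0 + x1 * y1 + x2 * y2 ≠ 0 → s0 = x0 * y0 / (x0 * y0 + x1 * y1 + x2 * y2))
    (hs1 : x0 * y0 + x1 * y1 + x2 * y2 ≠ 0 → s1 = x1 * y1 / (x0 * y0 + x1 * y1 + x2 * y2))
    (hs2 : x0 * y0 + x1 * y1 + x2 * y2 ≠ 0 → s2 = x2 * y2 / (x0 * y0 + x1 * y1 + x2 * y2)) :
    (w3 x0 x1 x2 y0 y1 y2 + 1) / 4 + (1 / 2) * (V * V') * P3 (w3 x0 x1 x2 y0 y1 y2)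
        - (3 / 4) * ((nu3 x0 x1 x2 y0 y1 y2) ^ 2 * U3 (w3 x0 x1 x2 y0 y1 y2)
            + E3 (w3 x0 x1 x2 y0 y1 y2))
      ≤ (3 * (x0 * y0 + x1 * y1 + x2 * y2)) * (cI s0 s1 s2 - (3 / 4) * (aI s0 s1 s2) ^ 2) := by
  have hu0 : 0 ≤ x0 * y0 := mul_nonneg hx0 hy0
  have hu1 : 0 ≤ x1 * y1 := mul_nonneg hx1 hy1
  have hu2 : 0 ≤ x2 * y2 := mul_nonneg hx2 hy2
  have hw : w3 x0 x1 x2 y0 y1 y2 = 3 * (x0 * y0 + x1 * y1 + x2 * y2) - 1 := rfl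
  have hnu : nu3 x0 x1 x2 y0 y1 y2
      = 27 * ((x0 * y0) * (x1 * y1) + (x0 * y0) * (x2 * y2) + (x1 * y1) * (x2 * y2)) := rfl
  have hVV : V * V' = 729 * ((x0 * y0) * (x1 * y1) * (x2 * y2)) := by
    rw [hV, hV']; ring
  rw [hw, hnu, hVV]
  set u0 := x0 * y0 with hu0d
  set u1 := x1 * y1 with hu1d
  set u2 := x2 * y2 with hu2d
  by_cases hS : u0 + u1 + u2 = 0
  · have h0 : u0 = 0 := by linarith
    have h1 : u1 = 0 := by linarith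
    have h2 : u2 = 0 := by linarith
    have hE := E3_nonneg (3 * (u0 + u1 + u2) - 1)
    have e1 : u0 * u1 * u2 = 0 := by rw [h0]; ring
    have e2 : u0 * u1 + u0 * u2 + u1 * u2 = 0 := by rw [h0, h1, h2]; ring
    have key : (3 * (u0 + u1 + u2) - 1 + 1) / 4 + 1 / 2 * (729 * (u0 * u1 * u2)) * P3 (3 * (u0 + u1 + u2) - 1)
        - 3 / 4 * ((27 * (u0 * u1 + u0 * u2 + u1 * u2)) ^ 2 * U3 (3 * (u0 + u1 + u2) - 1)
            + E3 (3 * (u0 + u1 + u2) - 1))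
        = -(3 / 4) * E3 (3 * (u0 + u1 + u2) - 1) := by
      rw [e1, e2, hS]; ring
    have key2 : (3 * (u0 + u1 + u2)) * (cI s0 s1 s2 - 3 / 4 * aI s0 s1 s2 ^ 2) = 0 := by
      rw [hS]; ring
    rw [key, key2]
    linarith
  · have hS0 : 0 < u0 + u1 + u2 := lt_of_le_of_ne (by positivity) (Ne.symm hS)
    rw [hs0 hS, hs1 hS, hs2 hS, g_star_pos u0 u1 u2 hS0]
    set S := u0 + u1 + u2 with hSd
    have hSle : S ≤ 1 := by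
      have a0 : x0 * y0 ≤ x0 := by nlinarith
      have a1 : x1 * y1 ≤ x1 := by nlinarith
      have a2 : x2 * y2 ≤ x2 := by nlinarith
      rw [hSd, hu0d, hu1d, hu2d]; linarith
    set Z := 3 * S with hZd
    have hZ0 : 0 < Z := by rw [hZd]; positivity
    have hZ3 : Z ≤ 3 := by rw [hZd]; linarith
    set n := 27 * (u0 * u1 + u0 * u2 + u1 * u2) with hnd
    have hn0 : 0 ≤ n := by rw [hnd]; positivity
    have hn : n ≤ Z ^ 2 := by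
      rw [hnd, hZd, hSd]
      nlinarith [sq_nonneg (u0 - u1), sq_nonneg (u0 - u2), sq_nonneg (u1 - u2)]
    have hW : 0 ≤ 729 * (u0 * u1 * u2) := by positivity
    set W := 729 * (u0 * u1 * u2) with hWd
    have h1 := maj_U Z n hZ0 hZ3 hn0 hn
    have h2 := P3_le Z hZ0
    have h3 : (1 / 2) * W * P3 (Z - 1) ≤ W / (2 * Z ^ 2) := by
      have := mul_le_mul_of_nonneg_left h2 hW
      have e : W / (2 * Z ^ 2) = (1 / 2) * (W * (1 / Z ^ 2)) := by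
        field_simp
      rw [e]
      linarith
    have e1 : (Z - 1 + 1) / 4 = Z / 4 := by ring
    rw [e1]
    linarith

/-- **Term of CERT II** -/
theorem term_II (x0 x1 x2 y0 y1 y2 s0 s1 s2 : ℝ)
    (hx0 : 0 ≤ x0) (hx1 : 0 ≤ x1) (hx2 : 0 ≤ x2) (hy0 : 0 ≤ y0) (hy1 : 0 ≤ y1) (hy2 : 0 ≤ y2)
    (hs0 : x0 * y0 + x1 * y1 + x2 * y2 ≠ 0 → s0 = x0 * y0 / (x0 * y0 + x1 * y1 + x2 * y2))
    (hs1 : x0 * y0 + x1 * y1 + x2 * y2 ≠ 0 → s1 = x1 * y1 / (x0 * y0 + x1 * y1 + x2 * y2))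
    (hs2 : x0 * y0 + x1 * y1 + x2 * y2 ≠ 0 → s2 = x2 * y2 / (x0 * y0 + x1 * y1 + x2 * y2)) :
    (3 * (x0 * y0 + x1 * y1 + x2 * y2)) * aI s0 s1 s2
      ≤ (w3 x0 x1 x2 y0 y1 y2 + 1)
        - nu3 x0 x1 x2 y0 y1 y2 * (1 - w3 x0 x1 x2 y0 y1 y2 + (w3 x0 x1 x2 y0 y1 y2) ^ 2
            - (w3 x0 x1 x2 y0 y1 y2) ^ 3) := by
  have hu0 : 0 ≤ x0 * y0 := mul_nonneg hx0 hy0
  have hu1 : 0 ≤ x1 * y1 := mul_nonneg hx1 hy1
  have hu2 : 0 ≤ x2 * y2 := mul_nonneg hx2 hy2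
  have hw : w3 x0 x1 x2 y0 y1 y2 = 3 * (x0 * y0 + x1 * y1 + x2 * y2) - 1 := rfl
  have hnu : nu3 x0 x1 x2 y0 y1 y2
      = 27 * ((x0 * y0) * (x1 * y1) + (x0 * y0) * (x2 * y2) + (x1 * y1) * (x2 * y2)) := rfl
  rw [hw, hnu]
  set u0 := x0 * y0 with hu0d
  set u1 := x1 * y1 with hu1d
  set u2 := x2 * y2 with hu2d
  by_cases hS : u0 + u1 + u2 = 0
  · have h0 : u0 = 0 := by linarith
    have h1 : u1 = 0 := by linarith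
    have h2 : u2 = 0 := by linarith
    simp only [h0, h1, h2]
    norm_num
  · have hS0 : 0 < u0 + u1 + u2 := lt_of_le_of_ne (by positivity) (Ne.symm hS)
    rw [hs0 hS, hs1 hS, hs2 hS, a_star_pos u0 u1 u2 hS0]
    set S := u0 + u1 + u2 with hSd
    set Z := 3 * S with hZd
    have hZ0 : 0 < Z := by rw [hZd]; positivity
    set n := 27 * (u0 * u1 + u0 * u2 + u1 * u2) with hnd
    have hn0 : 0 ≤ n := by rw [hnd]; positivity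
    have hk : 1 - (Z - 1) + (Z - 1) ^ 2 - (Z - 1) ^ 3 ≤ 1 / Z := by
      rw [le_div_iff₀ hZ0]
      nlinarith [sq_nonneg ((Z - 1) ^ 2)]
    have := mul_le_mul_of_nonneg_left hk hn0
    have e : n / Z = n * (1 / Z) := by ring
    have e1 : Z - 1 + 1 = Z := by ring
    rw [e1, e]
    linarith

end Crest.Agent.Lib.Bc.Q3
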