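import Crest.Agent.Lib.Bc.Q3PolyII
import Crest.Agent.Lib.Bc.Q3Term
import Crest.Agent.Lib.Bc.Dir1
/-!
# Row 163: `Cert 3`, hence `S0244` for `lam ≥ 0`

`g = c - (3/4) a²`, `a = 1 - 3 e₂`, `c = 1 - (9/2) e₂ + (27/2) e₃`,
`α` and `β` polynomials in `(a, c)`, `κ₂ = 1/10`, `κ₃ = 0`.

The pointwise majorants are in `Q3Term`, the averages over the six relabellings in `Q3Moments`, the
inequalities between the polynomials in the invariants in `Q3PolyI`, `Q3PolyII`.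
-/
open scoped BigOperators
open Crest.ProbabilityR.Broadcast Crest.ProbabilityR.TreeBroadcast
namespace Crest.Agent.Lib.Bc
namespace Q3

/-- the identity -/
def p0 : Equiv.Perm (Fin 3) := ⟨![0, 1, 2], ![0, 1, 2], by decide, by decide⟩
/-- `(y 0, y 2, y 1)` -/
def p1 : Equiv.Perm (Fin 3) := ⟨![0, 2, 1], ![0, 2, 1], by decide, by decide⟩
/-- `(y 1, y 0, y 2)` -/
def p2 : Equiv.Perm (Fin 3) := ⟨![1, 0, 2], ![1, 0, 2], by decide, by decide⟩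
/-- `(y 1, y 2, y 0)` -/
def p3 : Equiv.Perm (Fin 3) := ⟨![1, 2, 0], ![2, 0, 1], by decide, by decide⟩
/-- `(y 2, y 0, y 1)` -/
def p4 : Equiv.Perm (Fin 3) := ⟨![2, 0, 1], ![1, 2, 0], by decide, by decide⟩
/-- `(y 2, y 1, y 0)` -/
def p5 : Equiv.Perm (Fin 3) := ⟨![2, 1, 0], ![2, 1, 0], by decide, by decide⟩

set_option maxRecDepth 100000 in
theorem perm3_cases (σ : Equiv.Perm (Fin 3)) :
    σ = p0 ∨ σ = p1 ∨ σ = p2 ∨ σ = p3 ∨ σ = p4 ∨ σ = p5 := by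
  revert σ; decide

set_option maxRecDepth 100000 in
theorem sum_perm3 (F : Equiv.Perm (Fin 3) → ℝ) :
    ∑ σ, F σ = F p0 + F p1 + F p2 + F p3 + F p4 + F p5 := by
  have h : (Finset.univ : Finset (Equiv.Perm (Fin 3))) = {p0, p1, p2, p3, p4, p5} := by
    ext σ
    simpa using perm3_cases σ
  rw [h]
  rw [Finset.sum_insert (by decide), Finset.sum_insert (by decide), Finset.sum_insert (by decide),
    Finset.sum_insert (by decide), Finset.sum_insert (by decide), Finset.sum_singleton]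
  ring

/-- `a` on a function -/
noncomputable def aF (x : Fin 3 → ℝ) : ℝ := aI (x 0) (x 1) (x 2)
/-- `c` on a function -/
noncomputable def cF (x : Fin 3 → ℝ) : ℝ := cI (x 0) (x 1) (x 2)
/-- the class function -/
noncomputable def g3 (x : Fin 3 → ℝ) : ℝ := cF x - (3 / 4) * aF x ^ 2
/-- the first multiplier -/
noncomputable def al3 (x : Fin 3 → ℝ) : ℝ := alphaP (aF x) (cF x)
/-- the second multiplier -/
noncomputable def be3 (x : Fin 3 → ℝ) : ℝ := betaP (aF x) (cF x)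

lemma aF_comp (σ : Equiv.Perm (Fin 3)) (x : Fin 3 → ℝ) : aF (x ∘ σ) = aF x := by
  rcases perm3_cases σ with rfl | rfl | rfl | rfl | rfl | rfl
  · rfl
  · show aI (x 0) (x 2) (x 1) = aI (x 0) (x 1) (x 2); simp only [aI]; ring
  · show aI (x 1) (x 0) (x 2) = aI (x 0) (x 1) (x 2); simp only [aI]; ring
  · show aI (x 1) (x 2) (x 0) = aI (x 0) (x 1) (x 2); simp only [aI]; ring
  · show aI (x 2) (x 0) (x 1) = aI (x 0) (x 1) (x 2); simp only [aI]; ring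
  · show aI (x 2) (x 1) (x 0) = aI (x 0) (x 1) (x 2); simp only [aI]; ring

lemma cF_comp (σ : Equiv.Perm (Fin 3)) (x : Fin 3 → ℝ) : cF (x ∘ σ) = cF x := by
  rcases perm3_cases σ with rfl | rfl | rfl | rfl | rfl | rfl
  · rfl
  · show cI (x 0) (x 2) (x 1) = cI (x 0) (x 1) (x 2); simp only [cI]; ring
  · show cI (x 1) (x 0) (x 2) = cI (x 0) (x 1) (x 2); simp only [cI]; ring
  · show cI (x 1) (x 2) (x 0) = cI (x 0) (x 1) (x 2); simp only [cI]; ring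
  · show cI (x 2) (x 0) (x 1) = cI (x 0) (x 1) (x 2); simp only [cI]; ring
  · show cI (x 2) (x 1) (x 0) = cI (x 0) (x 1) (x 2); simp only [cI]; ring

lemma g3_comp (σ : Equiv.Perm (Fin 3)) (x : Fin 3 → ℝ) : g3 (x ∘ σ) = g3 x := by
  simp only [g3, aF_comp, cF_comp]

lemma simp_coord {x : Fin 3 → ℝ} (hx : x ∈ Simp 3) :
    0 ≤ x 0 ∧ 0 ≤ x 1 ∧ 0 ≤ x 2 ∧ x 0 + x 1 + x 2 = 1 := by
  refine ⟨hx.1 0, hx.1 1, hx.1 2, ?_⟩
  have := hx.2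
  rwa [Fin.sum_univ_three] at this

lemma simp_x2 {x : Fin 3 → ℝ} (hx : x ∈ Simp 3) : x 2 = 1 - x 0 - x 1 := by
  obtain ⟨_, _, _, h⟩ := simp_coord hx
  linarith

lemma aFn_eq_aF {x : Fin 3 → ℝ} (hx : x ∈ Simp 3) : aFn 3 x = aF x := by
  have h := simp_x2 hx
  unfold aFn aF aI
  rw [Fin.sum_univ_three, h]
  push_cast
  ring

lemma aF_range {x : Fin 3 → ℝ} (hx : x ∈ Simp 3) : 0 ≤ aF x ∧ aF x ≤ 1 := by
  rw [← aFn_eq_aF hx]
  exact ⟨aFn_nonneg (by norm_num) hx, aFn_le_one (by norm_num) hx⟩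

lemma c_sq_le {x : Fin 3 → ℝ} (hx : x ∈ Simp 3) : cF x ^ 2 ≤ aF x ^ 3 := by
  have h := simp_x2 hx
  have key : aF x ^ 3 - cF x ^ 2
      = (27 / 4) * ((x 0 - x 1) * (x 1 - x 2) * (x 0 - x 2)) ^ 2 := by
    simp only [aF, cF, aI, cI]
    rw [h]
    ring
  have : 0 ≤ (27 / 4) * ((x 0 - x 1) * (x 1 - x 2) * (x 0 - x 2)) ^ 2 := by positivity
  linarith

lemma v_eq (x0 x1 x2 : ℝ) : 27 * (x0 * x1 * x2) = 1 - 3 * aI x0 x1 x2 + 2 * cI x0 x1 x2 := by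
  simp only [aI, cI]; ring

lemma inR_of {x : Fin 3 → ℝ} (hx : x ∈ Simp 3) : InR (36 * aF x) (216 * cF x) := by
  obtain ⟨h0, h1, h2, _⟩ := simp_coord hx
  obtain ⟨ha0, ha1⟩ := aF_range hx
  have hc := c_sq_le hx
  have hv : 0 ≤ 27 * (x 0 * x 1 * x 2) := by positivity
  rw [v_eq] at hv
  refine ⟨by linarith, by linarith, ?_, ?_⟩
  · have e1 : (216 * cF x) ^ 2 = 46656 * cF x ^ 2 := by ring
    have e2 : (36 * aF x) ^ 3 = 46656 * aF x ^ 3 := by ring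
    rw [e1, e2]; linarith
  · change 0 ≤ 1 - 3 * aF x + 2 * cF x at hv
    linarith

lemma cF_abs_le {x : Fin 3 → ℝ} (hx : x ∈ Simp 3) : |cF x| ≤ 1 := by
  obtain ⟨ha0, ha1⟩ := aF_range hx
  have hc := c_sq_le hx
  have h3 : aF x ^ 3 ≤ 1 := pow_le_one₀ ha0 ha1
  have : cF x ^ 2 ≤ 1 ^ 2 := by linarith
  exact abs_le_of_sq_le_sq this (by norm_num)

/-- a continuous function of `(a, c)` is bounded on the simplex -/
lemma bdd_of_continuous (F : ℝ × ℝ → ℝ) (hF : Continuous F) :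
    SLaw.BddS (fun x : Fin 3 → ℝ => F (aF x, cF x)) := by
  have hK : IsCompact (Set.Icc (0 : ℝ) 1 ×ˢ Set.Icc (-1 : ℝ) 1) := isCompact_Icc.prod isCompact_Icc
  obtain ⟨C, hC⟩ := hK.exists_bound_of_continuousOn hF.continuousOn
  refine ⟨C, fun x hx => ?_⟩
  have hm : (aF x, cF x) ∈ Set.Icc (0 : ℝ) 1 ×ˢ Set.Icc (-1 : ℝ) 1 := by
    obtain ⟨ha0, ha1⟩ := aF_range hx
    exact ⟨⟨ha0, ha1⟩, abs_le.1 (cF_abs_le hx)⟩
  simpa [Real.norm_eq_abs] using hC _ hm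

lemma bdd_g3 : SLaw.BddS g3 :=
  bdd_of_continuous (fun p => p.2 - (3 / 4) * p.1 ^ 2) (by fun_prop)

lemma bdd_al3 : SLaw.BddS al3 :=
  bdd_of_continuous (fun p => alphaP p.1 p.2) (by unfold alphaP; fun_prop)

lemma bdd_be3 : SLaw.BddS be3 :=
  bdd_of_continuous (fun p => betaP p.1 p.2) (by unfold betaP; fun_prop)

lemma star_coord (x u : Fin 3 → ℝ) (i : Fin 3)
    (hne : x 0 * u 0 + x 1 * u 1 + x 2 * u 2 ≠ 0) :
    star 3 x u i = x i * u i / (x 0 * u 0 + x 1 * u 1 + x 2 * u 2) := by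
  unfold star
  rw [Fin.sum_univ_three, if_neg hne]

lemma dotZ_three (x u : Fin 3 → ℝ) : dotZ 3 x u = 3 * (x 0 * u 0 + x 1 * u 1 + x 2 * u 2) := by
  unfold dotZ
  rw [Fin.sum_univ_three]
  push_cast
  ring

/-- the lower bound for one term of `E_σ[Z g(y_σ)]` -/
noncomputable def Lx (x0 x1 x2 y0 y1 y2 V V' : ℝ) : ℝ :=
  (w3 x0 x1 x2 y0 y1 y2 + 1) / 4 + (1 / 2) * (V * V') * P3 (w3 x0 x1 x2 y0 y1 y2)
    - (3 / 4) * ((nu3 x0 x1 x2 y0 y1 y2) ^ 2 * U3 (w3 x0 x1 x2 y0 y1 y2)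
        + E3 (w3 x0 x1 x2 y0 y1 y2))

/-- the upper bound for one term of `E_σ[Z a(y_σ)]` -/
noncomputable def Tx (x0 x1 x2 y0 y1 y2 : ℝ) : ℝ :=
  (w3 x0 x1 x2 y0 y1 y2 + 1)
    - nu3 x0 x1 x2 y0 y1 y2 * (1 - w3 x0 x1 x2 y0 y1 y2 + (w3 x0 x1 x2 y0 y1 y2) ^ 2
        - (w3 x0 x1 x2 y0 y1 y2) ^ 3)

lemma term_fun_I {x u : Fin 3 → ℝ} (hx : x ∈ Simp 3) (hu : u ∈ Simp 3) (V' : ℝ)
    (hV' : V' = 27 * (u 0 * u 1 * u 2)) :
    Lx (x 0) (x 1) (x 2) (u 0) (u 1) (u 2) (27 * (x 0 * x 1 * x 2)) V'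
      ≤ dotZ 3 x u * g3 (star 3 x u) := by
  obtain ⟨h0, h1, h2, hs⟩ := simp_coord hx
  obtain ⟨k0, k1, k2, ks⟩ := simp_coord hu
  rw [dotZ_three]
  exact term_I (x 0) (x 1) (x 2) (u 0) (u 1) (u 2) _ V' _ _ _ h0 h1 h2 k0 k1 k2 hs ks rfl hV'
    (fun hne => star_coord x u 0 hne) (fun hne => star_coord x u 1 hne)
    (fun hne => star_coord x u 2 hne)

lemma term_fun_II {x u : Fin 3 → ℝ} (hx : x ∈ Simp 3) (hu : u ∈ Simp 3) :
    dotZ 3 x u * aFn 3 (star 3 x u) ≤ Tx (x 0) (x 1) (x 2) (u 0) (u 1) (u 2) := by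
  obtain ⟨h0, h1, h2, hs⟩ := simp_coord hx
  obtain ⟨k0, k1, k2, ks⟩ := simp_coord hu
  rw [dotZ_three, aFn_eq_aF (star_mem (by norm_num) hx hu)]
  exact term_II (x 0) (x 1) (x 2) (u 0) (u 1) (u 2) _ _ _ h0 h1 h2 k0 k1 k2
    (fun hne => star_coord x u 0 hne) (fun hne => star_coord x u 1 hne)
    (fun hne => star_coord x u 2 hne)

set_option maxHeartbeats 4000000 in
/-- averaging the lower bounds -/
theorem lin_I (x0 x1 x2 y0 y1 y2 : ℝ) (hx : x2 = 1 - x0 - x1) (hy : y2 = 1 - y0 - y1) :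
    DIpoly (aI x0 x1 x2) (cI x0 x1 x2) (aI y0 y1 y2) (cI y0 y1 y2)
      = (Lx x0 x1 x2 y0 y1 y2 (27 * (x0 * x1 * x2)) (27 * (y0 * y1 * y2))
          + Lx x0 x1 x2 y0 y2 y1 (27 * (x0 * x1 * x2)) (27 * (y0 * y1 * y2))
          + Lx x0 x1 x2 y1 y0 y2 (27 * (x0 * x1 * x2)) (27 * (y0 * y1 * y2))
          + Lx x0 x1 x2 y1 y2 y0 (27 * (x0 * x1 * x2)) (27 * (y0 * y1 * y2))
          + Lx x0 x1 x2 y2 y0 y1 (27 * (x0 * x1 * x2)) (27 * (y0 * y1 * y2))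
          + Lx x0 x1 x2 y2 y1 y0 (27 * (x0 * x1 * x2)) (27 * (y0 * y1 * y2))) / 6
        - alphaP (aI y0 y1 y2) (cI y0 y1 y2) * (cI x0 x1 x2 - (3 / 4) * (aI x0 x1 x2) ^ 2)
        - alphaP (aI x0 x1 x2) (cI x0 x1 x2) * (cI y0 y1 y2 - (3 / 4) * (aI y0 y1 y2) ^ 2) := by
  have W0 := avgW0 x0 x1 x2 y0 y1 y2 hx hy
  have W1 := avgW1 x0 x1 x2 y0 y1 y2 hx hy
  have W2 := avgW2 x0 x1 x2 y0 y1 y2 hx hy
  have W3 := avgW3 x0 x1 x2 y0 y1 y2 hx hy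
  have W4 := avgW4 x0 x1 x2 y0 y1 y2 hx hy
  have N0 := avgN0 x0 x1 x2 y0 y1 y2 hx hy
  have N1 := avgN1 x0 x1 x2 y0 y1 y2 hx hy
  have N2 := avgN2 x0 x1 x2 y0 y1 y2 hx hy
  have N3 := avgN3 x0 x1 x2 y0 y1 y2 hx hy
  have N4 := avgN4 x0 x1 x2 y0 y1 y2 hx hy
  have N5 := avgN5 x0 x1 x2 y0 y1 y2 hx hy
  have N6 := avgN6 x0 x1 x2 y0 y1 y2 hx hy
  simp only [Lx, P3, U3, E3, v_eq]
  simp only [DIpoly, alphaP]
  generalize aI x0 x1 x2 = a at *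
  generalize cI x0 x1 x2 = c at *
  generalize aI y0 y1 y2 = a₁ at *
  generalize cI y0 y1 y2 = c₁ at *
  linear_combination
    (-(1 / 4 : ℝ) - (1 / 2) * ((1 - 3 * a + 2 * c) * (1 - 3 * a₁ + 2 * c₁))) * W0
    + (-(1 / 4 : ℝ) + ((1 - 3 * a + 2 * c) * (1 - 3 * a₁ + 2 * c₁))) * W1
    + (-(27 / 20 : ℝ) * ((1 - 3 * a + 2 * c) * (1 - 3 * a₁ + 2 * c₁)) + (3 / 4) * (3 / 100) * 4) * W2
    + (((1 - 3 * a + 2 * c) * (1 - 3 * a₁ + 2 * c₁)) - (3 / 4) * (3 / 100) * 4) * W3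
    + ((3 / 4) * (3 / 100) : ℝ) * W4
    + (3 / 4 : ℝ) * (N0 + (-3) * N1 + (32 / 5) * N2 + (-151 / 10) * N3 + (333 / 10) * N4
        + (-184 / 5) * N5 + (72 / 5) * N6)

set_option maxHeartbeats 4000000 in
/-- averaging the upper bounds -/
theorem lin_II (x0 x1 x2 y0 y1 y2 : ℝ) (hx : x2 = 1 - x0 - x1) (hy : y2 = 1 - y0 - y1) :
    DIIpoly (aI x0 x1 x2) (cI x0 x1 x2) (aI y0 y1 y2) (cI y0 y1 y2)
      = aI x0 x1 x2 + aI y0 y1 y2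
        - (Tx x0 x1 x2 y0 y1 y2 + Tx x0 x1 x2 y0 y2 y1 + Tx x0 x1 x2 y1 y0 y2
            + Tx x0 x1 x2 y1 y2 y0 + Tx x0 x1 x2 y2 y0 y1 + Tx x0 x1 x2 y2 y1 y0) / 6
        - betaP (aI y0 y1 y2) (cI y0 y1 y2) * (cI x0 x1 x2 - (3 / 4) * (aI x0 x1 x2) ^ 2)
        - betaP (aI x0 x1 x2) (cI x0 x1 x2) * (cI y0 y1 y2 - (3 / 4) * (aI y0 y1 y2) ^ 2)
        - (1 / 10) * (aI x0 x1 x2 * aI y0 y1 y2) := by
  have W0 := avgW0 x0 x1 x2 y0 y1 y2 hx hy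
  have W1 := avgW1 x0 x1 x2 y0 y1 y2 hx hy
  have M0 := avgM0 x0 x1 x2 y0 y1 y2 hx hy
  have M1 := avgM1 x0 x1 x2 y0 y1 y2 hx hy
  have M2 := avgM2 x0 x1 x2 y0 y1 y2 hx hy
  have M3 := avgM3 x0 x1 x2 y0 y1 y2 hx hy
  simp only [Tx]
  simp only [DIIpoly, betaP]
  generalize aI x0 x1 x2 = a at *
  generalize cI x0 x1 x2 = c at *
  generalize aI y0 y1 y2 = a₁ at *
  generalize cI y0 y1 y2 = c₁ at *
  linear_combination W0 + W1 - M0 + M1 - M2 + M3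

lemma Esig_six (f : (Fin 3 → ℝ) → ℝ) (x y : Fin 3 → ℝ) :
    Esig 3 f x y = (dotZ 3 x (y ∘ p0) * f (star 3 x (y ∘ p0))
        + dotZ 3 x (y ∘ p1) * f (star 3 x (y ∘ p1))
        + dotZ 3 x (y ∘ p2) * f (star 3 x (y ∘ p2))
        + dotZ 3 x (y ∘ p3) * f (star 3 x (y ∘ p3))
        + dotZ 3 x (y ∘ p4) * f (star 3 x (y ∘ p4))
        + dotZ 3 x (y ∘ p5) * f (star 3 x (y ∘ p5))) / 6 := by
  unfold Esig
  rw [sum_perm3 (fun σ => dotZ 3 x (y ∘ σ) * f (star 3 x (y ∘ σ)))]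
  norm_num [Nat.factorial]

/-- **CERT I** for `q = 3` -/
theorem cert_I (x : Fin 3 → ℝ) (hx : x ∈ Simp 3) (y : Fin 3 → ℝ) (hy : y ∈ Simp 3) :
    al3 y * g3 x + al3 x * g3 y ≤ Esig 3 g3 x y := by
  have hD := DI_nonneg (aF x) (cF x) (aF y) (cF y) (inR_of hx) (inR_of hy)
  have hxx := simp_x2 hx
  have hyy := simp_x2 hy
  have hl := lin_I (x 0) (x 1) (x 2) (y 0) (y 1) (y 2) hxx hyy
  change DIpoly (aF x) (cF x) (aF y) (cF y) = _ at hl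
  rw [hl] at hD
  have e : ∀ σ : Equiv.Perm (Fin 3), 27 * (y 0 * y 1 * y 2)
      = 27 * ((y ∘ σ) 0 * (y ∘ σ) 1 * (y ∘ σ) 2) := by
    intro σ
    rcases perm3_cases σ with rfl | rfl | rfl | rfl | rfl | rfl
    · rfl
    · show _ = 27 * (y 0 * y 2 * y 1); ring
    · show _ = 27 * (y 1 * y 0 * y 2); ring
    · show _ = 27 * (y 1 * y 2 * y 0); ring
    · show _ = 27 * (y 2 * y 0 * y 1); ring
    · show _ = 27 * (y 2 * y 1 * y 0); ring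
  have t0 := term_fun_I hx (comp_mem_Simp p0 hy) _ (e p0)
  have t1 := term_fun_I hx (comp_mem_Simp p1 hy) _ (e p1)
  have t2 := term_fun_I hx (comp_mem_Simp p2 hy) _ (e p2)
  have t3 := term_fun_I hx (comp_mem_Simp p3 hy) _ (e p3)
  have t4 := term_fun_I hx (comp_mem_Simp p4 hy) _ (e p4)
  have t5 := term_fun_I hx (comp_mem_Simp p5 hy) _ (e p5)
  change Lx (x 0) (x 1) (x 2) (y 0) (y 1) (y 2) _ _ ≤ _ at t0
  change Lx (x 0) (x 1) (x 2) (y 0) (y 2) (y 1) _ _ ≤ _ at t1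
  change Lx (x 0) (x 1) (x 2) (y 1) (y 0) (y 2) _ _ ≤ _ at t2
  change Lx (x 0) (x 1) (x 2) (y 1) (y 2) (y 0) _ _ ≤ _ at t3
  change Lx (x 0) (x 1) (x 2) (y 2) (y 0) (y 1) _ _ ≤ _ at t4
  change Lx (x 0) (x 1) (x 2) (y 2) (y 1) (y 0) _ _ ≤ _ at t5
  rw [Esig_six]
  change 0 ≤ _ - al3 y * g3 x - al3 x * g3 y at hD
  linarith

/-- **CERT II** for `q = 3` -/
theorem cert_II (x : Fin 3 → ℝ) (hx : x ∈ Simp 3) (y : Fin 3 → ℝ) (hy : y ∈ Simp 3) :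
    be3 y * g3 x + be3 x * g3 y + (1 / 10) * (aFn 3 x * aFn 3 y)
        + 0 * (aFn 3 x ^ 2 * aFn 3 y + aFn 3 x * aFn 3 y ^ 2)
      ≤ aFn 3 x + aFn 3 y - Esig 3 (aFn 3) x y := by
  have hD := DII_nonneg (aF x) (cF x) (aF y) (cF y) (inR_of hx) (inR_of hy)
  have hxx := simp_x2 hx
  have hyy := simp_x2 hy
  have hl := lin_II (x 0) (x 1) (x 2) (y 0) (y 1) (y 2) hxx hyy
  change DIIpoly (aF x) (cF x) (aF y) (cF y) = _ at hl
  rw [hl] at hD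
  have t0 := term_fun_II hx (comp_mem_Simp p0 hy)
  have t1 := term_fun_II hx (comp_mem_Simp p1 hy)
  have t2 := term_fun_II hx (comp_mem_Simp p2 hy)
  have t3 := term_fun_II hx (comp_mem_Simp p3 hy)
  have t4 := term_fun_II hx (comp_mem_Simp p4 hy)
  have t5 := term_fun_II hx (comp_mem_Simp p5 hy)
  change _ ≤ Tx (x 0) (x 1) (x 2) (y 0) (y 1) (y 2) at t0
  change _ ≤ Tx (x 0) (x 1) (x 2) (y 0) (y 2) (y 1) at t1
  change _ ≤ Tx (x 0) (x 1) (x 2) (y 1) (y 0) (y 2) at t2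
  change _ ≤ Tx (x 0) (x 1) (x 2) (y 1) (y 2) (y 0) at t3
  change _ ≤ Tx (x 0) (x 1) (x 2) (y 2) (y 0) (y 1) at t4
  change _ ≤ Tx (x 0) (x 1) (x 2) (y 2) (y 1) (y 0) at t5
  rw [Esig_six, aFn_eq_aF hx, aFn_eq_aF hy]
  change 0 ≤ aF x + aF y - _ - be3 y * g3 x - be3 x * g3 y - (1 / 10) * (aF x * aF y) at hD
  linarith

/-- the coordinates of `T_lam x` -/
lemma aF_Tl (lam : ℝ) {x : Fin 3 → ℝ} (hx : x ∈ Simp 3) : aF (Tl 3 lam x) = lam ^ 2 * aF x := by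
  have h := simp_x2 hx
  simp only [aF, aI, Tl]
  rw [h]
  push_cast
  ring

lemma cF_Tl (lam : ℝ) {x : Fin 3 → ℝ} (hx : x ∈ Simp 3) : cF (Tl 3 lam x) = lam ^ 3 * cF x := by
  have h := simp_x2 hx
  simp only [cF, cI, Tl]
  rw [h]
  push_cast
  ring

/-- the class is stable under the channel for `lam ∈ [0, 1]` -/
theorem g3_Tl {lam : ℝ} (h0 : 0 ≤ lam) (h1 : lam ≤ 1) {x : Fin 3 → ℝ} (hx : x ∈ Simp 3) :
    lam ^ 3 * g3 x ≤ g3 (Tl 3 lam x) := by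
  simp only [g3, aF_Tl lam hx, cF_Tl lam hx]
  have e : lam ^ 3 * (cF x - 3 / 4 * aF x ^ 2) = lam ^ 3 * cF x - 3 / 4 * (lam ^ 3 * aF x ^ 2) := by ring
  have e2 : (lam ^ 2 * aF x) ^ 2 = lam ^ 4 * aF x ^ 2 := by ring
  rw [e, e2]
  have h4 : lam ^ 4 ≤ lam ^ 3 := pow_le_pow_of_le_one h0 h1 (by norm_num)
  have := mul_le_mul_of_nonneg_right h4 (sq_nonneg (aF x))
  linarith

lemma g3_centre : g3 (fun _ => (1 : ℝ) / (3 : ℕ)) = 0 := by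
  simp only [g3, aF, cF, aI, cI]
  norm_num

lemma g3_vertex (i : Fin 3) : 0 ≤ g3 (fun j => if j = i then 1 else 0) := by
  fin_cases i <;> simp [g3, aF, cF, aI, cI] <;> norm_num

end Q3

open Q3

/-- **`Cert 3`** -/
noncomputable def cert3 : Cert 3 where
  g := g3
  α := al3
  β := be3
  κ₂ := 1 / 10
  κ₃ := 0
  hg := bdd_g3
  hα := bdd_al3
  hβ := bdd_be3
  α_nonneg := fun x hx => alphaP_nonneg _ _ (inR_of hx)
  β_nonneg := fun x hx => betaP_nonneg _ _ (inR_of hx)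
  κ₂_nonneg := by norm_num
  κ₃_nonneg := le_rfl
  I := cert_I
  II := cert_II

/-- `S0244` on regular trees, `lam ≥ 0` -/
theorem q3_advantage_tendsto (b : ℕ) (hb : 2 ≤ b) (lam : ℝ) (h0 : 0 ≤ lam) (h1 : lam ≤ 1)
    (hbl : (b : ℝ) * lam ^ 2 ≤ 1) :
    Filter.Tendsto (advantage 3 b lam) Filter.atTop (nhds 0) :=
  cert3.advantage_tendsto (by norm_num) (by norm_num [cert3]) g3_centre.ge g3_comp g3_vertex
    (channel_nonneg (by norm_num) (Or.inl (by norm_num; linarith)) h1)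
    (pow_nonneg h0 3) (fun _ hx => g3_Tl h0 h1 hx) hb hbl

/-- `S0244` on Poisson trees, `lam ≥ 0` -/
theorem q3_gwAdvantage_tendsto (d : ℝ) (hd : 0 < d) (lam : ℝ) (h0 : 0 ≤ lam) (h1 : lam ≤ 1)
    (hdl : d * lam ^ 2 ≤ 1) :
    Filter.Tendsto (gwAdvantage 3 lam d) Filter.atTop (nhds 0) :=
  cert3.gwAdvantage_tendsto (by norm_num) (by norm_num [cert3]) g3_centre.ge g3_comp g3_vertex
    (channel_nonneg (by norm_num) (Or.inl (by norm_num; linarith)) h1)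
    (pow_nonneg h0 3) (fun _ hx => g3_Tl h0 h1 hx) hd hdl

end Crest.Agent.Lib.Bc
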