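import Crest.Agent.Lib.Bc.CloWeights
/-!
# Row 163, `q = 3`: weights of a form on the sorted moments, per-child degree ≤ 7

As `CloWeights`, with 31 sorted exponents and the seven moments `s, ρ, r, τ, A3, C2, A2C`.
-/
open scoped BigOperators
open Filter Topology
open Crest.ProbabilityR.Broadcast
namespace Crest.Agent.Lib.Bc.CloStep
open Crest.Agent.Lib.Bc

set_option linter.unusedSimpArgs false
set_option maxRecDepth 100000

def alphas7 : List (ℕ × ℕ × ℕ) :=
  [(0, 0, 0), (1, 0, 0), (2, 0, 0), (1, 1, 0), (3, 0, 0), (2, 1, 0), (1, 1, 1), (4, 0, 0), (3, 1, 0), (2, 2, 0), (2, 1, 1), (5, 0, 0), (4, 1, 0), (3, 2, 0), (3, 1, 1), (2, 2, 1), (6, 0, 0), (5, 1, 0), (4, 2, 0), (4, 1, 1), (3, 3, 0), (3, 2, 1), (2, 2, 2), (7, 0, 0), (6, 1, 0), (5, 2, 0), (5, 1, 1), (4, 3, 0), (4, 2, 1), (3, 3, 1), (3, 2, 2)]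

/-- weights of a form on the sorted exponents (degree ≤ 7) -/
def wL7 (F : Fm) : List ℚ :=
  [F.pZ.getD 0 0 * (1),
   F.pZ.getD 1 0 * (1),
   F.pZ.getD 2 0 * (1/3),
   F.pZ.getD 2 0 * (2/3) + F.pX.getD 0 0 * (1),
   F.pZ.getD 3 0 * (1/9),
   F.pZ.getD 3 0 * (2/3) + F.pX.getD 1 0 * (2/3),
   F.pZ.getD 3 0 * (2/9) + F.pX.getD 1 0 * (1/3) + F.pW.getD 0 0 * (1),
   F.pZ.getD 4 0 * (1/27),
   F.pZ.getD 4 0 * (8/27) + F.pX.getD 2 0 * (2/9),
   F.pZ.getD 4 0 * (2/9) + F.pX.getD 2 0 * (2/9) + F.pXX.getD 0 0 * (1/3),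
   F.pZ.getD 4 0 * (4/9) + F.pX.getD 2 0 * (5/9) + F.pW.getD 1 0 * (1) + F.pXX.getD 0 0 * (2/3),
   F.pZ.getD 5 0 * (1/81),
   F.pZ.getD 5 0 * (10/81) + F.pX.getD 3 0 * (2/27),
   F.pZ.getD 5 0 * (20/81) + F.pX.getD 3 0 * (2/9) + F.pXX.getD 1 0 * (2/9),
   F.pZ.getD 5 0 * (20/81) + F.pX.getD 3 0 * (7/27) + F.pW.getD 2 0 * (1/3) + F.pXX.getD 1 0 * (2/9),
   F.pZ.getD 5 0 * (10/27) + F.pX.getD 3 0 * (4/9) + F.pW.getD 2 0 * (2/3) + F.pXX.getD 1 0 * (5/9),
   F.pZ.getD 6 0 * (1/243),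
   F.pZ.getD 6 0 * (4/81) + F.pX.getD 4 0 * (2/81),
   F.pZ.getD 6 0 * (10/81) + F.pX.getD 4 0 * (8/81) + F.pXX.getD 2 0 * (2/27),
   F.pZ.getD 6 0 * (10/81) + F.pX.getD 4 0 * (1/9) + F.pW.getD 3 0 * (1/9) + F.pXX.getD 2 0 * (2/27),
   F.pZ.getD 6 0 * (20/243) + F.pX.getD 4 0 * (2/27) + F.pXX.getD 2 0 * (2/27),
   F.pZ.getD 6 0 * (40/81) + F.pX.getD 4 0 * (44/81) + F.pW.getD 3 0 * (2/3) + F.pXX.getD 2 0 * (16/27),
   F.pZ.getD 6 0 * (10/81) + F.pX.getD 4 0 * (4/27) + F.pW.getD 3 0 * (2/9) + F.pXX.getD 2 0 * (5/27),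
   F.pZ.getD 7 0 * (1/729),
   F.pZ.getD 7 0 * (14/729) + F.pX.getD 5 0 * (2/243),
   F.pZ.getD 7 0 * (14/243) + F.pX.getD 5 0 * (10/243) + F.pXX.getD 3 0 * (2/81),
   F.pZ.getD 7 0 * (14/243) + F.pX.getD 5 0 * (11/243) + F.pW.getD 4 0 * (1/27) + F.pXX.getD 3 0 * (2/81),
   F.pZ.getD 7 0 * (70/729) + F.pX.getD 5 0 * (20/243) + F.pXX.getD 3 0 * (2/27),
   F.pZ.getD 7 0 * (70/243) + F.pX.getD 5 0 * (70/243) + F.pW.getD 4 0 * (8/27) + F.pXX.getD 3 0 * (22/81),
   F.pZ.getD 7 0 * (140/729) + F.pX.getD 5 0 * (50/243) + F.pW.getD 4 0 * (2/9) + F.pXX.getD 3 0 * (2/9),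
   F.pZ.getD 7 0 * (70/243) + F.pX.getD 5 0 * (80/243) + F.pW.getD 4 0 * (4/9) + F.pXX.getD 3 0 * (31/81)]

/-- the moment table: `MM H α = 1 + k₁ momS H + k₂ momC H + k₃ momR H + k₄ momT H + ...` -/
def kL7 : List (List ℚ) :=
  [[0, 0, 0, 0, 0, 0, 0],
   [0, 0, 0, 0, 0, 0, 0],
   [2, 0, 0, 0, 0, 0, 0],
   [-1, 0, 0, 0, 0, 0, 0],
   [6, 2, 0, 0, 0, 0, 0],
   [0, -1, 0, 0, 0, 0, 0],
   [-3, 2, 0, 0, 0, 0, 0],
   [12, 8, 6, 0, 0, 0, 0],
   [3, -1, -3, 0, 0, 0, 0],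
   [0, -4, 3, 0, 0, 0, 0],
   [-3, 2, 0, 0, 0, 0, 0],
   [20, 20, 30, 10, 0, 0, 0],
   [8, 2, -6, -5, 0, 0, 0],
   [2, -7, 3, 1, 0, 0, 0],
   [-1, 2, -6, 4, 0, 0, 0],
   [-4, 2, 3, -2, 0, 0, 0],
   [30, 40, 90, 60, 18, 4, 0],
   [15, 10, 0, -15, -9, -2, 0],
   [6, -8, 0, -6, 9, -2, 0],
   [3, 4, -18, 6, 0, 4, 0],
   [3, -14, 9, 6, -9, 4, 0],
   [-3, 1, 0, 3, 0, -2, 0],
   [-6, 4, 9, -12, 0, 4, 0],
   [42, 70, 210, 210, 126, 28, 42],
   [24, 25, 30, -15, -36, -8, -21],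
   [12, -5, 0, -30, 27, -14, 9],
   [9, 10, -30, 0, -18, 16, 12],
   [6, -20, 12, 3, -9, 10, -3],
   [0, 1, -12, 9, 9, -2, -6],
   [-3, -2, 3, 12, -9, -8, 6],
   [-6, 4, 9, -12, 0, 4, 0]]

section sym7
variable {G : ℕ → ℕ → ℕ → ℝ} (h01 : ∀ a b c, G a b c = G b a c) (h12 : ∀ a b c, G a b c = G a c b)
include h01 h12

private lemma pZ07 (p : List ℚ) (hp : p.length ≤ 8) : evT G p 0 0 0 =
    ((p.getD 0 0 : ℚ) : ℝ) * ((1) * G 0 0 0) +
    ((p.getD 1 0 : ℚ) : ℝ) * ((1) * G 1 0 0) +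
    ((p.getD 2 0 : ℚ) : ℝ) * ((2/3) * G 1 1 0 + (1/3) * G 2 0 0) +
    ((p.getD 3 0 : ℚ) : ℝ) * ((2/9) * G 1 1 1 + (2/3) * G 2 1 0 + (1/9) * G 3 0 0) +
    ((p.getD 4 0 : ℚ) : ℝ) * ((4/9) * G 2 1 1 + (2/9) * G 2 2 0 + (8/27) * G 3 1 0 + (1/27) * G 4 0 0) +
    ((p.getD 5 0 : ℚ) : ℝ) * ((10/27) * G 2 2 1 + (20/81) * G 3 1 1 + (20/81) * G 3 2 0 + (10/81) * G 4 1 0 + (1/81) * G 5 0 0) +
    ((p.getD 6 0 : ℚ) : ℝ) * ((10/81) * G 2 2 2 + (40/81) * G 3 2 1 + (20/243) * G 3 3 0 + (10/81) * G 4 1 1 + (10/81) * G 4 2 0 + (4/81) * G 5 1 0 + (1/243) * G 6 0 0) +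
    ((p.getD 7 0 : ℚ) : ℝ) * ((70/243) * G 3 2 2 + (140/729) * G 3 3 1 + (70/243) * G 4 2 1 + (70/729) * G 4 3 0 + (14/243) * G 5 1 1 + (14/243) * G 5 2 0 + (14/729) * G 6 1 0 + (1/729) * G 7 0 0) := by
  have e001 : G 0 0 1 = G 1 0 0 := (h12 0 0 1).trans (h01 0 1 0)
  have e010 : G 0 1 0 = G 1 0 0 := h01 0 1 0
  have e002 : G 0 0 2 = G 2 0 0 := (h12 0 0 2).trans (h01 0 2 0)
  have e011 : G 0 1 1 = G 1 1 0 := (h01 0 1 1).trans (h12 1 0 1)
  have e020 : G 0 2 0 = G 2 0 0 := h01 0 2 0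
  have e101 : G 1 0 1 = G 1 1 0 := h12 1 0 1
  have e003 : G 0 0 3 = G 3 0 0 := (h12 0 0 3).trans (h01 0 3 0)
  have e012 : G 0 1 2 = G 2 1 0 := ((h01 0 1 2).trans (h12 1 0 2)).trans (h01 1 2 0)
  have e021 : G 0 2 1 = G 2 1 0 := (h01 0 2 1).trans (h12 2 0 1)
  have e030 : G 0 3 0 = G 3 0 0 := h01 0 3 0
  have e102 : G 1 0 2 = G 2 1 0 := (h12 1 0 2).trans (h01 1 2 0)
  have e120 : G 1 2 0 = G 2 1 0 := h01 1 2 0
  have e201 : G 2 0 1 = G 2 1 0 := h12 2 0 1
  have e004 : G 0 0 4 = G 4 0 0 := (h12 0 0 4).trans (h01 0 4 0)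
  have e013 : G 0 1 3 = G 3 1 0 := ((h01 0 1 3).trans (h12 1 0 3)).trans (h01 1 3 0)
  have e022 : G 0 2 2 = G 2 2 0 := (h01 0 2 2).trans (h12 2 0 2)
  have e031 : G 0 3 1 = G 3 1 0 := (h01 0 3 1).trans (h12 3 0 1)
  have e040 : G 0 4 0 = G 4 0 0 := h01 0 4 0
  have e103 : G 1 0 3 = G 3 1 0 := (h12 1 0 3).trans (h01 1 3 0)
  have e112 : G 1 1 2 = G 2 1 1 := (h12 1 1 2).trans (h01 1 2 1)
  have e121 : G 1 2 1 = G 2 1 1 := h01 1 2 1
  have e130 : G 1 3 0 = G 3 1 0 := h01 1 3 0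
  have e202 : G 2 0 2 = G 2 2 0 := h12 2 0 2
  have e301 : G 3 0 1 = G 3 1 0 := h12 3 0 1
  have e005 : G 0 0 5 = G 5 0 0 := (h12 0 0 5).trans (h01 0 5 0)
  have e014 : G 0 1 4 = G 4 1 0 := ((h01 0 1 4).trans (h12 1 0 4)).trans (h01 1 4 0)
  have e023 : G 0 2 3 = G 3 2 0 := ((h01 0 2 3).trans (h12 2 0 3)).trans (h01 2 3 0)
  have e032 : G 0 3 2 = G 3 2 0 := (h01 0 3 2).trans (h12 3 0 2)
  have e041 : G 0 4 1 = G 4 1 0 := (h01 0 4 1).trans (h12 4 0 1)
  have e050 : G 0 5 0 = G 5 0 0 := h01 0 5 0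
  have e104 : G 1 0 4 = G 4 1 0 := (h12 1 0 4).trans (h01 1 4 0)
  have e113 : G 1 1 3 = G 3 1 1 := (h12 1 1 3).trans (h01 1 3 1)
  have e122 : G 1 2 2 = G 2 2 1 := (h01 1 2 2).trans (h12 2 1 2)
  have e131 : G 1 3 1 = G 3 1 1 := h01 1 3 1
  have e140 : G 1 4 0 = G 4 1 0 := h01 1 4 0
  have e203 : G 2 0 3 = G 3 2 0 := (h12 2 0 3).trans (h01 2 3 0)
  have e212 : G 2 1 2 = G 2 2 1 := h12 2 1 2
  have e230 : G 2 3 0 = G 3 2 0 := h01 2 3 0
  have e302 : G 3 0 2 = G 3 2 0 := h12 3 0 2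
  have e401 : G 4 0 1 = G 4 1 0 := h12 4 0 1
  have e006 : G 0 0 6 = G 6 0 0 := (h12 0 0 6).trans (h01 0 6 0)
  have e015 : G 0 1 5 = G 5 1 0 := ((h01 0 1 5).trans (h12 1 0 5)).trans (h01 1 5 0)
  have e024 : G 0 2 4 = G 4 2 0 := ((h01 0 2 4).trans (h12 2 0 4)).trans (h01 2 4 0)
  have e033 : G 0 3 3 = G 3 3 0 := (h01 0 3 3).trans (h12 3 0 3)
  have e042 : G 0 4 2 = G 4 2 0 := (h01 0 4 2).trans (h12 4 0 2)
  have e051 : G 0 5 1 = G 5 1 0 := (h01 0 5 1).trans (h12 5 0 1)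
  have e060 : G 0 6 0 = G 6 0 0 := h01 0 6 0
  have e105 : G 1 0 5 = G 5 1 0 := (h12 1 0 5).trans (h01 1 5 0)
  have e114 : G 1 1 4 = G 4 1 1 := (h12 1 1 4).trans (h01 1 4 1)
  have e123 : G 1 2 3 = G 3 2 1 := ((h01 1 2 3).trans (h12 2 1 3)).trans (h01 2 3 1)
  have e132 : G 1 3 2 = G 3 2 1 := (h01 1 3 2).trans (h12 3 1 2)
  have e141 : G 1 4 1 = G 4 1 1 := h01 1 4 1
  have e150 : G 1 5 0 = G 5 1 0 := h01 1 5 0
  have e204 : G 2 0 4 = G 4 2 0 := (h12 2 0 4).trans (h01 2 4 0)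
  have e213 : G 2 1 3 = G 3 2 1 := (h12 2 1 3).trans (h01 2 3 1)
  have e231 : G 2 3 1 = G 3 2 1 := h01 2 3 1
  have e240 : G 2 4 0 = G 4 2 0 := h01 2 4 0
  have e303 : G 3 0 3 = G 3 3 0 := h12 3 0 3
  have e312 : G 3 1 2 = G 3 2 1 := h12 3 1 2
  have e402 : G 4 0 2 = G 4 2 0 := h12 4 0 2
  have e501 : G 5 0 1 = G 5 1 0 := h12 5 0 1
  have e007 : G 0 0 7 = G 7 0 0 := (h12 0 0 7).trans (h01 0 7 0)
  have e016 : G 0 1 6 = G 6 1 0 := ((h01 0 1 6).trans (h12 1 0 6)).trans (h01 1 6 0)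
  have e025 : G 0 2 5 = G 5 2 0 := ((h01 0 2 5).trans (h12 2 0 5)).trans (h01 2 5 0)
  have e034 : G 0 3 4 = G 4 3 0 := ((h01 0 3 4).trans (h12 3 0 4)).trans (h01 3 4 0)
  have e043 : G 0 4 3 = G 4 3 0 := (h01 0 4 3).trans (h12 4 0 3)
  have e052 : G 0 5 2 = G 5 2 0 := (h01 0 5 2).trans (h12 5 0 2)
  have e061 : G 0 6 1 = G 6 1 0 := (h01 0 6 1).trans (h12 6 0 1)
  have e070 : G 0 7 0 = G 7 0 0 := h01 0 7 0
  have e106 : G 1 0 6 = G 6 1 0 := (h12 1 0 6).trans (h01 1 6 0)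
  have e115 : G 1 1 5 = G 5 1 1 := (h12 1 1 5).trans (h01 1 5 1)
  have e124 : G 1 2 4 = G 4 2 1 := ((h01 1 2 4).trans (h12 2 1 4)).trans (h01 2 4 1)
  have e133 : G 1 3 3 = G 3 3 1 := (h01 1 3 3).trans (h12 3 1 3)
  have e142 : G 1 4 2 = G 4 2 1 := (h01 1 4 2).trans (h12 4 1 2)
  have e151 : G 1 5 1 = G 5 1 1 := h01 1 5 1
  have e160 : G 1 6 0 = G 6 1 0 := h01 1 6 0
  have e205 : G 2 0 5 = G 5 2 0 := (h12 2 0 5).trans (h01 2 5 0)
  have e214 : G 2 1 4 = G 4 2 1 := (h12 2 1 4).trans (h01 2 4 1)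
  have e223 : G 2 2 3 = G 3 2 2 := (h12 2 2 3).trans (h01 2 3 2)
  have e232 : G 2 3 2 = G 3 2 2 := h01 2 3 2
  have e241 : G 2 4 1 = G 4 2 1 := h01 2 4 1
  have e250 : G 2 5 0 = G 5 2 0 := h01 2 5 0
  have e304 : G 3 0 4 = G 4 3 0 := (h12 3 0 4).trans (h01 3 4 0)
  have e313 : G 3 1 3 = G 3 3 1 := h12 3 1 3
  have e340 : G 3 4 0 = G 4 3 0 := h01 3 4 0
  have e403 : G 4 0 3 = G 4 3 0 := h12 4 0 3
  have e412 : G 4 1 2 = G 4 2 1 := h12 4 1 2
  have e502 : G 5 0 2 = G 5 2 0 := h12 5 0 2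
  have e601 : G 6 0 1 = G 6 1 0 := h12 6 0 1
  match p, hp with
  | [], _ =>
    simp only [evT, Nat.reduceAdd, zero_add, List.getD_cons_zero, List.getD_cons_succ, List.getD_nil, Rat.cast_zero, e001, e010, e002, e011, e020, e101, e003, e012, e021, e030, e102, e120, e201, e004, e013, e022, e031, e040, e103, e112, e121, e130, e202, e301, e005, e014, e023, e032, e041, e050, e104, e113, e122, e131, e140, e203, e212, e230, e302, e401, e006, e015, e024, e033, e042, e051, e060, e105, e114, e123, e132, e141, e150, e204, e213, e231, e240, e303, e312, e402, e501, e007, e016, e025, e034, e043, e052, e061, e070, e106, e115, e124, e133, e142, e151, e160, e205, e214, e223, e232, e241, e250, e304, e313, e340, e403, e412, e502, e601]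
    ring
  | [a0], _ =>
    simp only [evT, Nat.reduceAdd, zero_add, List.getD_cons_zero, List.getD_cons_succ, List.getD_nil, Rat.cast_zero, e001, e010, e002, e011, e020, e101, e003, e012, e021, e030, e102, e120, e201, e004, e013, e022, e031, e040, e103, e112, e121, e130, e202, e301, e005, e014, e023, e032, e041, e050, e104, e113, e122, e131, e140, e203, e212, e230, e302, e401, e006, e015, e024, e033, e042, e051, e060, e105, e114, e123, e132, e141, e150, e204, e213, e231, e240, e303, e312, e402, e501, e007, e016, e025, e034, e043, e052, e061, e070, e106, e115, e124, e133, e142, e151, e160, e205, e214, e223, e232, e241, e250, e304, e313, e340, e403, e412, e502, e601]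
    ring
  | [a0, a1], _ =>
    simp only [evT, Nat.reduceAdd, zero_add, List.getD_cons_zero, List.getD_cons_succ, List.getD_nil, Rat.cast_zero, e001, e010, e002, e011, e020, e101, e003, e012, e021, e030, e102, e120, e201, e004, e013, e022, e031, e040, e103, e112, e121, e130, e202, e301, e005, e014, e023, e032, e041, e050, e104, e113, e122, e131, e140, e203, e212, e230, e302, e401, e006, e015, e024, e033, e042, e051, e060, e105, e114, e123, e132, e141, e150, e204, e213, e231, e240, e303, e312, e402, e501, e007, e016, e025, e034, e043, e052, e061, e070, e106, e115, e124, e133, e142, e151, e160, e205, e214, e223, e232, e241, e250, e304, e313, e340, e403, e412, e502, e601]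
    ring
  | [a0, a1, a2], _ =>
    simp only [evT, Nat.reduceAdd, zero_add, List.getD_cons_zero, List.getD_cons_succ, List.getD_nil, Rat.cast_zero, e001, e010, e002, e011, e020, e101, e003, e012, e021, e030, e102, e120, e201, e004, e013, e022, e031, e040, e103, e112, e121, e130, e202, e301, e005, e014, e023, e032, e041, e050, e104, e113, e122, e131, e140, e203, e212, e230, e302, e401, e006, e015, e024, e033, e042, e051, e060, e105, e114, e123, e132, e141, e150, e204, e213, e231, e240, e303, e312, e402, e501, e007, e016, e025, e034, e043, e052, e061, e070, e106, e115, e124, e133, e142, e151, e160, e205, e214, e223, e232, e241, e250, e304, e313, e340, e403, e412, e502, e601]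
    ring
  | [a0, a1, a2, a3], _ =>
    simp only [evT, Nat.reduceAdd, zero_add, List.getD_cons_zero, List.getD_cons_succ, List.getD_nil, Rat.cast_zero, e001, e010, e002, e011, e020, e101, e003, e012, e021, e030, e102, e120, e201, e004, e013, e022, e031, e040, e103, e112, e121, e130, e202, e301, e005, e014, e023, e032, e041, e050, e104, e113, e122, e131, e140, e203, e212, e230, e302, e401, e006, e015, e024, e033, e042, e051, e060, e105, e114, e123, e132, e141, e150, e204, e213, e231, e240, e303, e312, e402, e501, e007, e016, e025, e034, e043, e052, e061, e070, e106, e115, e124, e133, e142, e151, e160, e205, e214, e223, e232, e241, e250, e304, e313, e340, e403, e412, e502, e601]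
    ring
  | [a0, a1, a2, a3, a4], _ =>
    simp only [evT, Nat.reduceAdd, zero_add, List.getD_cons_zero, List.getD_cons_succ, List.getD_nil, Rat.cast_zero, e001, e010, e002, e011, e020, e101, e003, e012, e021, e030, e102, e120, e201, e004, e013, e022, e031, e040, e103, e112, e121, e130, e202, e301, e005, e014, e023, e032, e041, e050, e104, e113, e122, e131, e140, e203, e212, e230, e302, e401, e006, e015, e024, e033, e042, e051, e060, e105, e114, e123, e132, e141, e150, e204, e213, e231, e240, e303, e312, e402, e501, e007, e016, e025, e034, e043, e052, e061, e070, e106, e115, e124, e133, e142, e151, e160, e205, e214, e223, e232, e241, e250, e304, e313, e340, e403, e412, e502, e601]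
    ring
  | [a0, a1, a2, a3, a4, a5], _ =>
    simp only [evT, Nat.reduceAdd, zero_add, List.getD_cons_zero, List.getD_cons_succ, List.getD_nil, Rat.cast_zero, e001, e010, e002, e011, e020, e101, e003, e012, e021, e030, e102, e120, e201, e004, e013, e022, e031, e040, e103, e112, e121, e130, e202, e301, e005, e014, e023, e032, e041, e050, e104, e113, e122, e131, e140, e203, e212, e230, e302, e401, e006, e015, e024, e033, e042, e051, e060, e105, e114, e123, e132, e141, e150, e204, e213, e231, e240, e303, e312, e402, e501, e007, e016, e025, e034, e043, e052, e061, e070, e106, e115, e124, e133, e142, e151, e160, e205, e214, e223, e232, e241, e250, e304, e313, e340, e403, e412, e502, e601]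
    ring
  | [a0, a1, a2, a3, a4, a5, a6], _ =>
    simp only [evT, Nat.reduceAdd, zero_add, List.getD_cons_zero, List.getD_cons_succ, List.getD_nil, Rat.cast_zero, e001, e010, e002, e011, e020, e101, e003, e012, e021, e030, e102, e120, e201, e004, e013, e022, e031, e040, e103, e112, e121, e130, e202, e301, e005, e014, e023, e032, e041, e050, e104, e113, e122, e131, e140, e203, e212, e230, e302, e401, e006, e015, e024, e033, e042, e051, e060, e105, e114, e123, e132, e141, e150, e204, e213, e231, e240, e303, e312, e402, e501, e007, e016, e025, e034, e043, e052, e061, e070, e106, e115, e124, e133, e142, e151, e160, e205, e214, e223, e232, e241, e250, e304, e313, e340, e403, e412, e502, e601]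
    ring
  | [a0, a1, a2, a3, a4, a5, a6, a7], _ =>
    simp only [evT, Nat.reduceAdd, zero_add, List.getD_cons_zero, List.getD_cons_succ, List.getD_nil, Rat.cast_zero, e001, e010, e002, e011, e020, e101, e003, e012, e021, e030, e102, e120, e201, e004, e013, e022, e031, e040, e103, e112, e121, e130, e202, e301, e005, e014, e023, e032, e041, e050, e104, e113, e122, e131, e140, e203, e212, e230, e302, e401, e006, e015, e024, e033, e042, e051, e060, e105, e114, e123, e132, e141, e150, e204, e213, e231, e240, e303, e312, e402, e501, e007, e016, e025, e034, e043, e052, e061, e070, e106, e115, e124, e133, e142, e151, e160, e205, e214, e223, e232, e241, e250, e304, e313, e340, e403, e412, e502, e601]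
    ring
  | _ :: _ :: _ :: _ :: _ :: _ :: _ :: _ :: _ :: _, h =>
    simp only [List.length_cons] at h
    omega

private lemma pX1107 (p : List ℚ) (hp : p.length ≤ 6) : evT G p 1 1 0 =
    ((p.getD 0 0 : ℚ) : ℝ) * ((1) * G 1 1 0) +
    ((p.getD 1 0 : ℚ) : ℝ) * ((1/3) * G 1 1 1 + (2/3) * G 2 1 0) +
    ((p.getD 2 0 : ℚ) : ℝ) * ((5/9) * G 2 1 1 + (2/9) * G 2 2 0 + (2/9) * G 3 1 0) +
    ((p.getD 3 0 : ℚ) : ℝ) * ((4/9) * G 2 2 1 + (7/27) * G 3 1 1 + (2/9) * G 3 2 0 + (2/27) * G 4 1 0) +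
    ((p.getD 4 0 : ℚ) : ℝ) * ((4/27) * G 2 2 2 + (44/81) * G 3 2 1 + (2/27) * G 3 3 0 + (1/9) * G 4 1 1 + (8/81) * G 4 2 0 + (2/81) * G 5 1 0) +
    ((p.getD 5 0 : ℚ) : ℝ) * ((80/243) * G 3 2 2 + (50/243) * G 3 3 1 + (70/243) * G 4 2 1 + (20/243) * G 4 3 0 + (11/243) * G 5 1 1 + (10/243) * G 5 2 0 + (2/243) * G 6 1 0) := by
  have e120 : G 1 2 0 = G 2 1 0 := h01 1 2 0
  have e112 : G 1 1 2 = G 2 1 1 := (h12 1 1 2).trans (h01 1 2 1)
  have e121 : G 1 2 1 = G 2 1 1 := h01 1 2 1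
  have e130 : G 1 3 0 = G 3 1 0 := h01 1 3 0
  have e113 : G 1 1 3 = G 3 1 1 := (h12 1 1 3).trans (h01 1 3 1)
  have e122 : G 1 2 2 = G 2 2 1 := (h01 1 2 2).trans (h12 2 1 2)
  have e131 : G 1 3 1 = G 3 1 1 := h01 1 3 1
  have e140 : G 1 4 0 = G 4 1 0 := h01 1 4 0
  have e212 : G 2 1 2 = G 2 2 1 := h12 2 1 2
  have e230 : G 2 3 0 = G 3 2 0 := h01 2 3 0
  have e114 : G 1 1 4 = G 4 1 1 := (h12 1 1 4).trans (h01 1 4 1)
  have e123 : G 1 2 3 = G 3 2 1 := ((h01 1 2 3).trans (h12 2 1 3)).trans (h01 2 3 1)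
  have e132 : G 1 3 2 = G 3 2 1 := (h01 1 3 2).trans (h12 3 1 2)
  have e141 : G 1 4 1 = G 4 1 1 := h01 1 4 1
  have e150 : G 1 5 0 = G 5 1 0 := h01 1 5 0
  have e213 : G 2 1 3 = G 3 2 1 := (h12 2 1 3).trans (h01 2 3 1)
  have e231 : G 2 3 1 = G 3 2 1 := h01 2 3 1
  have e240 : G 2 4 0 = G 4 2 0 := h01 2 4 0
  have e312 : G 3 1 2 = G 3 2 1 := h12 3 1 2
  have e115 : G 1 1 5 = G 5 1 1 := (h12 1 1 5).trans (h01 1 5 1)
  have e124 : G 1 2 4 = G 4 2 1 := ((h01 1 2 4).trans (h12 2 1 4)).trans (h01 2 4 1)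
  have e133 : G 1 3 3 = G 3 3 1 := (h01 1 3 3).trans (h12 3 1 3)
  have e142 : G 1 4 2 = G 4 2 1 := (h01 1 4 2).trans (h12 4 1 2)
  have e151 : G 1 5 1 = G 5 1 1 := h01 1 5 1
  have e160 : G 1 6 0 = G 6 1 0 := h01 1 6 0
  have e214 : G 2 1 4 = G 4 2 1 := (h12 2 1 4).trans (h01 2 4 1)
  have e223 : G 2 2 3 = G 3 2 2 := (h12 2 2 3).trans (h01 2 3 2)
  have e232 : G 2 3 2 = G 3 2 2 := h01 2 3 2
  have e241 : G 2 4 1 = G 4 2 1 := h01 2 4 1
  have e250 : G 2 5 0 = G 5 2 0 := h01 2 5 0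
  have e313 : G 3 1 3 = G 3 3 1 := h12 3 1 3
  have e340 : G 3 4 0 = G 4 3 0 := h01 3 4 0
  have e412 : G 4 1 2 = G 4 2 1 := h12 4 1 2
  match p, hp with
  | [], _ =>
    simp only [evT, Nat.reduceAdd, zero_add, List.getD_cons_zero, List.getD_cons_succ, List.getD_nil, Rat.cast_zero, e120, e112, e121, e130, e113, e122, e131, e140, e212, e230, e114, e123, e132, e141, e150, e213, e231, e240, e312, e115, e124, e133, e142, e151, e160, e214, e223, e232, e241, e250, e313, e340, e412]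
    ring
  | [a0], _ =>
    simp only [evT, Nat.reduceAdd, zero_add, List.getD_cons_zero, List.getD_cons_succ, List.getD_nil, Rat.cast_zero, e120, e112, e121, e130, e113, e122, e131, e140, e212, e230, e114, e123, e132, e141, e150, e213, e231, e240, e312, e115, e124, e133, e142, e151, e160, e214, e223, e232, e241, e250, e313, e340, e412]
    ring
  | [a0, a1], _ =>
    simp only [evT, Nat.reduceAdd, zero_add, List.getD_cons_zero, List.getD_cons_succ, List.getD_nil, Rat.cast_zero, e120, e112, e121, e130, e113, e122, e131, e140, e212, e230, e114, e123, e132, e141, e150, e213, e231, e240, e312, e115, e124, e133, e142, e151, e160, e214, e223, e232, e241, e250, e313, e340, e412]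
    ring
  | [a0, a1, a2], _ =>
    simp only [evT, Nat.reduceAdd, zero_add, List.getD_cons_zero, List.getD_cons_succ, List.getD_nil, Rat.cast_zero, e120, e112, e121, e130, e113, e122, e131, e140, e212, e230, e114, e123, e132, e141, e150, e213, e231, e240, e312, e115, e124, e133, e142, e151, e160, e214, e223, e232, e241, e250, e313, e340, e412]
    ring
  | [a0, a1, a2, a3], _ =>
    simp only [evT, Nat.reduceAdd, zero_add, List.getD_cons_zero, List.getD_cons_succ, List.getD_nil, Rat.cast_zero, e120, e112, e121, e130, e113, e122, e131, e140, e212, e230, e114, e123, e132, e141, e150, e213, e231, e240, e312, e115, e124, e133, e142, e151, e160, e214, e223, e232, e241, e250, e313, e340, e412]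
    ring
  | [a0, a1, a2, a3, a4], _ =>
    simp only [evT, Nat.reduceAdd, zero_add, List.getD_cons_zero, List.getD_cons_succ, List.getD_nil, Rat.cast_zero, e120, e112, e121, e130, e113, e122, e131, e140, e212, e230, e114, e123, e132, e141, e150, e213, e231, e240, e312, e115, e124, e133, e142, e151, e160, e214, e223, e232, e241, e250, e313, e340, e412]
    ring
  | [a0, a1, a2, a3, a4, a5], _ =>
    simp only [evT, Nat.reduceAdd, zero_add, List.getD_cons_zero, List.getD_cons_succ, List.getD_nil, Rat.cast_zero, e120, e112, e121, e130, e113, e122, e131, e140, e212, e230, e114, e123, e132, e141, e150, e213, e231, e240, e312, e115, e124, e133, e142, e151, e160, e214, e223, e232, e241, e250, e313, e340, e412]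
    ring
  | _ :: _ :: _ :: _ :: _ :: _ :: _ :: _, h =>
    simp only [List.length_cons] at h
    omega

private lemma pX1017 (p : List ℚ) (hp : p.length ≤ 6) : evT G p 1 0 1 =
    ((p.getD 0 0 : ℚ) : ℝ) * ((1) * G 1 1 0) +
    ((p.getD 1 0 : ℚ) : ℝ) * ((1/3) * G 1 1 1 + (2/3) * G 2 1 0) +
    ((p.getD 2 0 : ℚ) : ℝ) * ((5/9) * G 2 1 1 + (2/9) * G 2 2 0 + (2/9) * G 3 1 0) +
    ((p.getD 3 0 : ℚ) : ℝ) * ((4/9) * G 2 2 1 + (7/27) * G 3 1 1 + (2/9) * G 3 2 0 + (2/27) * G 4 1 0) +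
    ((p.getD 4 0 : ℚ) : ℝ) * ((4/27) * G 2 2 2 + (44/81) * G 3 2 1 + (2/27) * G 3 3 0 + (1/9) * G 4 1 1 + (8/81) * G 4 2 0 + (2/81) * G 5 1 0) +
    ((p.getD 5 0 : ℚ) : ℝ) * ((80/243) * G 3 2 2 + (50/243) * G 3 3 1 + (70/243) * G 4 2 1 + (20/243) * G 4 3 0 + (11/243) * G 5 1 1 + (10/243) * G 5 2 0 + (2/243) * G 6 1 0) := by
  have e101 : G 1 0 1 = G 1 1 0 := h12 1 0 1
  have e102 : G 1 0 2 = G 2 1 0 := (h12 1 0 2).trans (h01 1 2 0)
  have e201 : G 2 0 1 = G 2 1 0 := h12 2 0 1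
  have e103 : G 1 0 3 = G 3 1 0 := (h12 1 0 3).trans (h01 1 3 0)
  have e112 : G 1 1 2 = G 2 1 1 := (h12 1 1 2).trans (h01 1 2 1)
  have e121 : G 1 2 1 = G 2 1 1 := h01 1 2 1
  have e202 : G 2 0 2 = G 2 2 0 := h12 2 0 2
  have e301 : G 3 0 1 = G 3 1 0 := h12 3 0 1
  have e104 : G 1 0 4 = G 4 1 0 := (h12 1 0 4).trans (h01 1 4 0)
  have e113 : G 1 1 3 = G 3 1 1 := (h12 1 1 3).trans (h01 1 3 1)
  have e122 : G 1 2 2 = G 2 2 1 := (h01 1 2 2).trans (h12 2 1 2)
  have e131 : G 1 3 1 = G 3 1 1 := h01 1 3 1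
  have e203 : G 2 0 3 = G 3 2 0 := (h12 2 0 3).trans (h01 2 3 0)
  have e212 : G 2 1 2 = G 2 2 1 := h12 2 1 2
  have e302 : G 3 0 2 = G 3 2 0 := h12 3 0 2
  have e401 : G 4 0 1 = G 4 1 0 := h12 4 0 1
  have e105 : G 1 0 5 = G 5 1 0 := (h12 1 0 5).trans (h01 1 5 0)
  have e114 : G 1 1 4 = G 4 1 1 := (h12 1 1 4).trans (h01 1 4 1)
  have e123 : G 1 2 3 = G 3 2 1 := ((h01 1 2 3).trans (h12 2 1 3)).trans (h01 2 3 1)
  have e132 : G 1 3 2 = G 3 2 1 := (h01 1 3 2).trans (h12 3 1 2)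
  have e141 : G 1 4 1 = G 4 1 1 := h01 1 4 1
  have e204 : G 2 0 4 = G 4 2 0 := (h12 2 0 4).trans (h01 2 4 0)
  have e213 : G 2 1 3 = G 3 2 1 := (h12 2 1 3).trans (h01 2 3 1)
  have e231 : G 2 3 1 = G 3 2 1 := h01 2 3 1
  have e303 : G 3 0 3 = G 3 3 0 := h12 3 0 3
  have e312 : G 3 1 2 = G 3 2 1 := h12 3 1 2
  have e402 : G 4 0 2 = G 4 2 0 := h12 4 0 2
  have e501 : G 5 0 1 = G 5 1 0 := h12 5 0 1
  have e106 : G 1 0 6 = G 6 1 0 := (h12 1 0 6).trans (h01 1 6 0)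
  have e115 : G 1 1 5 = G 5 1 1 := (h12 1 1 5).trans (h01 1 5 1)
  have e124 : G 1 2 4 = G 4 2 1 := ((h01 1 2 4).trans (h12 2 1 4)).trans (h01 2 4 1)
  have e133 : G 1 3 3 = G 3 3 1 := (h01 1 3 3).trans (h12 3 1 3)
  have e142 : G 1 4 2 = G 4 2 1 := (h01 1 4 2).trans (h12 4 1 2)
  have e151 : G 1 5 1 = G 5 1 1 := h01 1 5 1
  have e205 : G 2 0 5 = G 5 2 0 := (h12 2 0 5).trans (h01 2 5 0)
  have e214 : G 2 1 4 = G 4 2 1 := (h12 2 1 4).trans (h01 2 4 1)
  have e223 : G 2 2 3 = G 3 2 2 := (h12 2 2 3).trans (h01 2 3 2)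
  have e232 : G 2 3 2 = G 3 2 2 := h01 2 3 2
  have e241 : G 2 4 1 = G 4 2 1 := h01 2 4 1
  have e304 : G 3 0 4 = G 4 3 0 := (h12 3 0 4).trans (h01 3 4 0)
  have e313 : G 3 1 3 = G 3 3 1 := h12 3 1 3
  have e403 : G 4 0 3 = G 4 3 0 := h12 4 0 3
  have e412 : G 4 1 2 = G 4 2 1 := h12 4 1 2
  have e502 : G 5 0 2 = G 5 2 0 := h12 5 0 2
  have e601 : G 6 0 1 = G 6 1 0 := h12 6 0 1
  match p, hp with
  | [], _ =>
    simp only [evT, Nat.reduceAdd, zero_add, List.getD_cons_zero, List.getD_cons_succ, List.getD_nil, Rat.cast_zero, e101, e102, e201, e103, e112, e121, e202, e301, e104, e113, e122, e131, e203, e212, e302, e401, e105, e114, e123, e132, e141, e204, e213, e231, e303, e312, e402, e501, e106, e115, e124, e133, e142, e151, e205, e214, e223, e232, e241, e304, e313, e403, e412, e502, e601]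
    ring
  | [a0], _ =>
    simp only [evT, Nat.reduceAdd, zero_add, List.getD_cons_zero, List.getD_cons_succ, List.getD_nil, Rat.cast_zero, e101, e102, e201, e103, e112, e121, e202, e301, e104, e113, e122, e131, e203, e212, e302, e401, e105, e114, e123, e132, e141, e204, e213, e231, e303, e312, e402, e501, e106, e115, e124, e133, e142, e151, e205, e214, e223, e232, e241, e304, e313, e403, e412, e502, e601]
    ring
  | [a0, a1], _ =>
    simp only [evT, Nat.reduceAdd, zero_add, List.getD_cons_zero, List.getD_cons_succ, List.getD_nil, Rat.cast_zero, e101, e102, e201, e103, e112, e121, e202, e301, e104, e113, e122, e131, e203, e212, e302, e401, e105, e114, e123, e132, e141, e204, e213, e231, e303, e312, e402, e501, e106, e115, e124, e133, e142, e151, e205, e214, e223, e232, e241, e304, e313, e403, e412, e502, e601]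
    ring
  | [a0, a1, a2], _ =>
    simp only [evT, Nat.reduceAdd, zero_add, List.getD_cons_zero, List.getD_cons_succ, List.getD_nil, Rat.cast_zero, e101, e102, e201, e103, e112, e121, e202, e301, e104, e113, e122, e131, e203, e212, e302, e401, e105, e114, e123, e132, e141, e204, e213, e231, e303, e312, e402, e501, e106, e115, e124, e133, e142, e151, e205, e214, e223, e232, e241, e304, e313, e403, e412, e502, e601]
    ring
  | [a0, a1, a2, a3], _ =>
    simp only [evT, Nat.reduceAdd, zero_add, List.getD_cons_zero, List.getD_cons_succ, List.getD_nil, Rat.cast_zero, e101, e102, e201, e103, e112, e121, e202, e301, e104, e113, e122, e131, e203, e212, e302, e401, e105, e114, e123, e132, e141, e204, e213, e231, e303, e312, e402, e501, e106, e115, e124, e133, e142, e151, e205, e214, e223, e232, e241, e304, e313, e403, e412, e502, e601]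
    ring
  | [a0, a1, a2, a3, a4], _ =>
    simp only [evT, Nat.reduceAdd, zero_add, List.getD_cons_zero, List.getD_cons_succ, List.getD_nil, Rat.cast_zero, e101, e102, e201, e103, e112, e121, e202, e301, e104, e113, e122, e131, e203, e212, e302, e401, e105, e114, e123, e132, e141, e204, e213, e231, e303, e312, e402, e501, e106, e115, e124, e133, e142, e151, e205, e214, e223, e232, e241, e304, e313, e403, e412, e502, e601]
    ring
  | [a0, a1, a2, a3, a4, a5], _ =>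
    simp only [evT, Nat.reduceAdd, zero_add, List.getD_cons_zero, List.getD_cons_succ, List.getD_nil, Rat.cast_zero, e101, e102, e201, e103, e112, e121, e202, e301, e104, e113, e122, e131, e203, e212, e302, e401, e105, e114, e123, e132, e141, e204, e213, e231, e303, e312, e402, e501, e106, e115, e124, e133, e142, e151, e205, e214, e223, e232, e241, e304, e313, e403, e412, e502, e601]
    ring
  | _ :: _ :: _ :: _ :: _ :: _ :: _ :: _, h =>
    simp only [List.length_cons] at h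
    omega

private lemma pX0117 (p : List ℚ) (hp : p.length ≤ 6) : evT G p 0 1 1 =
    ((p.getD 0 0 : ℚ) : ℝ) * ((1) * G 1 1 0) +
    ((p.getD 1 0 : ℚ) : ℝ) * ((1/3) * G 1 1 1 + (2/3) * G 2 1 0) +
    ((p.getD 2 0 : ℚ) : ℝ) * ((5/9) * G 2 1 1 + (2/9) * G 2 2 0 + (2/9) * G 3 1 0) +
    ((p.getD 3 0 : ℚ) : ℝ) * ((4/9) * G 2 2 1 + (7/27) * G 3 1 1 + (2/9) * G 3 2 0 + (2/27) * G 4 1 0) +
    ((p.getD 4 0 : ℚ) : ℝ) * ((4/27) * G 2 2 2 + (44/81) * G 3 2 1 + (2/27) * G 3 3 0 + (1/9) * G 4 1 1 + (8/81) * G 4 2 0 + (2/81) * G 5 1 0) +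
    ((p.getD 5 0 : ℚ) : ℝ) * ((80/243) * G 3 2 2 + (50/243) * G 3 3 1 + (70/243) * G 4 2 1 + (20/243) * G 4 3 0 + (11/243) * G 5 1 1 + (10/243) * G 5 2 0 + (2/243) * G 6 1 0) := by
  have e011 : G 0 1 1 = G 1 1 0 := (h01 0 1 1).trans (h12 1 0 1)
  have e012 : G 0 1 2 = G 2 1 0 := ((h01 0 1 2).trans (h12 1 0 2)).trans (h01 1 2 0)
  have e021 : G 0 2 1 = G 2 1 0 := (h01 0 2 1).trans (h12 2 0 1)
  have e013 : G 0 1 3 = G 3 1 0 := ((h01 0 1 3).trans (h12 1 0 3)).trans (h01 1 3 0)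
  have e022 : G 0 2 2 = G 2 2 0 := (h01 0 2 2).trans (h12 2 0 2)
  have e031 : G 0 3 1 = G 3 1 0 := (h01 0 3 1).trans (h12 3 0 1)
  have e112 : G 1 1 2 = G 2 1 1 := (h12 1 1 2).trans (h01 1 2 1)
  have e121 : G 1 2 1 = G 2 1 1 := h01 1 2 1
  have e014 : G 0 1 4 = G 4 1 0 := ((h01 0 1 4).trans (h12 1 0 4)).trans (h01 1 4 0)
  have e023 : G 0 2 3 = G 3 2 0 := ((h01 0 2 3).trans (h12 2 0 3)).trans (h01 2 3 0)
  have e032 : G 0 3 2 = G 3 2 0 := (h01 0 3 2).trans (h12 3 0 2)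
  have e041 : G 0 4 1 = G 4 1 0 := (h01 0 4 1).trans (h12 4 0 1)
  have e113 : G 1 1 3 = G 3 1 1 := (h12 1 1 3).trans (h01 1 3 1)
  have e122 : G 1 2 2 = G 2 2 1 := (h01 1 2 2).trans (h12 2 1 2)
  have e131 : G 1 3 1 = G 3 1 1 := h01 1 3 1
  have e212 : G 2 1 2 = G 2 2 1 := h12 2 1 2
  have e015 : G 0 1 5 = G 5 1 0 := ((h01 0 1 5).trans (h12 1 0 5)).trans (h01 1 5 0)
  have e024 : G 0 2 4 = G 4 2 0 := ((h01 0 2 4).trans (h12 2 0 4)).trans (h01 2 4 0)
  have e033 : G 0 3 3 = G 3 3 0 := (h01 0 3 3).trans (h12 3 0 3)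
  have e042 : G 0 4 2 = G 4 2 0 := (h01 0 4 2).trans (h12 4 0 2)
  have e051 : G 0 5 1 = G 5 1 0 := (h01 0 5 1).trans (h12 5 0 1)
  have e114 : G 1 1 4 = G 4 1 1 := (h12 1 1 4).trans (h01 1 4 1)
  have e123 : G 1 2 3 = G 3 2 1 := ((h01 1 2 3).trans (h12 2 1 3)).trans (h01 2 3 1)
  have e132 : G 1 3 2 = G 3 2 1 := (h01 1 3 2).trans (h12 3 1 2)
  have e141 : G 1 4 1 = G 4 1 1 := h01 1 4 1
  have e213 : G 2 1 3 = G 3 2 1 := (h12 2 1 3).trans (h01 2 3 1)
  have e231 : G 2 3 1 = G 3 2 1 := h01 2 3 1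
  have e312 : G 3 1 2 = G 3 2 1 := h12 3 1 2
  have e016 : G 0 1 6 = G 6 1 0 := ((h01 0 1 6).trans (h12 1 0 6)).trans (h01 1 6 0)
  have e025 : G 0 2 5 = G 5 2 0 := ((h01 0 2 5).trans (h12 2 0 5)).trans (h01 2 5 0)
  have e034 : G 0 3 4 = G 4 3 0 := ((h01 0 3 4).trans (h12 3 0 4)).trans (h01 3 4 0)
  have e043 : G 0 4 3 = G 4 3 0 := (h01 0 4 3).trans (h12 4 0 3)
  have e052 : G 0 5 2 = G 5 2 0 := (h01 0 5 2).trans (h12 5 0 2)
  have e061 : G 0 6 1 = G 6 1 0 := (h01 0 6 1).trans (h12 6 0 1)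
  have e115 : G 1 1 5 = G 5 1 1 := (h12 1 1 5).trans (h01 1 5 1)
  have e124 : G 1 2 4 = G 4 2 1 := ((h01 1 2 4).trans (h12 2 1 4)).trans (h01 2 4 1)
  have e133 : G 1 3 3 = G 3 3 1 := (h01 1 3 3).trans (h12 3 1 3)
  have e142 : G 1 4 2 = G 4 2 1 := (h01 1 4 2).trans (h12 4 1 2)
  have e151 : G 1 5 1 = G 5 1 1 := h01 1 5 1
  have e214 : G 2 1 4 = G 4 2 1 := (h12 2 1 4).trans (h01 2 4 1)
  have e223 : G 2 2 3 = G 3 2 2 := (h12 2 2 3).trans (h01 2 3 2)
  have e232 : G 2 3 2 = G 3 2 2 := h01 2 3 2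
  have e241 : G 2 4 1 = G 4 2 1 := h01 2 4 1
  have e313 : G 3 1 3 = G 3 3 1 := h12 3 1 3
  have e412 : G 4 1 2 = G 4 2 1 := h12 4 1 2
  match p, hp with
  | [], _ =>
    simp only [evT, Nat.reduceAdd, zero_add, List.getD_cons_zero, List.getD_cons_succ, List.getD_nil, Rat.cast_zero, e011, e012, e021, e013, e022, e031, e112, e121, e014, e023, e032, e041, e113, e122, e131, e212, e015, e024, e033, e042, e051, e114, e123, e132, e141, e213, e231, e312, e016, e025, e034, e043, e052, e061, e115, e124, e133, e142, e151, e214, e223, e232, e241, e313, e412]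
    ring
  | [a0], _ =>
    simp only [evT, Nat.reduceAdd, zero_add, List.getD_cons_zero, List.getD_cons_succ, List.getD_nil, Rat.cast_zero, e011, e012, e021, e013, e022, e031, e112, e121, e014, e023, e032, e041, e113, e122, e131, e212, e015, e024, e033, e042, e051, e114, e123, e132, e141, e213, e231, e312, e016, e025, e034, e043, e052, e061, e115, e124, e133, e142, e151, e214, e223, e232, e241, e313, e412]
    ring
  | [a0, a1], _ =>
    simp only [evT, Nat.reduceAdd, zero_add, List.getD_cons_zero, List.getD_cons_succ, List.getD_nil, Rat.cast_zero, e011, e012, e021, e013, e022, e031, e112, e121, e014, e023, e032, e041, e113, e122, e131, e212, e015, e024, e033, e042, e051, e114, e123, e132, e141, e213, e231, e312, e016, e025, e034, e043, e052, e061, e115, e124, e133, e142, e151, e214, e223, e232, e241, e313, e412]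
    ring
  | [a0, a1, a2], _ =>
    simp only [evT, Nat.reduceAdd, zero_add, List.getD_cons_zero, List.getD_cons_succ, List.getD_nil, Rat.cast_zero, e011, e012, e021, e013, e022, e031, e112, e121, e014, e023, e032, e041, e113, e122, e131, e212, e015, e024, e033, e042, e051, e114, e123, e132, e141, e213, e231, e312, e016, e025, e034, e043, e052, e061, e115, e124, e133, e142, e151, e214, e223, e232, e241, e313, e412]
    ring
  | [a0, a1, a2, a3], _ =>
    simp only [evT, Nat.reduceAdd, zero_add, List.getD_cons_zero, List.getD_cons_succ, List.getD_nil, Rat.cast_zero, e011, e012, e021, e013, e022, e031, e112, e121, e014, e023, e032, e041, e113, e122, e131, e212, e015, e024, e033, e042, e051, e114, e123, e132, e141, e213, e231, e312, e016, e025, e034, e043, e052, e061, e115, e124, e133, e142, e151, e214, e223, e232, e241, e313, e412]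
    ring
  | [a0, a1, a2, a3, a4], _ =>
    simp only [evT, Nat.reduceAdd, zero_add, List.getD_cons_zero, List.getD_cons_succ, List.getD_nil, Rat.cast_zero, e011, e012, e021, e013, e022, e031, e112, e121, e014, e023, e032, e041, e113, e122, e131, e212, e015, e024, e033, e042, e051, e114, e123, e132, e141, e213, e231, e312, e016, e025, e034, e043, e052, e061, e115, e124, e133, e142, e151, e214, e223, e232, e241, e313, e412]
    ring
  | [a0, a1, a2, a3, a4, a5], _ =>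
    simp only [evT, Nat.reduceAdd, zero_add, List.getD_cons_zero, List.getD_cons_succ, List.getD_nil, Rat.cast_zero, e011, e012, e021, e013, e022, e031, e112, e121, e014, e023, e032, e041, e113, e122, e131, e212, e015, e024, e033, e042, e051, e114, e123, e132, e141, e213, e231, e312, e016, e025, e034, e043, e052, e061, e115, e124, e133, e142, e151, e214, e223, e232, e241, e313, e412]
    ring
  | _ :: _ :: _ :: _ :: _ :: _ :: _ :: _, h =>
    simp only [List.length_cons] at h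
    omega

private lemma pW1117 (p : List ℚ) (hp : p.length ≤ 5) : evT G p 1 1 1 =
    ((p.getD 0 0 : ℚ) : ℝ) * ((1) * G 1 1 1) +
    ((p.getD 1 0 : ℚ) : ℝ) * ((1) * G 2 1 1) +
    ((p.getD 2 0 : ℚ) : ℝ) * ((2/3) * G 2 2 1 + (1/3) * G 3 1 1) +
    ((p.getD 3 0 : ℚ) : ℝ) * ((2/9) * G 2 2 2 + (2/3) * G 3 2 1 + (1/9) * G 4 1 1) +
    ((p.getD 4 0 : ℚ) : ℝ) * ((4/9) * G 3 2 2 + (2/9) * G 3 3 1 + (8/27) * G 4 2 1 + (1/27) * G 5 1 1) := by
  have e112 : G 1 1 2 = G 2 1 1 := (h12 1 1 2).trans (h01 1 2 1)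
  have e121 : G 1 2 1 = G 2 1 1 := h01 1 2 1
  have e113 : G 1 1 3 = G 3 1 1 := (h12 1 1 3).trans (h01 1 3 1)
  have e122 : G 1 2 2 = G 2 2 1 := (h01 1 2 2).trans (h12 2 1 2)
  have e131 : G 1 3 1 = G 3 1 1 := h01 1 3 1
  have e212 : G 2 1 2 = G 2 2 1 := h12 2 1 2
  have e114 : G 1 1 4 = G 4 1 1 := (h12 1 1 4).trans (h01 1 4 1)
  have e123 : G 1 2 3 = G 3 2 1 := ((h01 1 2 3).trans (h12 2 1 3)).trans (h01 2 3 1)
  have e132 : G 1 3 2 = G 3 2 1 := (h01 1 3 2).trans (h12 3 1 2)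
  have e141 : G 1 4 1 = G 4 1 1 := h01 1 4 1
  have e213 : G 2 1 3 = G 3 2 1 := (h12 2 1 3).trans (h01 2 3 1)
  have e231 : G 2 3 1 = G 3 2 1 := h01 2 3 1
  have e312 : G 3 1 2 = G 3 2 1 := h12 3 1 2
  have e115 : G 1 1 5 = G 5 1 1 := (h12 1 1 5).trans (h01 1 5 1)
  have e124 : G 1 2 4 = G 4 2 1 := ((h01 1 2 4).trans (h12 2 1 4)).trans (h01 2 4 1)
  have e133 : G 1 3 3 = G 3 3 1 := (h01 1 3 3).trans (h12 3 1 3)
  have e142 : G 1 4 2 = G 4 2 1 := (h01 1 4 2).trans (h12 4 1 2)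
  have e151 : G 1 5 1 = G 5 1 1 := h01 1 5 1
  have e214 : G 2 1 4 = G 4 2 1 := (h12 2 1 4).trans (h01 2 4 1)
  have e223 : G 2 2 3 = G 3 2 2 := (h12 2 2 3).trans (h01 2 3 2)
  have e232 : G 2 3 2 = G 3 2 2 := h01 2 3 2
  have e241 : G 2 4 1 = G 4 2 1 := h01 2 4 1
  have e313 : G 3 1 3 = G 3 3 1 := h12 3 1 3
  have e412 : G 4 1 2 = G 4 2 1 := h12 4 1 2
  match p, hp with
  | [], _ =>
    simp only [evT, Nat.reduceAdd, zero_add, List.getD_cons_zero, List.getD_cons_succ, List.getD_nil, Rat.cast_zero, e112, e121, e113, e122, e131, e212, e114, e123, e132, e141, e213, e231, e312, e115, e124, e133, e142, e151, e214, e223, e232, e241, e313, e412]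
    ring
  | [a0], _ =>
    simp only [evT, Nat.reduceAdd, zero_add, List.getD_cons_zero, List.getD_cons_succ, List.getD_nil, Rat.cast_zero, e112, e121, e113, e122, e131, e212, e114, e123, e132, e141, e213, e231, e312, e115, e124, e133, e142, e151, e214, e223, e232, e241, e313, e412]
    ring
  | [a0, a1], _ =>
    simp only [evT, Nat.reduceAdd, zero_add, List.getD_cons_zero, List.getD_cons_succ, List.getD_nil, Rat.cast_zero, e112, e121, e113, e122, e131, e212, e114, e123, e132, e141, e213, e231, e312, e115, e124, e133, e142, e151, e214, e223, e232, e241, e313, e412]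
    ring
  | [a0, a1, a2], _ =>
    simp only [evT, Nat.reduceAdd, zero_add, List.getD_cons_zero, List.getD_cons_succ, List.getD_nil, Rat.cast_zero, e112, e121, e113, e122, e131, e212, e114, e123, e132, e141, e213, e231, e312, e115, e124, e133, e142, e151, e214, e223, e232, e241, e313, e412]
    ring
  | [a0, a1, a2, a3], _ =>
    simp only [evT, Nat.reduceAdd, zero_add, List.getD_cons_zero, List.getD_cons_succ, List.getD_nil, Rat.cast_zero, e112, e121, e113, e122, e131, e212, e114, e123, e132, e141, e213, e231, e312, e115, e124, e133, e142, e151, e214, e223, e232, e241, e313, e412]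
    ring
  | [a0, a1, a2, a3, a4], _ =>
    simp only [evT, Nat.reduceAdd, zero_add, List.getD_cons_zero, List.getD_cons_succ, List.getD_nil, Rat.cast_zero, e112, e121, e113, e122, e131, e212, e114, e123, e132, e141, e213, e231, e312, e115, e124, e133, e142, e151, e214, e223, e232, e241, e313, e412]
    ring
  | _ :: _ :: _ :: _ :: _ :: _ :: _, h =>
    simp only [List.length_cons] at h
    omega

private lemma pY2207 (p : List ℚ) (hp : p.length ≤ 4) : evT G p 2 2 0 =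
    ((p.getD 0 0 : ℚ) : ℝ) * ((1) * G 2 2 0) +
    ((p.getD 1 0 : ℚ) : ℝ) * ((1/3) * G 2 2 1 + (2/3) * G 3 2 0) +
    ((p.getD 2 0 : ℚ) : ℝ) * ((1/9) * G 2 2 2 + (4/9) * G 3 2 1 + (2/9) * G 3 3 0 + (2/9) * G 4 2 0) +
    ((p.getD 3 0 : ℚ) : ℝ) * ((7/27) * G 3 2 2 + (2/9) * G 3 3 1 + (2/9) * G 4 2 1 + (2/9) * G 4 3 0 + (2/27) * G 5 2 0) := by
  have e230 : G 2 3 0 = G 3 2 0 := h01 2 3 0
  have e231 : G 2 3 1 = G 3 2 1 := h01 2 3 1
  have e240 : G 2 4 0 = G 4 2 0 := h01 2 4 0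
  have e223 : G 2 2 3 = G 3 2 2 := (h12 2 2 3).trans (h01 2 3 2)
  have e232 : G 2 3 2 = G 3 2 2 := h01 2 3 2
  have e241 : G 2 4 1 = G 4 2 1 := h01 2 4 1
  have e250 : G 2 5 0 = G 5 2 0 := h01 2 5 0
  have e340 : G 3 4 0 = G 4 3 0 := h01 3 4 0
  match p, hp with
  | [], _ =>
    simp only [evT, Nat.reduceAdd, zero_add, List.getD_cons_zero, List.getD_cons_succ, List.getD_nil, Rat.cast_zero, e230, e231, e240, e223, e232, e241, e250, e340]
    ring
  | [a0], _ =>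
    simp only [evT, Nat.reduceAdd, zero_add, List.getD_cons_zero, List.getD_cons_succ, List.getD_nil, Rat.cast_zero, e230, e231, e240, e223, e232, e241, e250, e340]
    ring
  | [a0, a1], _ =>
    simp only [evT, Nat.reduceAdd, zero_add, List.getD_cons_zero, List.getD_cons_succ, List.getD_nil, Rat.cast_zero, e230, e231, e240, e223, e232, e241, e250, e340]
    ring
  | [a0, a1, a2], _ =>
    simp only [evT, Nat.reduceAdd, zero_add, List.getD_cons_zero, List.getD_cons_succ, List.getD_nil, Rat.cast_zero, e230, e231, e240, e223, e232, e241, e250, e340]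
    ring
  | [a0, a1, a2, a3], _ =>
    simp only [evT, Nat.reduceAdd, zero_add, List.getD_cons_zero, List.getD_cons_succ, List.getD_nil, Rat.cast_zero, e230, e231, e240, e223, e232, e241, e250, e340]
    ring
  | _ :: _ :: _ :: _ :: _ :: _, h =>
    simp only [List.length_cons] at h
    omega

private lemma pY2027 (p : List ℚ) (hp : p.length ≤ 4) : evT G p 2 0 2 =
    ((p.getD 0 0 : ℚ) : ℝ) * ((1) * G 2 2 0) +
    ((p.getD 1 0 : ℚ) : ℝ) * ((1/3) * G 2 2 1 + (2/3) * G 3 2 0) +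
    ((p.getD 2 0 : ℚ) : ℝ) * ((1/9) * G 2 2 2 + (4/9) * G 3 2 1 + (2/9) * G 3 3 0 + (2/9) * G 4 2 0) +
    ((p.getD 3 0 : ℚ) : ℝ) * ((7/27) * G 3 2 2 + (2/9) * G 3 3 1 + (2/9) * G 4 2 1 + (2/9) * G 4 3 0 + (2/27) * G 5 2 0) := by
  have e202 : G 2 0 2 = G 2 2 0 := h12 2 0 2
  have e203 : G 2 0 3 = G 3 2 0 := (h12 2 0 3).trans (h01 2 3 0)
  have e212 : G 2 1 2 = G 2 2 1 := h12 2 1 2
  have e302 : G 3 0 2 = G 3 2 0 := h12 3 0 2
  have e204 : G 2 0 4 = G 4 2 0 := (h12 2 0 4).trans (h01 2 4 0)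
  have e213 : G 2 1 3 = G 3 2 1 := (h12 2 1 3).trans (h01 2 3 1)
  have e303 : G 3 0 3 = G 3 3 0 := h12 3 0 3
  have e312 : G 3 1 2 = G 3 2 1 := h12 3 1 2
  have e402 : G 4 0 2 = G 4 2 0 := h12 4 0 2
  have e205 : G 2 0 5 = G 5 2 0 := (h12 2 0 5).trans (h01 2 5 0)
  have e214 : G 2 1 4 = G 4 2 1 := (h12 2 1 4).trans (h01 2 4 1)
  have e223 : G 2 2 3 = G 3 2 2 := (h12 2 2 3).trans (h01 2 3 2)
  have e232 : G 2 3 2 = G 3 2 2 := h01 2 3 2
  have e304 : G 3 0 4 = G 4 3 0 := (h12 3 0 4).trans (h01 3 4 0)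
  have e313 : G 3 1 3 = G 3 3 1 := h12 3 1 3
  have e403 : G 4 0 3 = G 4 3 0 := h12 4 0 3
  have e412 : G 4 1 2 = G 4 2 1 := h12 4 1 2
  have e502 : G 5 0 2 = G 5 2 0 := h12 5 0 2
  match p, hp with
  | [], _ =>
    simp only [evT, Nat.reduceAdd, zero_add, List.getD_cons_zero, List.getD_cons_succ, List.getD_nil, Rat.cast_zero, e202, e203, e212, e302, e204, e213, e303, e312, e402, e205, e214, e223, e232, e304, e313, e403, e412, e502]
    ring
  | [a0], _ =>
    simp only [evT, Nat.reduceAdd, zero_add, List.getD_cons_zero, List.getD_cons_succ, List.getD_nil, Rat.cast_zero, e202, e203, e212, e302, e204, e213, e303, e312, e402, e205, e214, e223, e232, e304, e313, e403, e412, e502]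
    ring
  | [a0, a1], _ =>
    simp only [evT, Nat.reduceAdd, zero_add, List.getD_cons_zero, List.getD_cons_succ, List.getD_nil, Rat.cast_zero, e202, e203, e212, e302, e204, e213, e303, e312, e402, e205, e214, e223, e232, e304, e313, e403, e412, e502]
    ring
  | [a0, a1, a2], _ =>
    simp only [evT, Nat.reduceAdd, zero_add, List.getD_cons_zero, List.getD_cons_succ, List.getD_nil, Rat.cast_zero, e202, e203, e212, e302, e204, e213, e303, e312, e402, e205, e214, e223, e232, e304, e313, e403, e412, e502]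
    ring
  | [a0, a1, a2, a3], _ =>
    simp only [evT, Nat.reduceAdd, zero_add, List.getD_cons_zero, List.getD_cons_succ, List.getD_nil, Rat.cast_zero, e202, e203, e212, e302, e204, e213, e303, e312, e402, e205, e214, e223, e232, e304, e313, e403, e412, e502]
    ring
  | _ :: _ :: _ :: _ :: _ :: _, h =>
    simp only [List.length_cons] at h
    omega

private lemma pY0227 (p : List ℚ) (hp : p.length ≤ 4) : evT G p 0 2 2 =
    ((p.getD 0 0 : ℚ) : ℝ) * ((1) * G 2 2 0) +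
    ((p.getD 1 0 : ℚ) : ℝ) * ((1/3) * G 2 2 1 + (2/3) * G 3 2 0) +
    ((p.getD 2 0 : ℚ) : ℝ) * ((1/9) * G 2 2 2 + (4/9) * G 3 2 1 + (2/9) * G 3 3 0 + (2/9) * G 4 2 0) +
    ((p.getD 3 0 : ℚ) : ℝ) * ((7/27) * G 3 2 2 + (2/9) * G 3 3 1 + (2/9) * G 4 2 1 + (2/9) * G 4 3 0 + (2/27) * G 5 2 0) := by
  have e022 : G 0 2 2 = G 2 2 0 := (h01 0 2 2).trans (h12 2 0 2)
  have e023 : G 0 2 3 = G 3 2 0 := ((h01 0 2 3).trans (h12 2 0 3)).trans (h01 2 3 0)
  have e032 : G 0 3 2 = G 3 2 0 := (h01 0 3 2).trans (h12 3 0 2)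
  have e122 : G 1 2 2 = G 2 2 1 := (h01 1 2 2).trans (h12 2 1 2)
  have e024 : G 0 2 4 = G 4 2 0 := ((h01 0 2 4).trans (h12 2 0 4)).trans (h01 2 4 0)
  have e033 : G 0 3 3 = G 3 3 0 := (h01 0 3 3).trans (h12 3 0 3)
  have e042 : G 0 4 2 = G 4 2 0 := (h01 0 4 2).trans (h12 4 0 2)
  have e123 : G 1 2 3 = G 3 2 1 := ((h01 1 2 3).trans (h12 2 1 3)).trans (h01 2 3 1)
  have e132 : G 1 3 2 = G 3 2 1 := (h01 1 3 2).trans (h12 3 1 2)
  have e025 : G 0 2 5 = G 5 2 0 := ((h01 0 2 5).trans (h12 2 0 5)).trans (h01 2 5 0)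
  have e034 : G 0 3 4 = G 4 3 0 := ((h01 0 3 4).trans (h12 3 0 4)).trans (h01 3 4 0)
  have e043 : G 0 4 3 = G 4 3 0 := (h01 0 4 3).trans (h12 4 0 3)
  have e052 : G 0 5 2 = G 5 2 0 := (h01 0 5 2).trans (h12 5 0 2)
  have e124 : G 1 2 4 = G 4 2 1 := ((h01 1 2 4).trans (h12 2 1 4)).trans (h01 2 4 1)
  have e133 : G 1 3 3 = G 3 3 1 := (h01 1 3 3).trans (h12 3 1 3)
  have e142 : G 1 4 2 = G 4 2 1 := (h01 1 4 2).trans (h12 4 1 2)
  have e223 : G 2 2 3 = G 3 2 2 := (h12 2 2 3).trans (h01 2 3 2)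
  have e232 : G 2 3 2 = G 3 2 2 := h01 2 3 2
  match p, hp with
  | [], _ =>
    simp only [evT, Nat.reduceAdd, zero_add, List.getD_cons_zero, List.getD_cons_succ, List.getD_nil, Rat.cast_zero, e022, e023, e032, e122, e024, e033, e042, e123, e132, e025, e034, e043, e052, e124, e133, e142, e223, e232]
    ring
  | [a0], _ =>
    simp only [evT, Nat.reduceAdd, zero_add, List.getD_cons_zero, List.getD_cons_succ, List.getD_nil, Rat.cast_zero, e022, e023, e032, e122, e024, e033, e042, e123, e132, e025, e034, e043, e052, e124, e133, e142, e223, e232]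
    ring
  | [a0, a1], _ =>
    simp only [evT, Nat.reduceAdd, zero_add, List.getD_cons_zero, List.getD_cons_succ, List.getD_nil, Rat.cast_zero, e022, e023, e032, e122, e024, e033, e042, e123, e132, e025, e034, e043, e052, e124, e133, e142, e223, e232]
    ring
  | [a0, a1, a2], _ =>
    simp only [evT, Nat.reduceAdd, zero_add, List.getD_cons_zero, List.getD_cons_succ, List.getD_nil, Rat.cast_zero, e022, e023, e032, e122, e024, e033, e042, e123, e132, e025, e034, e043, e052, e124, e133, e142, e223, e232]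
    ring
  | [a0, a1, a2, a3], _ =>
    simp only [evT, Nat.reduceAdd, zero_add, List.getD_cons_zero, List.getD_cons_succ, List.getD_nil, Rat.cast_zero, e022, e023, e032, e122, e024, e033, e042, e123, e132, e025, e034, e043, e052, e124, e133, e142, e223, e232]
    ring
  | _ :: _ :: _ :: _ :: _ :: _, h =>
    simp only [List.length_cons] at h
    omega

private lemma pY2117 (p : List ℚ) (hp : p.length ≤ 4) : evT G p 2 1 1 =
    ((p.getD 0 0 : ℚ) : ℝ) * ((1) * G 2 1 1) +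
    ((p.getD 1 0 : ℚ) : ℝ) * ((2/3) * G 2 2 1 + (1/3) * G 3 1 1) +
    ((p.getD 2 0 : ℚ) : ℝ) * ((2/9) * G 2 2 2 + (2/3) * G 3 2 1 + (1/9) * G 4 1 1) +
    ((p.getD 3 0 : ℚ) : ℝ) * ((4/9) * G 3 2 2 + (2/9) * G 3 3 1 + (8/27) * G 4 2 1 + (1/27) * G 5 1 1) := by
  have e212 : G 2 1 2 = G 2 2 1 := h12 2 1 2
  have e213 : G 2 1 3 = G 3 2 1 := (h12 2 1 3).trans (h01 2 3 1)
  have e231 : G 2 3 1 = G 3 2 1 := h01 2 3 1
  have e312 : G 3 1 2 = G 3 2 1 := h12 3 1 2
  have e214 : G 2 1 4 = G 4 2 1 := (h12 2 1 4).trans (h01 2 4 1)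
  have e223 : G 2 2 3 = G 3 2 2 := (h12 2 2 3).trans (h01 2 3 2)
  have e232 : G 2 3 2 = G 3 2 2 := h01 2 3 2
  have e241 : G 2 4 1 = G 4 2 1 := h01 2 4 1
  have e313 : G 3 1 3 = G 3 3 1 := h12 3 1 3
  have e412 : G 4 1 2 = G 4 2 1 := h12 4 1 2
  match p, hp with
  | [], _ =>
    simp only [evT, Nat.reduceAdd, zero_add, List.getD_cons_zero, List.getD_cons_succ, List.getD_nil, Rat.cast_zero, e212, e213, e231, e312, e214, e223, e232, e241, e313, e412]
    ring
  | [a0], _ =>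
    simp only [evT, Nat.reduceAdd, zero_add, List.getD_cons_zero, List.getD_cons_succ, List.getD_nil, Rat.cast_zero, e212, e213, e231, e312, e214, e223, e232, e241, e313, e412]
    ring
  | [a0, a1], _ =>
    simp only [evT, Nat.reduceAdd, zero_add, List.getD_cons_zero, List.getD_cons_succ, List.getD_nil, Rat.cast_zero, e212, e213, e231, e312, e214, e223, e232, e241, e313, e412]
    ring
  | [a0, a1, a2], _ =>
    simp only [evT, Nat.reduceAdd, zero_add, List.getD_cons_zero, List.getD_cons_succ, List.getD_nil, Rat.cast_zero, e212, e213, e231, e312, e214, e223, e232, e241, e313, e412]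
    ring
  | [a0, a1, a2, a3], _ =>
    simp only [evT, Nat.reduceAdd, zero_add, List.getD_cons_zero, List.getD_cons_succ, List.getD_nil, Rat.cast_zero, e212, e213, e231, e312, e214, e223, e232, e241, e313, e412]
    ring
  | _ :: _ :: _ :: _ :: _ :: _, h =>
    simp only [List.length_cons] at h
    omega

private lemma pY1217 (p : List ℚ) (hp : p.length ≤ 4) : evT G p 1 2 1 =
    ((p.getD 0 0 : ℚ) : ℝ) * ((1) * G 2 1 1) +
    ((p.getD 1 0 : ℚ) : ℝ) * ((2/3) * G 2 2 1 + (1/3) * G 3 1 1) +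
    ((p.getD 2 0 : ℚ) : ℝ) * ((2/9) * G 2 2 2 + (2/3) * G 3 2 1 + (1/9) * G 4 1 1) +
    ((p.getD 3 0 : ℚ) : ℝ) * ((4/9) * G 3 2 2 + (2/9) * G 3 3 1 + (8/27) * G 4 2 1 + (1/27) * G 5 1 1) := by
  have e121 : G 1 2 1 = G 2 1 1 := h01 1 2 1
  have e122 : G 1 2 2 = G 2 2 1 := (h01 1 2 2).trans (h12 2 1 2)
  have e131 : G 1 3 1 = G 3 1 1 := h01 1 3 1
  have e123 : G 1 2 3 = G 3 2 1 := ((h01 1 2 3).trans (h12 2 1 3)).trans (h01 2 3 1)
  have e132 : G 1 3 2 = G 3 2 1 := (h01 1 3 2).trans (h12 3 1 2)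
  have e141 : G 1 4 1 = G 4 1 1 := h01 1 4 1
  have e231 : G 2 3 1 = G 3 2 1 := h01 2 3 1
  have e124 : G 1 2 4 = G 4 2 1 := ((h01 1 2 4).trans (h12 2 1 4)).trans (h01 2 4 1)
  have e133 : G 1 3 3 = G 3 3 1 := (h01 1 3 3).trans (h12 3 1 3)
  have e142 : G 1 4 2 = G 4 2 1 := (h01 1 4 2).trans (h12 4 1 2)
  have e151 : G 1 5 1 = G 5 1 1 := h01 1 5 1
  have e223 : G 2 2 3 = G 3 2 2 := (h12 2 2 3).trans (h01 2 3 2)
  have e232 : G 2 3 2 = G 3 2 2 := h01 2 3 2
  have e241 : G 2 4 1 = G 4 2 1 := h01 2 4 1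
  match p, hp with
  | [], _ =>
    simp only [evT, Nat.reduceAdd, zero_add, List.getD_cons_zero, List.getD_cons_succ, List.getD_nil, Rat.cast_zero, e121, e122, e131, e123, e132, e141, e231, e124, e133, e142, e151, e223, e232, e241]
    ring
  | [a0], _ =>
    simp only [evT, Nat.reduceAdd, zero_add, List.getD_cons_zero, List.getD_cons_succ, List.getD_nil, Rat.cast_zero, e121, e122, e131, e123, e132, e141, e231, e124, e133, e142, e151, e223, e232, e241]
    ring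
  | [a0, a1], _ =>
    simp only [evT, Nat.reduceAdd, zero_add, List.getD_cons_zero, List.getD_cons_succ, List.getD_nil, Rat.cast_zero, e121, e122, e131, e123, e132, e141, e231, e124, e133, e142, e151, e223, e232, e241]
    ring
  | [a0, a1, a2], _ =>
    simp only [evT, Nat.reduceAdd, zero_add, List.getD_cons_zero, List.getD_cons_succ, List.getD_nil, Rat.cast_zero, e121, e122, e131, e123, e132, e141, e231, e124, e133, e142, e151, e223, e232, e241]
    ring
  | [a0, a1, a2, a3], _ =>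
    simp only [evT, Nat.reduceAdd, zero_add, List.getD_cons_zero, List.getD_cons_succ, List.getD_nil, Rat.cast_zero, e121, e122, e131, e123, e132, e141, e231, e124, e133, e142, e151, e223, e232, e241]
    ring
  | _ :: _ :: _ :: _ :: _ :: _, h =>
    simp only [List.length_cons] at h
    omega

private lemma pY1127 (p : List ℚ) (hp : p.length ≤ 4) : evT G p 1 1 2 =
    ((p.getD 0 0 : ℚ) : ℝ) * ((1) * G 2 1 1) +
    ((p.getD 1 0 : ℚ) : ℝ) * ((2/3) * G 2 2 1 + (1/3) * G 3 1 1) +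
    ((p.getD 2 0 : ℚ) : ℝ) * ((2/9) * G 2 2 2 + (2/3) * G 3 2 1 + (1/9) * G 4 1 1) +
    ((p.getD 3 0 : ℚ) : ℝ) * ((4/9) * G 3 2 2 + (2/9) * G 3 3 1 + (8/27) * G 4 2 1 + (1/27) * G 5 1 1) := by
  have e112 : G 1 1 2 = G 2 1 1 := (h12 1 1 2).trans (h01 1 2 1)
  have e113 : G 1 1 3 = G 3 1 1 := (h12 1 1 3).trans (h01 1 3 1)
  have e122 : G 1 2 2 = G 2 2 1 := (h01 1 2 2).trans (h12 2 1 2)
  have e212 : G 2 1 2 = G 2 2 1 := h12 2 1 2
  have e114 : G 1 1 4 = G 4 1 1 := (h12 1 1 4).trans (h01 1 4 1)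
  have e123 : G 1 2 3 = G 3 2 1 := ((h01 1 2 3).trans (h12 2 1 3)).trans (h01 2 3 1)
  have e132 : G 1 3 2 = G 3 2 1 := (h01 1 3 2).trans (h12 3 1 2)
  have e213 : G 2 1 3 = G 3 2 1 := (h12 2 1 3).trans (h01 2 3 1)
  have e312 : G 3 1 2 = G 3 2 1 := h12 3 1 2
  have e115 : G 1 1 5 = G 5 1 1 := (h12 1 1 5).trans (h01 1 5 1)
  have e124 : G 1 2 4 = G 4 2 1 := ((h01 1 2 4).trans (h12 2 1 4)).trans (h01 2 4 1)
  have e133 : G 1 3 3 = G 3 3 1 := (h01 1 3 3).trans (h12 3 1 3)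
  have e142 : G 1 4 2 = G 4 2 1 := (h01 1 4 2).trans (h12 4 1 2)
  have e214 : G 2 1 4 = G 4 2 1 := (h12 2 1 4).trans (h01 2 4 1)
  have e223 : G 2 2 3 = G 3 2 2 := (h12 2 2 3).trans (h01 2 3 2)
  have e232 : G 2 3 2 = G 3 2 2 := h01 2 3 2
  have e313 : G 3 1 3 = G 3 3 1 := h12 3 1 3
  have e412 : G 4 1 2 = G 4 2 1 := h12 4 1 2
  match p, hp with
  | [], _ =>
    simp only [evT, Nat.reduceAdd, zero_add, List.getD_cons_zero, List.getD_cons_succ, List.getD_nil, Rat.cast_zero, e112, e113, e122, e212, e114, e123, e132, e213, e312, e115, e124, e133, e142, e214, e223, e232, e313, e412]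
    ring
  | [a0], _ =>
    simp only [evT, Nat.reduceAdd, zero_add, List.getD_cons_zero, List.getD_cons_succ, List.getD_nil, Rat.cast_zero, e112, e113, e122, e212, e114, e123, e132, e213, e312, e115, e124, e133, e142, e214, e223, e232, e313, e412]
    ring
  | [a0, a1], _ =>
    simp only [evT, Nat.reduceAdd, zero_add, List.getD_cons_zero, List.getD_cons_succ, List.getD_nil, Rat.cast_zero, e112, e113, e122, e212, e114, e123, e132, e213, e312, e115, e124, e133, e142, e214, e223, e232, e313, e412]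
    ring
  | [a0, a1, a2], _ =>
    simp only [evT, Nat.reduceAdd, zero_add, List.getD_cons_zero, List.getD_cons_succ, List.getD_nil, Rat.cast_zero, e112, e113, e122, e212, e114, e123, e132, e213, e312, e115, e124, e133, e142, e214, e223, e232, e313, e412]
    ring
  | [a0, a1, a2, a3], _ =>
    simp only [evT, Nat.reduceAdd, zero_add, List.getD_cons_zero, List.getD_cons_succ, List.getD_nil, Rat.cast_zero, e112, e113, e122, e212, e114, e123, e132, e213, e312, e115, e124, e133, e142, e214, e223, e232, e313, e412]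
    ring
  | _ :: _ :: _ :: _ :: _ :: _, h =>
    simp only [List.length_cons] at h
    omega

/-- **weights**: the expectation of a form, for a symmetric moment function -/
theorem formT_eq7 (F : Fm) (hZ : F.pZ.length ≤ 8) (hX : F.pX.length ≤ 6) (hW : F.pW.length ≤ 5)
    (hY : F.pXX.length ≤ 4) : formT G F = dotW (wL7 F) (alphas7.map fun a => G a.1 a.2.1 a.2.2) := by
  unfold formT
  rw [pZ07 h01 h12 F.pZ hZ]
  rw [pX1107 h01 h12 F.pX hX]
  rw [pX1017 h01 h12 F.pX hX]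
  rw [pX0117 h01 h12 F.pX hX]
  rw [pW1117 h01 h12 F.pW hW]
  rw [pY2207 h01 h12 F.pXX hY]
  rw [pY2027 h01 h12 F.pXX hY]
  rw [pY0227 h01 h12 F.pXX hY]
  rw [pY2117 h01 h12 F.pXX hY]
  rw [pY1217 h01 h12 F.pXX hY]
  rw [pY1127 h01 h12 F.pXX hY]
  simp only [alphas7, wL7, List.map_cons, List.map_nil, dotW]
  push_cast
  ring

end sym7

/-- the seven moments of `H` -/
noncomputable def mom7 (H : SLaw 3) : List ℝ := [momS H, momC H, momR H, momT H, momA3 H, momC2 H, momA2C H]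

/-- the table `kL7` -/
theorem alphas7_map (H : SLaw 3) (Ψ : ℝ → ℝ) :
    (alphas7.map fun a => Ψ (MM H a.1 a.2.1 a.2.2 - 1)) = kL7.map fun k => Ψ (dotW k (mom7 H)) := by
  simp only [alphas7, kL7, List.map_cons, List.map_nil, mom7, dotW]
  rw [MM_000, MM_100, MM_200, MM_110, MM_300, MM_210, MM_111, MM_400, MM_310, MM_220, MM_211, MM_500, MM_410, MM_320, MM_311, MM_221, MM_600, MM_510, MM_420, MM_411, MM_330, MM_321, MM_222, MM_700, MM_610, MM_520, MM_511, MM_430, MM_421, MM_331, MM_322]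
  repeat' refine congrArg₂ (· :: ·) (congrArg Ψ ?_) ?_
  all_goals first | rfl | (push_cast; ring)

/-- tilted moments -/
noncomputable def momT7 (lam : ℝ) (M : SLaw 3) : List ℝ :=
  [lam ^ 2 * momS M, lam ^ 3 * momC M, lam ^ 4 * momR M, lam ^ 5 * momT M, lam ^ 6 * momA3 M, lam ^ 6 * momC2 M,
    lam ^ 7 * momA2C M]

lemma mom7_tilt (M : SLaw 3) (lam : ℝ) (hch : ∀ i j : Fin 3, 0 ≤ channel 3 lam i j) :
    mom7 (M.tilt lam hch) = momT7 lam M := by
  unfold mom7 momT7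
  rw [show momS (M.tilt lam hch) = lam ^ 2 * momS M from momS_tilt M lam hch,
    show momC (M.tilt lam hch) = lam ^ 3 * momC M from momC_tilt M lam hch,
    show momR (M.tilt lam hch) = lam ^ 4 * momR M from momR_tilt M lam hch,
    show momT (M.tilt lam hch) = lam ^ 5 * momT M from momT_tilt M lam hch,
    show momA3 (M.tilt lam hch) = lam ^ 6 * momA3 M from momA3_tilt M lam hch,
    show momC2 (M.tilt lam hch) = lam ^ 6 * momC2 M from momC2_tilt M lam hch,
    show momA2C (M.tilt lam hch) = lam ^ 7 * momA2C M from momA2C_tilt M lam hch]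

/-- **Regular tree, degree 7.** -/
theorem leaf_bound7 (b : ℕ) (lam : ℝ) (hch : ∀ i j : Fin 3, 0 ≤ channel 3 lam i j) (n : ℕ)
    {f : (Fin 3 → ℝ) → ℝ} (hf : SLaw.BddS f) (F : Fm)
    (hZ : F.pZ.length ≤ 8) (hX : F.pX.length ≤ 6) (hW : F.pW.length ≤ 5) (hY : F.pXX.length ≤ 4)
    (hle : ∀ ℓ : Fin 3 → ℝ, (∀ i, 0 ≤ ℓ i) → Kz 3 f ℓ ≤ evF F ℓ) :
    (leafSL 3 b lam (n + 1) (by norm_num) hch).Φ f ≤
      dotW (wL7 F) (kL7.map fun k => (1 + dotW k (momT7 lam (leafSL 3 b lam n (by norm_num) hch))) ^ b) := by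
  have h := leaf_le_form b lam hch n hf F hle
  set M := leafSL 3 b lam n (by norm_num) hch with hM
  set H := M.tilt lam hch with hH
  rw [formT_eq7 (G := fun a b' c' => MM H a b' c' ^ b)
    (fun a b' c' => by rw [MM_swap01]) (fun a b' c' => by rw [MM_swap12]) F hZ hX hW hY] at h
  have e := alphas7_map H (fun x => (1 + x) ^ b)
  have e' : (alphas7.map fun a => MM H a.1 a.2.1 a.2.2 ^ b) =
      alphas7.map fun a => (fun x => (1 + x) ^ b) (MM H a.1 a.2.1 a.2.2 - 1) := by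
    refine List.map_congr_left fun a _ => ?_
    simp
  rw [e', e, hH, mom7_tilt] at h
  exact h

/-- **Poisson tree, degree 7.** -/
theorem gw_bound7 (lam d : ℝ) (hd : 0 ≤ d) (hch : ∀ i j : Fin 3, 0 ≤ channel 3 lam i j) (n : ℕ)
    {f : (Fin 3 → ℝ) → ℝ} (hf : SLaw.BddS f) (F : Fm)
    (hZ : F.pZ.length ≤ 8) (hX : F.pX.length ≤ 6) (hW : F.pW.length ≤ 5) (hY : F.pXX.length ≤ 4)
    (hle : ∀ ℓ : Fin 3 → ℝ, (∀ i, 0 ≤ ℓ i) → Kz 3 f ℓ ≤ evF F ℓ) :
    (gwSL 3 lam d (n + 1) hd (by norm_num) hch).Φ f ≤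
      dotW (wL7 F) (kL7.map fun k => Real.exp (d * dotW k (momT7 lam (gwSL 3 lam d n hd (by norm_num) hch)))) := by
  have h := gw_le_form lam d hd hch n hf F hle
  set M := gwSL 3 lam d n hd (by norm_num) hch with hM
  set H := M.tilt lam hch with hH
  rw [formT_eq7 (G := fun a b' c' => Real.exp (d * (MM H a b' c' - 1)))
    (fun a b' c' => by rw [MM_swap01]) (fun a b' c' => by rw [MM_swap12]) F hZ hX hW hY] at h
  have e := alphas7_map H (fun x => Real.exp (d * x))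
  rw [e, hH, mom7_tilt] at h
  exact h

end Crest.Agent.Lib.Bc.CloStep
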