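import Crest.Agent.Lib.Bc.GridExit
/-!
# Row 163: moving a grid law to a finer grid (mean preserving, so it only goes up in the convex order)
-/
open scoped BigOperators
namespace Crest.Agent.Lib.Bc.GridO

/-- the accumulator of the move to the grid `M` -/
def regridAcc (M W L : ℕ) : List Pt → List ℕ → ℕ → ℕ
  | p :: ps, w :: ws, acc => regridAcc M W L ps ws (acc + w * split M W L p.a p.b p.c)
  | _, _, acc => acc

section
variable {M W L n : ℕ}

lemma homV_eq {n₁ : ℕ} {p : Pt} (hp : p.a + p.b + p.c = n₁) : homV p.a p.b p.c = toR n₁ p := by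
  unfold homV toR
  rw [hp]

lemma Cov.regridAcc (hM : 0 < M) (hW : M < 3 * W) (hn : (M / 2 + 1) * W ≤ n) {n₁ : ℕ} :
    ∀ (A : List Pt) (wA : List ℕ), (∀ x ∈ A, x.a + x.b + x.c = n₁) → wA.length = A.length →
    ∀ {acc T : ℕ} {E : ((Fin 3 → ℝ) → ℝ) → ℝ}, Cov M W L n acc T E →
    Cov M W L n (GridO.regridAcc M W L A wA acc) (T + n₁ * wA.sum)
      (fun f => E f + (n₁ : ℝ) * zsum (fun p => f (toR n₁ p)) A wA) := by
  intro A
  induction A with
  | nil =>
    intro wA _ hlen acc T E h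
    have : wA = [] := List.length_eq_zero_iff.1 (by simpa using hlen)
    subst this
    simpa [GridO.regridAcc, zsum] using h
  | cons x A ih =>
    intro wA hA hlen acc T E h
    cases wA with
    | nil => simp at hlen
    | cons w wA =>
      have hx := hA x (List.mem_cons_self)
      have hA' : ∀ l ∈ A, l.a + l.b + l.c = n₁ := fun l hl => hA l (List.mem_cons_of_mem _ hl)
      have hlen' : wA.length = A.length := by simpa using hlen
      have c := h.add ((Cov.split (L := L) hM hW hn x.a x.b x.c).mul w)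
      have := ih wA hA' hlen' c
      simp only [GridO.regridAcc, List.sum_cons]
      rw [hx] at this
      refine (this.congrT (by ring)).mono fun f _ => le_of_eq ?_
      simp only [zsum]
      rw [homV_eq hx]
      ring

/-- the move to the grid `M` only goes up in the convex order -/
theorem regrid_step (hM : 0 < M) (hW : M < 3 * W) (hn : (M / 2 + 1) * W ≤ n) {n₁ D : ℕ} {A : List Pt}
    {wA : List ℕ} (hA : Good n₁ D A wA) (hL : n₁ * D < 2 ^ L)
    {ks : List ℕ} (hks : ks.Nodup) (hk : ∀ k ∈ ks, k < n ∧ Valid M W k) :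
    Good M D (ptsOf M W ks) (roundL L (n₁ * D) D (GridO.regridAcc M W L A wA 0) ks) ∧
      Dominated (gridLaw n₁ D A wA)
        (gridLaw M D (ptsOf M W ks) (roundL L (n₁ * D) D (GridO.regridAcc M W L A wA 0) ks)) := by
  have hn₁ := hA.1
  have hD := hA.2.1
  have hT : 0 < n₁ * D := by positivity
  have cov := Cov.regridAcc (L := L) hM hW hn (n₁ := n₁) A wA hA.2.2.1 hA.2.2.2.1
    (Cov.zero (M := M) (W := W) (L := L) (n := n))
  rw [zero_add, hA.2.2.2.2] at cov
  obtain ⟨h1, h2, h3⟩ := round_le (D := D) hM hT hL cov hks hk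
  have hgood : Good M D (ptsOf M W ks) (roundL L (n₁ * D) D (GridO.regridAcc M W L A wA 0) ks) := by
    refine ⟨hM, hD, ptsOf_sum fun k hkk => (hk k hkk).2, ?_, h2⟩
    rw [h1]; simp [ptsOf]
  refine ⟨hgood, fun f hf => ?_⟩
  have h4 := h3 f hf
  have h5 := gridLaw_Φ hA (g := f) hf.sym
  have h6 := gridLaw_Φ hgood (g := f) hf.sym
  have hDr : (0 : ℝ) < D := by positivity
  have hnr : (0 : ℝ) < n₁ := by positivity
  simp only [zero_add] at h4
  rw [← h5] at h4
  have e : zsum (fun p => f (toR M p)) (ptS M W 0 :: ks.map (ptS M W))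
        (roundL L (n₁ * D) D (GridO.regridAcc M W L A wA 0) ks)
      = (gridLaw M D (ptsOf M W ks) (roundL L (n₁ * D) D (GridO.regridAcc M W L A wA 0) ks)).Φ f * D := h6.symm
  rw [e] at h4
  push_cast at h4
  have h7 : ((n₁ : ℝ) * D * D) * (gridLaw n₁ D A wA).Φ f
      ≤ ((n₁ : ℝ) * D * D) * (gridLaw M D (ptsOf M W ks) (roundL L (n₁ * D) D (GridO.regridAcc M W L A wA 0) ks)).Φ f := by
    refine le_trans (le_of_eq ?_) (le_trans h4 (le_of_eq ?_)) <;> ring
  exact le_of_mul_le_mul_left h7 (by positivity)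

end

/-- the invariant moves to a finer grid -/
theorem Inv.regrid {N₀ W₀ N W L n D m : ℕ} {ks₀ ks ws₀ ws : List ℕ} (S : Setup N W L n D ks)
    (h : Inv N₀ W₀ D ks₀ m ws₀) (hL : N₀ * D < 2 ^ L)
    (hc : roundL L (N₀ * D) D (regridAcc N W L (ptsOf N₀ W₀ ks₀) ws₀ 0) ks = ws) :
    Inv N W D ks m ws := by
  obtain ⟨g, d⟩ := regrid_step (L := L) S.hN S.hW S.hn h.1 hL S.hks S.hk
  rw [hc] at g d
  exact ⟨g, h.2.trans d⟩

end Crest.Agent.Lib.Bc.GridO
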