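import Crest.Agent.Lib.Bc.Tail4
import Crest.Agent.Lib.Bc.Orbit.O48Exit
/-!
# Row 163: the input `H4` of the assembly: `b = 4`, `λ = -1/2`, from the kernel orbit and the one step bound
-/
namespace Crest.Agent.Lib.Bc.H4

theorem H4 : Filter.Tendsto (Crest.ProbabilityR.Broadcast.advantage 3 4 (-(1 / 2))) Filter.atTop (nhds 0) :=
  Tail4.H4_of_exit GridO.hch3 240 GridO.O48.psi240

end Crest.Agent.Lib.Bc.H4
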