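import Crest.Agent.Lib.Bc.Gw
import Crest.Agent.Lib.Bc.TvBounds
/-!
# Row 163: Hellinger functionals (helper97's exact recursion)

For exponents `t ≥ 0`, `∑ t = 1`, let `Gt q t x = ∏ (q x_i)^(t_i)`. Then
`mass o * Gt (post o) = ∏ w(o,i)^(t_i)`, so the functional `L ↦ L.Φ (Gt q t)` is the Hellinger
integral of the channel, exactly multiplicative under `prod`, and the tree recursions are closed forms:

* `leaf_Gt`: `Φ_{M_{n+1}} Gt = (Φ_{M_n} (Gt ∘ T))^b`;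
* `gw_Gt`: `Φ_{M_{n+1}} Gt = exp(-d (1 - Φ_{M_n} (Gt ∘ T)))`.

`Hel_le_one`: `Φ Gt ≤ 1`. `Φ_Gt_perm`, `SymGt`: symmetrisation for symmetric laws.
`tendsto_of_descent`, `exists_lt_of_descent`: Lyapunov conclusions.
-/
open scoped BigOperators
open Crest.ProbabilityR.Broadcast Filter Topology
namespace Crest.Agent.Lib.Bc
variable {q : ℕ}

/-- exponents -/
structure IsExp (t : Fin q → ℝ) : Prop where
  nonneg : ∀ i, 0 ≤ t i
  sum_one : ∑ i, t i = 1

/-- the Hellinger integrand `∏ (q x_i)^(t_i)` (real exponents, `0^0 = 1`) -/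
noncomputable def Gt (q : ℕ) (t : Fin q → ℝ) (x : Fin q → ℝ) : ℝ := ∏ i, ((q : ℝ) * x i) ^ (t i)

lemma Gt_nonneg {t x : Fin q → ℝ} (hx : x ∈ Simp q) : 0 ≤ Gt q t x :=
  Finset.prod_nonneg fun i _ => Real.rpow_nonneg (mul_nonneg (Nat.cast_nonneg _) (hx.1 i)) _

lemma Gt_le {t x : Fin q → ℝ} (ht : IsExp t) (hq : 0 < q) (hx : x ∈ Simp q) : Gt q t x ≤ q := by
  have hq1 : (1 : ℝ) ≤ q := by exact_mod_cast hq
  have h1 : Gt q t x ≤ ∏ i, (q : ℝ) ^ (t i) := by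
    refine Finset.prod_le_prod (fun i _ => Real.rpow_nonneg (mul_nonneg (Nat.cast_nonneg _) (hx.1 i)) _)
      fun i _ => ?_
    refine Real.rpow_le_rpow (mul_nonneg (Nat.cast_nonneg _) (hx.1 i)) ?_ (ht.nonneg i)
    have := Simp.le_one hx i
    have h0 : (0 : ℝ) ≤ q := Nat.cast_nonneg _
    nlinarith
  have h2 : ∏ i, (q : ℝ) ^ (t i) = q := by
    rw [← Real.rpow_sum_of_pos (by linarith), ht.sum_one, Real.rpow_one]
  linarith

lemma BddS_Gt {t : Fin q → ℝ} (ht : IsExp t) (hq : 0 < q) : SLaw.BddS (Gt q t) :=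
  ⟨q, fun x hx => by rw [abs_of_nonneg (Gt_nonneg hx)]; exact Gt_le ht hq hx⟩

lemma Gt_unif {t : Fin q → ℝ} (hq : 0 < q) : Gt q t (fun _ => (1 : ℝ) / q) = 1 := by
  have hq' : (q : ℝ) ≠ 0 := by positivity
  unfold Gt
  refine Finset.prod_eq_one fun i _ => ?_
  rw [mul_one_div_cancel hq', Real.one_rpow]

namespace SLaw
variable (L L' : SLaw q)

/-- the Hellinger integrand at an observation -/
lemma mass_mul_Gt (hq : 0 < q) {t : Fin q → ℝ} (ht : IsExp t) (o : L.O) :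
    L.mass o * Gt q t (L.post o) = ∏ i, (L.w o i) ^ (t i) := by
  have hq' : (0 : ℝ) < q := by exact_mod_cast hq
  by_cases h0 : ∑ j, L.w o j = 0
  · have hm : L.mass o = 0 := by simp [mass, h0]
    rw [hm, zero_mul]
    obtain ⟨i, hi⟩ : ∃ i, t i ≠ 0 := by
      by_contra hall
      push Not at hall
      have := ht.sum_one
      simp [hall] at this
    symm
    refine Finset.prod_eq_zero (Finset.mem_univ i) ?_
    rw [L.w_eq_zero_of_sum h0 i, Real.zero_rpow hi]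
  · have hm : 0 < L.mass o := by
      have := L.sum_w_nonneg o
      have hpos : 0 < ∑ j, L.w o j := lt_of_le_of_ne this (Ne.symm h0)
      exact div_pos hpos hq'
    have e : ∀ i, (L.w o i) ^ (t i) = L.mass o ^ (t i) * ((q : ℝ) * L.post o i) ^ (t i) := by
      intro i
      rw [← Real.mul_rpow hm.le (mul_nonneg hq'.le ((L.post_mem hq o).1 i)), L.w_eq hq o i]
      congr 1
      ring
    simp only [e, Finset.prod_mul_distrib]
    rw [← Real.rpow_sum_of_pos hm, ht.sum_one, Real.rpow_one]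
    rfl

/-- Hellinger integral: `Φ Gt` is the sum of the integrands -/
lemma Φ_Gt (hq : 0 < q) {t : Fin q → ℝ} (ht : IsExp t) :
    L.Φ (Gt q t) = ∑' o, ∏ i, (L.w o i) ^ (t i) :=
  tsum_congr fun o => L.mass_mul_Gt hq ht o

lemma summable_hel (hq : 0 < q) {t : Fin q → ℝ} (ht : IsExp t) :
    Summable fun o => ∏ i, (L.w o i) ^ (t i) := by
  have := L.summable_Φ hq (BddS_Gt ht hq)
  simpa only [L.mass_mul_Gt hq ht] using this

lemma hel_nonneg (t : Fin q → ℝ) (o : L.O) : 0 ≤ ∏ i, (L.w o i) ^ (t i) :=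
  Finset.prod_nonneg fun i _ => Real.rpow_nonneg (L.nonneg o i) _

lemma Φ_Gt_nonneg (hq : 0 < q) {t : Fin q → ℝ} (ht : IsExp t) : 0 ≤ L.Φ (Gt q t) := by
  rw [L.Φ_Gt hq ht]
  exact tsum_nonneg (L.hel_nonneg t)

/-- Hellinger integrals are at most one (weighted AM-GM per observation) -/
theorem Φ_Gt_le_one (hq : 0 < q) {t : Fin q → ℝ} (ht : IsExp t) : L.Φ (Gt q t) ≤ 1 := by
  rw [L.Φ_Gt hq ht]
  have h1 : ∀ o, ∏ i, (L.w o i) ^ (t i) ≤ ∑ i, t i * L.w o i := fun o =>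
    Real.geom_mean_le_arith_mean_weighted Finset.univ t (L.w o) (fun i _ => ht.nonneg i) ht.sum_one
      (fun i _ => L.nonneg o i)
  have h2 : HasSum (fun o => ∑ i, t i * L.w o i) (∑ i, t i * 1) :=
    hasSum_sum fun i _ => (L.sum_one i).mul_left (t i)
  have h3 := (L.summable_hel hq ht).tsum_le_tsum h1 h2.summable
  rw [h2.tsum_eq] at h3
  simpa [ht.sum_one] using h3

/-- exact multiplicativity -/
theorem Φ_Gt_prod (hq : 0 < q) {t : Fin q → ℝ} (ht : IsExp t) :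
    (L.prod L').Φ (Gt q t) = L.Φ (Gt q t) * L'.Φ (Gt q t) := by
  rw [(L.prod L').Φ_Gt hq ht, L.Φ_Gt hq ht, L'.Φ_Gt hq ht]
  have e : ∀ o : (L.prod L').O, ∏ i, ((L.prod L').w o i) ^ (t i)
      = (∏ i, (L.w o.1 i) ^ (t i)) * ∏ i, (L'.w o.2 i) ^ (t i) := by
    intro o
    rw [← Finset.prod_mul_distrib]
    refine Finset.prod_congr rfl fun i _ => ?_
    exact Real.mul_rpow (L.nonneg _ _) (L'.nonneg _ _)
  simp only [e]
  have h1 := (L.summable_hel hq ht).hasSum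
  have h2 := (L'.summable_hel hq ht).hasSum
  have hs : Summable fun x : L.O × L'.O =>
      (∏ i, (L.w x.1 i) ^ (t i)) * ∏ i, (L'.w x.2 i) ^ (t i) :=
    (L.summable_hel hq ht).mul_of_nonneg (L'.summable_hel hq ht) (L.hel_nonneg t) (L'.hel_nonneg t)
  exact (h1.mul h2 hs).tsum_eq

/-- `c` i.i.d. children -/
theorem Φ_Gt_pow (hq : 0 < q) {t : Fin q → ℝ} (ht : IsExp t) (c : ℕ) :
    (L.pow c).Φ (Gt q t) = (L.Φ (Gt q t)) ^ c := by
  induction c with
  | zero => rw [L.Φ_pow_zero hq, Gt_unif hq, pow_zero]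
  | succ c ih =>
    show ((L.pow c).prod L).Φ (Gt q t) = _
    rw [Φ_Gt_prod _ _ hq ht, ih, pow_succ]

/-- `c` i.i.d. children through an edge -/
theorem Φ_Gt_tilt_pow (hq : 0 < q) {t : Fin q → ℝ} (ht : IsExp t) (lam : ℝ)
    (h : ∀ i j : Fin q, 0 ≤ channel q lam i j) (c : ℕ) :
    ((L.tilt lam h).pow c).Φ (Gt q t) = (L.Φ (Gt q t ∘ Tl q lam)) ^ c := by
  rw [Φ_Gt_pow _ hq ht, L.Φ_tilt hq lam h (BddS_Gt ht hq) (fun x hx => Tl_mem hq lam h hx)]

lemma Gt_comp_perm (σ : Equiv.Perm (Fin q)) (t x : Fin q → ℝ) :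
    Gt q t (x ∘ σ) = Gt q (t ∘ σ.symm) x := by
  unfold Gt
  rw [← Equiv.prod_comp σ (fun i => ((q : ℝ) * x i) ^ ((t ∘ σ.symm) i))]
  simp

/-- for symmetric laws the Hellinger integral does not see the order of the exponents -/
theorem Φ_Gt_perm (hq : 0 < q) {t : Fin q → ℝ} (ht : IsExp t) (σ : Equiv.Perm (Fin q)) :
    L.Φ (Gt q (t ∘ σ)) = L.Φ (Gt q t) := by
  have h := L.Φ_sym hq σ.symm (BddS_Gt ht hq)
  simp only [Gt_comp_perm] at h
  simpa using h

end SLaw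

/-- regular tree: closed form of the recursion -/
theorem leaf_Gt (b : ℕ) (lam : ℝ) (ℓ : ℕ) (hq : 0 < q) (hch : ∀ i j : Fin q, 0 ≤ channel q lam i j)
    {t : Fin q → ℝ} (ht : IsExp t) :
    (leafSL q b lam (ℓ + 1) hq hch).Φ (Gt q t)
      = ((leafSL q b lam ℓ hq hch).Φ (Gt q t ∘ Tl q lam)) ^ b := by
  rw [leafSL_succ b lam ℓ hq hch (BddS_Gt ht hq), SLaw.Φ_Gt_tilt_pow _ hq ht]

/-- `∑ Pois_d(c) y^c = exp(-d(1-y))` -/
lemma pois_gen (d y : ℝ) :
    HasSum (fun c : ℕ => (Real.exp (-d) * d ^ c / Nat.factorial c) * y ^ c) (Real.exp (-(d * (1 - y)))) := by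
  convert! (NormedSpace.expSeries_div_hasSum_exp (d * y : ℝ)).mul_left (Real.exp (-d)) using 1
  · funext c
    rw [mul_pow]
    ring
  · rw [← Real.exp_eq_exp_ℝ, ← Real.exp_add]
    congr 1
    ring

/-- Poisson tree: closed form of the recursion -/
theorem gw_Gt (lam d : ℝ) (ℓ : ℕ) (hd : 0 ≤ d) (hq : 0 < q) (hch : ∀ i j : Fin q, 0 ≤ channel q lam i j)
    {t : Fin q → ℝ} (ht : IsExp t) :
    (gwSL q lam d (ℓ + 1) hd hq hch).Φ (Gt q t)
      = Real.exp (-(d * (1 - (gwSL q lam d ℓ hd hq hch).Φ (Gt q t ∘ Tl q lam)))) := by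
  rw [gwSL_succ lam d ℓ hd hq hch (BddS_Gt ht hq)]
  simp only [SLaw.Φ_Gt_tilt_pow _ hq ht]
  exact (pois_gen d _).tsum_eq

/-- the symmetrised Hellinger integrand -/
noncomputable def SymGt (q : ℕ) (t x : Fin q → ℝ) : ℝ :=
  (∑ σ : Equiv.Perm (Fin q), Gt q (t ∘ σ) x) / (Nat.factorial q)

lemma IsExp.comp {t : Fin q → ℝ} (ht : IsExp t) (σ : Equiv.Perm (Fin q)) : IsExp (t ∘ σ) :=
  ⟨fun i => ht.nonneg _, by rw [← ht.sum_one]; exact Equiv.sum_comp σ t⟩

lemma BddS_SymGt {t : Fin q → ℝ} (ht : IsExp t) (hq : 0 < q) : SLaw.BddS (SymGt q t) := by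
  have : SLaw.BddS (fun x => (Nat.factorial q : ℝ)⁻¹ * ∑ σ : Equiv.Perm (Fin q), Gt q (t ∘ σ) x) :=
    SLaw.BddS.const_mul _ (SLaw.BddS.sum _ fun σ _ => BddS_Gt (ht.comp σ) hq)
  obtain ⟨C, hC⟩ := this
  exact ⟨C, fun x hx => by
    have := hC x hx
    unfold SymGt
    rwa [div_eq_inv_mul]⟩

/-- for a symmetric law the Hellinger integral of the symmetrised integrand is the same -/
theorem SLaw.Φ_SymGt (L : SLaw q) (hq : 0 < q) {t : Fin q → ℝ} (ht : IsExp t) :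
    L.Φ (SymGt q t) = L.Φ (Gt q t) := by
  have hf : (Nat.factorial q : ℝ) ≠ 0 := by positivity
  have e : SymGt q t = fun x => (Nat.factorial q : ℝ)⁻¹ * ∑ σ : Equiv.Perm (Fin q), Gt q (t ∘ σ) x := by
    funext x
    unfold SymGt
    rw [div_eq_inv_mul]
  rw [e, L.Φ_const_mul hq _ (SLaw.BddS.sum _ fun σ _ => BddS_Gt (ht.comp σ) hq),
    L.Φ_sum hq _ fun σ _ => BddS_Gt (ht.comp σ) hq]
  simp only [L.Φ_Gt_perm hq ht]
  simp [Fintype.card_perm, hf]

/-- Lyapunov conclusion: a bounded below potential with a square descent kills `s`. -/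
theorem tendsto_of_descent {P s : ℕ → ℝ} {C τ : ℝ} (hτ : 0 < τ) (hP : ∀ n, -C ≤ P n)
    (hd : ∀ n, P (n + 1) ≤ P n - τ * s n ^ 2) : Tendsto s atTop (𝓝 0) := by
  have hsum : ∀ N, ∑ n ∈ Finset.range N, s n ^ 2 ≤ (P 0 + C) / τ := by
    intro N
    have h1 : ∀ N, P N ≤ P 0 - τ * ∑ n ∈ Finset.range N, s n ^ 2 := by
      intro N
      induction N with
      | zero => simp
      | succ N ih =>
        rw [Finset.sum_range_succ, mul_add]
        have := hd N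
        linarith
    have := h1 N
    have := hP N
    rw [le_div_iff₀ hτ]
    nlinarith
  have hs : Summable fun n => s n ^ 2 :=
    summable_of_sum_range_le (fun n => sq_nonneg _) hsum
  have h2 : Tendsto (fun n => s n ^ 2) atTop (𝓝 0) := hs.tendsto_atTop_zero
  have h3 : Tendsto (fun n => |s n|) atTop (𝓝 0) := by
    have := (Real.continuous_sqrt.tendsto 0).comp h2
    simpa [Function.comp_def, Real.sqrt_sq_eq_abs] using this
  exact (tendsto_zero_iff_abs_tendsto_zero s).2 h3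

/-- Lyapunov conclusion, non tight form: a fixed drop above the level `s1` forces `s < s1` at some time,
from any starting time. -/
theorem exists_lt_of_descent {P s : ℕ → ℝ} {C τ s1 : ℝ} (hτ : 0 < τ) (hP : ∀ n, -C ≤ P n)
    (hd : ∀ n, s1 ≤ s n → P (n + 1) ≤ P n - τ) (n0 : ℕ) : ∃ n, n0 ≤ n ∧ s n < s1 := by
  by_contra hcon
  push Not at hcon
  have h1 : ∀ k, P (n0 + k) ≤ P n0 - τ * k := by
    intro k
    induction k with
    | zero => simp
    | succ k ih =>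
      have := hd (n0 + k) (hcon _ (by omega))
      rw [← add_assoc]
      push_cast
      linarith
  obtain ⟨k, hk⟩ := exists_nat_gt ((P n0 + C) / τ)
  have h2 := h1 k
  have h3 := hP (n0 + k)
  rw [div_lt_iff₀ hτ] at hk
  linarith

/-- Potentials of the Hellinger type are bounded on every law. -/
lemma SLaw.abs_Φ_Gt_le (L : SLaw q) (hq : 0 < q) {t : Fin q → ℝ} (ht : IsExp t) : |L.Φ (Gt q t)| ≤ 1 := by
  rw [abs_of_nonneg (L.Φ_Gt_nonneg hq ht)]
  exact L.Φ_Gt_le_one hq ht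

/-- finite Hellinger potential `Ψ(L) = ∑ κ_j (1 - Φ_L G_j)` -/
noncomputable def hPot {ι : Type*} (s : Finset ι) (κ : ι → ℝ) (t : ι → Fin q → ℝ) (L : SLaw q) : ℝ :=
  ∑ j ∈ s, κ j * (1 - L.Φ (Gt q (t j)))

lemma hPot_lower {ι : Type*} (s : Finset ι) (κ : ι → ℝ) (t : ι → Fin q → ℝ) (hq : 0 < q)
    (ht : ∀ j ∈ s, IsExp (t j)) (L : SLaw q) : -(∑ j ∈ s, 2 * |κ j|) ≤ hPot s κ t L := by
  unfold hPot
  rw [← Finset.sum_neg_distrib]
  refine Finset.sum_le_sum fun j hj => ?_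
  have h1 := L.abs_Φ_Gt_le hq (ht j hj)
  have h2 : |1 - L.Φ (Gt q (t j))| ≤ 2 := by
    have := abs_le.1 h1
    rw [abs_le]
    constructor <;> linarith [this.1, this.2]
  have h3 : |κ j * (1 - L.Φ (Gt q (t j)))| ≤ |κ j| * 2 := by
    rw [abs_mul]
    exact mul_le_mul_of_nonneg_left h2 (abs_nonneg _)
  have := (abs_le.1 h3).1
  linarith

/-- REGULAR TREE, tight form: if the exact one step inequality of a Hellinger potential holds for all
laws, the advantage tends to zero. -/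
theorem advantage_tendsto_of_hPot (hq : 2 ≤ q) {ι : Type*} (s : Finset ι) (κ : ι → ℝ) (t : ι → Fin q → ℝ)
    (ht : ∀ j ∈ s, IsExp (t j)) {b : ℕ} {lam τ : ℝ} (hτ : 0 < τ)
    (hch : ∀ i j : Fin q, 0 ≤ channel q lam i j)
    (H : ∀ M : SLaw q, ∑ j ∈ s, κ j * (1 - (M.Φ (Gt q (t j) ∘ Tl q lam)) ^ b)
        ≤ hPot s κ t M - τ * (M.Φ (aFn q)) ^ 2) :
    Tendsto (advantage q b lam) atTop (𝓝 0) := by
  have hq0 : 0 < q := by omega
  have hadv : advantage q b lam = fun n => (leafSL q b lam n hq0 hch).Φ (tvU q) := by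
    funext n
    exact advantage_eq b lam n hq0 hch
  rw [hadv]
  apply tendsto_Φ_tvU_of_aFn hq
  refine tendsto_of_descent (P := fun n => hPot s κ t (leafSL q b lam n hq0 hch)) hτ
    (C := ∑ j ∈ s, 2 * |κ j|) (fun n => hPot_lower s κ t hq0 ht _) fun n => ?_
  have h := H (leafSL q b lam n hq0 hch)
  have e : hPot s κ t (leafSL q b lam (n + 1) hq0 hch)
      = ∑ j ∈ s, κ j * (1 - ((leafSL q b lam n hq0 hch).Φ (Gt q (t j) ∘ Tl q lam)) ^ b) := by
    unfold hPot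
    refine Finset.sum_congr rfl fun j hj => ?_
    rw [leaf_Gt b lam n hq0 hch (ht j hj)]
  show hPot s κ t (leafSL q b lam (n + 1) hq0 hch) ≤ _
  rw [e]
  exact h

/-- POISSON TREE, tight form. -/
theorem gwAdvantage_tendsto_of_hPot (hq : 2 ≤ q) {ι : Type*} (s : Finset ι) (κ : ι → ℝ) (t : ι → Fin q → ℝ)
    (ht : ∀ j ∈ s, IsExp (t j)) {d lam τ : ℝ} (hd : 0 ≤ d) (hτ : 0 < τ)
    (hch : ∀ i j : Fin q, 0 ≤ channel q lam i j)
    (H : ∀ M : SLaw q, ∑ j ∈ s, κ j * (1 - Real.exp (-(d * (1 - M.Φ (Gt q (t j) ∘ Tl q lam)))))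
        ≤ hPot s κ t M - τ * (M.Φ (aFn q)) ^ 2) :
    Tendsto (gwAdvantage q lam d) atTop (𝓝 0) := by
  have hq0 : 0 < q := by omega
  have hadv : gwAdvantage q lam d = fun n => (gwSL q lam d n hd hq0 hch).Φ (tvU q) := by
    funext n
    exact gwAdvantage_eq lam d n hd hq0 hch
  rw [hadv]
  apply tendsto_Φ_tvU_of_aFn hq
  refine tendsto_of_descent (P := fun n => hPot s κ t (gwSL q lam d n hd hq0 hch)) hτ
    (C := ∑ j ∈ s, 2 * |κ j|) (fun n => hPot_lower s κ t hq0 ht _) fun n => ?_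
  have h := H (gwSL q lam d n hd hq0 hch)
  have e : hPot s κ t (gwSL q lam d (n + 1) hd hq0 hch)
      = ∑ j ∈ s, κ j * (1 - Real.exp (-(d * (1 - (gwSL q lam d n hd hq0 hch).Φ (Gt q (t j) ∘ Tl q lam))))) := by
    unfold hPot
    refine Finset.sum_congr rfl fun j hj => ?_
    rw [gw_Gt lam d n hd hq0 hch (ht j hj)]
  show hPot s κ t (gwSL q lam d (n + 1) hd hq0 hch) ≤ _
  rw [e]
  exact h

end Crest.Agent.Lib.Bc
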