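import Crest.Agent.Lib.Bc.Hellinger
/-!
# Row 163: the symmetrised Hellinger functionals `hT = 1 - SymGt`

`0 ≤ hT ≤ 1` on the simplex, convex there; `Φ_{M^c} hT = 1 - (1 - Φ_M hT)^c`;
closed recursions for the regular and the Poisson trees; non tight Lyapunov conclusions
`exists_lt_leaf_of_hPot`, `exists_lt_gw_of_hPot`.
-/
open scoped BigOperators
open Crest.ProbabilityR.Broadcast Filter Topology
namespace Crest.Agent.Lib.Bc
variable {q : ℕ}

/-- `h_t = 1 - Sym G_t` -/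
noncomputable def hT (q : ℕ) (t x : Fin q → ℝ) : ℝ := 1 - SymGt q t x

lemma sum_perm_apply (t : Fin q → ℝ) (i i' : Fin q) :
    ∑ σ : Equiv.Perm (Fin q), t (σ i) = ∑ σ : Equiv.Perm (Fin q), t (σ i') := by
  refine Fintype.sum_equiv (Equiv.mulRight (Equiv.swap i i')) _ _ fun σ => ?_
  simp

/-- weighted AM-GM after symmetrisation: `Sym G_t ≤ 1` on the simplex -/
lemma SymGt_le_one {t x : Fin q → ℝ} (ht : IsExp t) (hx : x ∈ Simp q) : SymGt q t x ≤ 1 := by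
  have hf : (0 : ℝ) < Nat.factorial q := by positivity
  unfold SymGt
  rw [div_le_one hf]
  have h1 : ∀ σ : Equiv.Perm (Fin q), Gt q (t ∘ σ) x ≤ ∑ i, t (σ i) * ((q : ℝ) * x i) := fun σ =>
    Real.geom_mean_le_arith_mean_weighted Finset.univ (t ∘ σ) (fun i => (q : ℝ) * x i)
      (fun i _ => ht.nonneg _) (ht.comp σ).sum_one (fun i _ => mul_nonneg (Nat.cast_nonneg _) (hx.1 i))
  refine (Finset.sum_le_sum fun σ _ => h1 σ).trans ?_
  rw [Finset.sum_comm]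
  by_cases hq : q = 0
  · subst hq
    have := hx.2
    simp at this
  have hq0 : 0 < q := Nat.pos_of_ne_zero hq
  set i0 : Fin q := ⟨0, hq0⟩
  have h2 : ∀ i : Fin q, ∑ σ : Equiv.Perm (Fin q), t (σ i) * ((q : ℝ) * x i)
      = (∑ σ : Equiv.Perm (Fin q), t (σ i0)) * ((q : ℝ) * x i) := by
    intro i
    rw [← Finset.sum_mul, sum_perm_apply t i i0]
  simp only [h2]
  rw [← Finset.mul_sum, ← Finset.mul_sum, hx.2]
  have h3 : (q : ℝ) * (∑ σ : Equiv.Perm (Fin q), t (σ i0)) = Nat.factorial q := by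
    have h4 : ∑ i : Fin q, ∑ σ : Equiv.Perm (Fin q), t (σ i) = (q : ℝ) * ∑ σ : Equiv.Perm (Fin q), t (σ i0) := by
      simp only [sum_perm_apply t _ i0]
      simp
    rw [← h4, Finset.sum_comm]
    have h5 : ∀ σ : Equiv.Perm (Fin q), ∑ i, t (σ i) = 1 := fun σ => (ht.comp σ).sum_one
    simp [h5, Fintype.card_perm]
  have : (∑ σ : Equiv.Perm (Fin q), t (σ i0)) * ((q : ℝ) * 1) = Nat.factorial q := by
    rw [← h3]; ring
  exact this.le

lemma SymGt_nonneg {t x : Fin q → ℝ} (hx : x ∈ Simp q) : 0 ≤ SymGt q t x :=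
  div_nonneg (Finset.sum_nonneg fun _ _ => Gt_nonneg hx) (Nat.cast_nonneg _)

lemma hT_nonneg {t x : Fin q → ℝ} (ht : IsExp t) (hx : x ∈ Simp q) : 0 ≤ hT q t x :=
  sub_nonneg.2 (SymGt_le_one ht hx)

lemma hT_le_one {t x : Fin q → ℝ} (hx : x ∈ Simp q) : hT q t x ≤ 1 :=
  sub_le_self _ (SymGt_nonneg hx)

lemma BddS_hT {t : Fin q → ℝ} (ht : IsExp t) : SLaw.BddS (hT q t) :=
  ⟨1, fun x hx => by rw [abs_of_nonneg (hT_nonneg ht hx)]; exact hT_le_one hx⟩

lemma BddS_comp_Tl {f : (Fin q → ℝ) → ℝ} (hf : SLaw.BddS f) (hq : 0 < q) {lam : ℝ}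
    (hch : ∀ i j : Fin q, 0 ≤ channel q lam i j) : SLaw.BddS (f ∘ Tl q lam) := by
  obtain ⟨C, hC⟩ := hf
  exact ⟨C, fun x hx => hC _ (SLaw.Tl_mem hq lam hch hx)⟩

namespace SLaw
variable (L : SLaw q)

lemma Φ_hT (hq : 0 < q) {t : Fin q → ℝ} (ht : IsExp t) : L.Φ (hT q t) = 1 - L.Φ (Gt q t) := by
  have hq0 := hq
  have e : hT q t = fun x => (1 : ℝ) + (-1) * SymGt q t x := by
    funext x
    unfold hT
    ring
  rw [e, L.Φ_add hq (BddS.const 1) (BddS.const_mul _ (BddS_SymGt ht hq)),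
    L.Φ_const hq, L.Φ_const_mul hq _ (BddS_SymGt ht hq), L.Φ_SymGt hq ht]
  ring

/-- `Φ (hT ∘ T)` in terms of the Hellinger integral through an edge -/
lemma Φ_hT_Tl (hq : 0 < q) {t : Fin q → ℝ} (ht : IsExp t) (lam : ℝ)
    (hch : ∀ i j : Fin q, 0 ≤ channel q lam i j) :
    L.Φ (hT q t ∘ Tl q lam) = 1 - L.Φ (Gt q t ∘ Tl q lam) := by
  have hT' : ∀ x ∈ Simp q, Tl q lam x ∈ Simp q := fun x hx => Tl_mem hq lam hch hx
  rw [← L.Φ_tilt hq lam hch (BddS_hT ht) hT', ← L.Φ_tilt hq lam hch (BddS_Gt ht hq) hT', Φ_hT _ hq ht]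

lemma Φ_hT_nonneg (hq : 0 < q) {t : Fin q → ℝ} (ht : IsExp t) : 0 ≤ L.Φ (hT q t) := by
  rw [L.Φ_hT hq ht]
  linarith [L.Φ_Gt_le_one hq ht]

lemma Φ_hT_le_one (hq : 0 < q) {t : Fin q → ℝ} (ht : IsExp t) : L.Φ (hT q t) ≤ 1 := by
  rw [L.Φ_hT hq ht]
  linarith [L.Φ_Gt_nonneg hq ht]

/-- `Φ_{L^c} hT = 1 - (1 - Φ_L hT)^c` -/
theorem Φ_hT_pow (hq : 0 < q) {t : Fin q → ℝ} (ht : IsExp t) (c : ℕ) :
    (L.pow c).Φ (hT q t) = 1 - (1 - L.Φ (hT q t)) ^ c := by
  rw [Φ_hT _ hq ht, Φ_Gt_pow _ hq ht, L.Φ_hT hq ht]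
  congr 2
  ring

end SLaw

/-- regular tree: `Φ_{M_{n+1}} hT = 1 - (1 - Φ_{M_n} (hT ∘ T))^b` -/
theorem leaf_hT (b : ℕ) (lam : ℝ) (ℓ : ℕ) (hq : 0 < q) (hch : ∀ i j : Fin q, 0 ≤ channel q lam i j)
    {t : Fin q → ℝ} (ht : IsExp t) :
    (leafSL q b lam (ℓ + 1) hq hch).Φ (hT q t)
      = 1 - (1 - (leafSL q b lam ℓ hq hch).Φ (hT q t ∘ Tl q lam)) ^ b := by
  rw [SLaw.Φ_hT _ hq ht, leaf_Gt b lam ℓ hq hch ht, SLaw.Φ_hT_Tl _ hq ht lam hch]
  congr 2
  ring

/-- Poisson tree: `Φ_{M_{n+1}} hT = 1 - exp(-d Φ_{M_n} (hT ∘ T))` -/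
theorem gw_hT (lam d : ℝ) (ℓ : ℕ) (hd : 0 ≤ d) (hq : 0 < q) (hch : ∀ i j : Fin q, 0 ≤ channel q lam i j)
    {t : Fin q → ℝ} (ht : IsExp t) :
    (gwSL q lam d (ℓ + 1) hd hq hch).Φ (hT q t)
      = 1 - Real.exp (-(d * (gwSL q lam d ℓ hd hq hch).Φ (hT q t ∘ Tl q lam))) := by
  rw [SLaw.Φ_hT _ hq ht, gw_Gt lam d ℓ hd hq hch ht, SLaw.Φ_hT_Tl _ hq ht lam hch]

/-- superadditivity of the weighted geometric mean: `G_t` is concave on the orthant -/
theorem Gt_concave {t x y : Fin q → ℝ} (ht : IsExp t) (hx : ∀ i, 0 ≤ x i) (hy : ∀ i, 0 ≤ y i)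
    {a b : ℝ} (ha : 0 ≤ a) (hb : 0 ≤ b) (hab : a + b = 1) :
    a * Gt q t x + b * Gt q t y ≤ Gt q t (fun i => a * x i + b * y i) := by
  have hq0 : (0 : ℝ) ≤ q := Nat.cast_nonneg _
  -- coordinates
  set X : Fin q → ℝ := fun i => (q : ℝ) * x i with hX
  set Y : Fin q → ℝ := fun i => (q : ℝ) * y i with hY
  have hX0 : ∀ i, 0 ≤ X i := fun i => mul_nonneg hq0 (hx i)
  have hY0 : ∀ i, 0 ≤ Y i := fun i => mul_nonneg hq0 (hy i)
  set Z : Fin q → ℝ := fun i => a * X i + b * Y i with hZ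
  have hZ0 : ∀ i, 0 ≤ Z i := fun i => add_nonneg (mul_nonneg ha (hX0 i)) (mul_nonneg hb (hY0 i))
  have eG : Gt q t (fun i => a * x i + b * y i) = ∏ i, Z i ^ t i := by
    unfold Gt
    refine Finset.prod_congr rfl fun i _ => ?_
    congr 1
    simp only [hZ, hX, hY]
    ring
  have eX : Gt q t x = ∏ i, X i ^ t i := rfl
  have eY : Gt q t y = ∏ i, Y i ^ t i := rfl
  rw [eG, eX, eY]
  by_cases hbad : ∃ i, Z i = 0 ∧ t i ≠ 0
  · -- degenerate coordinate
    obtain ⟨i, hi, hti⟩ := hbad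
    have h1 : a * X i = 0 := by
      have := mul_nonneg ha (hX0 i)
      have := mul_nonneg hb (hY0 i)
      simp only [hZ] at hi
      linarith
    have h2 : b * Y i = 0 := by
      have := mul_nonneg ha (hX0 i)
      have := mul_nonneg hb (hY0 i)
      simp only [hZ] at hi
      linarith
    have h3 : a * ∏ j, X j ^ t j = 0 := by
      rcases mul_eq_zero.1 h1 with h | h
      · simp [h]
      · rw [Finset.prod_eq_zero (Finset.mem_univ i) (by rw [h, Real.zero_rpow hti]), mul_zero]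
    have h4 : b * ∏ j, Y j ^ t j = 0 := by
      rcases mul_eq_zero.1 h2 with h | h
      · simp [h]
      · rw [Finset.prod_eq_zero (Finset.mem_univ i) (by rw [h, Real.zero_rpow hti]), mul_zero]
    rw [h3, h4, add_zero]
    exact Finset.prod_nonneg fun j _ => Real.rpow_nonneg (hZ0 j) _
  · push Not at hbad
    -- ratios, with convention r = 1 at the coordinates with t = 0
    set GZ := ∏ i, Z i ^ t i with hGZ
    have hGZ_pos : 0 < GZ := by
      refine Finset.prod_pos fun i _ => ?_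
      by_cases hti : t i = 0
      · rw [hti, Real.rpow_zero]; norm_num
      · have : Z i ≠ 0 := fun h => hti (hbad i h)
        exact Real.rpow_pos_of_pos (lt_of_le_of_ne (hZ0 i) (Ne.symm this)) _
    have key : ∀ W : Fin q → ℝ, (∀ i, 0 ≤ W i) → ∏ i, W i ^ t i ≤ GZ * ∑ i, t i * (W i / Z i) := by
      intro W hW
      have h1 : ∏ i, (W i / Z i) ^ t i ≤ ∑ i, t i * (W i / Z i) :=
        Real.geom_mean_le_arith_mean_weighted Finset.univ t (fun i => W i / Z i)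
          (fun i _ => ht.nonneg i) ht.sum_one (fun i _ => div_nonneg (hW i) (hZ0 i))
      have h2 : ∏ i, W i ^ t i = GZ * ∏ i, (W i / Z i) ^ t i := by
        rw [hGZ, ← Finset.prod_mul_distrib]
        refine Finset.prod_congr rfl fun i _ => ?_
        by_cases hti : t i = 0
        · simp [hti]
        · have hz : Z i ≠ 0 := fun h => hti (hbad i h)
          rw [Real.div_rpow (hW i) (hZ0 i)]
          have : Z i ^ t i ≠ 0 := (Real.rpow_pos_of_pos (lt_of_le_of_ne (hZ0 i) (Ne.symm hz)) _).ne'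
          field_simp
      rw [h2]
      exact mul_le_mul_of_nonneg_left h1 hGZ_pos.le
    have h1 := mul_le_mul_of_nonneg_left (key X hX0) ha
    have h2 := mul_le_mul_of_nonneg_left (key Y hY0) hb
    have h3 : a * (GZ * ∑ i, t i * (X i / Z i)) + b * (GZ * ∑ i, t i * (Y i / Z i)) = GZ := by
      have : ∑ i, t i * (a * (X i / Z i) + b * (Y i / Z i)) = 1 := by
        rw [← ht.sum_one]
        refine Finset.sum_congr rfl fun i _ => ?_
        by_cases hti : t i = 0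
        · simp [hti]
        · have hz : Z i ≠ 0 := fun h => hti (hbad i h)
          have : a * (X i / Z i) + b * (Y i / Z i) = 1 := by
            field_simp
            simp only [hZ]
          rw [this, mul_one]
      have e : a * (GZ * ∑ i, t i * (X i / Z i)) + b * (GZ * ∑ i, t i * (Y i / Z i))
          = GZ * ∑ i, t i * (a * (X i / Z i) + b * (Y i / Z i)) := by
        rw [Finset.mul_sum, Finset.mul_sum, Finset.mul_sum, Finset.mul_sum, Finset.mul_sum]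
        rw [← Finset.sum_add_distrib]
        refine Finset.sum_congr rfl fun i _ => ?_
        ring
      rw [e, this, mul_one]
    linarith

/-- `Sym G_t` is concave on the orthant -/
theorem SymGt_concave {t x y : Fin q → ℝ} (ht : IsExp t) (hx : ∀ i, 0 ≤ x i) (hy : ∀ i, 0 ≤ y i)
    {a b : ℝ} (ha : 0 ≤ a) (hb : 0 ≤ b) (hab : a + b = 1) :
    a * SymGt q t x + b * SymGt q t y ≤ SymGt q t (fun i => a * x i + b * y i) := by
  have hf : (0 : ℝ) < Nat.factorial q := by positivity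
  unfold SymGt
  rw [mul_div_assoc', mul_div_assoc', ← add_div, div_le_div_iff_of_pos_right hf, Finset.mul_sum,
    Finset.mul_sum, ← Finset.sum_add_distrib]
  exact Finset.sum_le_sum fun σ _ => Gt_concave (ht.comp σ) hx hy ha hb hab

/-- `hT` is convex on the orthant (as a pointwise inequality, for cell bounds) -/
theorem hT_convex {t x y : Fin q → ℝ} (ht : IsExp t) (hx : ∀ i, 0 ≤ x i) (hy : ∀ i, 0 ≤ y i)
    {a b : ℝ} (ha : 0 ≤ a) (hb : 0 ≤ b) (hab : a + b = 1) :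
    hT q t (fun i => a * x i + b * y i) ≤ a * hT q t x + b * hT q t y := by
  have := SymGt_concave ht hx hy ha hb hab
  unfold hT
  nlinarith

/-- `hT ∘ T` is convex (`T` is affine) -/
theorem hT_Tl_convex {t x y : Fin q → ℝ} (ht : IsExp t) {lam : ℝ} (hq : 0 < q)
    (hch : ∀ i j : Fin q, 0 ≤ channel q lam i j) (hx : x ∈ Simp q) (hy : y ∈ Simp q)
    {a b : ℝ} (ha : 0 ≤ a) (hb : 0 ≤ b) (hab : a + b = 1) :
    hT q t (Tl q lam fun i => a * x i + b * y i) ≤ a * hT q t (Tl q lam x) + b * hT q t (Tl q lam y) := by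
  have e : (Tl q lam fun i => a * x i + b * y i) = fun i => a * Tl q lam x i + b * Tl q lam y i := by
    funext i
    unfold Tl
    have hb' : b = 1 - a := by linarith
    subst hb'
    ring
  rw [e]
  exact hT_convex ht (SLaw.Tl_mem hq lam hch hx).1 (SLaw.Tl_mem hq lam hch hy).1 ha hb hab

/-- NON TIGHT, regular tree: if the potential drops by `τ` at every law with `s ≥ s1`, then `s(M_n) < s1`
at some time `n ≥ n0`. -/
theorem exists_lt_leaf_of_hPot (hq : 2 ≤ q) {ι : Type*} (s : Finset ι) (κ : ι → ℝ) (t : ι → Fin q → ℝ)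
    (ht : ∀ j ∈ s, IsExp (t j)) {b : ℕ} {lam τ s1 : ℝ} (hτ : 0 < τ)
    (hch : ∀ i j : Fin q, 0 ≤ channel q lam i j)
    (H : ∀ M : SLaw q, s1 ≤ M.Φ (aFn q) → ∑ j ∈ s, κ j * (1 - (M.Φ (Gt q (t j) ∘ Tl q lam)) ^ b)
        ≤ hPot s κ t M - τ) (n0 : ℕ) :
    ∃ n, n0 ≤ n ∧ (leafSL q b lam n (by omega) hch).Φ (aFn q) < s1 := by
  have hq0 : 0 < q := by omega
  refine exists_lt_of_descent (P := fun n => hPot s κ t (leafSL q b lam n hq0 hch)) hτ
    (C := ∑ j ∈ s, 2 * |κ j|) (fun n => hPot_lower s κ t hq0 ht _) (fun n hn => ?_) n0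
  have h := H (leafSL q b lam n hq0 hch) hn
  have e : hPot s κ t (leafSL q b lam (n + 1) hq0 hch)
      = ∑ j ∈ s, κ j * (1 - ((leafSL q b lam n hq0 hch).Φ (Gt q (t j) ∘ Tl q lam)) ^ b) := by
    unfold hPot
    refine Finset.sum_congr rfl fun j hj => ?_
    rw [leaf_Gt b lam n hq0 hch (ht j hj)]
  show hPot s κ t (leafSL q b lam (n + 1) hq0 hch) ≤ _
  rw [e]
  exact h

/-- NON TIGHT, Poisson tree. -/
theorem exists_lt_gw_of_hPot (hq : 2 ≤ q) {ι : Type*} (s : Finset ι) (κ : ι → ℝ) (t : ι → Fin q → ℝ)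
    (ht : ∀ j ∈ s, IsExp (t j)) {d lam τ s1 : ℝ} (hd : 0 ≤ d) (hτ : 0 < τ)
    (hch : ∀ i j : Fin q, 0 ≤ channel q lam i j)
    (H : ∀ M : SLaw q, s1 ≤ M.Φ (aFn q) →
        ∑ j ∈ s, κ j * (1 - Real.exp (-(d * (1 - M.Φ (Gt q (t j) ∘ Tl q lam)))))
        ≤ hPot s κ t M - τ) (n0 : ℕ) :
    ∃ n, n0 ≤ n ∧ (gwSL q lam d n hd (by omega) hch).Φ (aFn q) < s1 := by
  have hq0 : 0 < q := by omega
  refine exists_lt_of_descent (P := fun n => hPot s κ t (gwSL q lam d n hd hq0 hch)) hτ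
    (C := ∑ j ∈ s, 2 * |κ j|) (fun n => hPot_lower s κ t hq0 ht _) (fun n hn => ?_) n0
  have h := H (gwSL q lam d n hd hq0 hch) hn
  have e : hPot s κ t (gwSL q lam d (n + 1) hd hq0 hch)
      = ∑ j ∈ s, κ j * (1 - Real.exp (-(d * (1 - (gwSL q lam d n hd hq0 hch).Φ (Gt q (t j) ∘ Tl q lam))))) := by
    unfold hPot
    refine Finset.sum_congr rfl fun j hj => ?_
    rw [gw_Gt lam d n hd hq0 hch (ht j hj)]
  show hPot s κ t (gwSL q lam d (n + 1) hd hq0 hch) ≤ _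
  rw [e]
  exact h

end Crest.Agent.Lib.Bc
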