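import Mathlib
/-!
# Row 163, `Cert 3`: averages over the six relabellings (generated)

Everything is a symmetric polynomial in the products `p_i = x_i y_{σ i}`.  A monomial symmetric function of `p`
averages to the product of the monomial symmetric functions of `x` and `y` (`Ml_avg`).  No big expansions.
-/
namespace Crest.Agent.Lib.Bc.Q3

/-- `w = Z - 1` for the pair `(x, y)` -/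
noncomputable def w3 (x0 x1 x2 y0 y1 y2 : ℝ) : ℝ := 3 * (x0 * y0 + x1 * y1 + x2 * y2) - 1
/-- `ν = 27 e₂(x ⊙ y)` -/
noncomputable def nu3 (x0 x1 x2 y0 y1 y2 : ℝ) : ℝ :=
  27 * ((x0 * y0) * (x1 * y1) + (x0 * y0) * (x2 * y2) + (x1 * y1) * (x2 * y2))
/-- `a` in terms of the coordinates -/
noncomputable def aI (x0 x1 x2 : ℝ) : ℝ := 1 - 3 * (x0 * x1 + x0 * x2 + x1 * x2)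
/-- `c = Re z³` in terms of the coordinates -/
noncomputable def cI (x0 x1 x2 : ℝ) : ℝ := 1 - (9 / 2) * (x0 * x1 + x0 * x2 + x1 * x2) + (27 / 2) * (x0 * x1 * x2)


/-- the sum over the six permutations of the exponents of a monomial -/
noncomputable def Ml (l0 l1 l2 : ℕ) (p0 p1 p2 : ℝ) : ℝ :=
  p0 ^ l0 * p1 ^ l1 * p2 ^ l2 + p0 ^ l0 * p1 ^ l2 * p2 ^ l1 + p0 ^ l1 * p1 ^ l0 * p2 ^ l2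
    + p0 ^ l1 * p1 ^ l2 * p2 ^ l0 + p0 ^ l2 * p1 ^ l0 * p2 ^ l1 + p0 ^ l2 * p1 ^ l1 * p2 ^ l0

/-- the average over the relabellings is diagonal -/
theorem Ml_avg (l0 l1 l2 : ℕ) (x0 x1 x2 y0 y1 y2 : ℝ) :
    Ml l0 l1 l2 (x0 * y0) (x1 * y1) (x2 * y2) + Ml l0 l1 l2 (x0 * y0) (x1 * y2) (x2 * y1)
      + Ml l0 l1 l2 (x0 * y1) (x1 * y0) (x2 * y2) + Ml l0 l1 l2 (x0 * y1) (x1 * y2) (x2 * y0)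
      + Ml l0 l1 l2 (x0 * y2) (x1 * y0) (x2 * y1) + Ml l0 l1 l2 (x0 * y2) (x1 * y1) (x2 * y0)
      = Ml l0 l1 l2 x0 x1 x2 * Ml l0 l1 l2 y0 y1 y2 := by
  simp only [Ml, mul_pow]
  ring

theorem Ml_eval_0_0_0 (x0 x1 x2 : ℝ) (hx : x2 = 1 - x0 - x1) :
    Ml 0 0 0 x0 x1 x2 = (6) := by
  subst hx
  simp only [Ml, aI, cI]
  ring

theorem Ml_eval_1_0_0 (x0 x1 x2 : ℝ) (hx : x2 = 1 - x0 - x1) :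
    Ml 1 0 0 x0 x1 x2 = (2) := by
  subst hx
  simp only [Ml, aI, cI]
  ring

theorem Ml_eval_1_1_0 (x0 x1 x2 : ℝ) (hx : x2 = 1 - x0 - x1) :
    Ml 1 1 0 x0 x1 x2 = ((2) / 3) + ((-2) / 3) * (aI x0 x1 x2) := by
  subst hx
  simp only [Ml, aI, cI]
  ring

theorem Ml_eval_1_1_1 (x0 x1 x2 : ℝ) (hx : x2 = 1 - x0 - x1) :
    Ml 1 1 1 x0 x1 x2 = ((2) / 9) + ((4) / 9) * (cI x0 x1 x2) + ((-2) / 3) * (aI x0 x1 x2) := by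
  subst hx
  simp only [Ml, aI, cI]
  ring

theorem Ml_eval_2_0_0 (x0 x1 x2 : ℝ) (hx : x2 = 1 - x0 - x1) :
    Ml 2 0 0 x0 x1 x2 = ((2) / 3) + ((4) / 3) * (aI x0 x1 x2) := by
  subst hx
  simp only [Ml, aI, cI]
  ring

theorem Ml_eval_2_1_0 (x0 x1 x2 : ℝ) (hx : x2 = 1 - x0 - x1) :
    Ml 2 1 0 x0 x1 x2 = ((2) / 9) + ((-2) / 9) * (cI x0 x1 x2) := by
  subst hx
  simp only [Ml, aI, cI]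
  ring

theorem Ml_eval_2_1_1 (x0 x1 x2 : ℝ) (hx : x2 = 1 - x0 - x1) :
    Ml 2 1 1 x0 x1 x2 = ((2) / 27) + ((4) / 27) * (cI x0 x1 x2) + ((-2) / 9) * (aI x0 x1 x2) := by
  subst hx
  simp only [Ml, aI, cI]
  ring

theorem Ml_eval_2_2_0 (x0 x1 x2 : ℝ) (hx : x2 = 1 - x0 - x1) :
    Ml 2 2 0 x0 x1 x2 = ((2) / 27) + ((-8) / 27) * (cI x0 x1 x2) + ((2) / 9) * (aI x0 x1 x2) ^ 2 := by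
  subst hx
  simp only [Ml, aI, cI]
  ring

theorem Ml_eval_2_2_1 (x0 x1 x2 : ℝ) (hx : x2 = 1 - x0 - x1) :
    Ml 2 2 1 x0 x1 x2 = ((2) / 81) + ((4) / 81) * (cI x0 x1 x2) + ((-8) / 81) * (aI x0 x1 x2) + ((-4) / 81) * (aI x0 x1 x2) * (cI x0 x1 x2) + ((2) / 27) * (aI x0 x1 x2) ^ 2 := by
  subst hx
  simp only [Ml, aI, cI]
  ring

theorem Ml_eval_2_2_2 (x0 x1 x2 : ℝ) (hx : x2 = 1 - x0 - x1) :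
    Ml 2 2 2 x0 x1 x2 = ((2) / 243) + ((8) / 243) * (cI x0 x1 x2) + ((8) / 243) * (cI x0 x1 x2) ^ 2 + ((-4) / 81) * (aI x0 x1 x2) + ((-8) / 81) * (aI x0 x1 x2) * (cI x0 x1 x2) + ((2) / 27) * (aI x0 x1 x2) ^ 2 := by
  subst hx
  simp only [Ml, aI, cI]
  ring

theorem Ml_eval_3_0_0 (x0 x1 x2 : ℝ) (hx : x2 = 1 - x0 - x1) :
    Ml 3 0 0 x0 x1 x2 = ((2) / 9) + ((4) / 9) * (cI x0 x1 x2) + ((4) / 3) * (aI x0 x1 x2) := by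
  subst hx
  simp only [Ml, aI, cI]
  ring

theorem Ml_eval_3_1_0 (x0 x1 x2 : ℝ) (hx : x2 = 1 - x0 - x1) :
    Ml 3 1 0 x0 x1 x2 = ((2) / 27) + ((-2) / 27) * (cI x0 x1 x2) + ((2) / 9) * (aI x0 x1 x2) + ((-2) / 9) * (aI x0 x1 x2) ^ 2 := by
  subst hx
  simp only [Ml, aI, cI]
  ring

theorem Ml_eval_3_1_1 (x0 x1 x2 : ℝ) (hx : x2 = 1 - x0 - x1) :
    Ml 3 1 1 x0 x1 x2 = ((2) / 81) + ((4) / 81) * (cI x0 x1 x2) + ((-2) / 81) * (aI x0 x1 x2) + ((8) / 81) * (aI x0 x1 x2) * (cI x0 x1 x2) + ((-4) / 27) * (aI x0 x1 x2) ^ 2 := by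
  subst hx
  simp only [Ml, aI, cI]
  ring

theorem Ml_eval_3_2_0 (x0 x1 x2 : ℝ) (hx : x2 = 1 - x0 - x1) :
    Ml 3 2 0 x0 x1 x2 = ((2) / 81) + ((-14) / 81) * (cI x0 x1 x2) + ((4) / 81) * (aI x0 x1 x2) + ((2) / 81) * (aI x0 x1 x2) * (cI x0 x1 x2) + ((2) / 27) * (aI x0 x1 x2) ^ 2 := by
  subst hx
  simp only [Ml, aI, cI]
  ring

theorem Ml_eval_3_2_1 (x0 x1 x2 : ℝ) (hx : x2 = 1 - x0 - x1) :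
    Ml 3 2 1 x0 x1 x2 = ((2) / 243) + ((2) / 243) * (cI x0 x1 x2) + ((-4) / 243) * (cI x0 x1 x2) ^ 2 + ((-2) / 81) * (aI x0 x1 x2) + ((2) / 81) * (aI x0 x1 x2) * (cI x0 x1 x2) := by
  subst hx
  simp only [Ml, aI, cI]
  ring

theorem Ml_eval_3_2_2 (x0 x1 x2 : ℝ) (hx : x2 = 1 - x0 - x1) :
    Ml 3 2 2 x0 x1 x2 = ((2) / 729) + ((8) / 729) * (cI x0 x1 x2) + ((8) / 729) * (cI x0 x1 x2) ^ 2 + ((-4) / 243) * (aI x0 x1 x2) + ((-8) / 243) * (aI x0 x1 x2) * (cI x0 x1 x2) + ((2) / 81) * (aI x0 x1 x2) ^ 2 := by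
  subst hx
  simp only [Ml, aI, cI]
  ring

theorem Ml_eval_3_3_0 (x0 x1 x2 : ℝ) (hx : x2 = 1 - x0 - x1) :
    Ml 3 3 0 x0 x1 x2 = ((2) / 243) + ((-28) / 243) * (cI x0 x1 x2) + ((8) / 243) * (cI x0 x1 x2) ^ 2 + ((2) / 81) * (aI x0 x1 x2) + ((4) / 81) * (aI x0 x1 x2) * (cI x0 x1 x2) + ((2) / 27) * (aI x0 x1 x2) ^ 2 + ((-2) / 27) * (aI x0 x1 x2) ^ 3 := by
  subst hx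
  simp only [Ml, aI, cI]
  ring

theorem Ml_eval_3_3_1 (x0 x1 x2 : ℝ) (hx : x2 = 1 - x0 - x1) :
    Ml 3 3 1 x0 x1 x2 = ((2) / 729) + ((-4) / 729) * (cI x0 x1 x2) + ((-16) / 729) * (cI x0 x1 x2) ^ 2 + ((-2) / 243) * (aI x0 x1 x2) + ((8) / 243) * (aI x0 x1 x2) * (cI x0 x1 x2) + ((2) / 243) * (aI x0 x1 x2) ^ 2 + ((4) / 243) * (aI x0 x1 x2) ^ 2 * (cI x0 x1 x2) + ((-2) / 81) * (aI x0 x1 x2) ^ 3 := by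
  subst hx
  simp only [Ml, aI, cI]
  ring

theorem Ml_eval_3_3_2 (x0 x1 x2 : ℝ) (hx : x2 = 1 - x0 - x1) :
    Ml 3 3 2 x0 x1 x2 = ((2) / 2187) + ((8) / 2187) * (cI x0 x1 x2) + ((8) / 2187) * (cI x0 x1 x2) ^ 2 + ((-14) / 2187) * (aI x0 x1 x2) + ((-32) / 2187) * (aI x0 x1 x2) * (cI x0 x1 x2) + ((-8) / 2187) * (aI x0 x1 x2) * (cI x0 x1 x2) ^ 2 + ((10) / 729) * (aI x0 x1 x2) ^ 2 + ((8) / 729) * (aI x0 x1 x2) ^ 2 * (cI x0 x1 x2) + ((-2) / 243) * (aI x0 x1 x2) ^ 3 := by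
  subst hx
  simp only [Ml, aI, cI]
  ring

theorem Ml_eval_3_3_3 (x0 x1 x2 : ℝ) (hx : x2 = 1 - x0 - x1) :
    Ml 3 3 3 x0 x1 x2 = ((2) / 6561) + ((4) / 2187) * (cI x0 x1 x2) + ((8) / 2187) * (cI x0 x1 x2) ^ 2 + ((16) / 6561) * (cI x0 x1 x2) ^ 3 + ((-2) / 729) * (aI x0 x1 x2) + ((-8) / 729) * (aI x0 x1 x2) * (cI x0 x1 x2) + ((-8) / 729) * (aI x0 x1 x2) * (cI x0 x1 x2) ^ 2 + ((2) / 243) * (aI x0 x1 x2) ^ 2 + ((4) / 243) * (aI x0 x1 x2) ^ 2 * (cI x0 x1 x2) + ((-2) / 243) * (aI x0 x1 x2) ^ 3 := by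
  subst hx
  simp only [Ml, aI, cI]
  ring

theorem Ml_eval_4_0_0 (x0 x1 x2 : ℝ) (hx : x2 = 1 - x0 - x1) :
    Ml 4 0 0 x0 x1 x2 = ((2) / 27) + ((16) / 27) * (cI x0 x1 x2) + ((8) / 9) * (aI x0 x1 x2) + ((4) / 9) * (aI x0 x1 x2) ^ 2 := by
  subst hx
  simp only [Ml, aI, cI]
  ring

theorem Ml_eval_4_1_0 (x0 x1 x2 : ℝ) (hx : x2 = 1 - x0 - x1) :
    Ml 4 1 0 x0 x1 x2 = ((2) / 81) + ((4) / 81) * (cI x0 x1 x2) + ((16) / 81) * (aI x0 x1 x2) + ((-10) / 81) * (aI x0 x1 x2) * (cI x0 x1 x2) + ((-4) / 27) * (aI x0 x1 x2) ^ 2 := by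
  subst hx
  simp only [Ml, aI, cI]
  ring

theorem Ml_eval_4_1_1 (x0 x1 x2 : ℝ) (hx : x2 = 1 - x0 - x1) :
    Ml 4 1 1 x0 x1 x2 = ((2) / 243) + ((8) / 243) * (cI x0 x1 x2) + ((8) / 243) * (cI x0 x1 x2) ^ 2 + ((2) / 81) * (aI x0 x1 x2) + ((4) / 81) * (aI x0 x1 x2) * (cI x0 x1 x2) + ((-4) / 27) * (aI x0 x1 x2) ^ 2 := by
  subst hx
  simp only [Ml, aI, cI]
  ring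

theorem Ml_eval_4_2_0 (x0 x1 x2 : ℝ) (hx : x2 = 1 - x0 - x1) :
    Ml 4 2 0 x0 x1 x2 = ((2) / 243) + ((-16) / 243) * (cI x0 x1 x2) + ((-4) / 243) * (cI x0 x1 x2) ^ 2 + ((4) / 81) * (aI x0 x1 x2) + ((-4) / 81) * (aI x0 x1 x2) * (cI x0 x1 x2) + ((2) / 27) * (aI x0 x1 x2) ^ 3 := by
  subst hx
  simp only [Ml, aI, cI]
  ring

theorem Ml_eval_4_2_1 (x0 x1 x2 : ℝ) (hx : x2 = 1 - x0 - x1) :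
    Ml 4 2 1 x0 x1 x2 = ((2) / 729) + ((2) / 729) * (cI x0 x1 x2) + ((-4) / 729) * (cI x0 x1 x2) ^ 2 + ((2) / 81) * (aI x0 x1 x2) * (cI x0 x1 x2) + ((-8) / 243) * (aI x0 x1 x2) ^ 2 + ((-4) / 243) * (aI x0 x1 x2) ^ 2 * (cI x0 x1 x2) + ((2) / 81) * (aI x0 x1 x2) ^ 3 := by
  subst hx
  simp only [Ml, aI, cI]
  ring

theorem Ml_eval_4_2_2 (x0 x1 x2 : ℝ) (hx : x2 = 1 - x0 - x1) :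
    Ml 4 2 2 x0 x1 x2 = ((2) / 2187) + ((8) / 2187) * (cI x0 x1 x2) + ((8) / 2187) * (cI x0 x1 x2) ^ 2 + ((-8) / 2187) * (aI x0 x1 x2) + ((-8) / 2187) * (aI x0 x1 x2) * (cI x0 x1 x2) + ((16) / 2187) * (aI x0 x1 x2) * (cI x0 x1 x2) ^ 2 + ((-2) / 729) * (aI x0 x1 x2) ^ 2 + ((-16) / 729) * (aI x0 x1 x2) ^ 2 * (cI x0 x1 x2) + ((4) / 243) * (aI x0 x1 x2) ^ 3 := by
  subst hx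
  simp only [Ml, aI, cI]
  ring

theorem Ml_eval_4_3_0 (x0 x1 x2 : ℝ) (hx : x2 = 1 - x0 - x1) :
    Ml 4 3 0 x0 x1 x2 = ((2) / 729) + ((-40) / 729) * (cI x0 x1 x2) + ((20) / 729) * (cI x0 x1 x2) ^ 2 + ((4) / 243) * (aI x0 x1 x2) + ((2) / 243) * (aI x0 x1 x2) * (cI x0 x1 x2) + ((8) / 243) * (aI x0 x1 x2) ^ 2 + ((-2) / 243) * (aI x0 x1 x2) ^ 2 * (cI x0 x1 x2) + ((-2) / 81) * (aI x0 x1 x2) ^ 3 := by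
  subst hx
  simp only [Ml, aI, cI]
  ring

theorem Ml_eval_4_3_1 (x0 x1 x2 : ℝ) (hx : x2 = 1 - x0 - x1) :
    Ml 4 3 1 x0 x1 x2 = ((2) / 2187) + ((-10) / 2187) * (cI x0 x1 x2) + ((-28) / 2187) * (cI x0 x1 x2) ^ 2 + ((-2) / 2187) * (aI x0 x1 x2) + ((52) / 2187) * (aI x0 x1 x2) * (cI x0 x1 x2) + ((4) / 2187) * (aI x0 x1 x2) * (cI x0 x1 x2) ^ 2 + ((-2) / 729) * (aI x0 x1 x2) ^ 2 + ((2) / 729) * (aI x0 x1 x2) ^ 2 * (cI x0 x1 x2) + ((-2) / 243) * (aI x0 x1 x2) ^ 3 := by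
  subst hx
  simp only [Ml, aI, cI]
  ring

theorem Ml_eval_4_3_2 (x0 x1 x2 : ℝ) (hx : x2 = 1 - x0 - x1) :
    Ml 4 3 2 x0 x1 x2 = ((2) / 6561) + ((2) / 2187) * (cI x0 x1 x2) + ((-8) / 6561) * (cI x0 x1 x2) ^ 3 + ((-4) / 2187) * (aI x0 x1 x2) + ((-4) / 2187) * (aI x0 x1 x2) * (cI x0 x1 x2) + ((8) / 2187) * (aI x0 x1 x2) * (cI x0 x1 x2) ^ 2 + ((2) / 729) * (aI x0 x1 x2) ^ 2 + ((-2) / 729) * (aI x0 x1 x2) ^ 2 * (cI x0 x1 x2) := by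
  subst hx
  simp only [Ml, aI, cI]
  ring

theorem Ml_eval_4_3_3 (x0 x1 x2 : ℝ) (hx : x2 = 1 - x0 - x1) :
    Ml 4 3 3 x0 x1 x2 = ((2) / 19683) + ((4) / 6561) * (cI x0 x1 x2) + ((8) / 6561) * (cI x0 x1 x2) ^ 2 + ((16) / 19683) * (cI x0 x1 x2) ^ 3 + ((-2) / 2187) * (aI x0 x1 x2) + ((-8) / 2187) * (aI x0 x1 x2) * (cI x0 x1 x2) + ((-8) / 2187) * (aI x0 x1 x2) * (cI x0 x1 x2) ^ 2 + ((2) / 729) * (aI x0 x1 x2) ^ 2 + ((4) / 729) * (aI x0 x1 x2) ^ 2 * (cI x0 x1 x2) + ((-2) / 729) * (aI x0 x1 x2) ^ 3 := by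
  subst hx
  simp only [Ml, aI, cI]
  ring

theorem Ml_eval_4_4_0 (x0 x1 x2 : ℝ) (hx : x2 = 1 - x0 - x1) :
    Ml 4 4 0 x0 x1 x2 = ((2) / 2187) + ((-64) / 2187) * (cI x0 x1 x2) + ((80) / 2187) * (cI x0 x1 x2) ^ 2 + ((16) / 2187) * (aI x0 x1 x2) + ((16) / 2187) * (aI x0 x1 x2) * (cI x0 x1 x2) + ((-32) / 2187) * (aI x0 x1 x2) * (cI x0 x1 x2) ^ 2 + ((16) / 729) * (aI x0 x1 x2) ^ 2 + ((-16) / 729) * (aI x0 x1 x2) ^ 2 * (cI x0 x1 x2) + ((-8) / 243) * (aI x0 x1 x2) ^ 3 + ((2) / 81) * (aI x0 x1 x2) ^ 4 := by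
  subst hx
  simp only [Ml, aI, cI]
  ring

theorem Ml_eval_4_4_1 (x0 x1 x2 : ℝ) (hx : x2 = 1 - x0 - x1) :
    Ml 4 4 1 x0 x1 x2 = ((2) / 6561) + ((-8) / 2187) * (cI x0 x1 x2) + ((-16) / 2187) * (cI x0 x1 x2) ^ 2 + ((16) / 6561) * (cI x0 x1 x2) ^ 3 + ((4) / 243) * (aI x0 x1 x2) * (cI x0 x1 x2) + ((-8) / 729) * (aI x0 x1 x2) ^ 3 + ((-4) / 729) * (aI x0 x1 x2) ^ 3 * (cI x0 x1 x2) + ((2) / 243) * (aI x0 x1 x2) ^ 4 := by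
  subst hx
  simp only [Ml, aI, cI]
  ring

theorem Ml_eval_4_4_2 (x0 x1 x2 : ℝ) (hx : x2 = 1 - x0 - x1) :
    Ml 4 4 2 x0 x1 x2 = ((2) / 19683) + ((-8) / 6561) * (cI x0 x1 x2) ^ 2 + ((-32) / 19683) * (cI x0 x1 x2) ^ 3 + ((-4) / 6561) * (aI x0 x1 x2) + ((8) / 6561) * (aI x0 x1 x2) * (cI x0 x1 x2) + ((32) / 6561) * (aI x0 x1 x2) * (cI x0 x1 x2) ^ 2 + ((8) / 6561) * (aI x0 x1 x2) ^ 2 + ((-16) / 6561) * (aI x0 x1 x2) ^ 2 * (cI x0 x1 x2) + ((8) / 6561) * (aI x0 x1 x2) ^ 2 * (cI x0 x1 x2) ^ 2 + ((-4) / 2187) * (aI x0 x1 x2) ^ 3 + ((-8) / 2187) * (aI x0 x1 x2) ^ 3 * (cI x0 x1 x2) + ((2) / 729) * (aI x0 x1 x2) ^ 4 := by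
  subst hx
  simp only [Ml, aI, cI]
  ring

theorem Ml_eval_5_1_1 (x0 x1 x2 : ℝ) (hx : x2 = 1 - x0 - x1) :
    Ml 5 1 1 x0 x1 x2 = ((2) / 729) + ((20) / 729) * (cI x0 x1 x2) + ((32) / 729) * (cI x0 x1 x2) ^ 2 + ((2) / 81) * (aI x0 x1 x2) + ((-20) / 243) * (aI x0 x1 x2) ^ 2 + ((8) / 243) * (aI x0 x1 x2) ^ 2 * (cI x0 x1 x2) + ((-4) / 81) * (aI x0 x1 x2) ^ 3 := by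
  subst hx
  simp only [Ml, aI, cI]
  ring

theorem Ml_eval_5_2_0 (x0 x1 x2 : ℝ) (hx : x2 = 1 - x0 - x1) :
    Ml 5 2 0 x0 x1 x2 = ((2) / 729) + ((-10) / 729) * (cI x0 x1 x2) + ((-28) / 729) * (cI x0 x1 x2) ^ 2 + ((8) / 243) * (aI x0 x1 x2) + ((-20) / 243) * (aI x0 x1 x2) * (cI x0 x1 x2) + ((2) / 81) * (aI x0 x1 x2) ^ 2 * (cI x0 x1 x2) + ((2) / 27) * (aI x0 x1 x2) ^ 3 := by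
  subst hx
  simp only [Ml, aI, cI]
  ring

theorem Ml_eval_5_2_1 (x0 x1 x2 : ℝ) (hx : x2 = 1 - x0 - x1) :
    Ml 5 2 1 x0 x1 x2 = ((2) / 2187) + ((8) / 2187) * (cI x0 x1 x2) + ((8) / 2187) * (cI x0 x1 x2) ^ 2 + ((10) / 2187) * (aI x0 x1 x2) + ((10) / 2187) * (aI x0 x1 x2) * (cI x0 x1 x2) + ((-20) / 2187) * (aI x0 x1 x2) * (cI x0 x1 x2) ^ 2 + ((-20) / 729) * (aI x0 x1 x2) ^ 2 + ((2) / 729) * (aI x0 x1 x2) ^ 2 * (cI x0 x1 x2) + ((4) / 243) * (aI x0 x1 x2) ^ 3 := by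
  subst hx
  simp only [Ml, aI, cI]
  ring

theorem Ml_eval_5_2_2 (x0 x1 x2 : ℝ) (hx : x2 = 1 - x0 - x1) :
    Ml 5 2 2 x0 x1 x2 = ((2) / 6561) + ((4) / 2187) * (cI x0 x1 x2) + ((8) / 2187) * (cI x0 x1 x2) ^ 2 + ((16) / 6561) * (cI x0 x1 x2) ^ 3 + ((-2) / 243) * (aI x0 x1 x2) ^ 2 + ((-4) / 243) * (aI x0 x1 x2) ^ 2 * (cI x0 x1 x2) + ((4) / 243) * (aI x0 x1 x2) ^ 3 := by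
  subst hx
  simp only [Ml, aI, cI]
  ring

theorem Ml_eval_5_3_0 (x0 x1 x2 : ℝ) (hx : x2 = 1 - x0 - x1) :
    Ml 5 3 0 x0 x1 x2 = ((2) / 2187) + ((-46) / 2187) * (cI x0 x1 x2) + ((8) / 2187) * (cI x0 x1 x2) ^ 2 + ((22) / 2187) * (aI x0 x1 x2) + ((-50) / 2187) * (aI x0 x1 x2) * (cI x0 x1 x2) + ((28) / 2187) * (aI x0 x1 x2) * (cI x0 x1 x2) ^ 2 + ((10) / 729) * (aI x0 x1 x2) ^ 2 + ((8) / 729) * (aI x0 x1 x2) ^ 2 * (cI x0 x1 x2) + ((4) / 243) * (aI x0 x1 x2) ^ 3 + ((-2) / 81) * (aI x0 x1 x2) ^ 4 := by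
  subst hx
  simp only [Ml, aI, cI]
  ring

theorem Ml_eval_5_3_1 (x0 x1 x2 : ℝ) (hx : x2 = 1 - x0 - x1) :
    Ml 5 3 1 x0 x1 x2 = ((2) / 6561) + ((-4) / 2187) * (cI x0 x1 x2) + ((-4) / 729) * (cI x0 x1 x2) ^ 2 + ((-8) / 6561) * (cI x0 x1 x2) ^ 3 + ((2) / 2187) * (aI x0 x1 x2) + ((20) / 2187) * (aI x0 x1 x2) * (cI x0 x1 x2) + ((-4) / 2187) * (aI x0 x1 x2) * (cI x0 x1 x2) ^ 2 + ((-4) / 729) * (aI x0 x1 x2) ^ 2 + ((4) / 729) * (aI x0 x1 x2) ^ 2 * (cI x0 x1 x2) + ((2) / 729) * (aI x0 x1 x2) ^ 3 + ((4) / 729) * (aI x0 x1 x2) ^ 3 * (cI x0 x1 x2) + ((-2) / 243) * (aI x0 x1 x2) ^ 4 := by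
  subst hx
  simp only [Ml, aI, cI]
  ring

theorem Ml_eval_5_3_2 (x0 x1 x2 : ℝ) (hx : x2 = 1 - x0 - x1) :
    Ml 5 3 2 x0 x1 x2 = ((2) / 19683) + ((2) / 6561) * (cI x0 x1 x2) + ((-8) / 19683) * (cI x0 x1 x2) ^ 3 + ((-2) / 6561) * (aI x0 x1 x2) + ((4) / 6561) * (aI x0 x1 x2) * (cI x0 x1 x2) + ((16) / 6561) * (aI x0 x1 x2) * (cI x0 x1 x2) ^ 2 + ((-8) / 6561) * (aI x0 x1 x2) ^ 2 + ((-38) / 6561) * (aI x0 x1 x2) ^ 2 * (cI x0 x1 x2) + ((-8) / 6561) * (aI x0 x1 x2) ^ 2 * (cI x0 x1 x2) ^ 2 + ((10) / 2187) * (aI x0 x1 x2) ^ 3 + ((8) / 2187) * (aI x0 x1 x2) ^ 3 * (cI x0 x1 x2) + ((-2) / 729) * (aI x0 x1 x2) ^ 4 := by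
  subst hx
  simp only [Ml, aI, cI]
  ring

theorem Ml_eval_5_4_0 (x0 x1 x2 : ℝ) (hx : x2 = 1 - x0 - x1) :
    Ml 5 4 0 x0 x1 x2 = ((2) / 6561) + ((-28) / 2187) * (cI x0 x1 x2) + ((16) / 729) * (cI x0 x1 x2) ^ 2 + ((-8) / 6561) * (cI x0 x1 x2) ^ 3 + ((8) / 2187) * (aI x0 x1 x2) + ((-10) / 2187) * (aI x0 x1 x2) * (cI x0 x1 x2) + ((-16) / 2187) * (aI x0 x1 x2) * (cI x0 x1 x2) ^ 2 + ((8) / 729) * (aI x0 x1 x2) ^ 2 + ((-8) / 729) * (aI x0 x1 x2) ^ 2 * (cI x0 x1 x2) + ((-8) / 729) * (aI x0 x1 x2) ^ 3 + ((2) / 729) * (aI x0 x1 x2) ^ 3 * (cI x0 x1 x2) + ((2) / 243) * (aI x0 x1 x2) ^ 4 := by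
  subst hx
  simp only [Ml, aI, cI]
  ring

theorem Ml_eval_5_4_1 (x0 x1 x2 : ℝ) (hx : x2 = 1 - x0 - x1) :
    Ml 5 4 1 x0 x1 x2 = ((2) / 19683) + ((-4) / 2187) * (cI x0 x1 x2) + ((-20) / 6561) * (cI x0 x1 x2) ^ 2 + ((40) / 19683) * (cI x0 x1 x2) ^ 3 + ((2) / 6561) * (aI x0 x1 x2) + ((50) / 6561) * (aI x0 x1 x2) * (cI x0 x1 x2) + ((-16) / 6561) * (aI x0 x1 x2) * (cI x0 x1 x2) ^ 2 + ((-4) / 6561) * (aI x0 x1 x2) ^ 2 + ((8) / 6561) * (aI x0 x1 x2) ^ 2 * (cI x0 x1 x2) + ((-4) / 6561) * (aI x0 x1 x2) ^ 2 * (cI x0 x1 x2) ^ 2 + ((-10) / 2187) * (aI x0 x1 x2) ^ 3 + ((-2) / 2187) * (aI x0 x1 x2) ^ 3 * (cI x0 x1 x2) + ((2) / 729) * (aI x0 x1 x2) ^ 4 := by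
  subst hx
  simp only [Ml, aI, cI]
  ring

theorem Ml_eval_5_5_0 (x0 x1 x2 : ℝ) (hx : x2 = 1 - x0 - x1) :
    Ml 5 5 0 x0 x1 x2 = ((2) / 19683) + ((-40) / 6561) * (cI x0 x1 x2) + ((40) / 2187) * (cI x0 x1 x2) ^ 2 + ((-80) / 19683) * (cI x0 x1 x2) ^ 3 + ((10) / 6561) * (aI x0 x1 x2) + ((-20) / 6561) * (aI x0 x1 x2) * (cI x0 x1 x2) + ((-80) / 6561) * (aI x0 x1 x2) * (cI x0 x1 x2) ^ 2 + ((40) / 6561) * (aI x0 x1 x2) ^ 2 + ((-80) / 6561) * (aI x0 x1 x2) ^ 2 * (cI x0 x1 x2) + ((40) / 6561) * (aI x0 x1 x2) ^ 2 * (cI x0 x1 x2) ^ 2 + ((-20) / 2187) * (aI x0 x1 x2) ^ 3 + ((20) / 2187) * (aI x0 x1 x2) ^ 3 * (cI x0 x1 x2) + ((10) / 729) * (aI x0 x1 x2) ^ 4 + ((-2) / 243) * (aI x0 x1 x2) ^ 5 := by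
  subst hx
  simp only [Ml, aI, cI]
  ring

theorem Ml_eval_6_1_1 (x0 x1 x2 : ℝ) (hx : x2 = 1 - x0 - x1) :
    Ml 6 1 1 x0 x1 x2 = ((2) / 2187) + ((44) / 2187) * (cI x0 x1 x2) + ((80) / 2187) * (cI x0 x1 x2) ^ 2 + ((34) / 2187) * (aI x0 x1 x2) + ((-20) / 2187) * (aI x0 x1 x2) * (cI x0 x1 x2) + ((40) / 2187) * (aI x0 x1 x2) * (cI x0 x1 x2) ^ 2 + ((-20) / 729) * (aI x0 x1 x2) ^ 2 + ((20) / 729) * (aI x0 x1 x2) ^ 2 * (cI x0 x1 x2) + ((-20) / 243) * (aI x0 x1 x2) ^ 3 := by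
  subst hx
  simp only [Ml, aI, cI]
  ring

theorem Ml_eval_6_2_0 (x0 x1 x2 : ℝ) (hx : x2 = 1 - x0 - x1) :
    Ml 6 2 0 x0 x1 x2 = ((2) / 2187) + ((8) / 2187) * (cI x0 x1 x2) + ((-100) / 2187) * (cI x0 x1 x2) ^ 2 + ((40) / 2187) * (aI x0 x1 x2) + ((-140) / 2187) * (aI x0 x1 x2) * (cI x0 x1 x2) + ((-8) / 2187) * (aI x0 x1 x2) * (cI x0 x1 x2) ^ 2 + ((10) / 729) * (aI x0 x1 x2) ^ 2 + ((8) / 729) * (aI x0 x1 x2) ^ 2 * (cI x0 x1 x2) + ((10) / 243) * (aI x0 x1 x2) ^ 3 + ((2) / 81) * (aI x0 x1 x2) ^ 4 := by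
  subst hx
  simp only [Ml, aI, cI]
  ring

theorem Ml_eval_6_2_1 (x0 x1 x2 : ℝ) (hx : x2 = 1 - x0 - x1) :
    Ml 6 2 1 x0 x1 x2 = ((2) / 6561) + ((8) / 2187) * (cI x0 x1 x2) + ((4) / 729) * (cI x0 x1 x2) ^ 2 + ((-8) / 6561) * (cI x0 x1 x2) ^ 3 + ((8) / 2187) * (aI x0 x1 x2) + ((-10) / 2187) * (aI x0 x1 x2) * (cI x0 x1 x2) + ((-16) / 2187) * (aI x0 x1 x2) * (cI x0 x1 x2) ^ 2 + ((-10) / 729) * (aI x0 x1 x2) ^ 2 + ((10) / 729) * (aI x0 x1 x2) ^ 2 * (cI x0 x1 x2) + ((-2) / 729) * (aI x0 x1 x2) ^ 3 + ((-4) / 729) * (aI x0 x1 x2) ^ 3 * (cI x0 x1 x2) + ((2) / 243) * (aI x0 x1 x2) ^ 4 := by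
  subst hx
  simp only [Ml, aI, cI]
  ring

theorem Ml_eval_6_2_2 (x0 x1 x2 : ℝ) (hx : x2 = 1 - x0 - x1) :
    Ml 6 2 2 x0 x1 x2 = ((2) / 19683) + ((8) / 6561) * (cI x0 x1 x2) + ((8) / 2187) * (cI x0 x1 x2) ^ 2 + ((64) / 19683) * (cI x0 x1 x2) ^ 3 + ((4) / 6561) * (aI x0 x1 x2) + ((-8) / 6561) * (aI x0 x1 x2) * (cI x0 x1 x2) + ((-32) / 6561) * (aI x0 x1 x2) * (cI x0 x1 x2) ^ 2 + ((-38) / 6561) * (aI x0 x1 x2) ^ 2 + ((-32) / 6561) * (aI x0 x1 x2) ^ 2 * (cI x0 x1 x2) + ((16) / 6561) * (aI x0 x1 x2) ^ 2 * (cI x0 x1 x2) ^ 2 + ((16) / 2187) * (aI x0 x1 x2) ^ 3 + ((-16) / 2187) * (aI x0 x1 x2) ^ 3 * (cI x0 x1 x2) + ((4) / 729) * (aI x0 x1 x2) ^ 4 := by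
  subst hx
  simp only [Ml, aI, cI]
  ring

theorem Ml_eval_6_3_0 (x0 x1 x2 : ℝ) (hx : x2 = 1 - x0 - x1) :
    Ml 6 3 0 x0 x1 x2 = ((2) / 6561) + ((-14) / 2187) * (cI x0 x1 x2) + ((-28) / 2187) * (cI x0 x1 x2) ^ 2 + ((16) / 6561) * (cI x0 x1 x2) ^ 3 + ((4) / 729) * (aI x0 x1 x2) + ((-20) / 729) * (aI x0 x1 x2) * (cI x0 x1 x2) + ((16) / 729) * (aI x0 x1 x2) * (cI x0 x1 x2) ^ 2 + ((2) / 243) * (aI x0 x1 x2) ^ 2 + ((4) / 243) * (aI x0 x1 x2) ^ 2 * (cI x0 x1 x2) + ((2) / 81) * (aI x0 x1 x2) ^ 3 + ((-2) / 243) * (aI x0 x1 x2) ^ 3 * (cI x0 x1 x2) + ((-2) / 81) * (aI x0 x1 x2) ^ 4 := by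
  subst hx
  simp only [Ml, aI, cI]
  ring

theorem Ml_eval_6_3_1 (x0 x1 x2 : ℝ) (hx : x2 = 1 - x0 - x1) :
    Ml 6 3 1 x0 x1 x2 = ((2) / 19683) + ((-2) / 6561) * (cI x0 x1 x2) + ((-16) / 6561) * (cI x0 x1 x2) ^ 2 + ((-56) / 19683) * (cI x0 x1 x2) ^ 3 + ((2) / 2187) * (aI x0 x1 x2) + ((2) / 2187) * (aI x0 x1 x2) * (cI x0 x1 x2) + ((-4) / 2187) * (aI x0 x1 x2) * (cI x0 x1 x2) ^ 2 + ((-8) / 2187) * (aI x0 x1 x2) ^ 2 + ((22) / 2187) * (aI x0 x1 x2) ^ 2 * (cI x0 x1 x2) + ((4) / 2187) * (aI x0 x1 x2) ^ 2 * (cI x0 x1 x2) ^ 2 + ((2) / 729) * (aI x0 x1 x2) ^ 3 + ((2) / 729) * (aI x0 x1 x2) ^ 3 * (cI x0 x1 x2) + ((-2) / 243) * (aI x0 x1 x2) ^ 4 := by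
  subst hx
  simp only [Ml, aI, cI]
  ring

theorem Ml_eval_6_4_0 (x0 x1 x2 : ℝ) (hx : x2 = 1 - x0 - x1) :
    Ml 6 4 0 x0 x1 x2 = ((2) / 19683) + ((-32) / 6561) * (cI x0 x1 x2) + ((44) / 6561) * (cI x0 x1 x2) ^ 2 + ((16) / 19683) * (cI x0 x1 x2) ^ 3 + ((4) / 2187) * (aI x0 x1 x2) + ((-20) / 2187) * (aI x0 x1 x2) * (cI x0 x1 x2) + ((16) / 2187) * (aI x0 x1 x2) * (cI x0 x1 x2) ^ 2 + ((4) / 729) * (aI x0 x1 x2) ^ 2 + ((-4) / 729) * (aI x0 x1 x2) ^ 2 * (cI x0 x1 x2) ^ 2 + ((2) / 729) * (aI x0 x1 x2) ^ 3 + ((-4) / 729) * (aI x0 x1 x2) ^ 3 * (cI x0 x1 x2) + ((-2) / 243) * (aI x0 x1 x2) ^ 4 + ((2) / 243) * (aI x0 x1 x2) ^ 5 := by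
  subst hx
  simp only [Ml, aI, cI]
  ring

theorem Ml_eval_7_1_1 (x0 x1 x2 : ℝ) (hx : x2 = 1 - x0 - x1) :
    Ml 7 1 1 x0 x1 x2 = ((2) / 6561) + ((28) / 2187) * (cI x0 x1 x2) + ((56) / 2187) * (cI x0 x1 x2) ^ 2 + ((16) / 6561) * (cI x0 x1 x2) ^ 3 + ((2) / 243) * (aI x0 x1 x2) + ((8) / 243) * (aI x0 x1 x2) * (cI x0 x1 x2) ^ 2 + ((-56) / 729) * (aI x0 x1 x2) ^ 3 + ((8) / 729) * (aI x0 x1 x2) ^ 3 * (cI x0 x1 x2) + ((-4) / 243) * (aI x0 x1 x2) ^ 4 := by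
  subst hx
  simp only [Ml, aI, cI]
  ring

theorem Ml_eval_7_2_0 (x0 x1 x2 : ℝ) (hx : x2 = 1 - x0 - x1) :
    Ml 7 2 0 x0 x1 x2 = ((2) / 6561) + ((14) / 2187) * (cI x0 x1 x2) + ((-28) / 729) * (cI x0 x1 x2) ^ 2 + ((-8) / 6561) * (cI x0 x1 x2) ^ 3 + ((20) / 2187) * (aI x0 x1 x2) + ((-70) / 2187) * (aI x0 x1 x2) * (cI x0 x1 x2) + ((-40) / 2187) * (aI x0 x1 x2) * (cI x0 x1 x2) ^ 2 + ((14) / 729) * (aI x0 x1 x2) ^ 2 + ((-14) / 729) * (aI x0 x1 x2) ^ 2 * (cI x0 x1 x2) + ((14) / 729) * (aI x0 x1 x2) ^ 3 + ((10) / 729) * (aI x0 x1 x2) ^ 3 * (cI x0 x1 x2) + ((10) / 243) * (aI x0 x1 x2) ^ 4 := by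
  subst hx
  simp only [Ml, aI, cI]
  ring

theorem Ml_eval_7_2_1 (x0 x1 x2 : ℝ) (hx : x2 = 1 - x0 - x1) :
    Ml 7 2 1 x0 x1 x2 = ((2) / 19683) + ((2) / 729) * (cI x0 x1 x2) + ((28) / 6561) * (cI x0 x1 x2) ^ 2 + ((-32) / 19683) * (cI x0 x1 x2) ^ 3 + ((14) / 6561) * (aI x0 x1 x2) + ((-28) / 6561) * (aI x0 x1 x2) * (cI x0 x1 x2) + ((-4) / 6561) * (aI x0 x1 x2) * (cI x0 x1 x2) ^ 2 + ((-28) / 6561) * (aI x0 x1 x2) ^ 2 + ((56) / 6561) * (aI x0 x1 x2) ^ 2 * (cI x0 x1 x2) + ((-28) / 6561) * (aI x0 x1 x2) ^ 2 * (cI x0 x1 x2) ^ 2 + ((-28) / 2187) * (aI x0 x1 x2) ^ 3 + ((-2) / 2187) * (aI x0 x1 x2) ^ 3 * (cI x0 x1 x2) + ((8) / 729) * (aI x0 x1 x2) ^ 4 := by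
  subst hx
  simp only [Ml, aI, cI]
  ring

theorem Ml_eval_7_3_0 (x0 x1 x2 : ℝ) (hx : x2 = 1 - x0 - x1) :
    Ml 7 3 0 x0 x1 x2 = ((2) / 19683) + ((-8) / 6561) * (cI x0 x1 x2) + ((-112) / 6561) * (cI x0 x1 x2) ^ 2 + ((88) / 19683) * (cI x0 x1 x2) ^ 3 + ((2) / 729) * (aI x0 x1 x2) + ((-14) / 729) * (aI x0 x1 x2) * (cI x0 x1 x2) + ((4) / 243) * (aI x0 x1 x2) * (cI x0 x1 x2) ^ 2 + ((14) / 2187) * (aI x0 x1 x2) ^ 2 + ((14) / 2187) * (aI x0 x1 x2) ^ 2 * (cI x0 x1 x2) + ((8) / 2187) * (aI x0 x1 x2) ^ 2 * (cI x0 x1 x2) ^ 2 + ((14) / 729) * (aI x0 x1 x2) ^ 3 + ((-4) / 729) * (aI x0 x1 x2) ^ 3 * (cI x0 x1 x2) + ((-2) / 243) * (aI x0 x1 x2) ^ 4 + ((-2) / 243) * (aI x0 x1 x2) ^ 5 := by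
  subst hx
  simp only [Ml, aI, cI]
  ring

theorem Ml_eval_8_1_1 (x0 x1 x2 : ℝ) (hx : x2 = 1 - x0 - x1) :
    Ml 8 1 1 x0 x1 x2 = ((2) / 19683) + ((16) / 2187) * (cI x0 x1 x2) + ((112) / 6561) * (cI x0 x1 x2) ^ 2 + ((112) / 19683) * (cI x0 x1 x2) ^ 3 + ((26) / 6561) * (aI x0 x1 x2) + ((56) / 6561) * (aI x0 x1 x2) * (cI x0 x1 x2) + ((224) / 6561) * (aI x0 x1 x2) * (cI x0 x1 x2) ^ 2 + ((56) / 6561) * (aI x0 x1 x2) ^ 2 + ((-112) / 6561) * (aI x0 x1 x2) ^ 2 * (cI x0 x1 x2) + ((56) / 6561) * (aI x0 x1 x2) ^ 2 * (cI x0 x1 x2) ^ 2 + ((-112) / 2187) * (aI x0 x1 x2) ^ 3 + ((28) / 2187) * (aI x0 x1 x2) ^ 3 * (cI x0 x1 x2) + ((-28) / 729) * (aI x0 x1 x2) ^ 4 := by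
  subst hx
  simp only [Ml, aI, cI]
  ring

theorem Ml_eval_8_2_0 (x0 x1 x2 : ℝ) (hx : x2 = 1 - x0 - x1) :
    Ml 8 2 0 x0 x1 x2 = ((2) / 19683) + ((32) / 6561) * (cI x0 x1 x2) + ((-56) / 2187) * (cI x0 x1 x2) ^ 2 + ((-80) / 19683) * (cI x0 x1 x2) ^ 3 + ((28) / 6561) * (aI x0 x1 x2) + ((-56) / 6561) * (aI x0 x1 x2) * (cI x0 x1 x2) + ((-224) / 6561) * (aI x0 x1 x2) * (cI x0 x1 x2) ^ 2 + ((112) / 6561) * (aI x0 x1 x2) ^ 2 + ((-224) / 6561) * (aI x0 x1 x2) ^ 2 * (cI x0 x1 x2) + ((4) / 6561) * (aI x0 x1 x2) ^ 2 * (cI x0 x1 x2) ^ 2 + ((28) / 2187) * (aI x0 x1 x2) ^ 3 + ((44) / 2187) * (aI x0 x1 x2) ^ 3 * (cI x0 x1 x2) + ((28) / 729) * (aI x0 x1 x2) ^ 4 + ((2) / 243) * (aI x0 x1 x2) ^ 5 := by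
  subst hx
  simp only [Ml, aI, cI]
  ring

theorem exp_avgW0 (p0 p1 p2 : ℝ) :
    (3 * (p0 + p1 + p2) - 1) ^ 0 = ((1) / 6) * Ml 0 0 0 p0 p1 p2 := by
  simp only [Ml]
  ring

theorem avgW0 (x0 x1 x2 y0 y1 y2 : ℝ) (hx : x2 = 1 - x0 - x1) (hy : y2 = 1 - y0 - y1) :
    (w3 x0 x1 x2 y0 y1 y2 ^ 0 + w3 x0 x1 x2 y0 y2 y1 ^ 0 + w3 x0 x1 x2 y1 y0 y2 ^ 0 + w3 x0 x1 x2 y1 y2 y0 ^ 0 + w3 x0 x1 x2 y2 y0 y1 ^ 0 + w3 x0 x1 x2 y2 y1 y0 ^ 0) / 6 = 1 := by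
  have e0 : w3 x0 x1 x2 y0 y1 y2 ^ 0 = _ := exp_avgW0 (x0 * y0) (x1 * y1) (x2 * y2)
  have e1 : w3 x0 x1 x2 y0 y2 y1 ^ 0 = _ := exp_avgW0 (x0 * y0) (x1 * y2) (x2 * y1)
  have e2 : w3 x0 x1 x2 y1 y0 y2 ^ 0 = _ := exp_avgW0 (x0 * y1) (x1 * y0) (x2 * y2)
  have e3 : w3 x0 x1 x2 y1 y2 y0 ^ 0 = _ := exp_avgW0 (x0 * y1) (x1 * y2) (x2 * y0)
  have e4 : w3 x0 x1 x2 y2 y0 y1 ^ 0 = _ := exp_avgW0 (x0 * y2) (x1 * y0) (x2 * y1)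
  have e5 : w3 x0 x1 x2 y2 y1 y0 ^ 0 = _ := exp_avgW0 (x0 * y2) (x1 * y1) (x2 * y0)
  rw [e0, e1, e2, e3, e4, e5]
  linear_combination
    ((1) / 36) * (Ml_avg 0 0 0 x0 x1 x2 y0 y1 y2 + Ml 0 0 0 y0 y1 y2 * (Ml_eval_0_0_0 x0 x1 x2 hx) + ((6)) * (Ml_eval_0_0_0 y0 y1 y2 hy))

theorem exp_avgW1 (p0 p1 p2 : ℝ) :
    (3 * (p0 + p1 + p2) - 1) ^ 1 = ((-1) / 6) * Ml 0 0 0 p0 p1 p2 + ((3) / 2) * Ml 1 0 0 p0 p1 p2 := by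
  simp only [Ml]
  ring

theorem avgW1 (x0 x1 x2 y0 y1 y2 : ℝ) (hx : x2 = 1 - x0 - x1) (hy : y2 = 1 - y0 - y1) :
    (w3 x0 x1 x2 y0 y1 y2 ^ 1 + w3 x0 x1 x2 y0 y2 y1 ^ 1 + w3 x0 x1 x2 y1 y0 y2 ^ 1 + w3 x0 x1 x2 y1 y2 y0 ^ 1 + w3 x0 x1 x2 y2 y0 y1 ^ 1 + w3 x0 x1 x2 y2 y1 y0 ^ 1) / 6 = 0 := by
  have e0 : w3 x0 x1 x2 y0 y1 y2 ^ 1 = _ := exp_avgW1 (x0 * y0) (x1 * y1) (x2 * y2)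
  have e1 : w3 x0 x1 x2 y0 y2 y1 ^ 1 = _ := exp_avgW1 (x0 * y0) (x1 * y2) (x2 * y1)
  have e2 : w3 x0 x1 x2 y1 y0 y2 ^ 1 = _ := exp_avgW1 (x0 * y1) (x1 * y0) (x2 * y2)
  have e3 : w3 x0 x1 x2 y1 y2 y0 ^ 1 = _ := exp_avgW1 (x0 * y1) (x1 * y2) (x2 * y0)
  have e4 : w3 x0 x1 x2 y2 y0 y1 ^ 1 = _ := exp_avgW1 (x0 * y2) (x1 * y0) (x2 * y1)
  have e5 : w3 x0 x1 x2 y2 y1 y0 ^ 1 = _ := exp_avgW1 (x0 * y2) (x1 * y1) (x2 * y0)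
  rw [e0, e1, e2, e3, e4, e5]
  linear_combination
    ((-1) / 36) * (Ml_avg 0 0 0 x0 x1 x2 y0 y1 y2 + Ml 0 0 0 y0 y1 y2 * (Ml_eval_0_0_0 x0 x1 x2 hx) + ((6)) * (Ml_eval_0_0_0 y0 y1 y2 hy))
    + ((1) / 4) * (Ml_avg 1 0 0 x0 x1 x2 y0 y1 y2 + Ml 1 0 0 y0 y1 y2 * (Ml_eval_1_0_0 x0 x1 x2 hx) + ((2)) * (Ml_eval_1_0_0 y0 y1 y2 hy))

theorem exp_avgW2 (p0 p1 p2 : ℝ) :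
    (3 * (p0 + p1 + p2) - 1) ^ 2 = ((1) / 6) * Ml 0 0 0 p0 p1 p2 + (-3) * Ml 1 0 0 p0 p1 p2 + (9) * Ml 1 1 0 p0 p1 p2 + ((9) / 2) * Ml 2 0 0 p0 p1 p2 := by
  simp only [Ml]
  ring

theorem avgW2 (x0 x1 x2 y0 y1 y2 : ℝ) (hx : x2 = 1 - x0 - x1) (hy : y2 = 1 - y0 - y1) :
    (w3 x0 x1 x2 y0 y1 y2 ^ 2 + w3 x0 x1 x2 y0 y2 y1 ^ 2 + w3 x0 x1 x2 y1 y0 y2 ^ 2 + w3 x0 x1 x2 y1 y2 y0 ^ 2 + w3 x0 x1 x2 y2 y0 y1 ^ 2 + w3 x0 x1 x2 y2 y1 y0 ^ 2) / 6 = 2 * (aI x0 x1 x2) * (aI y0 y1 y2) := by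
  have e0 : w3 x0 x1 x2 y0 y1 y2 ^ 2 = _ := exp_avgW2 (x0 * y0) (x1 * y1) (x2 * y2)
  have e1 : w3 x0 x1 x2 y0 y2 y1 ^ 2 = _ := exp_avgW2 (x0 * y0) (x1 * y2) (x2 * y1)
  have e2 : w3 x0 x1 x2 y1 y0 y2 ^ 2 = _ := exp_avgW2 (x0 * y1) (x1 * y0) (x2 * y2)
  have e3 : w3 x0 x1 x2 y1 y2 y0 ^ 2 = _ := exp_avgW2 (x0 * y1) (x1 * y2) (x2 * y0)
  have e4 : w3 x0 x1 x2 y2 y0 y1 ^ 2 = _ := exp_avgW2 (x0 * y2) (x1 * y0) (x2 * y1)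
  have e5 : w3 x0 x1 x2 y2 y1 y0 ^ 2 = _ := exp_avgW2 (x0 * y2) (x1 * y1) (x2 * y0)
  rw [e0, e1, e2, e3, e4, e5]
  linear_combination
    ((1) / 36) * (Ml_avg 0 0 0 x0 x1 x2 y0 y1 y2 + Ml 0 0 0 y0 y1 y2 * (Ml_eval_0_0_0 x0 x1 x2 hx) + ((6)) * (Ml_eval_0_0_0 y0 y1 y2 hy))
    + ((-1) / 2) * (Ml_avg 1 0 0 x0 x1 x2 y0 y1 y2 + Ml 1 0 0 y0 y1 y2 * (Ml_eval_1_0_0 x0 x1 x2 hx) + ((2)) * (Ml_eval_1_0_0 y0 y1 y2 hy))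
    + ((3) / 2) * (Ml_avg 1 1 0 x0 x1 x2 y0 y1 y2 + Ml 1 1 0 y0 y1 y2 * (Ml_eval_1_1_0 x0 x1 x2 hx) + (((2) / 3) + ((-2) / 3) * (aI x0 x1 x2)) * (Ml_eval_1_1_0 y0 y1 y2 hy))
    + ((3) / 4) * (Ml_avg 2 0 0 x0 x1 x2 y0 y1 y2 + Ml 2 0 0 y0 y1 y2 * (Ml_eval_2_0_0 x0 x1 x2 hx) + (((2) / 3) + ((4) / 3) * (aI x0 x1 x2)) * (Ml_eval_2_0_0 y0 y1 y2 hy))

theorem exp_avgW3 (p0 p1 p2 : ℝ) :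
    (3 * (p0 + p1 + p2) - 1) ^ 3 = ((-1) / 6) * Ml 0 0 0 p0 p1 p2 + ((9) / 2) * Ml 1 0 0 p0 p1 p2 + (-27) * Ml 1 1 0 p0 p1 p2 + (27) * Ml 1 1 1 p0 p1 p2 + ((-27) / 2) * Ml 2 0 0 p0 p1 p2 + (81) * Ml 2 1 0 p0 p1 p2 + ((27) / 2) * Ml 3 0 0 p0 p1 p2 := by
  simp only [Ml]
  ring

theorem avgW3 (x0 x1 x2 y0 y1 y2 : ℝ) (hx : x2 = 1 - x0 - x1) (hy : y2 = 1 - y0 - y1) :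
    (w3 x0 x1 x2 y0 y1 y2 ^ 3 + w3 x0 x1 x2 y0 y2 y1 ^ 3 + w3 x0 x1 x2 y1 y0 y2 ^ 3 + w3 x0 x1 x2 y1 y2 y0 ^ 3 + w3 x0 x1 x2 y2 y0 y1 ^ 3 + w3 x0 x1 x2 y2 y1 y0 ^ 3) / 6 = 2 * (cI x0 x1 x2) * (cI y0 y1 y2) := by
  have e0 : w3 x0 x1 x2 y0 y1 y2 ^ 3 = _ := exp_avgW3 (x0 * y0) (x1 * y1) (x2 * y2)
  have e1 : w3 x0 x1 x2 y0 y2 y1 ^ 3 = _ := exp_avgW3 (x0 * y0) (x1 * y2) (x2 * y1)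
  have e2 : w3 x0 x1 x2 y1 y0 y2 ^ 3 = _ := exp_avgW3 (x0 * y1) (x1 * y0) (x2 * y2)
  have e3 : w3 x0 x1 x2 y1 y2 y0 ^ 3 = _ := exp_avgW3 (x0 * y1) (x1 * y2) (x2 * y0)
  have e4 : w3 x0 x1 x2 y2 y0 y1 ^ 3 = _ := exp_avgW3 (x0 * y2) (x1 * y0) (x2 * y1)
  have e5 : w3 x0 x1 x2 y2 y1 y0 ^ 3 = _ := exp_avgW3 (x0 * y2) (x1 * y1) (x2 * y0)
  rw [e0, e1, e2, e3, e4, e5]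
  linear_combination
    ((-1) / 36) * (Ml_avg 0 0 0 x0 x1 x2 y0 y1 y2 + Ml 0 0 0 y0 y1 y2 * (Ml_eval_0_0_0 x0 x1 x2 hx) + ((6)) * (Ml_eval_0_0_0 y0 y1 y2 hy))
    + ((3) / 4) * (Ml_avg 1 0 0 x0 x1 x2 y0 y1 y2 + Ml 1 0 0 y0 y1 y2 * (Ml_eval_1_0_0 x0 x1 x2 hx) + ((2)) * (Ml_eval_1_0_0 y0 y1 y2 hy))
    + ((-9) / 2) * (Ml_avg 1 1 0 x0 x1 x2 y0 y1 y2 + Ml 1 1 0 y0 y1 y2 * (Ml_eval_1_1_0 x0 x1 x2 hx) + (((2) / 3) + ((-2) / 3) * (aI x0 x1 x2)) * (Ml_eval_1_1_0 y0 y1 y2 hy))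
    + ((9) / 2) * (Ml_avg 1 1 1 x0 x1 x2 y0 y1 y2 + Ml 1 1 1 y0 y1 y2 * (Ml_eval_1_1_1 x0 x1 x2 hx) + (((2) / 9) + ((4) / 9) * (cI x0 x1 x2) + ((-2) / 3) * (aI x0 x1 x2)) * (Ml_eval_1_1_1 y0 y1 y2 hy))
    + ((-9) / 4) * (Ml_avg 2 0 0 x0 x1 x2 y0 y1 y2 + Ml 2 0 0 y0 y1 y2 * (Ml_eval_2_0_0 x0 x1 x2 hx) + (((2) / 3) + ((4) / 3) * (aI x0 x1 x2)) * (Ml_eval_2_0_0 y0 y1 y2 hy))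
    + ((27) / 2) * (Ml_avg 2 1 0 x0 x1 x2 y0 y1 y2 + Ml 2 1 0 y0 y1 y2 * (Ml_eval_2_1_0 x0 x1 x2 hx) + (((2) / 9) + ((-2) / 9) * (cI x0 x1 x2)) * (Ml_eval_2_1_0 y0 y1 y2 hy))
    + ((9) / 4) * (Ml_avg 3 0 0 x0 x1 x2 y0 y1 y2 + Ml 3 0 0 y0 y1 y2 * (Ml_eval_3_0_0 x0 x1 x2 hx) + (((2) / 9) + ((4) / 9) * (cI x0 x1 x2) + ((4) / 3) * (aI x0 x1 x2)) * (Ml_eval_3_0_0 y0 y1 y2 hy))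

theorem exp_avgW4 (p0 p1 p2 : ℝ) :
    (3 * (p0 + p1 + p2) - 1) ^ 4 = ((1) / 6) * Ml 0 0 0 p0 p1 p2 + (-6) * Ml 1 0 0 p0 p1 p2 + (54) * Ml 1 1 0 p0 p1 p2 + (-108) * Ml 1 1 1 p0 p1 p2 + (27) * Ml 2 0 0 p0 p1 p2 + (-324) * Ml 2 1 0 p0 p1 p2 + (486) * Ml 2 1 1 p0 p1 p2 + (243) * Ml 2 2 0 p0 p1 p2 + (-54) * Ml 3 0 0 p0 p1 p2 + (324) * Ml 3 1 0 p0 p1 p2 + ((81) / 2) * Ml 4 0 0 p0 p1 p2 := by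
  simp only [Ml]
  ring

theorem avgW4 (x0 x1 x2 y0 y1 y2 : ℝ) (hx : x2 = 1 - x0 - x1) (hy : y2 = 1 - y0 - y1) :
    (w3 x0 x1 x2 y0 y1 y2 ^ 4 + w3 x0 x1 x2 y0 y2 y1 ^ 4 + w3 x0 x1 x2 y1 y0 y2 ^ 4 + w3 x0 x1 x2 y1 y2 y0 ^ 4 + w3 x0 x1 x2 y2 y0 y1 ^ 4 + w3 x0 x1 x2 y2 y1 y0 ^ 4) / 6 = 6 * (aI x0 x1 x2) ^ 2 * (aI y0 y1 y2) ^ 2 := by
  have e0 : w3 x0 x1 x2 y0 y1 y2 ^ 4 = _ := exp_avgW4 (x0 * y0) (x1 * y1) (x2 * y2)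
  have e1 : w3 x0 x1 x2 y0 y2 y1 ^ 4 = _ := exp_avgW4 (x0 * y0) (x1 * y2) (x2 * y1)
  have e2 : w3 x0 x1 x2 y1 y0 y2 ^ 4 = _ := exp_avgW4 (x0 * y1) (x1 * y0) (x2 * y2)
  have e3 : w3 x0 x1 x2 y1 y2 y0 ^ 4 = _ := exp_avgW4 (x0 * y1) (x1 * y2) (x2 * y0)
  have e4 : w3 x0 x1 x2 y2 y0 y1 ^ 4 = _ := exp_avgW4 (x0 * y2) (x1 * y0) (x2 * y1)
  have e5 : w3 x0 x1 x2 y2 y1 y0 ^ 4 = _ := exp_avgW4 (x0 * y2) (x1 * y1) (x2 * y0)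
  rw [e0, e1, e2, e3, e4, e5]
  linear_combination
    ((1) / 36) * (Ml_avg 0 0 0 x0 x1 x2 y0 y1 y2 + Ml 0 0 0 y0 y1 y2 * (Ml_eval_0_0_0 x0 x1 x2 hx) + ((6)) * (Ml_eval_0_0_0 y0 y1 y2 hy))
    + (-1) * (Ml_avg 1 0 0 x0 x1 x2 y0 y1 y2 + Ml 1 0 0 y0 y1 y2 * (Ml_eval_1_0_0 x0 x1 x2 hx) + ((2)) * (Ml_eval_1_0_0 y0 y1 y2 hy))
    + (9) * (Ml_avg 1 1 0 x0 x1 x2 y0 y1 y2 + Ml 1 1 0 y0 y1 y2 * (Ml_eval_1_1_0 x0 x1 x2 hx) + (((2) / 3) + ((-2) / 3) * (aI x0 x1 x2)) * (Ml_eval_1_1_0 y0 y1 y2 hy))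
    + (-18) * (Ml_avg 1 1 1 x0 x1 x2 y0 y1 y2 + Ml 1 1 1 y0 y1 y2 * (Ml_eval_1_1_1 x0 x1 x2 hx) + (((2) / 9) + ((4) / 9) * (cI x0 x1 x2) + ((-2) / 3) * (aI x0 x1 x2)) * (Ml_eval_1_1_1 y0 y1 y2 hy))
    + ((9) / 2) * (Ml_avg 2 0 0 x0 x1 x2 y0 y1 y2 + Ml 2 0 0 y0 y1 y2 * (Ml_eval_2_0_0 x0 x1 x2 hx) + (((2) / 3) + ((4) / 3) * (aI x0 x1 x2)) * (Ml_eval_2_0_0 y0 y1 y2 hy))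
    + (-54) * (Ml_avg 2 1 0 x0 x1 x2 y0 y1 y2 + Ml 2 1 0 y0 y1 y2 * (Ml_eval_2_1_0 x0 x1 x2 hx) + (((2) / 9) + ((-2) / 9) * (cI x0 x1 x2)) * (Ml_eval_2_1_0 y0 y1 y2 hy))
    + (81) * (Ml_avg 2 1 1 x0 x1 x2 y0 y1 y2 + Ml 2 1 1 y0 y1 y2 * (Ml_eval_2_1_1 x0 x1 x2 hx) + (((2) / 27) + ((4) / 27) * (cI x0 x1 x2) + ((-2) / 9) * (aI x0 x1 x2)) * (Ml_eval_2_1_1 y0 y1 y2 hy))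
    + ((81) / 2) * (Ml_avg 2 2 0 x0 x1 x2 y0 y1 y2 + Ml 2 2 0 y0 y1 y2 * (Ml_eval_2_2_0 x0 x1 x2 hx) + (((2) / 27) + ((-8) / 27) * (cI x0 x1 x2) + ((2) / 9) * (aI x0 x1 x2) ^ 2) * (Ml_eval_2_2_0 y0 y1 y2 hy))
    + (-9) * (Ml_avg 3 0 0 x0 x1 x2 y0 y1 y2 + Ml 3 0 0 y0 y1 y2 * (Ml_eval_3_0_0 x0 x1 x2 hx) + (((2) / 9) + ((4) / 9) * (cI x0 x1 x2) + ((4) / 3) * (aI x0 x1 x2)) * (Ml_eval_3_0_0 y0 y1 y2 hy))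
    + (54) * (Ml_avg 3 1 0 x0 x1 x2 y0 y1 y2 + Ml 3 1 0 y0 y1 y2 * (Ml_eval_3_1_0 x0 x1 x2 hx) + (((2) / 27) + ((-2) / 27) * (cI x0 x1 x2) + ((2) / 9) * (aI x0 x1 x2) + ((-2) / 9) * (aI x0 x1 x2) ^ 2) * (Ml_eval_3_1_0 y0 y1 y2 hy))
    + ((27) / 4) * (Ml_avg 4 0 0 x0 x1 x2 y0 y1 y2 + Ml 4 0 0 y0 y1 y2 * (Ml_eval_4_0_0 x0 x1 x2 hx) + (((2) / 27) + ((16) / 27) * (cI x0 x1 x2) + ((8) / 9) * (aI x0 x1 x2) + ((4) / 9) * (aI x0 x1 x2) ^ 2) * (Ml_eval_4_0_0 y0 y1 y2 hy))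

theorem exp_avgN0 (p0 p1 p2 : ℝ) :
    (27 * (p0 * p1 + p0 * p2 + p1 * p2)) ^ 2 * (3 * (p0 + p1 + p2) - 1) ^ 0 = (729) * Ml 2 1 1 p0 p1 p2 + ((729) / 2) * Ml 2 2 0 p0 p1 p2 := by
  simp only [Ml]
  ring

theorem avgN0 (x0 x1 x2 y0 y1 y2 : ℝ) (hx : x2 = 1 - x0 - x1) (hy : y2 = 1 - y0 - y1) :
    (nu3 x0 x1 x2 y0 y1 y2 ^ 2 * w3 x0 x1 x2 y0 y1 y2 ^ 0 + nu3 x0 x1 x2 y0 y2 y1 ^ 2 * w3 x0 x1 x2 y0 y2 y1 ^ 0 + nu3 x0 x1 x2 y1 y0 y2 ^ 2 * w3 x0 x1 x2 y1 y0 y2 ^ 0 + nu3 x0 x1 x2 y1 y2 y0 ^ 2 * w3 x0 x1 x2 y1 y2 y0 ^ 0 + nu3 x0 x1 x2 y2 y0 y1 ^ 2 * w3 x0 x1 x2 y2 y0 y1 ^ 0 + nu3 x0 x1 x2 y2 y1 y0 ^ 2 * w3 x0 x1 x2 y2 y1 y0 ^ 0) / 6 = 1 + (-2) * (aI y0 y1 y2) + 1 * (aI y0 y1 y2) ^ 2 + 8 * (cI x0 x1 x2) * (cI y0 y1 y2) + (-4) *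 (cI x0 x1 x2) * (aI y0 y1 y2) + (-4) * (cI x0 x1 x2) * (aI y0 y1 y2) ^ 2 + (-2) * (aI x0 x1 x2) + (-4) * (aI x0 x1 x2) * (cI y0 y1 y2) + 6 * (aI x0 x1 x2) * (aI y0 y1 y2) + 1 * (aI x0 x1 x2) ^ 2 + (-4) * (aI x0 x1 x2) ^ 2 * (cI y0 y1 y2) + 3 * (aI x0 x1 x2) ^ 2 * (aI y0 y1 y2) ^ 2 := by
  have e0 : nu3 x0 x1 x2 y0 y1 y2 ^ 2 * w3 x0 x1 x2 y0 y1 y2 ^ 0 = _ := exp_avgN0 (x0 * y0) (x1 * y1) (x2 * y2)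
  have e1 : nu3 x0 x1 x2 y0 y2 y1 ^ 2 * w3 x0 x1 x2 y0 y2 y1 ^ 0 = _ := exp_avgN0 (x0 * y0) (x1 * y2) (x2 * y1)
  have e2 : nu3 x0 x1 x2 y1 y0 y2 ^ 2 * w3 x0 x1 x2 y1 y0 y2 ^ 0 = _ := exp_avgN0 (x0 * y1) (x1 * y0) (x2 * y2)
  have e3 : nu3 x0 x1 x2 y1 y2 y0 ^ 2 * w3 x0 x1 x2 y1 y2 y0 ^ 0 = _ := exp_avgN0 (x0 * y1) (x1 * y2) (x2 * y0)
  have e4 : nu3 x0 x1 x2 y2 y0 y1 ^ 2 * w3 x0 x1 x2 y2 y0 y1 ^ 0 = _ := exp_avgN0 (x0 * y2) (x1 * y0) (x2 * y1)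
  have e5 : nu3 x0 x1 x2 y2 y1 y0 ^ 2 * w3 x0 x1 x2 y2 y1 y0 ^ 0 = _ := exp_avgN0 (x0 * y2) (x1 * y1) (x2 * y0)
  rw [e0, e1, e2, e3, e4, e5]
  linear_combination
    ((243) / 2) * (Ml_avg 2 1 1 x0 x1 x2 y0 y1 y2 + Ml 2 1 1 y0 y1 y2 * (Ml_eval_2_1_1 x0 x1 x2 hx) + (((2) / 27) + ((4) / 27) * (cI x0 x1 x2) + ((-2) / 9) * (aI x0 x1 x2)) * (Ml_eval_2_1_1 y0 y1 y2 hy))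
    + ((243) / 4) * (Ml_avg 2 2 0 x0 x1 x2 y0 y1 y2 + Ml 2 2 0 y0 y1 y2 * (Ml_eval_2_2_0 x0 x1 x2 hx) + (((2) / 27) + ((-8) / 27) * (cI x0 x1 x2) + ((2) / 9) * (aI x0 x1 x2) ^ 2) * (Ml_eval_2_2_0 y0 y1 y2 hy))

theorem exp_avgN1 (p0 p1 p2 : ℝ) :
    (27 * (p0 * p1 + p0 * p2 + p1 * p2)) ^ 2 * (3 * (p0 + p1 + p2) - 1) ^ 1 = (-729) * Ml 2 1 1 p0 p1 p2 + ((-729) / 2) * Ml 2 2 0 p0 p1 p2 + ((10935) / 2) * Ml 2 2 1 p0 p1 p2 + (2187) * Ml 3 1 1 p0 p1 p2 + (2187) * Ml 3 2 0 p0 p1 p2 := by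
  simp only [Ml]
  ring

theorem avgN1 (x0 x1 x2 y0 y1 y2 : ℝ) (hx : x2 = 1 - x0 - x1) (hy : y2 = 1 - y0 - y1) :
    (nu3 x0 x1 x2 y0 y1 y2 ^ 2 * w3 x0 x1 x2 y0 y1 y2 ^ 1 + nu3 x0 x1 x2 y0 y2 y1 ^ 2 * w3 x0 x1 x2 y0 y2 y1 ^ 1 + nu3 x0 x1 x2 y1 y0 y2 ^ 2 * w3 x0 x1 x2 y1 y0 y2 ^ 1 + nu3 x0 x1 x2 y1 y2 y0 ^ 2 * w3 x0 x1 x2 y1 y2 y0 ^ 1 + nu3 x0 x1 x2 y2 y0 y1 ^ 2 * w3 x0 x1 x2 y2 y0 y1 ^ 1 + nu3 x0 x1 x2 y2 y1 y0 ^ 2 * w3 x0 x1 x2 y2 y1 y0 ^ 1) / 6 = 6 * (cI x0 x1 x2) * (cI y0 y1 y2) + (-4) * (cI x0 x1 x2) * (aI y0 y1 y2) + (-2) * (cI x0 x1 x2) * (aI y0 y1 y2) * (cI y0 y1 y2) + (-4) * (aI x0 x1 x2) * (cI y0 y1 y2) + 4 * (aI x0 x1 x2) * (aI y0 y1 y2) + 4 * (aI x0 x1 x2) * (aI y0 y1 y2) * (cI y0 y1 y2) + (-4) * (aI x0 x1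 x2) * (aI y0 y1 y2) ^ 2 + (-2) * (aI x0 x1 x2) * (cI x0 x1 x2) * (cI y0 y1 y2) + 4 * (aI x0 x1 x2) * (cI x0 x1 x2) * (aI y0 y1 y2) + 6 * (aI x0 x1 x2) * (cI x0 x1 x2) * (aI y0 y1 y2) * (cI y0 y1 y2) + (-8) * (aI x0 x1 x2) * (cI x0 x1 x2) * (aI y0 y1 y2) ^ 2 + (-4) * (aI x0 x1 x2) ^ 2 * (aI y0 y1 y2) + (-8) * (aI x0 x1 x2) ^ 2 * (aI y0 y1 y2) * (cI y0 y1 y2) + 12 * (aI x0 x1 x2) ^ 2 * (aI y0 y1 y2) ^ 2 := by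
  have e0 : nu3 x0 x1 x2 y0 y1 y2 ^ 2 * w3 x0 x1 x2 y0 y1 y2 ^ 1 = _ := exp_avgN1 (x0 * y0) (x1 * y1) (x2 * y2)
  have e1 : nu3 x0 x1 x2 y0 y2 y1 ^ 2 * w3 x0 x1 x2 y0 y2 y1 ^ 1 = _ := exp_avgN1 (x0 * y0) (x1 * y2) (x2 * y1)
  have e2 : nu3 x0 x1 x2 y1 y0 y2 ^ 2 * w3 x0 x1 x2 y1 y0 y2 ^ 1 = _ := exp_avgN1 (x0 * y1) (x1 * y0) (x2 * y2)
  have e3 : nu3 x0 x1 x2 y1 y2 y0 ^ 2 * w3 x0 x1 x2 y1 y2 y0 ^ 1 = _ := exp_avgN1 (x0 * y1) (x1 * y2) (x2 * y0)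
  have e4 : nu3 x0 x1 x2 y2 y0 y1 ^ 2 * w3 x0 x1 x2 y2 y0 y1 ^ 1 = _ := exp_avgN1 (x0 * y2) (x1 * y0) (x2 * y1)
  have e5 : nu3 x0 x1 x2 y2 y1 y0 ^ 2 * w3 x0 x1 x2 y2 y1 y0 ^ 1 = _ := exp_avgN1 (x0 * y2) (x1 * y1) (x2 * y0)
  rw [e0, e1, e2, e3, e4, e5]
  linear_combination
    ((-243) / 2) * (Ml_avg 2 1 1 x0 x1 x2 y0 y1 y2 + Ml 2 1 1 y0 y1 y2 * (Ml_eval_2_1_1 x0 x1 x2 hx) + (((2) / 27) + ((4) / 27) * (cI x0 x1 x2) + ((-2) / 9) * (aI x0 x1 x2)) * (Ml_eval_2_1_1 y0 y1 y2 hy))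
    + ((-243) / 4) * (Ml_avg 2 2 0 x0 x1 x2 y0 y1 y2 + Ml 2 2 0 y0 y1 y2 * (Ml_eval_2_2_0 x0 x1 x2 hx) + (((2) / 27) + ((-8) / 27) * (cI x0 x1 x2) + ((2) / 9) * (aI x0 x1 x2) ^ 2) * (Ml_eval_2_2_0 y0 y1 y2 hy))
    + ((3645) / 4) * (Ml_avg 2 2 1 x0 x1 x2 y0 y1 y2 + Ml 2 2 1 y0 y1 y2 * (Ml_eval_2_2_1 x0 x1 x2 hx) + (((2) / 81) + ((4) / 81) * (cI x0 x1 x2) + ((-8) / 81) * (aI x0 x1 x2) + ((-4) / 81) * (aI x0 x1 x2) * (cI x0 x1 x2) + ((2) / 27) * (aI x0 x1 x2) ^ 2) * (Ml_eval_2_2_1 y0 y1 y2 hy))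
    + ((729) / 2) * (Ml_avg 3 1 1 x0 x1 x2 y0 y1 y2 + Ml 3 1 1 y0 y1 y2 * (Ml_eval_3_1_1 x0 x1 x2 hx) + (((2) / 81) + ((4) / 81) * (cI x0 x1 x2) + ((-2) / 81) * (aI x0 x1 x2) + ((8) / 81) * (aI x0 x1 x2) * (cI x0 x1 x2) + ((-4) / 27) * (aI x0 x1 x2) ^ 2) * (Ml_eval_3_1_1 y0 y1 y2 hy))
    + ((729) / 2) * (Ml_avg 3 2 0 x0 x1 x2 y0 y1 y2 + Ml 3 2 0 y0 y1 y2 * (Ml_eval_3_2_0 x0 x1 x2 hx) + (((2) / 81) + ((-14) / 81) * (cI x0 x1 x2) + ((4) / 81) * (aI x0 x1 x2) + ((2) / 81) * (aI x0 x1 x2) * (cI x0 x1 x2) + ((2) / 27) * (aI x0 x1 x2) ^ 2) * (Ml_eval_3_2_0 y0 y1 y2 hy))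

theorem exp_avgN2 (p0 p1 p2 : ℝ) :
    (27 * (p0 * p1 + p0 * p2 + p1 * p2)) ^ 2 * (3 * (p0 + p1 + p2) - 1) ^ 2 = (729) * Ml 2 1 1 p0 p1 p2 + ((729) / 2) * Ml 2 2 0 p0 p1 p2 + (-10935) * Ml 2 2 1 p0 p1 p2 + ((32805) / 2) * Ml 2 2 2 p0 p1 p2 + (-4374) * Ml 3 1 1 p0 p1 p2 + (-4374) * Ml 3 2 0 p0 p1 p2 + (52488) * Ml 3 2 1 p0 p1 p2 + (6561) * Ml 3 3 0 p0 p1 p2 + (6561) * Ml 4 1 1 p0 p1 p2 + (6561) * Ml 4 2 0 p0 p1 p2 := by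
  simp only [Ml]
  ring

theorem avgN2 (x0 x1 x2 y0 y1 y2 : ℝ) (hx : x2 = 1 - x0 - x1) (hy : y2 = 1 - y0 - y1) :
    (nu3 x0 x1 x2 y0 y1 y2 ^ 2 * w3 x0 x1 x2 y0 y1 y2 ^ 2 + nu3 x0 x1 x2 y0 y2 y1 ^ 2 * w3 x0 x1 x2 y0 y2 y1 ^ 2 + nu3 x0 x1 x2 y1 y0 y2 ^ 2 * w3 x0 x1 x2 y1 y0 y2 ^ 2 + nu3 x0 x1 x2 y1 y2 y0 ^ 2 * w3 x0 x1 x2 y1 y2 y0 ^ 2 + nu3 x0 x1 x2 y2 y0 y1 ^ 2 * w3 x0 x1 x2 y2 y0 y1 ^ 2 + nu3 x0 x1 x2 y2 y1 y0 ^ 2 * w3 x0 x1 x2 y2 y1 y0 ^ 2) / 6 = 4 * (cI x0 x1 x2) * (cI y0 y1 y2) + (-4) * (cI x0 x1 x2) * (aI y0 y1 y2) * (cI y0 y1 y2) + (-4) * (cI x0 x1 x2) * (aI y0 y1 y2) ^ 2 + 4 * (cI x0 x1 x2) * (aI y0 y1 y2) ^ 3 + 8 * (cI x0 x1 x2) ^ 2 * (cI y0 y1 y2) ^ 2 + (-8) * (cI x0 x1 x2) ^ 2 * (aI y0 y1 y2) * (cI y0 y1 y2)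 + 4 * (cI x0 x1 x2) ^ 2 * (aI y0 y1 y2) ^ 2 + (-4) * (cI x0 x1 x2) ^ 2 * (aI y0 y1 y2) ^ 3 + 2 * (aI x0 x1 x2) * (aI y0 y1 y2) + (-4) * (aI x0 x1 x2) * (aI y0 y1 y2) ^ 2 + 2 * (aI x0 x1 x2) * (aI y0 y1 y2) ^ 3 + (-4) * (aI x0 x1 x2) * (cI x0 x1 x2) * (cI y0 y1 y2) + (-8) * (aI x0 x1 x2) * (cI x0 x1 x2) * (cI y0 y1 y2) ^ 2 + 28 * (aI x0 x1 x2) * (cI x0 x1 x2) * (aI y0 y1 y2) * (cI y0 y1 y2) + (-8) * (aI x0 x1 x2) * (cI x0 x1 x2) * (aI y0 y1 y2) ^ 2 + (-8) * (aI x0 x1 x2) * (cI x0 x1 x2) * (aI y0 y1 y2) ^ 3 + (-4) * (aI x0 x1 x2) ^ 2 * (cI y0 y1 y2) + 4 * (aI x0 x1 x2) ^ 2 * (cI y0 y1 y2) ^ 2 + (-4) * (aI x0 x1 x2) ^ 2 * (aI y0 y1 y2) + (-8) * (aI x0 x1 x2) ^ 2 * (aI y0 y1 y2) * (cI y0 y1 y2) + 18 * (aI x0 x1 x2) ^ 2 *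 (aI y0 y1 y2) ^ 2 + (-6) * (aI x0 x1 x2) ^ 2 * (aI y0 y1 y2) ^ 3 + 4 * (aI x0 x1 x2) ^ 3 * (cI y0 y1 y2) + (-4) * (aI x0 x1 x2) ^ 3 * (cI y0 y1 y2) ^ 2 + 2 * (aI x0 x1 x2) ^ 3 * (aI y0 y1 y2) + (-8) * (aI x0 x1 x2) ^ 3 * (aI y0 y1 y2) * (cI y0 y1 y2) + (-6) * (aI x0 x1 x2) ^ 3 * (aI y0 y1 y2) ^ 2 + 12 * (aI x0 x1 x2) ^ 3 * (aI y0 y1 y2) ^ 3 := by
  have e0 : nu3 x0 x1 x2 y0 y1 y2 ^ 2 * w3 x0 x1 x2 y0 y1 y2 ^ 2 = _ := exp_avgN2 (x0 * y0) (x1 * y1) (x2 * y2)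
  have e1 : nu3 x0 x1 x2 y0 y2 y1 ^ 2 * w3 x0 x1 x2 y0 y2 y1 ^ 2 = _ := exp_avgN2 (x0 * y0) (x1 * y2) (x2 * y1)
  have e2 : nu3 x0 x1 x2 y1 y0 y2 ^ 2 * w3 x0 x1 x2 y1 y0 y2 ^ 2 = _ := exp_avgN2 (x0 * y1) (x1 * y0) (x2 * y2)
  have e3 : nu3 x0 x1 x2 y1 y2 y0 ^ 2 * w3 x0 x1 x2 y1 y2 y0 ^ 2 = _ := exp_avgN2 (x0 * y1) (x1 * y2) (x2 * y0)
  have e4 : nu3 x0 x1 x2 y2 y0 y1 ^ 2 * w3 x0 x1 x2 y2 y0 y1 ^ 2 = _ := exp_avgN2 (x0 * y2) (x1 * y0) (x2 * y1)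
  have e5 : nu3 x0 x1 x2 y2 y1 y0 ^ 2 * w3 x0 x1 x2 y2 y1 y0 ^ 2 = _ := exp_avgN2 (x0 * y2) (x1 * y1) (x2 * y0)
  rw [e0, e1, e2, e3, e4, e5]
  linear_combination
    ((243) / 2) * (Ml_avg 2 1 1 x0 x1 x2 y0 y1 y2 + Ml 2 1 1 y0 y1 y2 * (Ml_eval_2_1_1 x0 x1 x2 hx) + (((2) / 27) + ((4) / 27) * (cI x0 x1 x2) + ((-2) / 9) * (aI x0 x1 x2)) * (Ml_eval_2_1_1 y0 y1 y2 hy))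
    + ((243) / 4) * (Ml_avg 2 2 0 x0 x1 x2 y0 y1 y2 + Ml 2 2 0 y0 y1 y2 * (Ml_eval_2_2_0 x0 x1 x2 hx) + (((2) / 27) + ((-8) / 27) * (cI x0 x1 x2) + ((2) / 9) * (aI x0 x1 x2) ^ 2) * (Ml_eval_2_2_0 y0 y1 y2 hy))
    + ((-3645) / 2) * (Ml_avg 2 2 1 x0 x1 x2 y0 y1 y2 + Ml 2 2 1 y0 y1 y2 * (Ml_eval_2_2_1 x0 x1 x2 hx) + (((2) / 81) + ((4) / 81) * (cI x0 x1 x2) + ((-8) / 81) * (aI x0 x1 x2) + ((-4) / 81) * (aI x0 x1 x2) * (cI x0 x1 x2) + ((2) / 27) * (aI x0 x1 x2) ^ 2) * (Ml_eval_2_2_1 y0 y1 y2 hy))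
    + ((10935) / 4) * (Ml_avg 2 2 2 x0 x1 x2 y0 y1 y2 + Ml 2 2 2 y0 y1 y2 * (Ml_eval_2_2_2 x0 x1 x2 hx) + (((2) / 243) + ((8) / 243) * (cI x0 x1 x2) + ((8) / 243) * (cI x0 x1 x2) ^ 2 + ((-4) / 81) * (aI x0 x1 x2) + ((-8) / 81) * (aI x0 x1 x2) * (cI x0 x1 x2) + ((2) / 27) * (aI x0 x1 x2) ^ 2) * (Ml_eval_2_2_2 y0 y1 y2 hy))
    + (-729) * (Ml_avg 3 1 1 x0 x1 x2 y0 y1 y2 + Ml 3 1 1 y0 y1 y2 * (Ml_eval_3_1_1 x0 x1 x2 hx) + (((2) / 81) + ((4) / 81) * (cI x0 x1 x2) + ((-2) / 81) * (aI x0 x1 x2) + ((8) / 81) * (aI x0 x1 x2) * (cI x0 x1 x2) + ((-4) / 27) * (aI x0 x1 x2) ^ 2) * (Ml_eval_3_1_1 y0 y1 y2 hy))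
    + (-729) * (Ml_avg 3 2 0 x0 x1 x2 y0 y1 y2 + Ml 3 2 0 y0 y1 y2 * (Ml_eval_3_2_0 x0 x1 x2 hx) + (((2) / 81) + ((-14) / 81) * (cI x0 x1 x2) + ((4) / 81) * (aI x0 x1 x2) + ((2) / 81) * (aI x0 x1 x2) * (cI x0 x1 x2) + ((2) / 27) * (aI x0 x1 x2) ^ 2) * (Ml_eval_3_2_0 y0 y1 y2 hy))
    + (8748) * (Ml_avg 3 2 1 x0 x1 x2 y0 y1 y2 + Ml 3 2 1 y0 y1 y2 * (Ml_eval_3_2_1 x0 x1 x2 hx) + (((2) / 243) + ((2) / 243) * (cI x0 x1 x2) + ((-4) / 243) * (cI x0 x1 x2) ^ 2 + ((-2) / 81) * (aI x0 x1 x2) + ((2) / 81) * (aI x0 x1 x2) * (cI x0 x1 x2)) * (Ml_eval_3_2_1 y0 y1 y2 hy))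
    + ((2187) / 2) * (Ml_avg 3 3 0 x0 x1 x2 y0 y1 y2 + Ml 3 3 0 y0 y1 y2 * (Ml_eval_3_3_0 x0 x1 x2 hx) + (((2) / 243) + ((-28) / 243) * (cI x0 x1 x2) + ((8) / 243) * (cI x0 x1 x2) ^ 2 + ((2) / 81) * (aI x0 x1 x2) + ((4) / 81) * (aI x0 x1 x2) * (cI x0 x1 x2) + ((2) / 27) * (aI x0 x1 x2) ^ 2 + ((-2) / 27) * (aI x0 x1 x2) ^ 3) * (Ml_eval_3_3_0 y0 y1 y2 hy))
    + ((2187) / 2) * (Ml_avg 4 1 1 x0 x1 x2 y0 y1 y2 + Ml 4 1 1 y0 y1 y2 * (Ml_eval_4_1_1 x0 x1 x2 hx) + (((2) / 243) + ((8) / 243) * (cI x0 x1 x2) + ((8) / 243) * (cI x0 x1 x2) ^ 2 + ((2) / 81) * (aI x0 x1 x2) + ((4) / 81) * (aI x0 x1 x2) * (cI x0 x1 x2) + ((-4) / 27) * (aI x0 x1 x2) ^ 2) * (Ml_eval_4_1_1 y0 y1 y2 hy))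
    + ((2187) / 2) * (Ml_avg 4 2 0 x0 x1 x2 y0 y1 y2 + Ml 4 2 0 y0 y1 y2 * (Ml_eval_4_2_0 x0 x1 x2 hx) + (((2) / 243) + ((-16) / 243) * (cI x0 x1 x2) + ((-4) / 243) * (cI x0 x1 x2) ^ 2 + ((4) / 81) * (aI x0 x1 x2) + ((-4) / 81) * (aI x0 x1 x2) * (cI x0 x1 x2) + ((2) / 27) * (aI x0 x1 x2) ^ 3) * (Ml_eval_4_2_0 y0 y1 y2 hy))

theorem exp_avgN3 (p0 p1 p2 : ℝ) :
    (27 * (p0 * p1 + p0 * p2 + p1 * p2)) ^ 2 * (3 * (p0 + p1 + p2) - 1) ^ 3 = (-729) * Ml 2 1 1 p0 p1 p2 + ((-729) / 2) * Ml 2 2 0 p0 p1 p2 + ((32805) / 2) * Ml 2 2 1 p0 p1 p2 + ((-98415) / 2) * Ml 2 2 2 p0 p1 p2 + (6561) * Ml 3 1 1 p0 p1 p2 + (6561) * Ml 3 2 0 p0 p1 p2 + (-157464) * Ml 3 2 1 p0 p1 p2 + ((610173) / 2) * Ml 3 2 2 p0 p1 p2 + (-19683) * Ml 3 3 0 p0 p1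 p2 + (177147) * Ml 3 3 1 p0 p1 p2 + (-19683) * Ml 4 1 1 p0 p1 p2 + (-19683) * Ml 4 2 0 p0 p1 p2 + (216513) * Ml 4 2 1 p0 p1 p2 + (59049) * Ml 4 3 0 p0 p1 p2 + (19683) * Ml 5 1 1 p0 p1 p2 + (19683) * Ml 5 2 0 p0 p1 p2 := by
  simp only [Ml]
  ring

theorem avgN3 (x0 x1 x2 y0 y1 y2 : ℝ) (hx : x2 = 1 - x0 - x1) (hy : y2 = 1 - y0 - y1) :
    (nu3 x0 x1 x2 y0 y1 y2 ^ 2 * w3 x0 x1 x2 y0 y1 y2 ^ 3 + nu3 x0 x1 x2 y0 y2 y1 ^ 2 * w3 x0 x1 x2 y0 y2 y1 ^ 3 + nu3 x0 x1 x2 y1 y0 y2 ^ 2 * w3 x0 x1 x2 y1 y0 y2 ^ 3 + nu3 x0 x1 x2 y1 y2 y0 ^ 2 * w3 x0 x1 x2 y1 y2 y0 ^ 3 + nu3 x0 x1 x2 y2 y0 y1 ^ 2 * w3 x0 x1 x2 y2 y0 y1 ^ 3 + nu3 x0 x1 x2 y2 y1 y0 ^ 2 * w3 x0 x1 x2 y2 y1 y0 ^ 3) / 6 = 2 * (cI x0 x1 x2) * (cI y0 y1 y2) + (-4) * (cI x0 x1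 x2) * (aI y0 y1 y2) * (cI y0 y1 y2) + 2 * (cI x0 x1 x2) * (aI y0 y1 y2) ^ 2 * (cI y0 y1 y2) + 16 * (cI x0 x1 x2) ^ 2 * (cI y0 y1 y2) ^ 2 + (-8) * (cI x0 x1 x2) ^ 2 * (aI y0 y1 y2) * (cI y0 y1 y2) + (-8) * (cI x0 x1 x2) ^ 2 * (aI y0 y1 y2) ^ 2 * (cI y0 y1 y2) + (-4) * (aI x0 x1 x2) * (cI x0 x1 x2) * (cI y0 y1 y2) + (-8) * (aI x0 x1 x2) * (cI x0 x1 x2) * (cI y0 y1 y2) ^ 2 + 30 * (aI x0 x1 x2) * (cI x0 x1 x2) * (aI y0 y1 y2) * (cI y0 y1 y2) + (-12) * (aI x0 x1 x2) * (cI x0 x1 x2) * (aI y0 y1 y2) ^ 2 + (-6) * (aI x0 x1 x2) * (cI x0 x1 x2) * (aI y0 y1 y2) ^ 2 * (cI y0 y1 y2) + (-12) * (aI x0 x1 x2) ^ 2 * (aI y0 y1 y2) * (cI y0 y1 y2) + 12 * (aI x0 x1 x2) ^ 2 * (aI y0 y1 y2) ^ 2 + 12 * (aI x0 x1 x2) ^ 2 * (aI y0 y1 y2) ^ 2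 * (cI y0 y1 y2) + (-12) * (aI x0 x1 x2) ^ 2 * (aI y0 y1 y2) ^ 3 + 2 * (aI x0 x1 x2) ^ 2 * (cI x0 x1 x2) * (cI y0 y1 y2) + (-8) * (aI x0 x1 x2) ^ 2 * (cI x0 x1 x2) * (cI y0 y1 y2) ^ 2 + (-6) * (aI x0 x1 x2) ^ 2 * (cI x0 x1 x2) * (aI y0 y1 y2) * (cI y0 y1 y2) + 12 * (aI x0 x1 x2) ^ 2 * (cI x0 x1 x2) * (aI y0 y1 y2) ^ 2 + 24 * (aI x0 x1 x2) ^ 2 * (cI x0 x1 x2) * (aI y0 y1 y2) ^ 2 * (cI y0 y1 y2) + (-24) * (aI x0 x1 x2) ^ 2 * (cI x0 x1 x2) * (aI y0 y1 y2) ^ 3 + (-12) * (aI x0 x1 x2) ^ 3 * (aI y0 y1 y2) ^ 2 + (-24) * (aI x0 x1 x2) ^ 3 * (aI y0 y1 y2) ^ 2 * (cI y0 y1 y2) + 36 * (aI x0 x1 x2) ^ 3 * (aI y0 y1 y2) ^ 3 := by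
  have e0 : nu3 x0 x1 x2 y0 y1 y2 ^ 2 * w3 x0 x1 x2 y0 y1 y2 ^ 3 = _ := exp_avgN3 (x0 * y0) (x1 * y1) (x2 * y2)
  have e1 : nu3 x0 x1 x2 y0 y2 y1 ^ 2 * w3 x0 x1 x2 y0 y2 y1 ^ 3 = _ := exp_avgN3 (x0 * y0) (x1 * y2) (x2 * y1)
  have e2 : nu3 x0 x1 x2 y1 y0 y2 ^ 2 * w3 x0 x1 x2 y1 y0 y2 ^ 3 = _ := exp_avgN3 (x0 * y1) (x1 * y0) (x2 * y2)
  have e3 : nu3 x0 x1 x2 y1 y2 y0 ^ 2 * w3 x0 x1 x2 y1 y2 y0 ^ 3 = _ := exp_avgN3 (x0 * y1) (x1 * y2) (x2 * y0)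
  have e4 : nu3 x0 x1 x2 y2 y0 y1 ^ 2 * w3 x0 x1 x2 y2 y0 y1 ^ 3 = _ := exp_avgN3 (x0 * y2) (x1 * y0) (x2 * y1)
  have e5 : nu3 x0 x1 x2 y2 y1 y0 ^ 2 * w3 x0 x1 x2 y2 y1 y0 ^ 3 = _ := exp_avgN3 (x0 * y2) (x1 * y1) (x2 * y0)
  rw [e0, e1, e2, e3, e4, e5]
  linear_combination
    ((-243) / 2) * (Ml_avg 2 1 1 x0 x1 x2 y0 y1 y2 + Ml 2 1 1 y0 y1 y2 * (Ml_eval_2_1_1 x0 x1 x2 hx) + (((2) / 27) + ((4) / 27) * (cI x0 x1 x2) + ((-2) / 9) * (aI x0 x1 x2)) * (Ml_eval_2_1_1 y0 y1 y2 hy))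
    + ((-243) / 4) * (Ml_avg 2 2 0 x0 x1 x2 y0 y1 y2 + Ml 2 2 0 y0 y1 y2 * (Ml_eval_2_2_0 x0 x1 x2 hx) + (((2) / 27) + ((-8) / 27) * (cI x0 x1 x2) + ((2) / 9) * (aI x0 x1 x2) ^ 2) * (Ml_eval_2_2_0 y0 y1 y2 hy))
    + ((10935) / 4) * (Ml_avg 2 2 1 x0 x1 x2 y0 y1 y2 + Ml 2 2 1 y0 y1 y2 * (Ml_eval_2_2_1 x0 x1 x2 hx) + (((2) / 81) + ((4) / 81) * (cI x0 x1 x2) + ((-8) / 81) * (aI x0 x1 x2) + ((-4) / 81) * (aI x0 x1 x2) * (cI x0 x1 x2) + ((2) / 27) * (aI x0 x1 x2) ^ 2) * (Ml_eval_2_2_1 y0 y1 y2 hy))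
    + ((-32805) / 4) * (Ml_avg 2 2 2 x0 x1 x2 y0 y1 y2 + Ml 2 2 2 y0 y1 y2 * (Ml_eval_2_2_2 x0 x1 x2 hx) + (((2) / 243) + ((8) / 243) * (cI x0 x1 x2) + ((8) / 243) * (cI x0 x1 x2) ^ 2 + ((-4) / 81) * (aI x0 x1 x2) + ((-8) / 81) * (aI x0 x1 x2) * (cI x0 x1 x2) + ((2) / 27) * (aI x0 x1 x2) ^ 2) * (Ml_eval_2_2_2 y0 y1 y2 hy))
    + ((2187) / 2) * (Ml_avg 3 1 1 x0 x1 x2 y0 y1 y2 + Ml 3 1 1 y0 y1 y2 * (Ml_eval_3_1_1 x0 x1 x2 hx) + (((2) / 81) + ((4) / 81) * (cI x0 x1 x2) + ((-2) / 81) * (aI x0 x1 x2) + ((8) / 81) * (aI x0 x1 x2) * (cI x0 x1 x2) + ((-4) / 27) * (aI x0 x1 x2) ^ 2) * (Ml_eval_3_1_1 y0 y1 y2 hy))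
    + ((2187) / 2) * (Ml_avg 3 2 0 x0 x1 x2 y0 y1 y2 + Ml 3 2 0 y0 y1 y2 * (Ml_eval_3_2_0 x0 x1 x2 hx) + (((2) / 81) + ((-14) / 81) * (cI x0 x1 x2) + ((4) / 81) * (aI x0 x1 x2) + ((2) / 81) * (aI x0 x1 x2) * (cI x0 x1 x2) + ((2) / 27) * (aI x0 x1 x2) ^ 2) * (Ml_eval_3_2_0 y0 y1 y2 hy))
    + (-26244) * (Ml_avg 3 2 1 x0 x1 x2 y0 y1 y2 + Ml 3 2 1 y0 y1 y2 * (Ml_eval_3_2_1 x0 x1 x2 hx) + (((2) / 243) + ((2) / 243) * (cI x0 x1 x2) + ((-4) / 243) * (cI x0 x1 x2) ^ 2 + ((-2) / 81) * (aI x0 x1 x2) + ((2) / 81) * (aI x0 x1 x2) * (cI x0 x1 x2)) * (Ml_eval_3_2_1 y0 y1 y2 hy))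
    + ((203391) / 4) * (Ml_avg 3 2 2 x0 x1 x2 y0 y1 y2 + Ml 3 2 2 y0 y1 y2 * (Ml_eval_3_2_2 x0 x1 x2 hx) + (((2) / 729) + ((8) / 729) * (cI x0 x1 x2) + ((8) / 729) * (cI x0 x1 x2) ^ 2 + ((-4) / 243) * (aI x0 x1 x2) + ((-8) / 243) * (aI x0 x1 x2) * (cI x0 x1 x2) + ((2) / 81) * (aI x0 x1 x2) ^ 2) * (Ml_eval_3_2_2 y0 y1 y2 hy))
    + ((-6561) / 2) * (Ml_avg 3 3 0 x0 x1 x2 y0 y1 y2 + Ml 3 3 0 y0 y1 y2 * (Ml_eval_3_3_0 x0 x1 x2 hx) + (((2) / 243) + ((-28) / 243) * (cI x0 x1 x2) + ((8) / 243) * (cI x0 x1 x2) ^ 2 + ((2) / 81) * (aI x0 x1 x2) + ((4) / 81) * (aI x0 x1 x2) * (cI x0 x1 x2) + ((2) / 27) * (aI x0 x1 x2) ^ 2 + ((-2) / 27) * (aI x0 x1 x2) ^ 3) * (Ml_eval_3_3_0 y0 y1 y2 hy))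
    + ((59049) / 2) * (Ml_avg 3 3 1 x0 x1 x2 y0 y1 y2 + Ml 3 3 1 y0 y1 y2 * (Ml_eval_3_3_1 x0 x1 x2 hx) + (((2) / 729) + ((-4) / 729) * (cI x0 x1 x2) + ((-16) / 729) * (cI x0 x1 x2) ^ 2 + ((-2) / 243) * (aI x0 x1 x2) + ((8) / 243) * (aI x0 x1 x2) * (cI x0 x1 x2) + ((2) / 243) * (aI x0 x1 x2) ^ 2 + ((4) / 243) * (aI x0 x1 x2) ^ 2 * (cI x0 x1 x2) + ((-2) / 81) * (aI x0 x1 x2) ^ 3) * (Ml_eval_3_3_1 y0 y1 y2 hy))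
    + ((-6561) / 2) * (Ml_avg 4 1 1 x0 x1 x2 y0 y1 y2 + Ml 4 1 1 y0 y1 y2 * (Ml_eval_4_1_1 x0 x1 x2 hx) + (((2) / 243) + ((8) / 243) * (cI x0 x1 x2) + ((8) / 243) * (cI x0 x1 x2) ^ 2 + ((2) / 81) * (aI x0 x1 x2) + ((4) / 81) * (aI x0 x1 x2) * (cI x0 x1 x2) + ((-4) / 27) * (aI x0 x1 x2) ^ 2) * (Ml_eval_4_1_1 y0 y1 y2 hy))
    + ((-6561) / 2) * (Ml_avg 4 2 0 x0 x1 x2 y0 y1 y2 + Ml 4 2 0 y0 y1 y2 * (Ml_eval_4_2_0 x0 x1 x2 hx) + (((2) / 243) + ((-16) / 243) * (cI x0 x1 x2) + ((-4) / 243) * (cI x0 x1 x2) ^ 2 + ((4) / 81) * (aI x0 x1 x2) + ((-4) / 81) * (aI x0 x1 x2) * (cI x0 x1 x2) + ((2) / 27) * (aI x0 x1 x2) ^ 3) * (Ml_eval_4_2_0 y0 y1 y2 hy))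
    + ((72171) / 2) * (Ml_avg 4 2 1 x0 x1 x2 y0 y1 y2 + Ml 4 2 1 y0 y1 y2 * (Ml_eval_4_2_1 x0 x1 x2 hx) + (((2) / 729) + ((2) / 729) * (cI x0 x1 x2) + ((-4) / 729) * (cI x0 x1 x2) ^ 2 + ((2) / 81) * (aI x0 x1 x2) * (cI x0 x1 x2) + ((-8) / 243) * (aI x0 x1 x2) ^ 2 + ((-4) / 243) * (aI x0 x1 x2) ^ 2 * (cI x0 x1 x2) + ((2) / 81) * (aI x0 x1 x2) ^ 3) * (Ml_eval_4_2_1 y0 y1 y2 hy))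
    + ((19683) / 2) * (Ml_avg 4 3 0 x0 x1 x2 y0 y1 y2 + Ml 4 3 0 y0 y1 y2 * (Ml_eval_4_3_0 x0 x1 x2 hx) + (((2) / 729) + ((-40) / 729) * (cI x0 x1 x2) + ((20) / 729) * (cI x0 x1 x2) ^ 2 + ((4) / 243) * (aI x0 x1 x2) + ((2) / 243) * (aI x0 x1 x2) * (cI x0 x1 x2) + ((8) / 243) * (aI x0 x1 x2) ^ 2 + ((-2) / 243) * (aI x0 x1 x2) ^ 2 * (cI x0 x1 x2) + ((-2) / 81) * (aI x0 x1 x2) ^ 3) * (Ml_eval_4_3_0 y0 y1 y2 hy))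
    + ((6561) / 2) * (Ml_avg 5 1 1 x0 x1 x2 y0 y1 y2 + Ml 5 1 1 y0 y1 y2 * (Ml_eval_5_1_1 x0 x1 x2 hx) + (((2) / 729) + ((20) / 729) * (cI x0 x1 x2) + ((32) / 729) * (cI x0 x1 x2) ^ 2 + ((2) / 81) * (aI x0 x1 x2) + ((-20) / 243) * (aI x0 x1 x2) ^ 2 + ((8) / 243) * (aI x0 x1 x2) ^ 2 * (cI x0 x1 x2) + ((-4) / 81) * (aI x0 x1 x2) ^ 3) * (Ml_eval_5_1_1 y0 y1 y2 hy))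
    + ((6561) / 2) * (Ml_avg 5 2 0 x0 x1 x2 y0 y1 y2 + Ml 5 2 0 y0 y1 y2 * (Ml_eval_5_2_0 x0 x1 x2 hx) + (((2) / 729) + ((-10) / 729) * (cI x0 x1 x2) + ((-28) / 729) * (cI x0 x1 x2) ^ 2 + ((8) / 243) * (aI x0 x1 x2) + ((-20) / 243) * (aI x0 x1 x2) * (cI x0 x1 x2) + ((2) / 81) * (aI x0 x1 x2) ^ 2 * (cI x0 x1 x2) + ((2) / 27) * (aI x0 x1 x2) ^ 3) * (Ml_eval_5_2_0 y0 y1 y2 hy))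

theorem exp_avgN4 (p0 p1 p2 : ℝ) :
    (27 * (p0 * p1 + p0 * p2 + p1 * p2)) ^ 2 * (3 * (p0 + p1 + p2) - 1) ^ 4 = (729) * Ml 2 1 1 p0 p1 p2 + ((729) / 2) * Ml 2 2 0 p0 p1 p2 + (-21870) * Ml 2 2 1 p0 p1 p2 + (98415) * Ml 2 2 2 p0 p1 p2 + (-8748) * Ml 3 1 1 p0 p1 p2 + (-8748) * Ml 3 2 0 p0 p1 p2 + (314928) * Ml 3 2 1 p0 p1 p2 + (-1220346) * Ml 3 2 2 p0 p1 p2 + (39366) * Ml 3 3 0 p0 p1 p2 + (-708588) * Ml 3 3 1 p0 p1 p2 + (2361960) * Ml 3 3 2 p0 p1 p2 + (39366) * Ml 4 1 1 p0 p1 p2 + (39366) * Ml 4 2 0 p0 p1 p2 + (-866052) * Ml 4 2 1 p0 p1 p2 + ((3129597) / 2) * Ml 4 2 2 p0 p1 p2 + (-236196) * Ml 4 3 0 p0 p1 p2 + (1889568) * Ml 4 3 1 p0 p1 p2 + (177147) * Ml 4 4 0 p0 p1 p2 + (-78732) * Ml 5 1 1 p0 p1 p2 + (-78732) * Ml 5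 2 0 p0 p1 p2 + (826686) * Ml 5 2 1 p0 p1 p2 + (236196) * Ml 5 3 0 p0 p1 p2 + (59049) * Ml 6 1 1 p0 p1 p2 + (59049) * Ml 6 2 0 p0 p1 p2 := by
  simp only [Ml]
  ring

theorem avgN4 (x0 x1 x2 y0 y1 y2 : ℝ) (hx : x2 = 1 - x0 - x1) (hy : y2 = 1 - y0 - y1) :
    (nu3 x0 x1 x2 y0 y1 y2 ^ 2 * w3 x0 x1 x2 y0 y1 y2 ^ 4 + nu3 x0 x1 x2 y0 y2 y1 ^ 2 * w3 x0 x1 x2 y0 y2 y1 ^ 4 + nu3 x0 x1 x2 y1 y0 y2 ^ 2 * w3 x0 x1 x2 y1 y0 y2 ^ 4 + nu3 x0 x1 x2 y1 y2 y0 ^ 2 * w3 x0 x1 x2 y1 y2 y0 ^ 4 + nu3 x0 x1 x2 y2 y0 y1 ^ 2 * w3 x0 x1 x2 y2 y0 y1 ^ 4 + nu3 x0 x1 x2 y2 y1 y0 ^ 2 * w3 x0 x1 x2 y2 y1 y0 ^ 4) / 6 = 24 * (cI x0 x1 x2) ^ 2 * (cI y0 y1 y2) ^ 2 + (-8) * (cI x0 x1 x2) ^ 2 * (aI y0 y1 y2) * (cI y0 y1 y2) + (-16) * (cI x0 x1 x2) ^ 2 * (aI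 y0 y1 y2) * (cI y0 y1 y2) ^ 2 + (-12) * (cI x0 x1 x2) ^ 2 * (aI y0 y1 y2) ^ 3 + 12 * (cI x0 x1 x2) ^ 2 * (aI y0 y1 y2) ^ 4 + (-8) * (aI x0 x1 x2) * (cI x0 x1 x2) * (cI y0 y1 y2) ^ 2 + 20 * (aI x0 x1 x2) * (cI x0 x1 x2) * (aI y0 y1 y2) * (cI y0 y1 y2) + 8 * (aI x0 x1 x2) * (cI x0 x1 x2) * (aI y0 y1 y2) * (cI y0 y1 y2) ^ 2 + (-20) * (aI x0 x1 x2) * (cI x0 x1 x2) * (aI y0 y1 y2) ^ 2 * (cI y0 y1 y2) + (-12) * (aI x0 x1 x2) * (cI x0 x1 x2) * (aI y0 y1 y2) ^ 3 + 12 * (aI x0 x1 x2) * (cI x0 x1 x2) * (aI y0 y1 y2) ^ 4 + (-16) * (aI x0 x1 x2) * (cI x0 x1 x2) ^ 2 * (cI y0 y1 y2) ^ 2 + 8 * (aI x0 x1 x2) * (cI x0 x1 x2) ^ 2 * (aI y0 y1 y2) * (cI y0 y1 y2) + 48 * (aI x0 x1 x2) * (cI x0 x1 x2) ^ 2 * (aI y0 y1 y2) * (cI y0 y1 y2) ^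 2 + (-40) * (aI x0 x1 x2) * (cI x0 x1 x2) ^ 2 * (aI y0 y1 y2) ^ 2 * (cI y0 y1 y2) + 24 * (aI x0 x1 x2) * (cI x0 x1 x2) ^ 2 * (aI y0 y1 y2) ^ 3 + (-24) * (aI x0 x1 x2) * (cI x0 x1 x2) ^ 2 * (aI y0 y1 y2) ^ 4 + 6 * (aI x0 x1 x2) ^ 2 * (aI y0 y1 y2) ^ 2 + (-12) * (aI x0 x1 x2) ^ 2 * (aI y0 y1 y2) ^ 3 + 6 * (aI x0 x1 x2) ^ 2 * (aI y0 y1 y2) ^ 4 + (-20) * (aI x0 x1 x2) ^ 2 * (cI x0 x1 x2) * (aI y0 y1 y2) * (cI y0 y1 y2) + (-40) * (aI x0 x1 x2) ^ 2 * (cI x0 x1 x2) * (aI y0 y1 y2) * (cI y0 y1 y2) ^ 2 + 108 * (aI x0 x1 x2) ^ 2 * (cI x0 x1 x2) * (aI y0 y1 y2) ^ 2 * (cI y0 y1 y2) + (-24) * (aI x0 x1 x2) ^ 2 * (cI x0 x1 x2) * (aI y0 y1 y2) ^ 3 + (-24) * (aI x0 x1 x2) ^ 2 * (cI x0 x1 x2) * (aI y0 y1 y2) ^ 4 + (-12) * (aI x0 x1 x2)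 ^ 3 * (cI y0 y1 y2) ^ 2 + (-12) * (aI x0 x1 x2) ^ 3 * (aI y0 y1 y2) * (cI y0 y1 y2) + 24 * (aI x0 x1 x2) ^ 3 * (aI y0 y1 y2) * (cI y0 y1 y2) ^ 2 + (-12) * (aI x0 x1 x2) ^ 3 * (aI y0 y1 y2) ^ 2 + (-24) * (aI x0 x1 x2) ^ 3 * (aI y0 y1 y2) ^ 2 * (cI y0 y1 y2) + 66 * (aI x0 x1 x2) ^ 3 * (aI y0 y1 y2) ^ 3 + (-30) * (aI x0 x1 x2) ^ 3 * (aI y0 y1 y2) ^ 4 + 12 * (aI x0 x1 x2) ^ 4 * (cI y0 y1 y2) ^ 2 + 12 * (aI x0 x1 x2) ^ 4 * (aI y0 y1 y2) * (cI y0 y1 y2) + (-24) * (aI x0 x1 x2) ^ 4 * (aI y0 y1 y2) * (cI y0 y1 y2) ^ 2 + 6 * (aI x0 x1 x2) ^ 4 * (aI y0 y1 y2) ^ 2 + (-24) * (aI x0 x1 x2) ^ 4 * (aI y0 y1 y2) ^ 2 * (cI y0 y1 y2) + (-30) * (aI x0 x1 x2) ^ 4 * (aI y0 y1 y2) ^ 3 + 48 * (aI x0 x1 x2) ^ 4 * (aI y0 y1 y2) ^ 4 := by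
  have e0 : nu3 x0 x1 x2 y0 y1 y2 ^ 2 * w3 x0 x1 x2 y0 y1 y2 ^ 4 = _ := exp_avgN4 (x0 * y0) (x1 * y1) (x2 * y2)
  have e1 : nu3 x0 x1 x2 y0 y2 y1 ^ 2 * w3 x0 x1 x2 y0 y2 y1 ^ 4 = _ := exp_avgN4 (x0 * y0) (x1 * y2) (x2 * y1)
  have e2 : nu3 x0 x1 x2 y1 y0 y2 ^ 2 * w3 x0 x1 x2 y1 y0 y2 ^ 4 = _ := exp_avgN4 (x0 * y1) (x1 * y0) (x2 * y2)
  have e3 : nu3 x0 x1 x2 y1 y2 y0 ^ 2 * w3 x0 x1 x2 y1 y2 y0 ^ 4 = _ := exp_avgN4 (x0 * y1) (x1 * y2) (x2 * y0)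
  have e4 : nu3 x0 x1 x2 y2 y0 y1 ^ 2 * w3 x0 x1 x2 y2 y0 y1 ^ 4 = _ := exp_avgN4 (x0 * y2) (x1 * y0) (x2 * y1)
  have e5 : nu3 x0 x1 x2 y2 y1 y0 ^ 2 * w3 x0 x1 x2 y2 y1 y0 ^ 4 = _ := exp_avgN4 (x0 * y2) (x1 * y1) (x2 * y0)
  rw [e0, e1, e2, e3, e4, e5]
  linear_combination
    ((243) / 2) * (Ml_avg 2 1 1 x0 x1 x2 y0 y1 y2 + Ml 2 1 1 y0 y1 y2 * (Ml_eval_2_1_1 x0 x1 x2 hx) + (((2) / 27) + ((4) / 27) * (cI x0 x1 x2) + ((-2) / 9) * (aI x0 x1 x2)) * (Ml_eval_2_1_1 y0 y1 y2 hy))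
    + ((243) / 4) * (Ml_avg 2 2 0 x0 x1 x2 y0 y1 y2 + Ml 2 2 0 y0 y1 y2 * (Ml_eval_2_2_0 x0 x1 x2 hx) + (((2) / 27) + ((-8) / 27) * (cI x0 x1 x2) + ((2) / 9) * (aI x0 x1 x2) ^ 2) * (Ml_eval_2_2_0 y0 y1 y2 hy))
    + (-3645) * (Ml_avg 2 2 1 x0 x1 x2 y0 y1 y2 + Ml 2 2 1 y0 y1 y2 * (Ml_eval_2_2_1 x0 x1 x2 hx) + (((2) / 81) + ((4) / 81) * (cI x0 x1 x2) + ((-8) / 81) * (aI x0 x1 x2) + ((-4) / 81) * (aI x0 x1 x2) * (cI x0 x1 x2) + ((2) / 27) * (aI x0 x1 x2) ^ 2) * (Ml_eval_2_2_1 y0 y1 y2 hy))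
    + ((32805) / 2) * (Ml_avg 2 2 2 x0 x1 x2 y0 y1 y2 + Ml 2 2 2 y0 y1 y2 * (Ml_eval_2_2_2 x0 x1 x2 hx) + (((2) / 243) + ((8) / 243) * (cI x0 x1 x2) + ((8) / 243) * (cI x0 x1 x2) ^ 2 + ((-4) / 81) * (aI x0 x1 x2) + ((-8) / 81) * (aI x0 x1 x2) * (cI x0 x1 x2) + ((2) / 27) * (aI x0 x1 x2) ^ 2) * (Ml_eval_2_2_2 y0 y1 y2 hy))
    + (-1458) * (Ml_avg 3 1 1 x0 x1 x2 y0 y1 y2 + Ml 3 1 1 y0 y1 y2 * (Ml_eval_3_1_1 x0 x1 x2 hx) + (((2) / 81) + ((4) / 81) * (cI x0 x1 x2) + ((-2) / 81) * (aI x0 x1 x2) + ((8) / 81) * (aI x0 x1 x2) * (cI x0 x1 x2) + ((-4) / 27) * (aI x0 x1 x2) ^ 2) * (Ml_eval_3_1_1 y0 y1 y2 hy))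
    + (-1458) * (Ml_avg 3 2 0 x0 x1 x2 y0 y1 y2 + Ml 3 2 0 y0 y1 y2 * (Ml_eval_3_2_0 x0 x1 x2 hx) + (((2) / 81) + ((-14) / 81) * (cI x0 x1 x2) + ((4) / 81) * (aI x0 x1 x2) + ((2) / 81) * (aI x0 x1 x2) * (cI x0 x1 x2) + ((2) / 27) * (aI x0 x1 x2) ^ 2) * (Ml_eval_3_2_0 y0 y1 y2 hy))
    + (52488) * (Ml_avg 3 2 1 x0 x1 x2 y0 y1 y2 + Ml 3 2 1 y0 y1 y2 * (Ml_eval_3_2_1 x0 x1 x2 hx) + (((2) / 243) + ((2) / 243) * (cI x0 x1 x2) + ((-4) / 243) * (cI x0 x1 x2) ^ 2 + ((-2) / 81) * (aI x0 x1 x2) + ((2) / 81) * (aI x0 x1 x2) * (cI x0 x1 x2)) * (Ml_eval_3_2_1 y0 y1 y2 hy))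
    + (-203391) * (Ml_avg 3 2 2 x0 x1 x2 y0 y1 y2 + Ml 3 2 2 y0 y1 y2 * (Ml_eval_3_2_2 x0 x1 x2 hx) + (((2) / 729) + ((8) / 729) * (cI x0 x1 x2) + ((8) / 729) * (cI x0 x1 x2) ^ 2 + ((-4) / 243) * (aI x0 x1 x2) + ((-8) / 243) * (aI x0 x1 x2) * (cI x0 x1 x2) + ((2) / 81) * (aI x0 x1 x2) ^ 2) * (Ml_eval_3_2_2 y0 y1 y2 hy))
    + (6561) * (Ml_avg 3 3 0 x0 x1 x2 y0 y1 y2 + Ml 3 3 0 y0 y1 y2 * (Ml_eval_3_3_0 x0 x1 x2 hx) + (((2) / 243) + ((-28) / 243) * (cI x0 x1 x2) + ((8) / 243) * (cI x0 x1 x2) ^ 2 + ((2) / 81) * (aI x0 x1 x2) + ((4) / 81) * (aI x0 x1 x2) * (cI x0 x1 x2) + ((2) / 27) * (aI x0 x1 x2) ^ 2 + ((-2) / 27) * (aI x0 x1 x2) ^ 3) * (Ml_eval_3_3_0 y0 y1 y2 hy))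
    + (-118098) * (Ml_avg 3 3 1 x0 x1 x2 y0 y1 y2 + Ml 3 3 1 y0 y1 y2 * (Ml_eval_3_3_1 x0 x1 x2 hx) + (((2) / 729) + ((-4) / 729) * (cI x0 x1 x2) + ((-16) / 729) * (cI x0 x1 x2) ^ 2 + ((-2) / 243) * (aI x0 x1 x2) + ((8) / 243) * (aI x0 x1 x2) * (cI x0 x1 x2) + ((2) / 243) * (aI x0 x1 x2) ^ 2 + ((4) / 243) * (aI x0 x1 x2) ^ 2 * (cI x0 x1 x2) + ((-2) / 81) * (aI x0 x1 x2) ^ 3) * (Ml_eval_3_3_1 y0 y1 y2 hy))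
    + (393660) * (Ml_avg 3 3 2 x0 x1 x2 y0 y1 y2 + Ml 3 3 2 y0 y1 y2 * (Ml_eval_3_3_2 x0 x1 x2 hx) + (((2) / 2187) + ((8) / 2187) * (cI x0 x1 x2) + ((8) / 2187) * (cI x0 x1 x2) ^ 2 + ((-14) / 2187) * (aI x0 x1 x2) + ((-32) / 2187) * (aI x0 x1 x2) * (cI x0 x1 x2) + ((-8) / 2187) * (aI x0 x1 x2) * (cI x0 x1 x2) ^ 2 + ((10) / 729) * (aI x0 x1 x2) ^ 2 + ((8) / 729) * (aI x0 x1 x2) ^ 2 * (cI x0 x1 x2) + ((-2) / 243) * (aI x0 x1 x2) ^ 3) * (Ml_eval_3_3_2 y0 y1 y2 hy))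
    + (6561) * (Ml_avg 4 1 1 x0 x1 x2 y0 y1 y2 + Ml 4 1 1 y0 y1 y2 * (Ml_eval_4_1_1 x0 x1 x2 hx) + (((2) / 243) + ((8) / 243) * (cI x0 x1 x2) + ((8) / 243) * (cI x0 x1 x2) ^ 2 + ((2) / 81) * (aI x0 x1 x2) + ((4) / 81) * (aI x0 x1 x2) * (cI x0 x1 x2) + ((-4) / 27) * (aI x0 x1 x2) ^ 2) * (Ml_eval_4_1_1 y0 y1 y2 hy))
    + (6561) * (Ml_avg 4 2 0 x0 x1 x2 y0 y1 y2 + Ml 4 2 0 y0 y1 y2 * (Ml_eval_4_2_0 x0 x1 x2 hx) + (((2) / 243) + ((-16) / 243) * (cI x0 x1 x2) + ((-4) / 243) * (cI x0 x1 x2) ^ 2 + ((4) / 81) * (aI x0 x1 x2) + ((-4) / 81) * (aI x0 x1 x2) * (cI x0 x1 x2) + ((2) / 27) * (aI x0 x1 x2) ^ 3) * (Ml_eval_4_2_0 y0 y1 y2 hy))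
    + (-144342) * (Ml_avg 4 2 1 x0 x1 x2 y0 y1 y2 + Ml 4 2 1 y0 y1 y2 * (Ml_eval_4_2_1 x0 x1 x2 hx) + (((2) / 729) + ((2) / 729) * (cI x0 x1 x2) + ((-4) / 729) * (cI x0 x1 x2) ^ 2 + ((2) / 81) * (aI x0 x1 x2) * (cI x0 x1 x2) + ((-8) / 243) * (aI x0 x1 x2) ^ 2 + ((-4) / 243) * (aI x0 x1 x2) ^ 2 * (cI x0 x1 x2) + ((2) / 81) * (aI x0 x1 x2) ^ 3) * (Ml_eval_4_2_1 y0 y1 y2 hy))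
    + ((1043199) / 4) * (Ml_avg 4 2 2 x0 x1 x2 y0 y1 y2 + Ml 4 2 2 y0 y1 y2 * (Ml_eval_4_2_2 x0 x1 x2 hx) + (((2) / 2187) + ((8) / 2187) * (cI x0 x1 x2) + ((8) / 2187) * (cI x0 x1 x2) ^ 2 + ((-8) / 2187) * (aI x0 x1 x2) + ((-8) / 2187) * (aI x0 x1 x2) * (cI x0 x1 x2) + ((16) / 2187) * (aI x0 x1 x2) * (cI x0 x1 x2) ^ 2 + ((-2) / 729) * (aI x0 x1 x2) ^ 2 + ((-16) / 729) * (aI x0 x1 x2) ^ 2 * (cI x0 x1 x2) + ((4) / 243) * (aI x0 x1 x2) ^ 3) * (Ml_eval_4_2_2 y0 y1 y2 hy))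
    + (-39366) * (Ml_avg 4 3 0 x0 x1 x2 y0 y1 y2 + Ml 4 3 0 y0 y1 y2 * (Ml_eval_4_3_0 x0 x1 x2 hx) + (((2) / 729) + ((-40) / 729) * (cI x0 x1 x2) + ((20) / 729) * (cI x0 x1 x2) ^ 2 + ((4) / 243) * (aI x0 x1 x2) + ((2) / 243) * (aI x0 x1 x2) * (cI x0 x1 x2) + ((8) / 243) * (aI x0 x1 x2) ^ 2 + ((-2) / 243) * (aI x0 x1 x2) ^ 2 * (cI x0 x1 x2) + ((-2) / 81) * (aI x0 x1 x2) ^ 3) * (Ml_eval_4_3_0 y0 y1 y2 hy))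
    + (314928) * (Ml_avg 4 3 1 x0 x1 x2 y0 y1 y2 + Ml 4 3 1 y0 y1 y2 * (Ml_eval_4_3_1 x0 x1 x2 hx) + (((2) / 2187) + ((-10) / 2187) * (cI x0 x1 x2) + ((-28) / 2187) * (cI x0 x1 x2) ^ 2 + ((-2) / 2187) * (aI x0 x1 x2) + ((52) / 2187) * (aI x0 x1 x2) * (cI x0 x1 x2) + ((4) / 2187) * (aI x0 x1 x2) * (cI x0 x1 x2) ^ 2 + ((-2) / 729) * (aI x0 x1 x2) ^ 2 + ((2) / 729) * (aI x0 x1 x2) ^ 2 * (cI x0 x1 x2) + ((-2) / 243) * (aI x0 x1 x2) ^ 3) * (Ml_eval_4_3_1 y0 y1 y2 hy))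
    + ((59049) / 2) * (Ml_avg 4 4 0 x0 x1 x2 y0 y1 y2 + Ml 4 4 0 y0 y1 y2 * (Ml_eval_4_4_0 x0 x1 x2 hx) + (((2) / 2187) + ((-64) / 2187) * (cI x0 x1 x2) + ((80) / 2187) * (cI x0 x1 x2) ^ 2 + ((16) / 2187) * (aI x0 x1 x2) + ((16) / 2187) * (aI x0 x1 x2) * (cI x0 x1 x2) + ((-32) / 2187) * (aI x0 x1 x2) * (cI x0 x1 x2) ^ 2 + ((16) / 729) * (aI x0 x1 x2) ^ 2 + ((-16) / 729) * (aI x0 x1 x2) ^ 2 * (cI x0 x1 x2) + ((-8) / 243) * (aI x0 x1 x2) ^ 3 + ((2) / 81) * (aI x0 x1 x2) ^ 4) * (Ml_eval_4_4_0 y0 y1 y2 hy))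
    + (-13122) * (Ml_avg 5 1 1 x0 x1 x2 y0 y1 y2 + Ml 5 1 1 y0 y1 y2 * (Ml_eval_5_1_1 x0 x1 x2 hx) + (((2) / 729) + ((20) / 729) * (cI x0 x1 x2) + ((32) / 729) * (cI x0 x1 x2) ^ 2 + ((2) / 81) * (aI x0 x1 x2) + ((-20) / 243) * (aI x0 x1 x2) ^ 2 + ((8) / 243) * (aI x0 x1 x2) ^ 2 * (cI x0 x1 x2) + ((-4) / 81) * (aI x0 x1 x2) ^ 3) * (Ml_eval_5_1_1 y0 y1 y2 hy))
    + (-13122) * (Ml_avg 5 2 0 x0 x1 x2 y0 y1 y2 + Ml 5 2 0 y0 y1 y2 * (Ml_eval_5_2_0 x0 x1 x2 hx) + (((2) / 729) + ((-10) / 729) * (cI x0 x1 x2) + ((-28) / 729) * (cI x0 x1 x2) ^ 2 + ((8) / 243) * (aI x0 x1 x2) + ((-20) / 243) * (aI x0 x1 x2) * (cI x0 x1 x2) + ((2) / 81) * (aI x0 x1 x2) ^ 2 * (cI x0 x1 x2) + ((2) / 27) * (aI x0 x1 x2) ^ 3) * (Ml_eval_5_2_0 y0 y1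 y2 hy))
    + (137781) * (Ml_avg 5 2 1 x0 x1 x2 y0 y1 y2 + Ml 5 2 1 y0 y1 y2 * (Ml_eval_5_2_1 x0 x1 x2 hx) + (((2) / 2187) + ((8) / 2187) * (cI x0 x1 x2) + ((8) / 2187) * (cI x0 x1 x2) ^ 2 + ((10) / 2187) * (aI x0 x1 x2) + ((10) / 2187) * (aI x0 x1 x2) * (cI x0 x1 x2) + ((-20) / 2187) * (aI x0 x1 x2) * (cI x0 x1 x2) ^ 2 + ((-20) / 729) * (aI x0 x1 x2) ^ 2 + ((2) / 729) * (aI x0 x1 x2) ^ 2 * (cI x0 x1 x2) + ((4) / 243) * (aI x0 x1 x2) ^ 3) * (Ml_eval_5_2_1 y0 y1 y2 hy))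
    + (39366) * (Ml_avg 5 3 0 x0 x1 x2 y0 y1 y2 + Ml 5 3 0 y0 y1 y2 * (Ml_eval_5_3_0 x0 x1 x2 hx) + (((2) / 2187) + ((-46) / 2187) * (cI x0 x1 x2) + ((8) / 2187) * (cI x0 x1 x2) ^ 2 + ((22) / 2187) * (aI x0 x1 x2) + ((-50) / 2187) * (aI x0 x1 x2) * (cI x0 x1 x2) + ((28) / 2187) * (aI x0 x1 x2) * (cI x0 x1 x2) ^ 2 + ((10) / 729) * (aI x0 x1 x2) ^ 2 + ((8) / 729) * (aI x0 x1 x2) ^ 2 * (cI x0 x1 x2) + ((4) / 243) * (aI x0 x1 x2) ^ 3 + ((-2) / 81) * (aI x0 x1 x2) ^ 4) * (Ml_eval_5_3_0 y0 y1 y2 hy))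
    + ((19683) / 2) * (Ml_avg 6 1 1 x0 x1 x2 y0 y1 y2 + Ml 6 1 1 y0 y1 y2 * (Ml_eval_6_1_1 x0 x1 x2 hx) + (((2) / 2187) + ((44) / 2187) * (cI x0 x1 x2) + ((80) / 2187) * (cI x0 x1 x2) ^ 2 + ((34) / 2187) * (aI x0 x1 x2) + ((-20) / 2187) * (aI x0 x1 x2) * (cI x0 x1 x2) + ((40) / 2187) * (aI x0 x1 x2) * (cI x0 x1 x2) ^ 2 + ((-20) / 729) * (aI x0 x1 x2) ^ 2 + ((20) / 729) * (aI x0 x1 x2) ^ 2 * (cI x0 x1 x2) + ((-20) / 243) * (aI x0 x1 x2) ^ 3) * (Ml_eval_6_1_1 y0 y1 y2 hy))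
    + ((19683) / 2) * (Ml_avg 6 2 0 x0 x1 x2 y0 y1 y2 + Ml 6 2 0 y0 y1 y2 * (Ml_eval_6_2_0 x0 x1 x2 hx) + (((2) / 2187) + ((8) / 2187) * (cI x0 x1 x2) + ((-100) / 2187) * (cI x0 x1 x2) ^ 2 + ((40) / 2187) * (aI x0 x1 x2) + ((-140) / 2187) * (aI x0 x1 x2) * (cI x0 x1 x2) + ((-8) / 2187) * (aI x0 x1 x2) * (cI x0 x1 x2) ^ 2 + ((10) / 729) * (aI x0 x1 x2) ^ 2 + ((8) / 729) * (aI x0 x1 x2) ^ 2 * (cI x0 x1 x2) + ((10) / 243) * (aI x0 x1 x2) ^ 3 + ((2) / 81) * (aI x0 x1 x2) ^ 4) * (Ml_eval_6_2_0 y0 y1 y2 hy))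

theorem exp_avgN5 (p0 p1 p2 : ℝ) :
    (27 * (p0 * p1 + p0 * p2 + p1 * p2)) ^ 2 * (3 * (p0 + p1 + p2) - 1) ^ 5 = (-729) * Ml 2 1 1 p0 p1 p2 + ((-729) / 2) * Ml 2 2 0 p0 p1 p2 + ((54675) / 2) * Ml 2 2 1 p0 p1 p2 + (-164025) * Ml 2 2 2 p0 p1 p2 + (10935) * Ml 3 1 1 p0 p1 p2 + (10935) * Ml 3 2 0 p0 p1 p2 + (-524880) * Ml 3 2 1 p0 p1 p2 + (3050865) * Ml 3 2 2 p0 p1 p2 + (-65610) * Ml 3 3 0 p0 p1 p2 + (1771470) * Ml 3 3 1 p0 p1 p2 + (-11809800) * Ml 3 3 2 p0 p1 p2 + (7085880) * Ml 3 3 3 p0 p1 p2 + (-65610) * Ml 4 1 1 p0 p1 p2 + (-65610) * Ml 4 2 0 p0 p1 p2 + (2165130) * Ml 4 2 1 p0 p1 p2 + ((-15647985) / 2) * Ml 4 2 2 p0 p1 p2 + (590490) * Ml 4 3 0 p0 p1 p2 + (-9447840) * Ml 4 3 1 p0 p1 p2 + (29229255) * Ml 4 3 2 p0 p1 p2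 + (-885735) * Ml 4 4 0 p0 p1 p2 + (6200145) * Ml 4 4 1 p0 p1 p2 + (196830) * Ml 5 1 1 p0 p1 p2 + (196830) * Ml 5 2 0 p0 p1 p2 + (-4133430) * Ml 5 2 1 p0 p1 p2 + ((14348907) / 2) * Ml 5 2 2 p0 p1 p2 + (-1180980) * Ml 5 3 0 p0 p1 p2 + (8857350) * Ml 5 3 1 p0 p1 p2 + (1771470) * Ml 5 4 0 p0 p1 p2 + (-295245) * Ml 6 1 1 p0 p1 p2 + (-295245) * Ml 6 2 0 p0 p1 p2 + (3011499) * Ml 6 2 1 p0 p1 p2 + (885735) * Ml 6 3 0 p0 p1 p2 + (177147) * Ml 7 1 1 p0 p1 p2 + (177147) * Ml 7 2 0 p0 p1 p2 := by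
  simp only [Ml]
  ring

theorem avgN5 (x0 x1 x2 y0 y1 y2 : ℝ) (hx : x2 = 1 - x0 - x1) (hy : y2 = 1 - y0 - y1) :
    (nu3 x0 x1 x2 y0 y1 y2 ^ 2 * w3 x0 x1 x2 y0 y1 y2 ^ 5 + nu3 x0 x1 x2 y0 y2 y1 ^ 2 * w3 x0 x1 x2 y0 y2 y1 ^ 5 + nu3 x0 x1 x2 y1 y0 y2 ^ 2 * w3 x0 x1 x2 y1 y0 y2 ^ 5 + nu3 x0 x1 x2 y1 y2 y0 ^ 2 * w3 x0 x1 x2 y1 y2 y0 ^ 5 + nu3 x0 x1 x2 y2 y0 y1 ^ 2 * w3 x0 x1 x2 y2 y0 y1 ^ 5 + nu3 x0 x1 x2 y2 y1 y0 ^ 2 * w3 x0 x1 x2 y2 y1 y0 ^ 5) / 6 = 16 * (cI x0 x1 x2) ^ 2 * (cI y0 y1 y2) ^ 2 + (-16) * (cI x0 x1 x2) ^ 2 * (aI y0 y1 y2) * (cI y0 y1 y2) ^ 2 + (-8) * (cI x0 x1 x2) ^ 2 * (aI y0 y1 y2) ^ 2 * (cI y0 y1 y2) + (-8) * (cI x0 x1 x2) ^ 2 * (aI y0 y1 y2) ^ 3 + 8 * (cI x0 x1 x2) ^ 2 * (aI y0 y1 y2) ^ 3 * (cI y0 y1 y2)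 + 8 * (cI x0 x1 x2) ^ 2 * (aI y0 y1 y2) ^ 4 + 32 * (cI x0 x1 x2) ^ 3 * (cI y0 y1 y2) ^ 3 + (-32) * (cI x0 x1 x2) ^ 3 * (aI y0 y1 y2) * (cI y0 y1 y2) ^ 2 + 8 * (cI x0 x1 x2) ^ 3 * (aI y0 y1 y2) ^ 2 * (cI y0 y1 y2) + (-24) * (cI x0 x1 x2) ^ 3 * (aI y0 y1 y2) ^ 3 * (cI y0 y1 y2) + 16 * (cI x0 x1 x2) ^ 3 * (aI y0 y1 y2) ^ 4 + 10 * (aI x0 x1 x2) * (cI x0 x1 x2) * (aI y0 y1 y2) * (cI y0 y1 y2) + (-20) * (aI x0 x1 x2) * (cI x0 x1 x2) * (aI y0 y1 y2) ^ 2 * (cI y0 y1 y2) + 10 * (aI x0 x1 x2) * (cI x0 x1 x2) * (aI y0 y1 y2) ^ 3 * (cI y0 y1 y2) + (-16) * (aI x0 x1 x2) * (cI x0 x1 x2) ^ 2 * (cI y0 y1 y2) ^ 2 + (-32) * (aI x0 x1 x2) * (cI x0 x1 x2) ^ 2 * (cI y0 y1 y2) ^ 3 + 128 * (aI x0 x1 x2) * (cI x0 x1 x2) ^ 2 * (aI y0 y1 y2) *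 (cI y0 y1 y2) ^ 2 + (-40) * (aI x0 x1 x2) * (cI x0 x1 x2) ^ 2 * (aI y0 y1 y2) ^ 2 * (cI y0 y1 y2) + 8 * (aI x0 x1 x2) * (cI x0 x1 x2) ^ 2 * (aI y0 y1 y2) ^ 3 + (-24) * (aI x0 x1 x2) * (cI x0 x1 x2) ^ 2 * (aI y0 y1 y2) ^ 3 * (cI y0 y1 y2) + (-24) * (aI x0 x1 x2) * (cI x0 x1 x2) ^ 2 * (aI y0 y1 y2) ^ 4 + (-8) * (aI x0 x1 x2) ^ 2 * (cI x0 x1 x2) * (cI y0 y1 y2) ^ 2 + 8 * (aI x0 x1 x2) ^ 2 * (cI x0 x1 x2) * (cI y0 y1 y2) ^ 3 + (-20) * (aI x0 x1 x2) ^ 2 * (cI x0 x1 x2) * (aI y0 y1 y2) * (cI y0 y1 y2) + (-40) * (aI x0 x1 x2) ^ 2 * (cI x0 x1 x2) * (aI y0 y1 y2) * (cI y0 y1 y2) ^ 2 + 126 * (aI x0 x1 x2) ^ 2 * (cI x0 x1 x2) * (aI y0 y1 y2) ^ 2 * (cI y0 y1 y2) + (-36) * (aI x0 x1 x2) ^ 2 * (cI x0 x1 x2) * (aI y0 y1 y2) ^ 3 + (-30)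 * (aI x0 x1 x2) ^ 2 * (cI x0 x1 x2) * (aI y0 y1 y2) ^ 3 * (cI y0 y1 y2) + (-8) * (aI x0 x1 x2) ^ 3 * (cI y0 y1 y2) ^ 2 + 8 * (aI x0 x1 x2) ^ 3 * (aI y0 y1 y2) * (cI y0 y1 y2) ^ 2 + (-36) * (aI x0 x1 x2) ^ 3 * (aI y0 y1 y2) ^ 2 * (cI y0 y1 y2) + 44 * (aI x0 x1 x2) ^ 3 * (aI y0 y1 y2) ^ 3 + 36 * (aI x0 x1 x2) ^ 3 * (aI y0 y1 y2) ^ 3 * (cI y0 y1 y2) + (-44) * (aI x0 x1 x2) ^ 3 * (aI y0 y1 y2) ^ 4 + 8 * (aI x0 x1 x2) ^ 3 * (cI x0 x1 x2) * (cI y0 y1 y2) ^ 2 + (-24) * (aI x0 x1 x2) ^ 3 * (cI x0 x1 x2) * (cI y0 y1 y2) ^ 3 + 10 * (aI x0 x1 x2) ^ 3 * (cI x0 x1 x2) * (aI y0 y1 y2) * (cI y0 y1 y2) + (-24) * (aI x0 x1 x2) ^ 3 * (cI x0 x1 x2) * (aI y0 y1 y2) * (cI y0 y1 y2) ^ 2 + (-30) * (aI x0 x1 x2) ^ 3 * (cI x0 x1 x2) * (aI y0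 y1 y2) ^ 2 * (cI y0 y1 y2) + 36 * (aI x0 x1 x2) ^ 3 * (cI x0 x1 x2) * (aI y0 y1 y2) ^ 3 + 112 * (aI x0 x1 x2) ^ 3 * (cI x0 x1 x2) * (aI y0 y1 y2) ^ 3 * (cI y0 y1 y2) + (-88) * (aI x0 x1 x2) ^ 3 * (cI x0 x1 x2) * (aI y0 y1 y2) ^ 4 + 8 * (aI x0 x1 x2) ^ 4 * (cI y0 y1 y2) ^ 2 + 16 * (aI x0 x1 x2) ^ 4 * (cI y0 y1 y2) ^ 3 + (-24) * (aI x0 x1 x2) ^ 4 * (aI y0 y1 y2) * (cI y0 y1 y2) ^ 2 + (-44) * (aI x0 x1 x2) ^ 4 * (aI y0 y1 y2) ^ 3 + (-88) * (aI x0 x1 x2) ^ 4 * (aI y0 y1 y2) ^ 3 * (cI y0 y1 y2) + 132 * (aI x0 x1 x2) ^ 4 * (aI y0 y1 y2) ^ 4 := by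
  have e0 : nu3 x0 x1 x2 y0 y1 y2 ^ 2 * w3 x0 x1 x2 y0 y1 y2 ^ 5 = _ := exp_avgN5 (x0 * y0) (x1 * y1) (x2 * y2)
  have e1 : nu3 x0 x1 x2 y0 y2 y1 ^ 2 * w3 x0 x1 x2 y0 y2 y1 ^ 5 = _ := exp_avgN5 (x0 * y0) (x1 * y2) (x2 * y1)
  have e2 : nu3 x0 x1 x2 y1 y0 y2 ^ 2 * w3 x0 x1 x2 y1 y0 y2 ^ 5 = _ := exp_avgN5 (x0 * y1) (x1 * y0) (x2 * y2)
  have e3 : nu3 x0 x1 x2 y1 y2 y0 ^ 2 * w3 x0 x1 x2 y1 y2 y0 ^ 5 = _ := exp_avgN5 (x0 * y1) (x1 * y2) (x2 * y0)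
  have e4 : nu3 x0 x1 x2 y2 y0 y1 ^ 2 * w3 x0 x1 x2 y2 y0 y1 ^ 5 = _ := exp_avgN5 (x0 * y2) (x1 * y0) (x2 * y1)
  have e5 : nu3 x0 x1 x2 y2 y1 y0 ^ 2 * w3 x0 x1 x2 y2 y1 y0 ^ 5 = _ := exp_avgN5 (x0 * y2) (x1 * y1) (x2 * y0)
  rw [e0, e1, e2, e3, e4, e5]
  linear_combination
    ((-243) / 2) * (Ml_avg 2 1 1 x0 x1 x2 y0 y1 y2 + Ml 2 1 1 y0 y1 y2 * (Ml_eval_2_1_1 x0 x1 x2 hx) + (((2) / 27) + ((4) / 27) * (cI x0 x1 x2) + ((-2) / 9) * (aI x0 x1 x2)) * (Ml_eval_2_1_1 y0 y1 y2 hy))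
    + ((-243) / 4) * (Ml_avg 2 2 0 x0 x1 x2 y0 y1 y2 + Ml 2 2 0 y0 y1 y2 * (Ml_eval_2_2_0 x0 x1 x2 hx) + (((2) / 27) + ((-8) / 27) * (cI x0 x1 x2) + ((2) / 9) * (aI x0 x1 x2) ^ 2) * (Ml_eval_2_2_0 y0 y1 y2 hy))
    + ((18225) / 4) * (Ml_avg 2 2 1 x0 x1 x2 y0 y1 y2 + Ml 2 2 1 y0 y1 y2 * (Ml_eval_2_2_1 x0 x1 x2 hx) + (((2) / 81) + ((4) / 81) * (cI x0 x1 x2) + ((-8) / 81) * (aI x0 x1 x2) + ((-4) / 81) * (aI x0 x1 x2) * (cI x0 x1 x2) + ((2) / 27) * (aI x0 x1 x2) ^ 2) * (Ml_eval_2_2_1 y0 y1 y2 hy))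
    + ((-54675) / 2) * (Ml_avg 2 2 2 x0 x1 x2 y0 y1 y2 + Ml 2 2 2 y0 y1 y2 * (Ml_eval_2_2_2 x0 x1 x2 hx) + (((2) / 243) + ((8) / 243) * (cI x0 x1 x2) + ((8) / 243) * (cI x0 x1 x2) ^ 2 + ((-4) / 81) * (aI x0 x1 x2) + ((-8) / 81) * (aI x0 x1 x2) * (cI x0 x1 x2) + ((2) / 27) * (aI x0 x1 x2) ^ 2) * (Ml_eval_2_2_2 y0 y1 y2 hy))
    + ((3645) / 2) * (Ml_avg 3 1 1 x0 x1 x2 y0 y1 y2 + Ml 3 1 1 y0 y1 y2 * (Ml_eval_3_1_1 x0 x1 x2 hx) + (((2) / 81) + ((4) / 81) * (cI x0 x1 x2) + ((-2) / 81) * (aI x0 x1 x2) + ((8) / 81) * (aI x0 x1 x2) * (cI x0 x1 x2) + ((-4) / 27) * (aI x0 x1 x2) ^ 2) * (Ml_eval_3_1_1 y0 y1 y2 hy))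
    + ((3645) / 2) * (Ml_avg 3 2 0 x0 x1 x2 y0 y1 y2 + Ml 3 2 0 y0 y1 y2 * (Ml_eval_3_2_0 x0 x1 x2 hx) + (((2) / 81) + ((-14) / 81) * (cI x0 x1 x2) + ((4) / 81) * (aI x0 x1 x2) + ((2) / 81) * (aI x0 x1 x2) * (cI x0 x1 x2) + ((2) / 27) * (aI x0 x1 x2) ^ 2) * (Ml_eval_3_2_0 y0 y1 y2 hy))
    + (-87480) * (Ml_avg 3 2 1 x0 x1 x2 y0 y1 y2 + Ml 3 2 1 y0 y1 y2 * (Ml_eval_3_2_1 x0 x1 x2 hx) + (((2) / 243) + ((2) / 243) * (cI x0 x1 x2) + ((-4) / 243) * (cI x0 x1 x2) ^ 2 + ((-2) / 81) * (aI x0 x1 x2) + ((2) / 81) * (aI x0 x1 x2) * (cI x0 x1 x2)) * (Ml_eval_3_2_1 y0 y1 y2 hy))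
    + ((1016955) / 2) * (Ml_avg 3 2 2 x0 x1 x2 y0 y1 y2 + Ml 3 2 2 y0 y1 y2 * (Ml_eval_3_2_2 x0 x1 x2 hx) + (((2) / 729) + ((8) / 729) * (cI x0 x1 x2) + ((8) / 729) * (cI x0 x1 x2) ^ 2 + ((-4) / 243) * (aI x0 x1 x2) + ((-8) / 243) * (aI x0 x1 x2) * (cI x0 x1 x2) + ((2) / 81) * (aI x0 x1 x2) ^ 2) * (Ml_eval_3_2_2 y0 y1 y2 hy))
    + (-10935) * (Ml_avg 3 3 0 x0 x1 x2 y0 y1 y2 + Ml 3 3 0 y0 y1 y2 * (Ml_eval_3_3_0 x0 x1 x2 hx) + (((2) / 243) + ((-28) / 243) * (cI x0 x1 x2) + ((8) / 243) * (cI x0 x1 x2) ^ 2 + ((2) / 81) * (aI x0 x1 x2) + ((4) / 81) * (aI x0 x1 x2) * (cI x0 x1 x2) + ((2) / 27) * (aI x0 x1 x2) ^ 2 + ((-2) / 27) * (aI x0 x1 x2) ^ 3) * (Ml_eval_3_3_0 y0 y1 y2 hy))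
    + (295245) * (Ml_avg 3 3 1 x0 x1 x2 y0 y1 y2 + Ml 3 3 1 y0 y1 y2 * (Ml_eval_3_3_1 x0 x1 x2 hx) + (((2) / 729) + ((-4) / 729) * (cI x0 x1 x2) + ((-16) / 729) * (cI x0 x1 x2) ^ 2 + ((-2) / 243) * (aI x0 x1 x2) + ((8) / 243) * (aI x0 x1 x2) * (cI x0 x1 x2) + ((2) / 243) * (aI x0 x1 x2) ^ 2 + ((4) / 243) * (aI x0 x1 x2) ^ 2 * (cI x0 x1 x2) + ((-2) / 81) * (aI x0 x1 x2) ^ 3) * (Ml_eval_3_3_1 y0 y1 y2 hy))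
    + (-1968300) * (Ml_avg 3 3 2 x0 x1 x2 y0 y1 y2 + Ml 3 3 2 y0 y1 y2 * (Ml_eval_3_3_2 x0 x1 x2 hx) + (((2) / 2187) + ((8) / 2187) * (cI x0 x1 x2) + ((8) / 2187) * (cI x0 x1 x2) ^ 2 + ((-14) / 2187) * (aI x0 x1 x2) + ((-32) / 2187) * (aI x0 x1 x2) * (cI x0 x1 x2) + ((-8) / 2187) * (aI x0 x1 x2) * (cI x0 x1 x2) ^ 2 + ((10) / 729) * (aI x0 x1 x2) ^ 2 + ((8) / 729) * (aI x0 x1 x2) ^ 2 * (cI x0 x1 x2) + ((-2) / 243) * (aI x0 x1 x2) ^ 3) * (Ml_eval_3_3_2 y0 y1 y2 hy))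
    + (1180980) * (Ml_avg 3 3 3 x0 x1 x2 y0 y1 y2 + Ml 3 3 3 y0 y1 y2 * (Ml_eval_3_3_3 x0 x1 x2 hx) + (((2) / 6561) + ((4) / 2187) * (cI x0 x1 x2) + ((8) / 2187) * (cI x0 x1 x2) ^ 2 + ((16) / 6561) * (cI x0 x1 x2) ^ 3 + ((-2) / 729) * (aI x0 x1 x2) + ((-8) / 729) * (aI x0 x1 x2) * (cI x0 x1 x2) + ((-8) / 729) * (aI x0 x1 x2) * (cI x0 x1 x2) ^ 2 + ((2) / 243) * (aI x0 x1 x2) ^ 2 + ((4) / 243) * (aI x0 x1 x2) ^ 2 * (cI x0 x1 x2) + ((-2) / 243) * (aI x0 x1 x2) ^ 3) * (Ml_eval_3_3_3 y0 y1 y2 hy))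
    + (-10935) * (Ml_avg 4 1 1 x0 x1 x2 y0 y1 y2 + Ml 4 1 1 y0 y1 y2 * (Ml_eval_4_1_1 x0 x1 x2 hx) + (((2) / 243) + ((8) / 243) * (cI x0 x1 x2) + ((8) / 243) * (cI x0 x1 x2) ^ 2 + ((2) / 81) * (aI x0 x1 x2) + ((4) / 81) * (aI x0 x1 x2) * (cI x0 x1 x2) + ((-4) / 27) * (aI x0 x1 x2) ^ 2) * (Ml_eval_4_1_1 y0 y1 y2 hy))
    + (-10935) * (Ml_avg 4 2 0 x0 x1 x2 y0 y1 y2 + Ml 4 2 0 y0 y1 y2 * (Ml_eval_4_2_0 x0 x1 x2 hx) + (((2) / 243) + ((-16) / 243) * (cI x0 x1 x2) + ((-4) / 243) * (cI x0 x1 x2) ^ 2 + ((4) / 81) * (aI x0 x1 x2) + ((-4) / 81) * (aI x0 x1 x2) * (cI x0 x1 x2) + ((2) / 27) * (aI x0 x1 x2) ^ 3) * (Ml_eval_4_2_0 y0 y1 y2 hy))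
    + (360855) * (Ml_avg 4 2 1 x0 x1 x2 y0 y1 y2 + Ml 4 2 1 y0 y1 y2 * (Ml_eval_4_2_1 x0 x1 x2 hx) + (((2) / 729) + ((2) / 729) * (cI x0 x1 x2) + ((-4) / 729) * (cI x0 x1 x2) ^ 2 + ((2) / 81) * (aI x0 x1 x2) * (cI x0 x1 x2) + ((-8) / 243) * (aI x0 x1 x2) ^ 2 + ((-4) / 243) * (aI x0 x1 x2) ^ 2 * (cI x0 x1 x2) + ((2) / 81) * (aI x0 x1 x2) ^ 3) * (Ml_eval_4_2_1 y0 y1 y2 hy))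
    + ((-5215995) / 4) * (Ml_avg 4 2 2 x0 x1 x2 y0 y1 y2 + Ml 4 2 2 y0 y1 y2 * (Ml_eval_4_2_2 x0 x1 x2 hx) + (((2) / 2187) + ((8) / 2187) * (cI x0 x1 x2) + ((8) / 2187) * (cI x0 x1 x2) ^ 2 + ((-8) / 2187) * (aI x0 x1 x2) + ((-8) / 2187) * (aI x0 x1 x2) * (cI x0 x1 x2) + ((16) / 2187) * (aI x0 x1 x2) * (cI x0 x1 x2) ^ 2 + ((-2) / 729) * (aI x0 x1 x2) ^ 2 + ((-16) / 729) * (aI x0 x1 x2) ^ 2 * (cI x0 x1 x2) + ((4) / 243) * (aI x0 x1 x2) ^ 3) * (Ml_eval_4_2_2 y0 y1 y2 hy))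
    + (98415) * (Ml_avg 4 3 0 x0 x1 x2 y0 y1 y2 + Ml 4 3 0 y0 y1 y2 * (Ml_eval_4_3_0 x0 x1 x2 hx) + (((2) / 729) + ((-40) / 729) * (cI x0 x1 x2) + ((20) / 729) * (cI x0 x1 x2) ^ 2 + ((4) / 243) * (aI x0 x1 x2) + ((2) / 243) * (aI x0 x1 x2) * (cI x0 x1 x2) + ((8) / 243) * (aI x0 x1 x2) ^ 2 + ((-2) / 243) * (aI x0 x1 x2) ^ 2 * (cI x0 x1 x2) + ((-2) / 81) * (aI x0 x1 x2) ^ 3) * (Ml_eval_4_3_0 y0 y1 y2 hy))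
    + (-1574640) * (Ml_avg 4 3 1 x0 x1 x2 y0 y1 y2 + Ml 4 3 1 y0 y1 y2 * (Ml_eval_4_3_1 x0 x1 x2 hx) + (((2) / 2187) + ((-10) / 2187) * (cI x0 x1 x2) + ((-28) / 2187) * (cI x0 x1 x2) ^ 2 + ((-2) / 2187) * (aI x0 x1 x2) + ((52) / 2187) * (aI x0 x1 x2) * (cI x0 x1 x2) + ((4) / 2187) * (aI x0 x1 x2) * (cI x0 x1 x2) ^ 2 + ((-2) / 729) * (aI x0 x1 x2) ^ 2 + ((2) / 729) * (aI x0 x1 x2) ^ 2 * (cI x0 x1 x2) + ((-2) / 243) * (aI x0 x1 x2) ^ 3) * (Ml_eval_4_3_1 y0 y1 y2 hy))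
    + ((9743085) / 2) * (Ml_avg 4 3 2 x0 x1 x2 y0 y1 y2 + Ml 4 3 2 y0 y1 y2 * (Ml_eval_4_3_2 x0 x1 x2 hx) + (((2) / 6561) + ((2) / 2187) * (cI x0 x1 x2) + ((-8) / 6561) * (cI x0 x1 x2) ^ 3 + ((-4) / 2187) * (aI x0 x1 x2) + ((-4) / 2187) * (aI x0 x1 x2) * (cI x0 x1 x2) + ((8) / 2187) * (aI x0 x1 x2) * (cI x0 x1 x2) ^ 2 + ((2) / 729) * (aI x0 x1 x2) ^ 2 + ((-2) / 729) * (aI x0 x1 x2) ^ 2 * (cI x0 x1 x2)) * (Ml_eval_4_3_2 y0 y1 y2 hy))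
    + ((-295245) / 2) * (Ml_avg 4 4 0 x0 x1 x2 y0 y1 y2 + Ml 4 4 0 y0 y1 y2 * (Ml_eval_4_4_0 x0 x1 x2 hx) + (((2) / 2187) + ((-64) / 2187) * (cI x0 x1 x2) + ((80) / 2187) * (cI x0 x1 x2) ^ 2 + ((16) / 2187) * (aI x0 x1 x2) + ((16) / 2187) * (aI x0 x1 x2) * (cI x0 x1 x2) + ((-32) / 2187) * (aI x0 x1 x2) * (cI x0 x1 x2) ^ 2 + ((16) / 729) * (aI x0 x1 x2) ^ 2 + ((-16) / 729) * (aI x0 x1 x2) ^ 2 * (cI x0 x1 x2) + ((-8) / 243) * (aI x0 x1 x2) ^ 3 + ((2) / 81) * (aI x0 x1 x2) ^ 4) * (Ml_eval_4_4_0 y0 y1 y2 hy))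
    + ((2066715) / 2) * (Ml_avg 4 4 1 x0 x1 x2 y0 y1 y2 + Ml 4 4 1 y0 y1 y2 * (Ml_eval_4_4_1 x0 x1 x2 hx) + (((2) / 6561) + ((-8) / 2187) * (cI x0 x1 x2) + ((-16) / 2187) * (cI x0 x1 x2) ^ 2 + ((16) / 6561) * (cI x0 x1 x2) ^ 3 + ((4) / 243) * (aI x0 x1 x2) * (cI x0 x1 x2) + ((-8) / 729) * (aI x0 x1 x2) ^ 3 + ((-4) / 729) * (aI x0 x1 x2) ^ 3 * (cI x0 x1 x2) + ((2) / 243) * (aI x0 x1 x2) ^ 4) * (Ml_eval_4_4_1 y0 y1 y2 hy))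
    + (32805) * (Ml_avg 5 1 1 x0 x1 x2 y0 y1 y2 + Ml 5 1 1 y0 y1 y2 * (Ml_eval_5_1_1 x0 x1 x2 hx) + (((2) / 729) + ((20) / 729) * (cI x0 x1 x2) + ((32) / 729) * (cI x0 x1 x2) ^ 2 + ((2) / 81) * (aI x0 x1 x2) + ((-20) / 243) * (aI x0 x1 x2) ^ 2 + ((8) / 243) * (aI x0 x1 x2) ^ 2 * (cI x0 x1 x2) + ((-4) / 81) * (aI x0 x1 x2) ^ 3) * (Ml_eval_5_1_1 y0 y1 y2 hy))
    + (32805) * (Ml_avg 5 2 0 x0 x1 x2 y0 y1 y2 + Ml 5 2 0 y0 y1 y2 * (Ml_eval_5_2_0 x0 x1 x2 hx) + (((2) / 729) + ((-10) / 729) * (cI x0 x1 x2) + ((-28) / 729) * (cI x0 x1 x2) ^ 2 + ((8) / 243) * (aI x0 x1 x2) + ((-20) / 243) * (aI x0 x1 x2) * (cI x0 x1 x2) + ((2) / 81) * (aI x0 x1 x2) ^ 2 * (cI x0 x1 x2) + ((2) / 27) * (aI x0 x1 x2) ^ 3) * (Ml_eval_5_2_0 y0 y1 y2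 hy))
    + (-688905) * (Ml_avg 5 2 1 x0 x1 x2 y0 y1 y2 + Ml 5 2 1 y0 y1 y2 * (Ml_eval_5_2_1 x0 x1 x2 hx) + (((2) / 2187) + ((8) / 2187) * (cI x0 x1 x2) + ((8) / 2187) * (cI x0 x1 x2) ^ 2 + ((10) / 2187) * (aI x0 x1 x2) + ((10) / 2187) * (aI x0 x1 x2) * (cI x0 x1 x2) + ((-20) / 2187) * (aI x0 x1 x2) * (cI x0 x1 x2) ^ 2 + ((-20) / 729) * (aI x0 x1 x2) ^ 2 + ((2) / 729) * (aI x0 x1 x2) ^ 2 * (cI x0 x1 x2) + ((4) / 243) * (aI x0 x1 x2) ^ 3) * (Ml_eval_5_2_1 y0 y1 y2 hy))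
    + ((4782969) / 4) * (Ml_avg 5 2 2 x0 x1 x2 y0 y1 y2 + Ml 5 2 2 y0 y1 y2 * (Ml_eval_5_2_2 x0 x1 x2 hx) + (((2) / 6561) + ((4) / 2187) * (cI x0 x1 x2) + ((8) / 2187) * (cI x0 x1 x2) ^ 2 + ((16) / 6561) * (cI x0 x1 x2) ^ 3 + ((-2) / 243) * (aI x0 x1 x2) ^ 2 + ((-4) / 243) * (aI x0 x1 x2) ^ 2 * (cI x0 x1 x2) + ((4) / 243) * (aI x0 x1 x2) ^ 3) * (Ml_eval_5_2_2 y0 y1 y2 hy))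
    + (-196830) * (Ml_avg 5 3 0 x0 x1 x2 y0 y1 y2 + Ml 5 3 0 y0 y1 y2 * (Ml_eval_5_3_0 x0 x1 x2 hx) + (((2) / 2187) + ((-46) / 2187) * (cI x0 x1 x2) + ((8) / 2187) * (cI x0 x1 x2) ^ 2 + ((22) / 2187) * (aI x0 x1 x2) + ((-50) / 2187) * (aI x0 x1 x2) * (cI x0 x1 x2) + ((28) / 2187) * (aI x0 x1 x2) * (cI x0 x1 x2) ^ 2 + ((10) / 729) * (aI x0 x1 x2) ^ 2 + ((8) / 729) * (aI x0 x1 x2) ^ 2 * (cI x0 x1 x2) + ((4) / 243) * (aI x0 x1 x2) ^ 3 + ((-2) / 81) * (aI x0 x1 x2) ^ 4) * (Ml_eval_5_3_0 y0 y1 y2 hy))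
    + (1476225) * (Ml_avg 5 3 1 x0 x1 x2 y0 y1 y2 + Ml 5 3 1 y0 y1 y2 * (Ml_eval_5_3_1 x0 x1 x2 hx) + (((2) / 6561) + ((-4) / 2187) * (cI x0 x1 x2) + ((-4) / 729) * (cI x0 x1 x2) ^ 2 + ((-8) / 6561) * (cI x0 x1 x2) ^ 3 + ((2) / 2187) * (aI x0 x1 x2) + ((20) / 2187) * (aI x0 x1 x2) * (cI x0 x1 x2) + ((-4) / 2187) * (aI x0 x1 x2) * (cI x0 x1 x2) ^ 2 + ((-4) / 729) * (aI x0 x1 x2) ^ 2 + ((4) / 729) * (aI x0 x1 x2) ^ 2 * (cI x0 x1 x2) + ((2) / 729) * (aI x0 x1 x2) ^ 3 + ((4) / 729) * (aI x0 x1 x2) ^ 3 * (cI x0 x1 x2) + ((-2) / 243) * (aI x0 x1 x2) ^ 4) * (Ml_eval_5_3_1 y0 y1 y2 hy))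
    + (295245) * (Ml_avg 5 4 0 x0 x1 x2 y0 y1 y2 + Ml 5 4 0 y0 y1 y2 * (Ml_eval_5_4_0 x0 x1 x2 hx) + (((2) / 6561) + ((-28) / 2187) * (cI x0 x1 x2) + ((16) / 729) * (cI x0 x1 x2) ^ 2 + ((-8) / 6561) * (cI x0 x1 x2) ^ 3 + ((8) / 2187) * (aI x0 x1 x2) + ((-10) / 2187) * (aI x0 x1 x2) * (cI x0 x1 x2) + ((-16) / 2187) * (aI x0 x1 x2) * (cI x0 x1 x2) ^ 2 + ((8) / 729) * (aI x0 x1 x2) ^ 2 + ((-8) / 729) * (aI x0 x1 x2) ^ 2 * (cI x0 x1 x2) + ((-8) / 729) * (aI x0 x1 x2) ^ 3 + ((2) / 729) * (aI x0 x1 x2) ^ 3 * (cI x0 x1 x2) + ((2) / 243) * (aI x0 x1 x2) ^ 4) * (Ml_eval_5_4_0 y0 y1 y2 hy))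
    + ((-98415) / 2) * (Ml_avg 6 1 1 x0 x1 x2 y0 y1 y2 + Ml 6 1 1 y0 y1 y2 * (Ml_eval_6_1_1 x0 x1 x2 hx) + (((2) / 2187) + ((44) / 2187) * (cI x0 x1 x2) + ((80) / 2187) * (cI x0 x1 x2) ^ 2 + ((34) / 2187) * (aI x0 x1 x2) + ((-20) / 2187) * (aI x0 x1 x2) * (cI x0 x1 x2) + ((40) / 2187) * (aI x0 x1 x2) * (cI x0 x1 x2) ^ 2 + ((-20) / 729) * (aI x0 x1 x2) ^ 2 + ((20) / 729) * (aI x0 x1 x2) ^ 2 * (cI x0 x1 x2) + ((-20) / 243) * (aI x0 x1 x2) ^ 3) * (Ml_eval_6_1_1 y0 y1 y2 hy))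
    + ((-98415) / 2) * (Ml_avg 6 2 0 x0 x1 x2 y0 y1 y2 + Ml 6 2 0 y0 y1 y2 * (Ml_eval_6_2_0 x0 x1 x2 hx) + (((2) / 2187) + ((8) / 2187) * (cI x0 x1 x2) + ((-100) / 2187) * (cI x0 x1 x2) ^ 2 + ((40) / 2187) * (aI x0 x1 x2) + ((-140) / 2187) * (aI x0 x1 x2) * (cI x0 x1 x2) + ((-8) / 2187) * (aI x0 x1 x2) * (cI x0 x1 x2) ^ 2 + ((10) / 729) * (aI x0 x1 x2) ^ 2 + ((8) / 729) * (aI x0 x1 x2) ^ 2 * (cI x0 x1 x2) + ((10) / 243) * (aI x0 x1 x2) ^ 3 + ((2) / 81) * (aI x0 x1 x2) ^ 4) * (Ml_eval_6_2_0 y0 y1 y2 hy))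
    + ((1003833) / 2) * (Ml_avg 6 2 1 x0 x1 x2 y0 y1 y2 + Ml 6 2 1 y0 y1 y2 * (Ml_eval_6_2_1 x0 x1 x2 hx) + (((2) / 6561) + ((8) / 2187) * (cI x0 x1 x2) + ((4) / 729) * (cI x0 x1 x2) ^ 2 + ((-8) / 6561) * (cI x0 x1 x2) ^ 3 + ((8) / 2187) * (aI x0 x1 x2) + ((-10) / 2187) * (aI x0 x1 x2) * (cI x0 x1 x2) + ((-16) / 2187) * (aI x0 x1 x2) * (cI x0 x1 x2) ^ 2 + ((-10) / 729) * (aI x0 x1 x2) ^ 2 + ((10) / 729) * (aI x0 x1 x2) ^ 2 * (cI x0 x1 x2) + ((-2) / 729) * (aI x0 x1 x2) ^ 3 + ((-4) / 729) * (aI x0 x1 x2) ^ 3 * (cI x0 x1 x2) + ((2) / 243) * (aI x0 x1 x2) ^ 4) * (Ml_eval_6_2_1 y0 y1 y2 hy))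
    + ((295245) / 2) * (Ml_avg 6 3 0 x0 x1 x2 y0 y1 y2 + Ml 6 3 0 y0 y1 y2 * (Ml_eval_6_3_0 x0 x1 x2 hx) + (((2) / 6561) + ((-14) / 2187) * (cI x0 x1 x2) + ((-28) / 2187) * (cI x0 x1 x2) ^ 2 + ((16) / 6561) * (cI x0 x1 x2) ^ 3 + ((4) / 729) * (aI x0 x1 x2) + ((-20) / 729) * (aI x0 x1 x2) * (cI x0 x1 x2) + ((16) / 729) * (aI x0 x1 x2) * (cI x0 x1 x2) ^ 2 + ((2) / 243) * (aI x0 x1 x2) ^ 2 + ((4) / 243) * (aI x0 x1 x2) ^ 2 * (cI x0 x1 x2) + ((2) / 81) * (aI x0 x1 x2) ^ 3 + ((-2) / 243) * (aI x0 x1 x2) ^ 3 * (cI x0 x1 x2) + ((-2) / 81) * (aI x0 x1 x2) ^ 4) * (Ml_eval_6_3_0 y0 y1 y2 hy))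
    + ((59049) / 2) * (Ml_avg 7 1 1 x0 x1 x2 y0 y1 y2 + Ml 7 1 1 y0 y1 y2 * (Ml_eval_7_1_1 x0 x1 x2 hx) + (((2) / 6561) + ((28) / 2187) * (cI x0 x1 x2) + ((56) / 2187) * (cI x0 x1 x2) ^ 2 + ((16) / 6561) * (cI x0 x1 x2) ^ 3 + ((2) / 243) * (aI x0 x1 x2) + ((8) / 243) * (aI x0 x1 x2) * (cI x0 x1 x2) ^ 2 + ((-56) / 729) * (aI x0 x1 x2) ^ 3 + ((8) / 729) * (aI x0 x1 x2) ^ 3 * (cI x0 x1 x2) + ((-4) / 243) * (aI x0 x1 x2) ^ 4) * (Ml_eval_7_1_1 y0 y1 y2 hy))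
    + ((59049) / 2) * (Ml_avg 7 2 0 x0 x1 x2 y0 y1 y2 + Ml 7 2 0 y0 y1 y2 * (Ml_eval_7_2_0 x0 x1 x2 hx) + (((2) / 6561) + ((14) / 2187) * (cI x0 x1 x2) + ((-28) / 729) * (cI x0 x1 x2) ^ 2 + ((-8) / 6561) * (cI x0 x1 x2) ^ 3 + ((20) / 2187) * (aI x0 x1 x2) + ((-70) / 2187) * (aI x0 x1 x2) * (cI x0 x1 x2) + ((-40) / 2187) * (aI x0 x1 x2) * (cI x0 x1 x2) ^ 2 + ((14) / 729) * (aI x0 x1 x2) ^ 2 + ((-14) / 729) * (aI x0 x1 x2) ^ 2 * (cI x0 x1 x2) + ((14) / 729) * (aI x0 x1 x2) ^ 3 + ((10) / 729) * (aI x0 x1 x2) ^ 3 * (cI x0 x1 x2) + ((10) / 243) * (aI x0 x1 x2) ^ 4) * (Ml_eval_7_2_0 y0 y1 y2 hy))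

theorem exp_avgN6 (p0 p1 p2 : ℝ) :
    (27 * (p0 * p1 + p0 * p2 + p1 * p2)) ^ 2 * (3 * (p0 + p1 + p2) - 1) ^ 6 = (729) * Ml 2 1 1 p0 p1 p2 + ((729) / 2) * Ml 2 2 0 p0 p1 p2 + (-32805) * Ml 2 2 1 p0 p1 p2 + ((492075) / 2) * Ml 2 2 2 p0 p1 p2 + (-13122) * Ml 3 1 1 p0 p1 p2 + (-13122) * Ml 3 2 0 p0 p1 p2 + (787320) * Ml 3 2 1 p0 p1 p2 + (-6101730) * Ml 3 2 2 p0 p1 p2 + (98415) * Ml 3 3 0 p0 p1 p2 + (-3542940) * Ml 3 3 1 p0 p1 p2 + (35429400) * Ml 3 3 2 p0 p1 p2 + (-42515280) * Ml 3 3 3 p0 p1 p2 + (98415) * Ml 4 1 1 p0 p1 p2 + (98415) * Ml 4 2 0 p0 p1 p2 + (-4330260) * Ml 4 2 1 p0 p1 p2 + ((46943955) / 2) * Ml 4 2 2 p0 p1 p2 + (-1180980) * Ml 4 3 0 p0 p1 p2 + (28343520) * Ml 4 3 1 p0 p1 p2 + (-175375530) * Ml 4 3 2 p0 p1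 p2 + (151460685) * Ml 4 3 3 p0 p1 p2 + (2657205) * Ml 4 4 0 p0 p1 p2 + (-37200870) * Ml 4 4 1 p0 p1 p2 + (106288200) * Ml 4 4 2 p0 p1 p2 + (-393660) * Ml 5 1 1 p0 p1 p2 + (-393660) * Ml 5 2 0 p0 p1 p2 + (12400290) * Ml 5 2 1 p0 p1 p2 + (-43046721) * Ml 5 2 2 p0 p1 p2 + (3542940) * Ml 5 3 0 p0 p1 p2 + (-53144100) * Ml 5 3 1 p0 p1 p2 + (157306536) * Ml 5 3 2 p0 p1 p2 + (-10628820) * Ml 5 4 0 p0 p1 p2 + (69087330) * Ml 5 4 1 p0 p1 p2 + (5314410) * Ml 5 5 0 p0 p1 p2 + (885735) * Ml 6 1 1 p0 p1 p2 + (885735) * Ml 6 2 0 p0 p1 p2 + (-18068994) * Ml 6 2 1 p0 p1 p2 + ((61115715) / 2) * Ml 6 2 2 p0 p1 p2 + (-5314410) * Ml 6 3 0 p0 p1 p2 + (38263752) * Ml 6 3 1 p0 p1 p2 + (7971615) * Ml 6 4 0 p0 p1 p2 + (-1062882) * Ml 7 1 1 p0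 p1 p2 + (-1062882) * Ml 7 2 0 p0 p1 p2 + (10628820) * Ml 7 2 1 p0 p1 p2 + (3188646) * Ml 7 3 0 p0 p1 p2 + (531441) * Ml 8 1 1 p0 p1 p2 + (531441) * Ml 8 2 0 p0 p1 p2 := by
  simp only [Ml]
  ring

theorem avgN6 (x0 x1 x2 y0 y1 y2 : ℝ) (hx : x2 = 1 - x0 - x1) (hy : y2 = 1 - y0 - y1) :
    (nu3 x0 x1 x2 y0 y1 y2 ^ 2 * w3 x0 x1 x2 y0 y1 y2 ^ 6 + nu3 x0 x1 x2 y0 y2 y1 ^ 2 * w3 x0 x1 x2 y0 y2 y1 ^ 6 + nu3 x0 x1 x2 y1 y0 y2 ^ 2 * w3 x0 x1 x2 y1 y0 y2 ^ 6 + nu3 x0 x1 x2 y1 y2 y0 ^ 2 * w3 x0 x1 x2 y1 y2 y0 ^ 6 + nu3 x0 x1 x2 y2 y0 y1 ^ 2 * w3 x0 x1 x2 y2 y0 y1 ^ 6 + nu3 x0 x1 x2 y2 y1 y0 ^ 2 * w3 x0 x1 x2 y2 y1 y0 ^ 6) / 6 = 8 * (cI x0 x1 x2) ^ 2 * (cI y0 y1 y2) ^ 2 + (-16) * (cI x0 x1 x2) ^ 2 * (aI y0 y1 y2) * (cI y0 y1 y2)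 ^ 2 + 8 * (cI x0 x1 x2) ^ 2 * (aI y0 y1 y2) ^ 2 * (cI y0 y1 y2) ^ 2 + (-4) * (cI x0 x1 x2) ^ 2 * (aI y0 y1 y2) ^ 3 + 8 * (cI x0 x1 x2) ^ 2 * (aI y0 y1 y2) ^ 4 + (-4) * (cI x0 x1 x2) ^ 2 * (aI y0 y1 y2) ^ 5 + 64 * (cI x0 x1 x2) ^ 3 * (cI y0 y1 y2) ^ 3 + (-32) * (cI x0 x1 x2) ^ 3 * (aI y0 y1 y2) * (cI y0 y1 y2) ^ 2 + (-32) * (cI x0 x1 x2) ^ 3 * (aI y0 y1 y2) ^ 2 * (cI y0 y1 y2) ^ 2 + (-32) * (cI x0 x1 x2) ^ 3 * (aI y0 y1 y2) ^ 3 * (cI y0 y1 y2) + 16 * (cI x0 x1 x2) ^ 3 * (aI y0 y1 y2) ^ 4 + 16 * (cI x0 x1 x2) ^ 3 * (aI y0 y1 y2) ^ 5 + (-16) * (aI x0 x1 x2) * (cI x0 x1 x2) ^ 2 * (cI y0 y1 y2) ^ 2 + (-32) * (aI x0 x1 x2) * (cI x0 x1 x2) ^ 2 * (cI y0 y1 y2) ^ 3 + 192 * (aI x0 x1 x2) * (cI x0 x1 x2) ^ 2 * (aI y0 y1 y2) * (cI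 y0 y1 y2) ^ 2 + (-48) * (aI x0 x1 x2) * (cI x0 x1 x2) ^ 2 * (aI y0 y1 y2) ^ 2 * (cI y0 y1 y2) + (-96) * (aI x0 x1 x2) * (cI x0 x1 x2) ^ 2 * (aI y0 y1 y2) ^ 2 * (cI y0 y1 y2) ^ 2 + 8 * (aI x0 x1 x2) * (cI x0 x1 x2) ^ 2 * (aI y0 y1 y2) ^ 3 + 16 * (aI x0 x1 x2) * (cI x0 x1 x2) ^ 2 * (aI y0 y1 y2) ^ 3 * (cI y0 y1 y2) + (-96) * (aI x0 x1 x2) * (cI x0 x1 x2) ^ 2 * (aI y0 y1 y2) ^ 4 + 72 * (aI x0 x1 x2) * (cI x0 x1 x2) ^ 2 * (aI y0 y1 y2) ^ 5 + (-48) * (aI x0 x1 x2) ^ 2 * (cI x0 x1 x2) * (aI y0 y1 y2) * (cI y0 y1 y2) ^ 2 + 84 * (aI x0 x1 x2) ^ 2 * (cI x0 x1 x2) * (aI y0 y1 y2) ^ 2 * (cI y0 y1 y2) + 48 * (aI x0 x1 x2) ^ 2 * (cI x0 x1 x2) * (aI y0 y1 y2) ^ 2 * (cI y0 y1 y2) ^ 2 + (-84) * (aI x0 x1 x2) ^ 2 * (cI x0 x1 x2) * (aI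 y0 y1 y2) ^ 3 * (cI y0 y1 y2) + (-36) * (aI x0 x1 x2) ^ 2 * (cI x0 x1 x2) * (aI y0 y1 y2) ^ 4 + 36 * (aI x0 x1 x2) ^ 2 * (cI x0 x1 x2) * (aI y0 y1 y2) ^ 5 + 8 * (aI x0 x1 x2) ^ 2 * (cI x0 x1 x2) ^ 2 * (cI y0 y1 y2) ^ 2 + (-32) * (aI x0 x1 x2) ^ 2 * (cI x0 x1 x2) ^ 2 * (cI y0 y1 y2) ^ 3 + (-96) * (aI x0 x1 x2) ^ 2 * (cI x0 x1 x2) ^ 2 * (aI y0 y1 y2) * (cI y0 y1 y2) ^ 2 + 48 * (aI x0 x1 x2) ^ 2 * (cI x0 x1 x2) ^ 2 * (aI y0 y1 y2) ^ 2 * (cI y0 y1 y2) + 240 * (aI x0 x1 x2) ^ 2 * (cI x0 x1 x2) ^ 2 * (aI y0 y1 y2) ^ 2 * (cI y0 y1 y2) ^ 2 + (-4) * (aI x0 x1 x2) ^ 2 * (cI x0 x1 x2) ^ 2 * (aI y0 y1 y2) ^ 3 + (-152) * (aI x0 x1 x2) ^ 2 * (cI x0 x1 x2) ^ 2 * (aI y0 y1 y2) ^ 3 * (cI y0 y1 y2) + 108 * (aI x0 x1 x2) ^ 2 * (cI x0 x1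 x2) ^ 2 * (aI y0 y1 y2) ^ 4 + (-120) * (aI x0 x1 x2) ^ 2 * (cI x0 x1 x2) ^ 2 * (aI y0 y1 y2) ^ 5 + (-4) * (aI x0 x1 x2) ^ 3 * (cI y0 y1 y2) ^ 2 + 8 * (aI x0 x1 x2) ^ 3 * (aI y0 y1 y2) * (cI y0 y1 y2) ^ 2 + (-4) * (aI x0 x1 x2) ^ 3 * (aI y0 y1 y2) ^ 2 * (cI y0 y1 y2) ^ 2 + 22 * (aI x0 x1 x2) ^ 3 * (aI y0 y1 y2) ^ 3 + (-44) * (aI x0 x1 x2) ^ 3 * (aI y0 y1 y2) ^ 4 + 22 * (aI x0 x1 x2) ^ 3 * (aI y0 y1 y2) ^ 5 + (-32) * (aI x0 x1 x2) ^ 3 * (cI x0 x1 x2) * (cI y0 y1 y2) ^ 3 + 16 * (aI x0 x1 x2) ^ 3 * (cI x0 x1 x2) * (aI y0 y1 y2) * (cI y0 y1 y2) ^ 2 + (-84) * (aI x0 x1 x2) ^ 3 * (cI x0 x1 x2) * (aI y0 y1 y2) ^ 2 * (cI y0 y1 y2) + (-152) * (aI x0 x1 x2) ^ 3 * (cI x0 x1 x2) * (aI y0 y1 y2) ^ 2 * (cI y0 y1 y2) ^ 2 + 428 * (aI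 x0 x1 x2) ^ 3 * (cI x0 x1 x2) * (aI y0 y1 y2) ^ 3 * (cI y0 y1 y2) + (-88) * (aI x0 x1 x2) ^ 3 * (cI x0 x1 x2) * (aI y0 y1 y2) ^ 4 + (-88) * (aI x0 x1 x2) ^ 3 * (cI x0 x1 x2) * (aI y0 y1 y2) ^ 5 + 8 * (aI x0 x1 x2) ^ 4 * (cI y0 y1 y2) ^ 2 + 16 * (aI x0 x1 x2) ^ 4 * (cI y0 y1 y2) ^ 3 + (-96) * (aI x0 x1 x2) ^ 4 * (aI y0 y1 y2) * (cI y0 y1 y2) ^ 2 + (-36) * (aI x0 x1 x2) ^ 4 * (aI y0 y1 y2) ^ 2 * (cI y0 y1 y2) + 108 * (aI x0 x1 x2) ^ 4 * (aI y0 y1 y2) ^ 2 * (cI y0 y1 y2) ^ 2 + (-44) * (aI x0 x1 x2) ^ 4 * (aI y0 y1 y2) ^ 3 + (-88) * (aI x0 x1 x2) ^ 4 * (aI y0 y1 y2) ^ 3 * (cI y0 y1 y2) + 258 * (aI x0 x1 x2) ^ 4 * (aI y0 y1 y2) ^ 4 + (-126) * (aI x0 x1 x2) ^ 4 * (aI y0 y1 y2) ^ 5 + (-4) * (aI x0 x1 x2) ^ 5 * (cI y0 y1 y2)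 ^ 2 + 16 * (aI x0 x1 x2) ^ 5 * (cI y0 y1 y2) ^ 3 + 72 * (aI x0 x1 x2) ^ 5 * (aI y0 y1 y2) * (cI y0 y1 y2) ^ 2 + 36 * (aI x0 x1 x2) ^ 5 * (aI y0 y1 y2) ^ 2 * (cI y0 y1 y2) + (-120) * (aI x0 x1 x2) ^ 5 * (aI y0 y1 y2) ^ 2 * (cI y0 y1 y2) ^ 2 + 22 * (aI x0 x1 x2) ^ 5 * (aI y0 y1 y2) ^ 3 + (-88) * (aI x0 x1 x2) ^ 5 * (aI y0 y1 y2) ^ 3 * (cI y0 y1 y2) + (-126) * (aI x0 x1 x2) ^ 5 * (aI y0 y1 y2) ^ 4 + 192 * (aI x0 x1 x2) ^ 5 * (aI y0 y1 y2) ^ 5 := by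
  have e0 : nu3 x0 x1 x2 y0 y1 y2 ^ 2 * w3 x0 x1 x2 y0 y1 y2 ^ 6 = _ := exp_avgN6 (x0 * y0) (x1 * y1) (x2 * y2)
  have e1 : nu3 x0 x1 x2 y0 y2 y1 ^ 2 * w3 x0 x1 x2 y0 y2 y1 ^ 6 = _ := exp_avgN6 (x0 * y0) (x1 * y2) (x2 * y1)
  have e2 : nu3 x0 x1 x2 y1 y0 y2 ^ 2 * w3 x0 x1 x2 y1 y0 y2 ^ 6 = _ := exp_avgN6 (x0 * y1) (x1 * y0) (x2 * y2)
  have e3 : nu3 x0 x1 x2 y1 y2 y0 ^ 2 * w3 x0 x1 x2 y1 y2 y0 ^ 6 = _ := exp_avgN6 (x0 * y1) (x1 * y2) (x2 * y0)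
  have e4 : nu3 x0 x1 x2 y2 y0 y1 ^ 2 * w3 x0 x1 x2 y2 y0 y1 ^ 6 = _ := exp_avgN6 (x0 * y2) (x1 * y0) (x2 * y1)
  have e5 : nu3 x0 x1 x2 y2 y1 y0 ^ 2 * w3 x0 x1 x2 y2 y1 y0 ^ 6 = _ := exp_avgN6 (x0 * y2) (x1 * y1) (x2 * y0)
  rw [e0, e1, e2, e3, e4, e5]
  linear_combination
    ((243) / 2) * (Ml_avg 2 1 1 x0 x1 x2 y0 y1 y2 + Ml 2 1 1 y0 y1 y2 * (Ml_eval_2_1_1 x0 x1 x2 hx) + (((2) / 27) + ((4) / 27) * (cI x0 x1 x2) + ((-2) / 9) * (aI x0 x1 x2)) * (Ml_eval_2_1_1 y0 y1 y2 hy))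
    + ((243) / 4) * (Ml_avg 2 2 0 x0 x1 x2 y0 y1 y2 + Ml 2 2 0 y0 y1 y2 * (Ml_eval_2_2_0 x0 x1 x2 hx) + (((2) / 27) + ((-8) / 27) * (cI x0 x1 x2) + ((2) / 9) * (aI x0 x1 x2) ^ 2) * (Ml_eval_2_2_0 y0 y1 y2 hy))
    + ((-10935) / 2) * (Ml_avg 2 2 1 x0 x1 x2 y0 y1 y2 + Ml 2 2 1 y0 y1 y2 * (Ml_eval_2_2_1 x0 x1 x2 hx) + (((2) / 81) + ((4) / 81) * (cI x0 x1 x2) + ((-8) / 81) * (aI x0 x1 x2) + ((-4) / 81) * (aI x0 x1 x2) * (cI x0 x1 x2) + ((2) / 27) * (aI x0 x1 x2) ^ 2) * (Ml_eval_2_2_1 y0 y1 y2 hy))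
    + ((164025) / 4) * (Ml_avg 2 2 2 x0 x1 x2 y0 y1 y2 + Ml 2 2 2 y0 y1 y2 * (Ml_eval_2_2_2 x0 x1 x2 hx) + (((2) / 243) + ((8) / 243) * (cI x0 x1 x2) + ((8) / 243) * (cI x0 x1 x2) ^ 2 + ((-4) / 81) * (aI x0 x1 x2) + ((-8) / 81) * (aI x0 x1 x2) * (cI x0 x1 x2) + ((2) / 27) * (aI x0 x1 x2) ^ 2) * (Ml_eval_2_2_2 y0 y1 y2 hy))
    + (-2187) * (Ml_avg 3 1 1 x0 x1 x2 y0 y1 y2 + Ml 3 1 1 y0 y1 y2 * (Ml_eval_3_1_1 x0 x1 x2 hx) + (((2) / 81) + ((4) / 81) * (cI x0 x1 x2) + ((-2) / 81) * (aI x0 x1 x2) + ((8) / 81) * (aI x0 x1 x2) * (cI x0 x1 x2) + ((-4) / 27) * (aI x0 x1 x2) ^ 2) * (Ml_eval_3_1_1 y0 y1 y2 hy))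
    + (-2187) * (Ml_avg 3 2 0 x0 x1 x2 y0 y1 y2 + Ml 3 2 0 y0 y1 y2 * (Ml_eval_3_2_0 x0 x1 x2 hx) + (((2) / 81) + ((-14) / 81) * (cI x0 x1 x2) + ((4) / 81) * (aI x0 x1 x2) + ((2) / 81) * (aI x0 x1 x2) * (cI x0 x1 x2) + ((2) / 27) * (aI x0 x1 x2) ^ 2) * (Ml_eval_3_2_0 y0 y1 y2 hy))
    + (131220) * (Ml_avg 3 2 1 x0 x1 x2 y0 y1 y2 + Ml 3 2 1 y0 y1 y2 * (Ml_eval_3_2_1 x0 x1 x2 hx) + (((2) / 243) + ((2) / 243) * (cI x0 x1 x2) + ((-4) / 243) * (cI x0 x1 x2) ^ 2 + ((-2) / 81) * (aI x0 x1 x2) + ((2) / 81) * (aI x0 x1 x2) * (cI x0 x1 x2)) * (Ml_eval_3_2_1 y0 y1 y2 hy))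
    + (-1016955) * (Ml_avg 3 2 2 x0 x1 x2 y0 y1 y2 + Ml 3 2 2 y0 y1 y2 * (Ml_eval_3_2_2 x0 x1 x2 hx) + (((2) / 729) + ((8) / 729) * (cI x0 x1 x2) + ((8) / 729) * (cI x0 x1 x2) ^ 2 + ((-4) / 243) * (aI x0 x1 x2) + ((-8) / 243) * (aI x0 x1 x2) * (cI x0 x1 x2) + ((2) / 81) * (aI x0 x1 x2) ^ 2) * (Ml_eval_3_2_2 y0 y1 y2 hy))
    + ((32805) / 2) * (Ml_avg 3 3 0 x0 x1 x2 y0 y1 y2 + Ml 3 3 0 y0 y1 y2 * (Ml_eval_3_3_0 x0 x1 x2 hx) + (((2) / 243) + ((-28) / 243) * (cI x0 x1 x2) + ((8) / 243) * (cI x0 x1 x2) ^ 2 + ((2) / 81) * (aI x0 x1 x2) + ((4) / 81) * (aI x0 x1 x2) * (cI x0 x1 x2) + ((2) / 27) * (aI x0 x1 x2) ^ 2 + ((-2) / 27) * (aI x0 x1 x2) ^ 3) * (Ml_eval_3_3_0 y0 y1 y2 hy))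
    + (-590490) * (Ml_avg 3 3 1 x0 x1 x2 y0 y1 y2 + Ml 3 3 1 y0 y1 y2 * (Ml_eval_3_3_1 x0 x1 x2 hx) + (((2) / 729) + ((-4) / 729) * (cI x0 x1 x2) + ((-16) / 729) * (cI x0 x1 x2) ^ 2 + ((-2) / 243) * (aI x0 x1 x2) + ((8) / 243) * (aI x0 x1 x2) * (cI x0 x1 x2) + ((2) / 243) * (aI x0 x1 x2) ^ 2 + ((4) / 243) * (aI x0 x1 x2) ^ 2 * (cI x0 x1 x2) + ((-2) / 81) * (aI x0 x1 x2) ^ 3) * (Ml_eval_3_3_1 y0 y1 y2 hy))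
    + (5904900) * (Ml_avg 3 3 2 x0 x1 x2 y0 y1 y2 + Ml 3 3 2 y0 y1 y2 * (Ml_eval_3_3_2 x0 x1 x2 hx) + (((2) / 2187) + ((8) / 2187) * (cI x0 x1 x2) + ((8) / 2187) * (cI x0 x1 x2) ^ 2 + ((-14) / 2187) * (aI x0 x1 x2) + ((-32) / 2187) * (aI x0 x1 x2) * (cI x0 x1 x2) + ((-8) / 2187) * (aI x0 x1 x2) * (cI x0 x1 x2) ^ 2 + ((10) / 729) * (aI x0 x1 x2) ^ 2 + ((8) / 729) * (aI x0 x1 x2) ^ 2 * (cI x0 x1 x2) + ((-2) / 243) * (aI x0 x1 x2) ^ 3) * (Ml_eval_3_3_2 y0 y1 y2 hy))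
    + (-7085880) * (Ml_avg 3 3 3 x0 x1 x2 y0 y1 y2 + Ml 3 3 3 y0 y1 y2 * (Ml_eval_3_3_3 x0 x1 x2 hx) + (((2) / 6561) + ((4) / 2187) * (cI x0 x1 x2) + ((8) / 2187) * (cI x0 x1 x2) ^ 2 + ((16) / 6561) * (cI x0 x1 x2) ^ 3 + ((-2) / 729) * (aI x0 x1 x2) + ((-8) / 729) * (aI x0 x1 x2) * (cI x0 x1 x2) + ((-8) / 729) * (aI x0 x1 x2) * (cI x0 x1 x2) ^ 2 + ((2) / 243) * (aI x0 x1 x2) ^ 2 + ((4) / 243) * (aI x0 x1 x2) ^ 2 * (cI x0 x1 x2) + ((-2) / 243) * (aI x0 x1 x2) ^ 3) * (Ml_eval_3_3_3 y0 y1 y2 hy))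
    + ((32805) / 2) * (Ml_avg 4 1 1 x0 x1 x2 y0 y1 y2 + Ml 4 1 1 y0 y1 y2 * (Ml_eval_4_1_1 x0 x1 x2 hx) + (((2) / 243) + ((8) / 243) * (cI x0 x1 x2) + ((8) / 243) * (cI x0 x1 x2) ^ 2 + ((2) / 81) * (aI x0 x1 x2) + ((4) / 81) * (aI x0 x1 x2) * (cI x0 x1 x2) + ((-4) / 27) * (aI x0 x1 x2) ^ 2) * (Ml_eval_4_1_1 y0 y1 y2 hy))
    + ((32805) / 2) * (Ml_avg 4 2 0 x0 x1 x2 y0 y1 y2 + Ml 4 2 0 y0 y1 y2 * (Ml_eval_4_2_0 x0 x1 x2 hx) + (((2) / 243) + ((-16) / 243) * (cI x0 x1 x2) + ((-4) / 243) * (cI x0 x1 x2) ^ 2 + ((4) / 81) * (aI x0 x1 x2) + ((-4) / 81) * (aI x0 x1 x2) * (cI x0 x1 x2) + ((2) / 27) * (aI x0 x1 x2) ^ 3) * (Ml_eval_4_2_0 y0 y1 y2 hy))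
    + (-721710) * (Ml_avg 4 2 1 x0 x1 x2 y0 y1 y2 + Ml 4 2 1 y0 y1 y2 * (Ml_eval_4_2_1 x0 x1 x2 hx) + (((2) / 729) + ((2) / 729) * (cI x0 x1 x2) + ((-4) / 729) * (cI x0 x1 x2) ^ 2 + ((2) / 81) * (aI x0 x1 x2) * (cI x0 x1 x2) + ((-8) / 243) * (aI x0 x1 x2) ^ 2 + ((-4) / 243) * (aI x0 x1 x2) ^ 2 * (cI x0 x1 x2) + ((2) / 81) * (aI x0 x1 x2) ^ 3) * (Ml_eval_4_2_1 y0 y1 y2 hy))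
    + ((15647985) / 4) * (Ml_avg 4 2 2 x0 x1 x2 y0 y1 y2 + Ml 4 2 2 y0 y1 y2 * (Ml_eval_4_2_2 x0 x1 x2 hx) + (((2) / 2187) + ((8) / 2187) * (cI x0 x1 x2) + ((8) / 2187) * (cI x0 x1 x2) ^ 2 + ((-8) / 2187) * (aI x0 x1 x2) + ((-8) / 2187) * (aI x0 x1 x2) * (cI x0 x1 x2) + ((16) / 2187) * (aI x0 x1 x2) * (cI x0 x1 x2) ^ 2 + ((-2) / 729) * (aI x0 x1 x2) ^ 2 + ((-16) / 729) * (aI x0 x1 x2) ^ 2 * (cI x0 x1 x2) + ((4) / 243) * (aI x0 x1 x2) ^ 3) * (Ml_eval_4_2_2 y0 y1 y2 hy))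
    + (-196830) * (Ml_avg 4 3 0 x0 x1 x2 y0 y1 y2 + Ml 4 3 0 y0 y1 y2 * (Ml_eval_4_3_0 x0 x1 x2 hx) + (((2) / 729) + ((-40) / 729) * (cI x0 x1 x2) + ((20) / 729) * (cI x0 x1 x2) ^ 2 + ((4) / 243) * (aI x0 x1 x2) + ((2) / 243) * (aI x0 x1 x2) * (cI x0 x1 x2) + ((8) / 243) * (aI x0 x1 x2) ^ 2 + ((-2) / 243) * (aI x0 x1 x2) ^ 2 * (cI x0 x1 x2) + ((-2) / 81) * (aI x0 x1 x2) ^ 3) * (Ml_eval_4_3_0 y0 y1 y2 hy))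
    + (4723920) * (Ml_avg 4 3 1 x0 x1 x2 y0 y1 y2 + Ml 4 3 1 y0 y1 y2 * (Ml_eval_4_3_1 x0 x1 x2 hx) + (((2) / 2187) + ((-10) / 2187) * (cI x0 x1 x2) + ((-28) / 2187) * (cI x0 x1 x2) ^ 2 + ((-2) / 2187) * (aI x0 x1 x2) + ((52) / 2187) * (aI x0 x1 x2) * (cI x0 x1 x2) + ((4) / 2187) * (aI x0 x1 x2) * (cI x0 x1 x2) ^ 2 + ((-2) / 729) * (aI x0 x1 x2) ^ 2 + ((2) / 729) * (aI x0 x1 x2) ^ 2 * (cI x0 x1 x2) + ((-2) / 243) * (aI x0 x1 x2) ^ 3) * (Ml_eval_4_3_1 y0 y1 y2 hy))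
    + (-29229255) * (Ml_avg 4 3 2 x0 x1 x2 y0 y1 y2 + Ml 4 3 2 y0 y1 y2 * (Ml_eval_4_3_2 x0 x1 x2 hx) + (((2) / 6561) + ((2) / 2187) * (cI x0 x1 x2) + ((-8) / 6561) * (cI x0 x1 x2) ^ 3 + ((-4) / 2187) * (aI x0 x1 x2) + ((-4) / 2187) * (aI x0 x1 x2) * (cI x0 x1 x2) + ((8) / 2187) * (aI x0 x1 x2) * (cI x0 x1 x2) ^ 2 + ((2) / 729) * (aI x0 x1 x2) ^ 2 + ((-2) / 729) * (aI x0 x1 x2) ^ 2 * (cI x0 x1 x2)) * (Ml_eval_4_3_2 y0 y1 y2 hy))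
    + ((50486895) / 2) * (Ml_avg 4 3 3 x0 x1 x2 y0 y1 y2 + Ml 4 3 3 y0 y1 y2 * (Ml_eval_4_3_3 x0 x1 x2 hx) + (((2) / 19683) + ((4) / 6561) * (cI x0 x1 x2) + ((8) / 6561) * (cI x0 x1 x2) ^ 2 + ((16) / 19683) * (cI x0 x1 x2) ^ 3 + ((-2) / 2187) * (aI x0 x1 x2) + ((-8) / 2187) * (aI x0 x1 x2) * (cI x0 x1 x2) + ((-8) / 2187) * (aI x0 x1 x2) * (cI x0 x1 x2) ^ 2 + ((2) / 729) * (aI x0 x1 x2) ^ 2 + ((4) / 729) * (aI x0 x1 x2) ^ 2 * (cI x0 x1 x2) + ((-2) / 729) * (aI x0 x1 x2) ^ 3) * (Ml_eval_4_3_3 y0 y1 y2 hy))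
    + ((885735) / 2) * (Ml_avg 4 4 0 x0 x1 x2 y0 y1 y2 + Ml 4 4 0 y0 y1 y2 * (Ml_eval_4_4_0 x0 x1 x2 hx) + (((2) / 2187) + ((-64) / 2187) * (cI x0 x1 x2) + ((80) / 2187) * (cI x0 x1 x2) ^ 2 + ((16) / 2187) * (aI x0 x1 x2) + ((16) / 2187) * (aI x0 x1 x2) * (cI x0 x1 x2) + ((-32) / 2187) * (aI x0 x1 x2) * (cI x0 x1 x2) ^ 2 + ((16) / 729) * (aI x0 x1 x2) ^ 2 + ((-16) / 729) * (aI x0 x1 x2) ^ 2 * (cI x0 x1 x2) + ((-8) / 243) * (aI x0 x1 x2) ^ 3 + ((2) / 81) * (aI x0 x1 x2) ^ 4) * (Ml_eval_4_4_0 y0 y1 y2 hy))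
    + (-6200145) * (Ml_avg 4 4 1 x0 x1 x2 y0 y1 y2 + Ml 4 4 1 y0 y1 y2 * (Ml_eval_4_4_1 x0 x1 x2 hx) + (((2) / 6561) + ((-8) / 2187) * (cI x0 x1 x2) + ((-16) / 2187) * (cI x0 x1 x2) ^ 2 + ((16) / 6561) * (cI x0 x1 x2) ^ 3 + ((4) / 243) * (aI x0 x1 x2) * (cI x0 x1 x2) + ((-8) / 729) * (aI x0 x1 x2) ^ 3 + ((-4) / 729) * (aI x0 x1 x2) ^ 3 * (cI x0 x1 x2) + ((2) / 243) * (aI x0 x1 x2) ^ 4) * (Ml_eval_4_4_1 y0 y1 y2 hy))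
    + (17714700) * (Ml_avg 4 4 2 x0 x1 x2 y0 y1 y2 + Ml 4 4 2 y0 y1 y2 * (Ml_eval_4_4_2 x0 x1 x2 hx) + (((2) / 19683) + ((-8) / 6561) * (cI x0 x1 x2) ^ 2 + ((-32) / 19683) * (cI x0 x1 x2) ^ 3 + ((-4) / 6561) * (aI x0 x1 x2) + ((8) / 6561) * (aI x0 x1 x2) * (cI x0 x1 x2) + ((32) / 6561) * (aI x0 x1 x2) * (cI x0 x1 x2) ^ 2 + ((8) / 6561) * (aI x0 x1 x2) ^ 2 + ((-16) / 6561) * (aI x0 x1 x2) ^ 2 * (cI x0 x1 x2) + ((8) / 6561) * (aI x0 x1 x2) ^ 2 * (cI x0 x1 x2) ^ 2 + ((-4) / 2187) * (aI x0 x1 x2) ^ 3 + ((-8) / 2187) * (aI x0 x1 x2) ^ 3 * (cI x0 x1 x2) + ((2) / 729) * (aI x0 x1 x2) ^ 4) * (Ml_eval_4_4_2 y0 y1 y2 hy))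
    + (-65610) * (Ml_avg 5 1 1 x0 x1 x2 y0 y1 y2 + Ml 5 1 1 y0 y1 y2 * (Ml_eval_5_1_1 x0 x1 x2 hx) + (((2) / 729) + ((20) / 729) * (cI x0 x1 x2) + ((32) / 729) * (cI x0 x1 x2) ^ 2 + ((2) / 81) * (aI x0 x1 x2) + ((-20) / 243) * (aI x0 x1 x2) ^ 2 + ((8) / 243) * (aI x0 x1 x2) ^ 2 * (cI x0 x1 x2) + ((-4) / 81) * (aI x0 x1 x2) ^ 3) * (Ml_eval_5_1_1 y0 y1 y2 hy))
    + (-65610) * (Ml_avg 5 2 0 x0 x1 x2 y0 y1 y2 + Ml 5 2 0 y0 y1 y2 * (Ml_eval_5_2_0 x0 x1 x2 hx) + (((2) / 729) + ((-10) / 729) * (cI x0 x1 x2) + ((-28) / 729) * (cI x0 x1 x2) ^ 2 + ((8) / 243) * (aI x0 x1 x2) + ((-20) / 243) * (aI x0 x1 x2) * (cI x0 x1 x2) + ((2) / 81) * (aI x0 x1 x2) ^ 2 * (cI x0 x1 x2) + ((2) / 27) * (aI x0 x1 x2) ^ 3) * (Ml_eval_5_2_0 y0 y1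 y2 hy))
    + (2066715) * (Ml_avg 5 2 1 x0 x1 x2 y0 y1 y2 + Ml 5 2 1 y0 y1 y2 * (Ml_eval_5_2_1 x0 x1 x2 hx) + (((2) / 2187) + ((8) / 2187) * (cI x0 x1 x2) + ((8) / 2187) * (cI x0 x1 x2) ^ 2 + ((10) / 2187) * (aI x0 x1 x2) + ((10) / 2187) * (aI x0 x1 x2) * (cI x0 x1 x2) + ((-20) / 2187) * (aI x0 x1 x2) * (cI x0 x1 x2) ^ 2 + ((-20) / 729) * (aI x0 x1 x2) ^ 2 + ((2) / 729) * (aI x0 x1 x2) ^ 2 * (cI x0 x1 x2) + ((4) / 243) * (aI x0 x1 x2) ^ 3) * (Ml_eval_5_2_1 y0 y1 y2 hy))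
    + ((-14348907) / 2) * (Ml_avg 5 2 2 x0 x1 x2 y0 y1 y2 + Ml 5 2 2 y0 y1 y2 * (Ml_eval_5_2_2 x0 x1 x2 hx) + (((2) / 6561) + ((4) / 2187) * (cI x0 x1 x2) + ((8) / 2187) * (cI x0 x1 x2) ^ 2 + ((16) / 6561) * (cI x0 x1 x2) ^ 3 + ((-2) / 243) * (aI x0 x1 x2) ^ 2 + ((-4) / 243) * (aI x0 x1 x2) ^ 2 * (cI x0 x1 x2) + ((4) / 243) * (aI x0 x1 x2) ^ 3) * (Ml_eval_5_2_2 y0 y1 y2 hy))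
    + (590490) * (Ml_avg 5 3 0 x0 x1 x2 y0 y1 y2 + Ml 5 3 0 y0 y1 y2 * (Ml_eval_5_3_0 x0 x1 x2 hx) + (((2) / 2187) + ((-46) / 2187) * (cI x0 x1 x2) + ((8) / 2187) * (cI x0 x1 x2) ^ 2 + ((22) / 2187) * (aI x0 x1 x2) + ((-50) / 2187) * (aI x0 x1 x2) * (cI x0 x1 x2) + ((28) / 2187) * (aI x0 x1 x2) * (cI x0 x1 x2) ^ 2 + ((10) / 729) * (aI x0 x1 x2) ^ 2 + ((8) / 729) * (aI x0 x1 x2) ^ 2 * (cI x0 x1 x2) + ((4) / 243) * (aI x0 x1 x2) ^ 3 + ((-2) / 81) * (aI x0 x1 x2) ^ 4) * (Ml_eval_5_3_0 y0 y1 y2 hy))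
    + (-8857350) * (Ml_avg 5 3 1 x0 x1 x2 y0 y1 y2 + Ml 5 3 1 y0 y1 y2 * (Ml_eval_5_3_1 x0 x1 x2 hx) + (((2) / 6561) + ((-4) / 2187) * (cI x0 x1 x2) + ((-4) / 729) * (cI x0 x1 x2) ^ 2 + ((-8) / 6561) * (cI x0 x1 x2) ^ 3 + ((2) / 2187) * (aI x0 x1 x2) + ((20) / 2187) * (aI x0 x1 x2) * (cI x0 x1 x2) + ((-4) / 2187) * (aI x0 x1 x2) * (cI x0 x1 x2) ^ 2 + ((-4) / 729) * (aI x0 x1 x2) ^ 2 + ((4) / 729) * (aI x0 x1 x2) ^ 2 * (cI x0 x1 x2) + ((2) / 729) * (aI x0 x1 x2) ^ 3 + ((4) / 729) * (aI x0 x1 x2) ^ 3 * (cI x0 x1 x2) + ((-2) / 243) * (aI x0 x1 x2) ^ 4) * (Ml_eval_5_3_1 y0 y1 y2 hy))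
    + (26217756) * (Ml_avg 5 3 2 x0 x1 x2 y0 y1 y2 + Ml 5 3 2 y0 y1 y2 * (Ml_eval_5_3_2 x0 x1 x2 hx) + (((2) / 19683) + ((2) / 6561) * (cI x0 x1 x2) + ((-8) / 19683) * (cI x0 x1 x2) ^ 3 + ((-2) / 6561) * (aI x0 x1 x2) + ((4) / 6561) * (aI x0 x1 x2) * (cI x0 x1 x2) + ((16) / 6561) * (aI x0 x1 x2) * (cI x0 x1 x2) ^ 2 + ((-8) / 6561) * (aI x0 x1 x2) ^ 2 + ((-38) / 6561) * (aI x0 x1 x2) ^ 2 * (cI x0 x1 x2) + ((-8) / 6561) * (aI x0 x1 x2) ^ 2 * (cI x0 x1 x2) ^ 2 + ((10) / 2187) * (aI x0 x1 x2) ^ 3 + ((8) / 2187) * (aI x0 x1 x2) ^ 3 * (cI x0 x1 x2) + ((-2) / 729) * (aI x0 x1 x2) ^ 4) * (Ml_eval_5_3_2 y0 y1 y2 hy))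
    + (-1771470) * (Ml_avg 5 4 0 x0 x1 x2 y0 y1 y2 + Ml 5 4 0 y0 y1 y2 * (Ml_eval_5_4_0 x0 x1 x2 hx) + (((2) / 6561) + ((-28) / 2187) * (cI x0 x1 x2) + ((16) / 729) * (cI x0 x1 x2) ^ 2 + ((-8) / 6561) * (cI x0 x1 x2) ^ 3 + ((8) / 2187) * (aI x0 x1 x2) + ((-10) / 2187) * (aI x0 x1 x2) * (cI x0 x1 x2) + ((-16) / 2187) * (aI x0 x1 x2) * (cI x0 x1 x2) ^ 2 + ((8) / 729) * (aI x0 x1 x2) ^ 2 + ((-8) / 729) * (aI x0 x1 x2) ^ 2 * (cI x0 x1 x2) + ((-8) / 729) * (aI x0 x1 x2) ^ 3 + ((2) / 729) * (aI x0 x1 x2) ^ 3 * (cI x0 x1 x2) + ((2) / 243) * (aI x0 x1 x2) ^ 4) * (Ml_eval_5_4_0 y0 y1 y2 hy))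
    + (11514555) * (Ml_avg 5 4 1 x0 x1 x2 y0 y1 y2 + Ml 5 4 1 y0 y1 y2 * (Ml_eval_5_4_1 x0 x1 x2 hx) + (((2) / 19683) + ((-4) / 2187) * (cI x0 x1 x2) + ((-20) / 6561) * (cI x0 x1 x2) ^ 2 + ((40) / 19683) * (cI x0 x1 x2) ^ 3 + ((2) / 6561) * (aI x0 x1 x2) + ((50) / 6561) * (aI x0 x1 x2) * (cI x0 x1 x2) + ((-16) / 6561) * (aI x0 x1 x2) * (cI x0 x1 x2) ^ 2 + ((-4) / 6561) * (aI x0 x1 x2) ^ 2 + ((8) / 6561) * (aI x0 x1 x2) ^ 2 * (cI x0 x1 x2) + ((-4) / 6561) * (aI x0 x1 x2) ^ 2 * (cI x0 x1 x2) ^ 2 + ((-10) / 2187) * (aI x0 x1 x2) ^ 3 + ((-2) / 2187) * (aI x0 x1 x2) ^ 3 * (cI x0 x1 x2) + ((2) / 729) * (aI x0 x1 x2) ^ 4) * (Ml_eval_5_4_1 y0 y1 y2 hy))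
    + (885735) * (Ml_avg 5 5 0 x0 x1 x2 y0 y1 y2 + Ml 5 5 0 y0 y1 y2 * (Ml_eval_5_5_0 x0 x1 x2 hx) + (((2) / 19683) + ((-40) / 6561) * (cI x0 x1 x2) + ((40) / 2187) * (cI x0 x1 x2) ^ 2 + ((-80) / 19683) * (cI x0 x1 x2) ^ 3 + ((10) / 6561) * (aI x0 x1 x2) + ((-20) / 6561) * (aI x0 x1 x2) * (cI x0 x1 x2) + ((-80) / 6561) * (aI x0 x1 x2) * (cI x0 x1 x2) ^ 2 + ((40) / 6561) * (aI x0 x1 x2) ^ 2 + ((-80) / 6561) * (aI x0 x1 x2) ^ 2 * (cI x0 x1 x2) + ((40) / 6561) * (aI x0 x1 x2) ^ 2 * (cI x0 x1 x2) ^ 2 + ((-20) / 2187) * (aI x0 x1 x2) ^ 3 + ((20) / 2187) * (aI x0 x1 x2) ^ 3 * (cI x0 x1 x2) + ((10) / 729) * (aI x0 x1 x2) ^ 4 + ((-2) / 243) * (aI x0 x1 x2) ^ 5) * (Ml_eval_5_5_0 y0 y1 y2 hy))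
    + ((295245) / 2) * (Ml_avg 6 1 1 x0 x1 x2 y0 y1 y2 + Ml 6 1 1 y0 y1 y2 * (Ml_eval_6_1_1 x0 x1 x2 hx) + (((2) / 2187) + ((44) / 2187) * (cI x0 x1 x2) + ((80) / 2187) * (cI x0 x1 x2) ^ 2 + ((34) / 2187) * (aI x0 x1 x2) + ((-20) / 2187) * (aI x0 x1 x2) * (cI x0 x1 x2) + ((40) / 2187) * (aI x0 x1 x2) * (cI x0 x1 x2) ^ 2 + ((-20) / 729) * (aI x0 x1 x2) ^ 2 + ((20) / 729) * (aI x0 x1 x2) ^ 2 * (cI x0 x1 x2) + ((-20) / 243) * (aI x0 x1 x2) ^ 3) * (Ml_eval_6_1_1 y0 y1 y2 hy))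
    + ((295245) / 2) * (Ml_avg 6 2 0 x0 x1 x2 y0 y1 y2 + Ml 6 2 0 y0 y1 y2 * (Ml_eval_6_2_0 x0 x1 x2 hx) + (((2) / 2187) + ((8) / 2187) * (cI x0 x1 x2) + ((-100) / 2187) * (cI x0 x1 x2) ^ 2 + ((40) / 2187) * (aI x0 x1 x2) + ((-140) / 2187) * (aI x0 x1 x2) * (cI x0 x1 x2) + ((-8) / 2187) * (aI x0 x1 x2) * (cI x0 x1 x2) ^ 2 + ((10) / 729) * (aI x0 x1 x2) ^ 2 + ((8) / 729) * (aI x0 x1 x2) ^ 2 * (cI x0 x1 x2) + ((10) / 243) * (aI x0 x1 x2) ^ 3 + ((2) / 81) * (aI x0 x1 x2) ^ 4) * (Ml_eval_6_2_0 y0 y1 y2 hy))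
    + (-3011499) * (Ml_avg 6 2 1 x0 x1 x2 y0 y1 y2 + Ml 6 2 1 y0 y1 y2 * (Ml_eval_6_2_1 x0 x1 x2 hx) + (((2) / 6561) + ((8) / 2187) * (cI x0 x1 x2) + ((4) / 729) * (cI x0 x1 x2) ^ 2 + ((-8) / 6561) * (cI x0 x1 x2) ^ 3 + ((8) / 2187) * (aI x0 x1 x2) + ((-10) / 2187) * (aI x0 x1 x2) * (cI x0 x1 x2) + ((-16) / 2187) * (aI x0 x1 x2) * (cI x0 x1 x2) ^ 2 + ((-10) / 729) * (aI x0 x1 x2) ^ 2 + ((10) / 729) * (aI x0 x1 x2) ^ 2 * (cI x0 x1 x2) + ((-2) / 729) * (aI x0 x1 x2) ^ 3 + ((-4) / 729) * (aI x0 x1 x2) ^ 3 * (cI x0 x1 x2) + ((2) / 243) * (aI x0 x1 x2) ^ 4) * (Ml_eval_6_2_1 y0 y1 y2 hy))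
    + ((20371905) / 4) * (Ml_avg 6 2 2 x0 x1 x2 y0 y1 y2 + Ml 6 2 2 y0 y1 y2 * (Ml_eval_6_2_2 x0 x1 x2 hx) + (((2) / 19683) + ((8) / 6561) * (cI x0 x1 x2) + ((8) / 2187) * (cI x0 x1 x2) ^ 2 + ((64) / 19683) * (cI x0 x1 x2) ^ 3 + ((4) / 6561) * (aI x0 x1 x2) + ((-8) / 6561) * (aI x0 x1 x2) * (cI x0 x1 x2) + ((-32) / 6561) * (aI x0 x1 x2) * (cI x0 x1 x2) ^ 2 + ((-38) / 6561) * (aI x0 x1 x2) ^ 2 + ((-32) / 6561) * (aI x0 x1 x2) ^ 2 * (cI x0 x1 x2) + ((16) / 6561) * (aI x0 x1 x2) ^ 2 * (cI x0 x1 x2) ^ 2 + ((16) / 2187) * (aI x0 x1 x2) ^ 3 + ((-16) / 2187) * (aI x0 x1 x2) ^ 3 * (cI x0 x1 x2) + ((4) / 729) * (aI x0 x1 x2) ^ 4) * (Ml_eval_6_2_2 y0 y1 y2 hy))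
    + (-885735) * (Ml_avg 6 3 0 x0 x1 x2 y0 y1 y2 + Ml 6 3 0 y0 y1 y2 * (Ml_eval_6_3_0 x0 x1 x2 hx) + (((2) / 6561) + ((-14) / 2187) * (cI x0 x1 x2) + ((-28) / 2187) * (cI x0 x1 x2) ^ 2 + ((16) / 6561) * (cI x0 x1 x2) ^ 3 + ((4) / 729) * (aI x0 x1 x2) + ((-20) / 729) * (aI x0 x1 x2) * (cI x0 x1 x2) + ((16) / 729) * (aI x0 x1 x2) * (cI x0 x1 x2) ^ 2 + ((2) / 243) * (aI x0 x1 x2) ^ 2 + ((4) / 243) * (aI x0 x1 x2) ^ 2 * (cI x0 x1 x2) + ((2) / 81) * (aI x0 x1 x2) ^ 3 + ((-2) / 243) * (aI x0 x1 x2) ^ 3 * (cI x0 x1 x2) + ((-2) / 81) * (aI x0 x1 x2) ^ 4) * (Ml_eval_6_3_0 y0 y1 y2 hy))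
    + (6377292) * (Ml_avg 6 3 1 x0 x1 x2 y0 y1 y2 + Ml 6 3 1 y0 y1 y2 * (Ml_eval_6_3_1 x0 x1 x2 hx) + (((2) / 19683) + ((-2) / 6561) * (cI x0 x1 x2) + ((-16) / 6561) * (cI x0 x1 x2) ^ 2 + ((-56) / 19683) * (cI x0 x1 x2) ^ 3 + ((2) / 2187) * (aI x0 x1 x2) + ((2) / 2187) * (aI x0 x1 x2) * (cI x0 x1 x2) + ((-4) / 2187) * (aI x0 x1 x2) * (cI x0 x1 x2) ^ 2 + ((-8) / 2187) * (aI x0 x1 x2) ^ 2 + ((22) / 2187) * (aI x0 x1 x2) ^ 2 * (cI x0 x1 x2) + ((4) / 2187) * (aI x0 x1 x2) ^ 2 * (cI x0 x1 x2) ^ 2 + ((2) / 729) * (aI x0 x1 x2) ^ 3 + ((2) / 729) * (aI x0 x1 x2) ^ 3 * (cI x0 x1 x2) + ((-2) / 243) * (aI x0 x1 x2) ^ 4) * (Ml_eval_6_3_1 y0 y1 y2 hy))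
    + ((2657205) / 2) * (Ml_avg 6 4 0 x0 x1 x2 y0 y1 y2 + Ml 6 4 0 y0 y1 y2 * (Ml_eval_6_4_0 x0 x1 x2 hx) + (((2) / 19683) + ((-32) / 6561) * (cI x0 x1 x2) + ((44) / 6561) * (cI x0 x1 x2) ^ 2 + ((16) / 19683) * (cI x0 x1 x2) ^ 3 + ((4) / 2187) * (aI x0 x1 x2) + ((-20) / 2187) * (aI x0 x1 x2) * (cI x0 x1 x2) + ((16) / 2187) * (aI x0 x1 x2) * (cI x0 x1 x2) ^ 2 + ((4) / 729) * (aI x0 x1 x2) ^ 2 + ((-4) / 729) * (aI x0 x1 x2) ^ 2 * (cI x0 x1 x2) ^ 2 + ((2) / 729) * (aI x0 x1 x2) ^ 3 + ((-4) / 729) * (aI x0 x1 x2) ^ 3 * (cI x0 x1 x2) + ((-2) / 243) * (aI x0 x1 x2) ^ 4 + ((2) / 243) * (aI x0 x1 x2) ^ 5) * (Ml_eval_6_4_0 y0 y1 y2 hy))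
    + (-177147) * (Ml_avg 7 1 1 x0 x1 x2 y0 y1 y2 + Ml 7 1 1 y0 y1 y2 * (Ml_eval_7_1_1 x0 x1 x2 hx) + (((2) / 6561) + ((28) / 2187) * (cI x0 x1 x2) + ((56) / 2187) * (cI x0 x1 x2) ^ 2 + ((16) / 6561) * (cI x0 x1 x2) ^ 3 + ((2) / 243) * (aI x0 x1 x2) + ((8) / 243) * (aI x0 x1 x2) * (cI x0 x1 x2) ^ 2 + ((-56) / 729) * (aI x0 x1 x2) ^ 3 + ((8) / 729) * (aI x0 x1 x2) ^ 3 * (cI x0 x1 x2) + ((-4) / 243) * (aI x0 x1 x2) ^ 4) * (Ml_eval_7_1_1 y0 y1 y2 hy))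
    + (-177147) * (Ml_avg 7 2 0 x0 x1 x2 y0 y1 y2 + Ml 7 2 0 y0 y1 y2 * (Ml_eval_7_2_0 x0 x1 x2 hx) + (((2) / 6561) + ((14) / 2187) * (cI x0 x1 x2) + ((-28) / 729) * (cI x0 x1 x2) ^ 2 + ((-8) / 6561) * (cI x0 x1 x2) ^ 3 + ((20) / 2187) * (aI x0 x1 x2) + ((-70) / 2187) * (aI x0 x1 x2) * (cI x0 x1 x2) + ((-40) / 2187) * (aI x0 x1 x2) * (cI x0 x1 x2) ^ 2 + ((14) / 729) * (aI x0 x1 x2) ^ 2 + ((-14) / 729) * (aI x0 x1 x2) ^ 2 * (cI x0 x1 x2) + ((14) / 729) * (aI x0 x1 x2) ^ 3 + ((10) / 729) * (aI x0 x1 x2) ^ 3 * (cI x0 x1 x2) + ((10) / 243) * (aI x0 x1 x2) ^ 4) * (Ml_eval_7_2_0 y0 y1 y2 hy))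
    + (1771470) * (Ml_avg 7 2 1 x0 x1 x2 y0 y1 y2 + Ml 7 2 1 y0 y1 y2 * (Ml_eval_7_2_1 x0 x1 x2 hx) + (((2) / 19683) + ((2) / 729) * (cI x0 x1 x2) + ((28) / 6561) * (cI x0 x1 x2) ^ 2 + ((-32) / 19683) * (cI x0 x1 x2) ^ 3 + ((14) / 6561) * (aI x0 x1 x2) + ((-28) / 6561) * (aI x0 x1 x2) * (cI x0 x1 x2) + ((-4) / 6561) * (aI x0 x1 x2) * (cI x0 x1 x2) ^ 2 + ((-28) / 6561) * (aI x0 x1 x2) ^ 2 + ((56) / 6561) * (aI x0 x1 x2) ^ 2 * (cI x0 x1 x2) + ((-28) / 6561) * (aI x0 x1 x2) ^ 2 * (cI x0 x1 x2) ^ 2 + ((-28) / 2187) * (aI x0 x1 x2) ^ 3 + ((-2) / 2187) * (aI x0 x1 x2) ^ 3 * (cI x0 x1 x2) + ((8) / 729) * (aI x0 x1 x2) ^ 4) * (Ml_eval_7_2_1 y0 y1 y2 hy))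
    + (531441) * (Ml_avg 7 3 0 x0 x1 x2 y0 y1 y2 + Ml 7 3 0 y0 y1 y2 * (Ml_eval_7_3_0 x0 x1 x2 hx) + (((2) / 19683) + ((-8) / 6561) * (cI x0 x1 x2) + ((-112) / 6561) * (cI x0 x1 x2) ^ 2 + ((88) / 19683) * (cI x0 x1 x2) ^ 3 + ((2) / 729) * (aI x0 x1 x2) + ((-14) / 729) * (aI x0 x1 x2) * (cI x0 x1 x2) + ((4) / 243) * (aI x0 x1 x2) * (cI x0 x1 x2) ^ 2 + ((14) / 2187) * (aI x0 x1 x2) ^ 2 + ((14) / 2187) * (aI x0 x1 x2) ^ 2 * (cI x0 x1 x2) + ((8) / 2187) * (aI x0 x1 x2) ^ 2 * (cI x0 x1 x2) ^ 2 + ((14) / 729) * (aI x0 x1 x2) ^ 3 + ((-4) / 729) * (aI x0 x1 x2) ^ 3 * (cI x0 x1 x2) + ((-2) / 243) * (aI x0 x1 x2) ^ 4 + ((-2) / 243) * (aI x0 x1 x2) ^ 5) * (Ml_eval_7_3_0 y0 y1 y2 hy))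
    + ((177147) / 2) * (Ml_avg 8 1 1 x0 x1 x2 y0 y1 y2 + Ml 8 1 1 y0 y1 y2 * (Ml_eval_8_1_1 x0 x1 x2 hx) + (((2) / 19683) + ((16) / 2187) * (cI x0 x1 x2) + ((112) / 6561) * (cI x0 x1 x2) ^ 2 + ((112) / 19683) * (cI x0 x1 x2) ^ 3 + ((26) / 6561) * (aI x0 x1 x2) + ((56) / 6561) * (aI x0 x1 x2) * (cI x0 x1 x2) + ((224) / 6561) * (aI x0 x1 x2) * (cI x0 x1 x2) ^ 2 + ((56) / 6561) * (aI x0 x1 x2) ^ 2 + ((-112) / 6561) * (aI x0 x1 x2) ^ 2 * (cI x0 x1 x2) + ((56) / 6561) * (aI x0 x1 x2) ^ 2 * (cI x0 x1 x2) ^ 2 + ((-112) / 2187) * (aI x0 x1 x2) ^ 3 + ((28) / 2187) * (aI x0 x1 x2) ^ 3 * (cI x0 x1 x2) + ((-28) / 729) * (aI x0 x1 x2) ^ 4) * (Ml_eval_8_1_1 y0 y1 y2 hy))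
    + ((177147) / 2) * (Ml_avg 8 2 0 x0 x1 x2 y0 y1 y2 + Ml 8 2 0 y0 y1 y2 * (Ml_eval_8_2_0 x0 x1 x2 hx) + (((2) / 19683) + ((32) / 6561) * (cI x0 x1 x2) + ((-56) / 2187) * (cI x0 x1 x2) ^ 2 + ((-80) / 19683) * (cI x0 x1 x2) ^ 3 + ((28) / 6561) * (aI x0 x1 x2) + ((-56) / 6561) * (aI x0 x1 x2) * (cI x0 x1 x2) + ((-224) / 6561) * (aI x0 x1 x2) * (cI x0 x1 x2) ^ 2 + ((112) / 6561) * (aI x0 x1 x2) ^ 2 + ((-224) / 6561) * (aI x0 x1 x2) ^ 2 * (cI x0 x1 x2) + ((4) / 6561) * (aI x0 x1 x2) ^ 2 * (cI x0 x1 x2) ^ 2 + ((28) / 2187) * (aI x0 x1 x2) ^ 3 + ((44) / 2187) * (aI x0 x1 x2) ^ 3 * (cI x0 x1 x2) + ((28) / 729) * (aI x0 x1 x2) ^ 4 + ((2) / 243) * (aI x0 x1 x2) ^ 5) * (Ml_eval_8_2_0 y0 y1 y2 hy))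

theorem exp_avgM0 (p0 p1 p2 : ℝ) :
    (27 * (p0 * p1 + p0 * p2 + p1 * p2)) * (3 * (p0 + p1 + p2) - 1) ^ 0 = ((27) / 2) * Ml 1 1 0 p0 p1 p2 := by
  simp only [Ml]
  ring

theorem avgM0 (x0 x1 x2 y0 y1 y2 : ℝ) (hx : x2 = 1 - x0 - x1) (hy : y2 = 1 - y0 - y1) :
    (nu3 x0 x1 x2 y0 y1 y2 * w3 x0 x1 x2 y0 y1 y2 ^ 0 + nu3 x0 x1 x2 y0 y2 y1 * w3 x0 x1 x2 y0 y2 y1 ^ 0 + nu3 x0 x1 x2 y1 y0 y2 * w3 x0 x1 x2 y1 y0 y2 ^ 0 + nu3 x0 x1 x2 y1 y2 y0 * w3 x0 x1 x2 y1 y2 y0 ^ 0 + nu3 x0 x1 x2 y2 y0 y1 * w3 x0 x1 x2 y2 y0 y1 ^ 0 + nu3 x0 x1 x2 y2 y1 y0 * w3 x0 x1 x2 y2 y1 y0 ^ 0) / 6 = 1 + (-1) * (aI y0 y1 y2) + (-1) * (aI x0 x1 x2) + 1 * (aI x0 x1 x2) * (aI y0 y1 y2) := by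
  have e0 : nu3 x0 x1 x2 y0 y1 y2 * w3 x0 x1 x2 y0 y1 y2 ^ 0 = _ := exp_avgM0 (x0 * y0) (x1 * y1) (x2 * y2)
  have e1 : nu3 x0 x1 x2 y0 y2 y1 * w3 x0 x1 x2 y0 y2 y1 ^ 0 = _ := exp_avgM0 (x0 * y0) (x1 * y2) (x2 * y1)
  have e2 : nu3 x0 x1 x2 y1 y0 y2 * w3 x0 x1 x2 y1 y0 y2 ^ 0 = _ := exp_avgM0 (x0 * y1) (x1 * y0) (x2 * y2)
  have e3 : nu3 x0 x1 x2 y1 y2 y0 * w3 x0 x1 x2 y1 y2 y0 ^ 0 = _ := exp_avgM0 (x0 * y1) (x1 * y2) (x2 * y0)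
  have e4 : nu3 x0 x1 x2 y2 y0 y1 * w3 x0 x1 x2 y2 y0 y1 ^ 0 = _ := exp_avgM0 (x0 * y2) (x1 * y0) (x2 * y1)
  have e5 : nu3 x0 x1 x2 y2 y1 y0 * w3 x0 x1 x2 y2 y1 y0 ^ 0 = _ := exp_avgM0 (x0 * y2) (x1 * y1) (x2 * y0)
  rw [e0, e1, e2, e3, e4, e5]
  linear_combination
    ((9) / 4) * (Ml_avg 1 1 0 x0 x1 x2 y0 y1 y2 + Ml 1 1 0 y0 y1 y2 * (Ml_eval_1_1_0 x0 x1 x2 hx) + (((2) / 3) + ((-2) / 3) * (aI x0 x1 x2)) * (Ml_eval_1_1_0 y0 y1 y2 hy))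

theorem exp_avgM1 (p0 p1 p2 : ℝ) :
    (27 * (p0 * p1 + p0 * p2 + p1 * p2)) * (3 * (p0 + p1 + p2) - 1) ^ 1 = ((-27) / 2) * Ml 1 1 0 p0 p1 p2 + ((81) / 2) * Ml 1 1 1 p0 p1 p2 + (81) * Ml 2 1 0 p0 p1 p2 := by
  simp only [Ml]
  ring

theorem avgM1 (x0 x1 x2 y0 y1 y2 : ℝ) (hx : x2 = 1 - x0 - x1) (hy : y2 = 1 - y0 - y1) :
    (nu3 x0 x1 x2 y0 y1 y2 * w3 x0 x1 x2 y0 y1 y2 ^ 1 + nu3 x0 x1 x2 y0 y2 y1 * w3 x0 x1 x2 y0 y2 y1 ^ 1 + nu3 x0 x1 x2 y1 y0 y2 * w3 x0 x1 x2 y1 y0 y2 ^ 1 + nu3 x0 x1 x2 y1 y2 y0 * w3 x0 x1 x2 y1 y2 y0 ^ 1 + nu3 x0 x1 x2 y2 y0 y1 * w3 x0 x1 x2 y2 y0 y1 ^ 1 + nu3 x0 x1 x2 y2 y1 y0 * w3 x0 x1 x2 y2 y1 y0 ^ 1) / 6 = 2 * (cI x0 x1 x2) * (cI y0 y1 y2) + (-2) * (cI x0 x1 x2) * (aI y0 y1 y2) + (-2) * (aI x0 x1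 x2) * (cI y0 y1 y2) + 2 * (aI x0 x1 x2) * (aI y0 y1 y2) := by
  have e0 : nu3 x0 x1 x2 y0 y1 y2 * w3 x0 x1 x2 y0 y1 y2 ^ 1 = _ := exp_avgM1 (x0 * y0) (x1 * y1) (x2 * y2)
  have e1 : nu3 x0 x1 x2 y0 y2 y1 * w3 x0 x1 x2 y0 y2 y1 ^ 1 = _ := exp_avgM1 (x0 * y0) (x1 * y2) (x2 * y1)
  have e2 : nu3 x0 x1 x2 y1 y0 y2 * w3 x0 x1 x2 y1 y0 y2 ^ 1 = _ := exp_avgM1 (x0 * y1) (x1 * y0) (x2 * y2)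
  have e3 : nu3 x0 x1 x2 y1 y2 y0 * w3 x0 x1 x2 y1 y2 y0 ^ 1 = _ := exp_avgM1 (x0 * y1) (x1 * y2) (x2 * y0)
  have e4 : nu3 x0 x1 x2 y2 y0 y1 * w3 x0 x1 x2 y2 y0 y1 ^ 1 = _ := exp_avgM1 (x0 * y2) (x1 * y0) (x2 * y1)
  have e5 : nu3 x0 x1 x2 y2 y1 y0 * w3 x0 x1 x2 y2 y1 y0 ^ 1 = _ := exp_avgM1 (x0 * y2) (x1 * y1) (x2 * y0)
  rw [e0, e1, e2, e3, e4, e5]
  linear_combination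
    ((-9) / 4) * (Ml_avg 1 1 0 x0 x1 x2 y0 y1 y2 + Ml 1 1 0 y0 y1 y2 * (Ml_eval_1_1_0 x0 x1 x2 hx) + (((2) / 3) + ((-2) / 3) * (aI x0 x1 x2)) * (Ml_eval_1_1_0 y0 y1 y2 hy))
    + ((27) / 4) * (Ml_avg 1 1 1 x0 x1 x2 y0 y1 y2 + Ml 1 1 1 y0 y1 y2 * (Ml_eval_1_1_1 x0 x1 x2 hx) + (((2) / 9) + ((4) / 9) * (cI x0 x1 x2) + ((-2) / 3) * (aI x0 x1 x2)) * (Ml_eval_1_1_1 y0 y1 y2 hy))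
    + ((27) / 2) * (Ml_avg 2 1 0 x0 x1 x2 y0 y1 y2 + Ml 2 1 0 y0 y1 y2 * (Ml_eval_2_1_0 x0 x1 x2 hx) + (((2) / 9) + ((-2) / 9) * (cI x0 x1 x2)) * (Ml_eval_2_1_0 y0 y1 y2 hy))

theorem exp_avgM2 (p0 p1 p2 : ℝ) :
    (27 * (p0 * p1 + p0 * p2 + p1 * p2)) * (3 * (p0 + p1 + p2) - 1) ^ 2 = ((27) / 2) * Ml 1 1 0 p0 p1 p2 + (-81) * Ml 1 1 1 p0 p1 p2 + (-162) * Ml 2 1 0 p0 p1 p2 + ((1215) / 2) * Ml 2 1 1 p0 p1 p2 + (243) * Ml 2 2 0 p0 p1 p2 + (243) * Ml 3 1 0 p0 p1 p2 := by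
  simp only [Ml]
  ring

theorem avgM2 (x0 x1 x2 y0 y1 y2 : ℝ) (hx : x2 = 1 - x0 - x1) (hy : y2 = 1 - y0 - y1) :
    (nu3 x0 x1 x2 y0 y1 y2 * w3 x0 x1 x2 y0 y1 y2 ^ 2 + nu3 x0 x1 x2 y0 y2 y1 * w3 x0 x1 x2 y0 y2 y1 ^ 2 + nu3 x0 x1 x2 y1 y0 y2 * w3 x0 x1 x2 y1 y0 y2 ^ 2 + nu3 x0 x1 x2 y1 y2 y0 * w3 x0 x1 x2 y1 y2 y0 ^ 2 + nu3 x0 x1 x2 y2 y0 y1 * w3 x0 x1 x2 y2 y0 y1 ^ 2 + nu3 x0 x1 x2 y2 y1 y0 * w3 x0 x1 x2 y2 y1 y0 ^ 2) / 6 = 2 * (cI x0 x1 x2) * (cI y0 y1 y2) + (-2) * (cI x0 x1 x2) * (aI y0 y1 y2) ^ 2 + 2 * (aI x0 x1 x2) * (aI y0 y1 y2) + (-2) * (aI x0 x1 x2) * (aI y0 y1 y2) ^ 2 + (-2) * (aI x0 x1 x2) ^ 2 * (cI y0 y1 y2) + (-2) * (aI x0 x1 x2) ^ 2 * (aI y0 y1 y2) + 4 * (aI x0 x1 x2) ^ 2 * (aI y0 y1 y2) ^ 2 := by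
  have e0 : nu3 x0 x1 x2 y0 y1 y2 * w3 x0 x1 x2 y0 y1 y2 ^ 2 = _ := exp_avgM2 (x0 * y0) (x1 * y1) (x2 * y2)
  have e1 : nu3 x0 x1 x2 y0 y2 y1 * w3 x0 x1 x2 y0 y2 y1 ^ 2 = _ := exp_avgM2 (x0 * y0) (x1 * y2) (x2 * y1)
  have e2 : nu3 x0 x1 x2 y1 y0 y2 * w3 x0 x1 x2 y1 y0 y2 ^ 2 = _ := exp_avgM2 (x0 * y1) (x1 * y0) (x2 * y2)
  have e3 : nu3 x0 x1 x2 y1 y2 y0 * w3 x0 x1 x2 y1 y2 y0 ^ 2 = _ := exp_avgM2 (x0 * y1) (x1 * y2) (x2 * y0)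
  have e4 : nu3 x0 x1 x2 y2 y0 y1 * w3 x0 x1 x2 y2 y0 y1 ^ 2 = _ := exp_avgM2 (x0 * y2) (x1 * y0) (x2 * y1)
  have e5 : nu3 x0 x1 x2 y2 y1 y0 * w3 x0 x1 x2 y2 y1 y0 ^ 2 = _ := exp_avgM2 (x0 * y2) (x1 * y1) (x2 * y0)
  rw [e0, e1, e2, e3, e4, e5]
  linear_combination
    ((9) / 4) * (Ml_avg 1 1 0 x0 x1 x2 y0 y1 y2 + Ml 1 1 0 y0 y1 y2 * (Ml_eval_1_1_0 x0 x1 x2 hx) + (((2) / 3) + ((-2) / 3) * (aI x0 x1 x2)) * (Ml_eval_1_1_0 y0 y1 y2 hy))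
    + ((-27) / 2) * (Ml_avg 1 1 1 x0 x1 x2 y0 y1 y2 + Ml 1 1 1 y0 y1 y2 * (Ml_eval_1_1_1 x0 x1 x2 hx) + (((2) / 9) + ((4) / 9) * (cI x0 x1 x2) + ((-2) / 3) * (aI x0 x1 x2)) * (Ml_eval_1_1_1 y0 y1 y2 hy))
    + (-27) * (Ml_avg 2 1 0 x0 x1 x2 y0 y1 y2 + Ml 2 1 0 y0 y1 y2 * (Ml_eval_2_1_0 x0 x1 x2 hx) + (((2) / 9) + ((-2) / 9) * (cI x0 x1 x2)) * (Ml_eval_2_1_0 y0 y1 y2 hy))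
    + ((405) / 4) * (Ml_avg 2 1 1 x0 x1 x2 y0 y1 y2 + Ml 2 1 1 y0 y1 y2 * (Ml_eval_2_1_1 x0 x1 x2 hx) + (((2) / 27) + ((4) / 27) * (cI x0 x1 x2) + ((-2) / 9) * (aI x0 x1 x2)) * (Ml_eval_2_1_1 y0 y1 y2 hy))
    + ((81) / 2) * (Ml_avg 2 2 0 x0 x1 x2 y0 y1 y2 + Ml 2 2 0 y0 y1 y2 * (Ml_eval_2_2_0 x0 x1 x2 hx) + (((2) / 27) + ((-8) / 27) * (cI x0 x1 x2) + ((2) / 9) * (aI x0 x1 x2) ^ 2) * (Ml_eval_2_2_0 y0 y1 y2 hy))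
    + ((81) / 2) * (Ml_avg 3 1 0 x0 x1 x2 y0 y1 y2 + Ml 3 1 0 y0 y1 y2 * (Ml_eval_3_1_0 x0 x1 x2 hx) + (((2) / 27) + ((-2) / 27) * (cI x0 x1 x2) + ((2) / 9) * (aI x0 x1 x2) + ((-2) / 9) * (aI x0 x1 x2) ^ 2) * (Ml_eval_3_1_0 y0 y1 y2 hy))

theorem exp_avgM3 (p0 p1 p2 : ℝ) :
    (27 * (p0 * p1 + p0 * p2 + p1 * p2)) * (3 * (p0 + p1 + p2) - 1) ^ 3 = ((-27) / 2) * Ml 1 1 0 p0 p1 p2 + ((243) / 2) * Ml 1 1 1 p0 p1 p2 + (243) * Ml 2 1 0 p0 p1 p2 + ((-3645) / 2) * Ml 2 1 1 p0 p1 p2 + (-729) * Ml 2 2 0 p0 p1 p2 + (4374) * Ml 2 2 1 p0 p1 p2 + (-729) * Ml 3 1 0 p0 p1 p2 + ((5103) / 2) * Ml 3 1 1 p0 p1 p2 + (2187) * Ml 3 2 0 p0 p1 p2 + (729) * Ml 4 1 0 p0 p1 p2 := by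
  simp only [Ml]
  ring

theorem avgM3 (x0 x1 x2 y0 y1 y2 : ℝ) (hx : x2 = 1 - x0 - x1) (hy : y2 = 1 - y0 - y1) :
    (nu3 x0 x1 x2 y0 y1 y2 * w3 x0 x1 x2 y0 y1 y2 ^ 3 + nu3 x0 x1 x2 y0 y2 y1 * w3 x0 x1 x2 y0 y2 y1 ^ 3 + nu3 x0 x1 x2 y1 y0 y2 * w3 x0 x1 x2 y1 y0 y2 ^ 3 + nu3 x0 x1 x2 y1 y2 y0 * w3 x0 x1 x2 y1 y2 y0 ^ 3 + nu3 x0 x1 x2 y2 y0 y1 * w3 x0 x1 x2 y2 y0 y1 ^ 3 + nu3 x0 x1 x2 y2 y1 y0 * w3 x0 x1 x2 y2 y1 y0 ^ 3) / 6 = 2 * (cI x0 x1 x2) * (cI y0 y1 y2) + (-2) * (cI x0 x1 x2) * (aI y0 y1 y2) * (cI y0 y1 y2) + (-2) * (aI x0 x1 x2) * (cI x0 x1 x2) * (cI y0 y1 y2) + 8 * (aI x0 x1 x2) * (cI x0 x1 x2) * (aI y0 y1 y2) * (cI y0 y1 y2) + (-6) * (aI x0 x1 x2) * (cI x0 x1 x2) * (aI y0 y1 y2) ^ 2 + (-6) * (aI x0 x1 x2) ^ 2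 * (aI y0 y1 y2) * (cI y0 y1 y2) + 6 * (aI x0 x1 x2) ^ 2 * (aI y0 y1 y2) ^ 2 := by
  have e0 : nu3 x0 x1 x2 y0 y1 y2 * w3 x0 x1 x2 y0 y1 y2 ^ 3 = _ := exp_avgM3 (x0 * y0) (x1 * y1) (x2 * y2)
  have e1 : nu3 x0 x1 x2 y0 y2 y1 * w3 x0 x1 x2 y0 y2 y1 ^ 3 = _ := exp_avgM3 (x0 * y0) (x1 * y2) (x2 * y1)
  have e2 : nu3 x0 x1 x2 y1 y0 y2 * w3 x0 x1 x2 y1 y0 y2 ^ 3 = _ := exp_avgM3 (x0 * y1) (x1 * y0) (x2 * y2)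
  have e3 : nu3 x0 x1 x2 y1 y2 y0 * w3 x0 x1 x2 y1 y2 y0 ^ 3 = _ := exp_avgM3 (x0 * y1) (x1 * y2) (x2 * y0)
  have e4 : nu3 x0 x1 x2 y2 y0 y1 * w3 x0 x1 x2 y2 y0 y1 ^ 3 = _ := exp_avgM3 (x0 * y2) (x1 * y0) (x2 * y1)
  have e5 : nu3 x0 x1 x2 y2 y1 y0 * w3 x0 x1 x2 y2 y1 y0 ^ 3 = _ := exp_avgM3 (x0 * y2) (x1 * y1) (x2 * y0)
  rw [e0, e1, e2, e3, e4, e5]
  linear_combination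
    ((-9) / 4) * (Ml_avg 1 1 0 x0 x1 x2 y0 y1 y2 + Ml 1 1 0 y0 y1 y2 * (Ml_eval_1_1_0 x0 x1 x2 hx) + (((2) / 3) + ((-2) / 3) * (aI x0 x1 x2)) * (Ml_eval_1_1_0 y0 y1 y2 hy))
    + ((81) / 4) * (Ml_avg 1 1 1 x0 x1 x2 y0 y1 y2 + Ml 1 1 1 y0 y1 y2 * (Ml_eval_1_1_1 x0 x1 x2 hx) + (((2) / 9) + ((4) / 9) * (cI x0 x1 x2) + ((-2) / 3) * (aI x0 x1 x2)) * (Ml_eval_1_1_1 y0 y1 y2 hy))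
    + ((81) / 2) * (Ml_avg 2 1 0 x0 x1 x2 y0 y1 y2 + Ml 2 1 0 y0 y1 y2 * (Ml_eval_2_1_0 x0 x1 x2 hx) + (((2) / 9) + ((-2) / 9) * (cI x0 x1 x2)) * (Ml_eval_2_1_0 y0 y1 y2 hy))
    + ((-1215) / 4) * (Ml_avg 2 1 1 x0 x1 x2 y0 y1 y2 + Ml 2 1 1 y0 y1 y2 * (Ml_eval_2_1_1 x0 x1 x2 hx) + (((2) / 27) + ((4) / 27) * (cI x0 x1 x2) + ((-2) / 9) * (aI x0 x1 x2)) * (Ml_eval_2_1_1 y0 y1 y2 hy))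
    + ((-243) / 2) * (Ml_avg 2 2 0 x0 x1 x2 y0 y1 y2 + Ml 2 2 0 y0 y1 y2 * (Ml_eval_2_2_0 x0 x1 x2 hx) + (((2) / 27) + ((-8) / 27) * (cI x0 x1 x2) + ((2) / 9) * (aI x0 x1 x2) ^ 2) * (Ml_eval_2_2_0 y0 y1 y2 hy))
    + (729) * (Ml_avg 2 2 1 x0 x1 x2 y0 y1 y2 + Ml 2 2 1 y0 y1 y2 * (Ml_eval_2_2_1 x0 x1 x2 hx) + (((2) / 81) + ((4) / 81) * (cI x0 x1 x2) + ((-8) / 81) * (aI x0 x1 x2) + ((-4) / 81) * (aI x0 x1 x2) * (cI x0 x1 x2) + ((2) / 27) * (aI x0 x1 x2) ^ 2) * (Ml_eval_2_2_1 y0 y1 y2 hy))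
    + ((-243) / 2) * (Ml_avg 3 1 0 x0 x1 x2 y0 y1 y2 + Ml 3 1 0 y0 y1 y2 * (Ml_eval_3_1_0 x0 x1 x2 hx) + (((2) / 27) + ((-2) / 27) * (cI x0 x1 x2) + ((2) / 9) * (aI x0 x1 x2) + ((-2) / 9) * (aI x0 x1 x2) ^ 2) * (Ml_eval_3_1_0 y0 y1 y2 hy))
    + ((1701) / 4) * (Ml_avg 3 1 1 x0 x1 x2 y0 y1 y2 + Ml 3 1 1 y0 y1 y2 * (Ml_eval_3_1_1 x0 x1 x2 hx) + (((2) / 81) + ((4) / 81) * (cI x0 x1 x2) + ((-2) / 81) * (aI x0 x1 x2) + ((8) / 81) * (aI x0 x1 x2) * (cI x0 x1 x2) + ((-4) / 27) * (aI x0 x1 x2) ^ 2) * (Ml_eval_3_1_1 y0 y1 y2 hy))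
    + ((729) / 2) * (Ml_avg 3 2 0 x0 x1 x2 y0 y1 y2 + Ml 3 2 0 y0 y1 y2 * (Ml_eval_3_2_0 x0 x1 x2 hx) + (((2) / 81) + ((-14) / 81) * (cI x0 x1 x2) + ((4) / 81) * (aI x0 x1 x2) + ((2) / 81) * (aI x0 x1 x2) * (cI x0 x1 x2) + ((2) / 27) * (aI x0 x1 x2) ^ 2) * (Ml_eval_3_2_0 y0 y1 y2 hy))
    + ((243) / 2) * (Ml_avg 4 1 0 x0 x1 x2 y0 y1 y2 + Ml 4 1 0 y0 y1 y2 * (Ml_eval_4_1_0 x0 x1 x2 hx) + (((2) / 81) + ((4) / 81) * (cI x0 x1 x2) + ((16) / 81) * (aI x0 x1 x2) + ((-10) / 81) * (aI x0 x1 x2) * (cI x0 x1 x2) + ((-4) / 27) * (aI x0 x1 x2) ^ 2) * (Ml_eval_4_1_0 y0 y1 y2 hy))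

end Crest.Agent.Lib.Bc.Q3
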