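import Crest.Agent.Lib.Bc.Q3PolyI
/-!
# Row 163, `Cert 3`: CERT II polynomial, multipliers (generated)
-/
namespace Crest.Agent.Lib.Bc.Q3
set_option maxHeartbeats 16000000 in
theorem DII_tri0 (a₁ c₁ : ℝ) (hR : InR (36 * a₁) (216 * c₁)) (l1 l2 l3 : ℝ) (h1 : 0 ≤ l1) (h2 : 0 ≤ l2) (h3 : 0 ≤ l3)
    (hs : l1 + l2 + l3 = 1) :
    0 ≤ DIIpoly ((l1 * (0) + l2 * (1) + l3 * (1)) / 36) ((l1 * (0) + l2 * (-1) + l3 * (1)) / 216) a₁ c₁ := by
  have R0 := row_nonneg (0) (111861) (7200) (-4329) (250) (0) (0) (0) (0) (0) (0) (0) (0) (0) (by decide +kernel) (36 * a₁) (216 * c₁) hR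
  have R1 := row_nonneg (0) (539865) (38232) (-19017) (930) (0) (0) (0) (0) (0) (0) (0) (0) (0) (by decide +kernel) (36 * a₁) (216 * c₁) hR
  have R2 := row_nonneg (0) (1040850) (80928) (-32778) (1220) (0) (0) (0) (0) (0) (0) (0) (0) (0) (by decide +kernel) (36 * a₁) (216 * c₁) hR
  have R3 := row_nonneg (0) (1001970) (85392) (-27522) (580) (0) (0) (0) (0) (0) (0) (0) (0) (0) (by decide +kernel) (36 * a₁) (216 * c₁) hR
  have R4 := row_nonneg (0) (481545) (44928) (-11133) (-30) (0) (0) (0) (0) (0) (0) (0) (0) (0) (by decide +kernel) (36 * a₁) (216 * c₁) hR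
  have R5 := row_nonneg (0) (92421) (9432) (-1701) (-70) (0) (0) (0) (0) (0) (0) (0) (0) (0) (by decide +kernel) (36 * a₁) (216 * c₁) hR
  have R6 := row_nonneg (0) (450279) (30024) (-17226) (930) (0) (0) (0) (0) (0) (0) (0) (0) (0) (by decide +kernel) (36 * a₁) (216 * c₁) hR
  have R7 := row_nonneg (0) (1723356) (129384) (-58212) (2400) (0) (0) (0) (0) (0) (0) (0) (0) (0) (by decide +kernel) (36 * a₁) (216 * c₁) hR
  have R8 := row_nonneg (0) (2468394) (208008) (-71280) (1620) (0) (0) (0) (0) (0) (0) (0) (0) (0) (by decide +kernel) (36 * a₁) (216 * c₁) hR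
  have R9 := row_nonneg (0) (1567836) (147960) (-36828) (-240) (0) (0) (0) (0) (0) (0) (0) (0) (0) (by decide +kernel) (36 * a₁) (216 * c₁) hR
  have R10 := row_nonneg (0) (372519) (39312) (-6534) (-390) (0) (0) (0) (0) (0) (0) (0) (0) (0) (by decide +kernel) (36 * a₁) (216 * c₁) hR
  have R11 := row_nonneg (0) (679671) (46872) (-25704) (1290) (0) (0) (0) (0) (0) (0) (0) (0) (0) (by decide +kernel) (36 * a₁) (216 * c₁) hR
  have R12 := row_nonneg (0) (1922373) (155088) (-60804) (1830) (0) (0) (0) (0) (0) (0) (0) (0) (0) (by decide +kernel) (36 * a₁) (216 * c₁) hR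
  have R13 := row_nonneg (0) (1805733) (169560) (-44496) (-210) (0) (0) (0) (0) (0) (0) (0) (0) (0) (by decide +kernel) (36 * a₁) (216 * c₁) hR
  have R14 := row_nonneg (0) (563031) (61344) (-9396) (-750) (0) (0) (0) (0) (0) (0) (0) (0) (0) (by decide +kernel) (36 * a₁) (216 * c₁) hR
  have R15 := row_nonneg (0) (455949) (32472) (-17046) (790) (0) (0) (0) (0) (0) (0) (0) (0) (0) (by decide +kernel) (36 * a₁) (216 * c₁) hR
  have R16 := row_nonneg (0) (834138) (74952) (-23040) (180) (0) (0) (0) (0) (0) (0) (0) (0) (0) (by decide +kernel) (36 * a₁) (216 * c₁) hR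
  have R17 := row_nonneg (0) (378189) (42480) (-5994) (-610) (0) (0) (0) (0) (0) (0) (0) (0) (0) (by decide +kernel) (36 * a₁) (216 * c₁) hR
  have R18 := row_nonneg (0) (114696) (8424) (-4239) (180) (0) (0) (0) (0) (0) (0) (0) (0) (0) (by decide +kernel) (36 * a₁) (216 * c₁) hR
  have R19 := row_nonneg (0) (95256) (11016) (-1431) (-180) (0) (0) (0) (0) (0) (0) (0) (0) (0) (by decide +kernel) (36 * a₁) (216 * c₁) hR
  have R20 := row_nonneg (0) (0) (0) (0) (0) (0) (0) (0) (0) (0) (0) (0) (0) (0) (by decide +kernel) (36 * a₁) (216 * c₁) hR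
  have key : (151165440 : ℝ) * DIIpoly ((l1 * (0) + l2 * (1) + l3 * (1)) / 36) ((l1 * (0) + l2 * (-1) + l3 * (1)) / 216) a₁ c₁ = (l1 ^ 0 * l2 ^ 0 * l3 ^ 5) * evalRow (0) (111861) (7200) (-4329) (250) (0) (0) (0) (0) (0) (0) (0) (0) (0) (36 * a₁) (216 * c₁) + (l1 ^ 0 * l2 ^ 1 * l3 ^ 4) * evalRow (0) (539865) (38232) (-19017) (930) (0) (0) (0) (0) (0) (0) (0) (0) (0) (36 * a₁) (216 * c₁) + (l1 ^ 0 * l2 ^ 2 * l3 ^ 3) * evalRow (0) (1040850) (80928) (-32778) (1220) (0) (0) (0) (0) (0) (0) (0) (0) (0) (36 * a₁) (216 * c₁) + (l1 ^ 0 * l2 ^ 3 * l3 ^ 2) * evalRow (0) (1001970) (85392) (-27522) (580) (0) (0) (0) (0) (0) (0) (0) (0) (0) (36 * a₁) (216 * c₁) + (l1 ^ 0 * l2 ^ 4 * l3 ^ 1) * evalRow (0) (481545) (44928) (-11133) (-30) (0) (0) (0) (0) (0) (0) (0) (0) (0) (36 * a₁) (216 * c₁) + (l1 ^ 0 * l2 ^ 5 * l3 ^ 0) * evalRow (0) (92421) (9432) (-1701) (-70) (0) (0) (0) (0) (0) (0) (0) (0) (0) (36 * a₁) (216 *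 c₁) + (l1 ^ 1 * l2 ^ 0 * l3 ^ 4) * evalRow (0) (450279) (30024) (-17226) (930) (0) (0) (0) (0) (0) (0) (0) (0) (0) (36 * a₁) (216 * c₁) + (l1 ^ 1 * l2 ^ 1 * l3 ^ 3) * evalRow (0) (1723356) (129384) (-58212) (2400) (0) (0) (0) (0) (0) (0) (0) (0) (0) (36 * a₁) (216 * c₁) + (l1 ^ 1 * l2 ^ 2 * l3 ^ 2) * evalRow (0) (2468394) (208008) (-71280) (1620) (0) (0) (0) (0) (0) (0) (0) (0) (0) (36 * a₁) (216 * c₁) + (l1 ^ 1 * l2 ^ 3 * l3 ^ 1) * evalRow (0) (1567836) (147960) (-36828) (-240) (0) (0) (0) (0) (0) (0) (0) (0) (0) (36 * a₁) (216 * c₁) + (l1 ^ 1 * l2 ^ 4 * l3 ^ 0) * evalRow (0) (372519) (39312) (-6534) (-390) (0) (0) (0) (0) (0) (0) (0) (0) (0) (36 * a₁) (216 * c₁) + (l1 ^ 2 * l2 ^ 0 * l3 ^ 3) * evalRow (0) (679671) (46872) (-25704) (1290) (0) (0) (0) (0) (0) (0) (0) (0) (0) (36 * a₁) (216 * c₁) + (l1 ^ 2 * l2 ^ 1 * l3 ^ 2) * evalRow (0) (1922373) (155088) (-60804) (1830) (0) (0) (0) (0) (0) (0) (0) (0)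 (0) (36 * a₁) (216 * c₁) + (l1 ^ 2 * l2 ^ 2 * l3 ^ 1) * evalRow (0) (1805733) (169560) (-44496) (-210) (0) (0) (0) (0) (0) (0) (0) (0) (0) (36 * a₁) (216 * c₁) + (l1 ^ 2 * l2 ^ 3 * l3 ^ 0) * evalRow (0) (563031) (61344) (-9396) (-750) (0) (0) (0) (0) (0) (0) (0) (0) (0) (36 * a₁) (216 * c₁) + (l1 ^ 3 * l2 ^ 0 * l3 ^ 2) * evalRow (0) (455949) (32472) (-17046) (790) (0) (0) (0) (0) (0) (0) (0) (0) (0) (36 * a₁) (216 * c₁) + (l1 ^ 3 * l2 ^ 1 * l3 ^ 1) * evalRow (0) (834138) (74952) (-23040) (180) (0) (0) (0) (0) (0) (0) (0) (0) (0) (36 * a₁) (216 * c₁) + (l1 ^ 3 * l2 ^ 2 * l3 ^ 0) * evalRow (0) (378189) (42480) (-5994) (-610) (0) (0) (0) (0) (0) (0) (0) (0) (0) (36 * a₁) (216 * c₁) + (l1 ^ 4 * l2 ^ 0 * l3 ^ 1) * evalRow (0) (114696) (8424) (-4239) (180) (0) (0) (0) (0) (0) (0) (0) (0) (0) (36 * a₁) (216 * c₁) + (l1 ^ 4 * l2 ^ 1 * l3 ^ 0) * evalRow (0) (95256) (11016) (-1431) (-180) (0) (0) (0) (0) (0) (0)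 (0) (0) (0) (36 * a₁) (216 * c₁) + (l1 ^ 5 * l2 ^ 0 * l3 ^ 0) * evalRow (0) (0) (0) (0) (0) (0) (0) (0) (0) (0) (0) (0) (0) (0) (36 * a₁) (216 * c₁) := by
    have hl3 : l3 = 1 - l1 - l2 := by linarith
    subst hl3
    simp only [DIIpoly, evalRow]
    push_cast
    ring
  have hpos : 0 ≤ (151165440 : ℝ) * DIIpoly ((l1 * (0) + l2 * (1) + l3 * (1)) / 36) ((l1 * (0) + l2 * (-1) + l3 * (1)) / 216) a₁ c₁ := by
    rw [key]
    exact add_nonneg (add_nonneg (add_nonneg (add_nonneg (add_nonneg (add_nonneg (add_nonneg (add_nonneg (add_nonneg (add_nonneg (add_nonneg (add_nonneg (add_nonneg (add_nonneg (add_nonneg (add_nonneg (add_nonneg (add_nonneg (add_nonneg (add_nonneg (mul_nonneg (by positivity) R0) (mul_nonneg (by positivity) R1)) (mul_nonneg (by positivity) R2)) (mul_nonneg (by positivity) R3)) (mul_nonneg (by positivity) R4)) (mul_nonneg (by positivity) R5)) (mul_nonneg (by positivity) R6)) (mul_nonneg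 (by positivity) R7)) (mul_nonneg (by positivity) R8)) (mul_nonneg (by positivity) R9)) (mul_nonneg (by positivity) R10)) (mul_nonneg (by positivity) R11)) (mul_nonneg (by positivity) R12)) (mul_nonneg (by positivity) R13)) (mul_nonneg (by positivity) R14)) (mul_nonneg (by positivity) R15)) (mul_nonneg (by positivity) R16)) (mul_nonneg (by positivity) R17)) (mul_nonneg (by positivity) R18)) (mul_nonneg (by positivity) R19)) (mul_nonneg (by positivity) R20)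
  exact nonneg_of_mul_nonneg_right hpos (by norm_num)

set_option maxHeartbeats 16000000 in
theorem DII_tri1 (a₁ c₁ : ℝ) (hR : InR (36 * a₁) (216 * c₁)) (l1 l2 l3 : ℝ) (h1 : 0 ≤ l1) (h2 : 0 ≤ l2) (h3 : 0 ≤ l3)
    (hs : l1 + l2 + l3 = 1) :
    0 ≤ DIIpoly ((l1 * (1) + l2 * (4) + l3 * (4)) / 36) ((l1 * (-1) + l2 * (-8) + l3 * (8)) / 216) a₁ c₁ := by
  have R0 := row_nonneg (0) (452304) (11808) (-22572) (2240) (0) (0) (0) (0) (0) (0) (0) (0) (0) (by decide +kernel) (36 * a₁) (216 * c₁) hR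
  have R1 := row_nonneg (0) (2106000) (68256) (-96156) (9600) (0) (0) (0) (0) (0) (0) (0) (0) (0) (by decide +kernel) (36 * a₁) (216 * c₁) hR
  have R2 := row_nonneg (0) (3900960) (154944) (-158904) (16000) (0) (0) (0) (0) (0) (0) (0) (0) (0) (by decide +kernel) (36 * a₁) (216 * c₁) hR
  have R3 := row_nonneg (0) (3589920) (173376) (-125496) (12800) (0) (0) (0) (0) (0) (0) (0) (0) (0) (by decide +kernel) (36 * a₁) (216 * c₁) hR
  have R4 := row_nonneg (0) (1639440) (95904) (-46044) (4800) (0) (0) (0) (0) (0) (0) (0) (0) (0) (by decide +kernel) (36 * a₁) (216 * c₁) hR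
  have R5 := row_nonneg (0) (296784) (21024) (-5868) (640) (0) (0) (0) (0) (0) (0) (0) (0) (0) (by decide +kernel) (36 * a₁) (216 * c₁) hR
  have R6 := row_nonneg (0) (1927152) (64440) (-92799) (8620) (0) (0) (0) (0) (0) (0) (0) (0) (0) (by decide +kernel) (36 * a₁) (216 * c₁) hR
  have R7 := row_nonneg (0) (7086528) (303264) (-300060) (27120) (0) (0) (0) (0) (0) (0) (0) (0) (0) (by decide +kernel) (36 * a₁) (216 * c₁) hR
  have R8 := row_nonneg (0) (9696672) (523152) (-343386) (29640) (0) (0) (0) (0) (0) (0) (0) (0) (0) (by decide +kernel) (36 * a₁) (216 * c₁) hR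
  have R9 := row_nonneg (0) (5842368) (394272) (-157788) (12400) (0) (0) (0) (0) (0) (0) (0) (0) (0) (by decide +kernel) (36 * a₁) (216 * c₁) hR
  have R10 := row_nonneg (0) (1305072) (109944) (-21663) (1260) (0) (0) (0) (0) (0) (0) (0) (0) (0) (by decide +kernel) (36 * a₁) (216 * c₁) hR
  have R11 := row_nonneg (0) (3160053) (131904) (-144666) (12350) (0) (0) (0) (0) (0) (0) (0) (0) (0) (by decide +kernel) (36 * a₁) (216 * c₁) hR
  have R12 := row_nonneg (0) (8547039) (476928) (-320814) (24570) (0) (0) (0) (0) (0) (0) (0) (0) (0) (by decide +kernel) (36 * a₁) (216 * c₁) hR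
  have R13 := row_nonneg (0) (7613919) (558144) (-207630) (12090) (0) (0) (0) (0) (0) (0) (0) (0) (0) (by decide +kernel) (36 * a₁) (216 * c₁) hR
  have R14 := row_nonneg (0) (2226933) (213120) (-31482) (-130) (0) (0) (0) (0) (0) (0) (0) (0) (0) (by decide +kernel) (36 * a₁) (216 * c₁) hR
  have R15 := row_nonneg (0) (2440287) (127152) (-102924) (7730) (0) (0) (0) (0) (0) (0) (0) (0) (0) (by decide +kernel) (36 * a₁) (216 * c₁) hR
  have R16 := row_nonneg (0) (4258494) (317088) (-126072) (6180) (0) (0) (0) (0) (0) (0) (0) (0) (0) (by decide +kernel) (36 * a₁) (216 * c₁) hR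
  have R17 := row_nonneg (0) (1818207) (189936) (-23148) (-1550) (0) (0) (0) (0) (0) (0) (0) (0) (0) (by decide +kernel) (36 * a₁) (216 * c₁) hR
  have R18 := row_nonneg (0) (847503) (57312) (-30186) (1690) (0) (0) (0) (0) (0) (0) (0) (0) (0) (by decide +kernel) (36 * a₁) (216 * c₁) hR
  have R19 := row_nonneg (0) (691983) (75168) (-9162) (-870) (0) (0) (0) (0) (0) (0) (0) (0) (0) (by decide +kernel) (36 * a₁) (216 * c₁) hR
  have R20 := row_nonneg (0) (92421) (9432) (-1701) (-70) (0) (0) (0) (0) (0) (0) (0) (0) (0) (by decide +kernel) (36 * a₁) (216 * c₁) hR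
  have key : (151165440 : ℝ) * DIIpoly ((l1 * (1) + l2 * (4) + l3 * (4)) / 36) ((l1 * (-1) + l2 * (-8) + l3 * (8)) / 216) a₁ c₁ = (l1 ^ 0 * l2 ^ 0 * l3 ^ 5) * evalRow (0) (452304) (11808) (-22572) (2240) (0) (0) (0) (0) (0) (0) (0) (0) (0) (36 * a₁) (216 * c₁) + (l1 ^ 0 * l2 ^ 1 * l3 ^ 4) * evalRow (0) (2106000) (68256) (-96156) (9600) (0) (0) (0) (0) (0) (0) (0) (0) (0) (36 * a₁) (216 * c₁) + (l1 ^ 0 * l2 ^ 2 * l3 ^ 3) * evalRow (0) (3900960) (154944) (-158904) (16000) (0) (0) (0) (0) (0) (0) (0) (0) (0) (36 * a₁) (216 * c₁) + (l1 ^ 0 * l2 ^ 3 * l3 ^ 2) * evalRow (0) (3589920) (173376) (-125496) (12800) (0) (0) (0) (0) (0) (0) (0) (0) (0) (36 * a₁) (216 * c₁) + (l1 ^ 0 * l2 ^ 4 * l3 ^ 1) * evalRow (0) (1639440) (95904) (-46044) (4800) (0) (0) (0) (0) (0) (0) (0) (0) (0) (36 * a₁) (216 * c₁) + (l1 ^ 0 * l2 ^ 5 * l3 ^ 0) * evalRow (0) (296784) (21024) (-5868) (640) (0) (0) (0) (0) (0) (0) (0) (0) (0)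 (36 * a₁) (216 * c₁) + (l1 ^ 1 * l2 ^ 0 * l3 ^ 4) * evalRow (0) (1927152) (64440) (-92799) (8620) (0) (0) (0) (0) (0) (0) (0) (0) (0) (36 * a₁) (216 * c₁) + (l1 ^ 1 * l2 ^ 1 * l3 ^ 3) * evalRow (0) (7086528) (303264) (-300060) (27120) (0) (0) (0) (0) (0) (0) (0) (0) (0) (36 * a₁) (216 * c₁) + (l1 ^ 1 * l2 ^ 2 * l3 ^ 2) * evalRow (0) (9696672) (523152) (-343386) (29640) (0) (0) (0) (0) (0) (0) (0) (0) (0) (36 * a₁) (216 * c₁) + (l1 ^ 1 * l2 ^ 3 * l3 ^ 1) * evalRow (0) (5842368) (394272) (-157788) (12400) (0) (0) (0) (0) (0) (0) (0) (0) (0) (36 * a₁) (216 * c₁) + (l1 ^ 1 * l2 ^ 4 * l3 ^ 0) * evalRow (0) (1305072) (109944) (-21663) (1260) (0) (0) (0) (0) (0) (0) (0) (0) (0) (36 * a₁) (216 * c₁) + (l1 ^ 2 * l2 ^ 0 * l3 ^ 3) * evalRow (0) (3160053) (131904) (-144666) (12350) (0) (0) (0) (0) (0) (0) (0) (0) (0) (36 * a₁) (216 * c₁) + (l1 ^ 2 * l2 ^ 1 * l3 ^ 2) * evalRow (0) (8547039) (476928) (-320814) (24570)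 (0) (0) (0) (0) (0) (0) (0) (0) (0) (36 * a₁) (216 * c₁) + (l1 ^ 2 * l2 ^ 2 * l3 ^ 1) * evalRow (0) (7613919) (558144) (-207630) (12090) (0) (0) (0) (0) (0) (0) (0) (0) (0) (36 * a₁) (216 * c₁) + (l1 ^ 2 * l2 ^ 3 * l3 ^ 0) * evalRow (0) (2226933) (213120) (-31482) (-130) (0) (0) (0) (0) (0) (0) (0) (0) (0) (36 * a₁) (216 * c₁) + (l1 ^ 3 * l2 ^ 0 * l3 ^ 2) * evalRow (0) (2440287) (127152) (-102924) (7730) (0) (0) (0) (0) (0) (0) (0) (0) (0) (36 * a₁) (216 * c₁) + (l1 ^ 3 * l2 ^ 1 * l3 ^ 1) * evalRow (0) (4258494) (317088) (-126072) (6180) (0) (0) (0) (0) (0) (0) (0) (0) (0) (36 * a₁) (216 * c₁) + (l1 ^ 3 * l2 ^ 2 * l3 ^ 0) * evalRow (0) (1818207) (189936) (-23148) (-1550) (0) (0) (0) (0) (0) (0) (0) (0) (0) (36 * a₁) (216 * c₁) + (l1 ^ 4 * l2 ^ 0 * l3 ^ 1) * evalRow (0) (847503) (57312) (-30186) (1690) (0) (0) (0) (0) (0) (0) (0) (0) (0) (36 * a₁) (216 * c₁) + (l1 ^ 4 * l2 ^ 1 * l3 ^ 0) * evalRow (0)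 (691983) (75168) (-9162) (-870) (0) (0) (0) (0) (0) (0) (0) (0) (0) (36 * a₁) (216 * c₁) + (l1 ^ 5 * l2 ^ 0 * l3 ^ 0) * evalRow (0) (92421) (9432) (-1701) (-70) (0) (0) (0) (0) (0) (0) (0) (0) (0) (36 * a₁) (216 * c₁) := by
    have hl3 : l3 = 1 - l1 - l2 := by linarith
    subst hl3
    simp only [DIIpoly, evalRow]
    push_cast
    ring
  have hpos : 0 ≤ (151165440 : ℝ) * DIIpoly ((l1 * (1) + l2 * (4) + l3 * (4)) / 36) ((l1 * (-1) + l2 * (-8) + l3 * (8)) / 216) a₁ c₁ := by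
    rw [key]
    exact add_nonneg (add_nonneg (add_nonneg (add_nonneg (add_nonneg (add_nonneg (add_nonneg (add_nonneg (add_nonneg (add_nonneg (add_nonneg (add_nonneg (add_nonneg (add_nonneg (add_nonneg (add_nonneg (add_nonneg (add_nonneg (add_nonneg (add_nonneg (mul_nonneg (by positivity) R0) (mul_nonneg (by positivity) R1)) (mul_nonneg (by positivity) R2)) (mul_nonneg (by positivity) R3)) (mul_nonneg (by positivity) R4)) (mul_nonneg (by positivity) R5)) (mul_nonneg (by positivity) R6)) (mul_nonneg (by positivity) R7)) (mul_nonneg (by positivity) R8)) (mul_nonneg (by positivity) R9)) (mul_nonneg (by positivity) R10)) (mul_nonneg (by positivity) R11)) (mul_nonneg (by positivity) R12)) (mul_nonneg (by positivity) R13)) (mul_nonneg (by positivity) R14)) (mul_nonneg (by positivity) R15)) (mul_nonneg (by positivity) R16)) (mul_nonneg (by positivity) R17)) (mul_nonneg (by positivity) R18)) (mul_nonneg (by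 positivity) R19)) (mul_nonneg (by positivity) R20)
  exact nonneg_of_mul_nonneg_right hpos (by norm_num)

set_option maxHeartbeats 16000000 in
theorem DII_tri2 (a₁ c₁ : ℝ) (hR : InR (36 * a₁) (216 * c₁)) (l1 l2 l3 : ℝ) (h1 : 0 ≤ l1) (h2 : 0 ≤ l2) (h3 : 0 ≤ l3)
    (hs : l1 + l2 + l3 = 1) :
    0 ≤ DIIpoly ((l1 * (1) + l2 * (4) + l3 * (1)) / 36) ((l1 * (-1) + l2 * (8) + l3 * (1)) / 216) a₁ c₁ := by
  have R0 := row_nonneg (0) (111861) (7200) (-4329) (250) (0) (0) (0) (0) (0) (0) (0) (0) (0) (by decide +kernel) (36 * a₁) (216 * c₁) hR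
  have R1 := row_nonneg (0) (925263) (49464) (-40158) (2850) (0) (0) (0) (0) (0) (0) (0) (0) (0) (by decide +kernel) (36 * a₁) (216 * c₁) hR
  have R2 := row_nonneg (0) (2556927) (117000) (-117072) (9290) (0) (0) (0) (0) (0) (0) (0) (0) (0) (by decide +kernel) (36 * a₁) (216 * c₁) hR
  have R3 := row_nonneg (0) (3237813) (126216) (-153558) (13270) (0) (0) (0) (0) (0) (0) (0) (0) (0) (by decide +kernel) (36 * a₁) (216 * c₁) hR
  have R4 := row_nonneg (0) (1946592) (63288) (-94887) (8820) (0) (0) (0) (0) (0) (0) (0) (0) (0) (by decide +kernel) (36 * a₁) (216 * c₁) hR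
  have R5 := row_nonneg (0) (452304) (11808) (-22572) (2240) (0) (0) (0) (0) (0) (0) (0) (0) (0) (by decide +kernel) (36 * a₁) (216 * c₁) hR
  have R6 := row_nonneg (0) (539865) (38232) (-19017) (930) (0) (0) (0) (0) (0) (0) (0) (0) (0) (by decide +kernel) (36 * a₁) (216 * c₁) hR
  have R7 := row_nonneg (0) (3623292) (205704) (-150660) (10240) (0) (0) (0) (0) (0) (0) (0) (0) (0) (by decide +kernel) (36 * a₁) (216 * c₁) hR
  have R8 := row_nonneg (0) (7554141) (361152) (-337068) (26310) (0) (0) (0) (0) (0) (0) (0) (0) (0) (by decide +kernel) (36 * a₁) (216 * c₁) hR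
  have R9 := row_nonneg (0) (6397866) (258120) (-298224) (25620) (0) (0) (0) (0) (0) (0) (0) (0) (0) (by decide +kernel) (36 * a₁) (216 * c₁) hR
  have R10 := row_nonneg (0) (1927152) (64440) (-92799) (8620) (0) (0) (0) (0) (0) (0) (0) (0) (0) (by decide +kernel) (36 * a₁) (216 * c₁) hR
  have R11 := row_nonneg (0) (1040850) (80928) (-32778) (1220) (0) (0) (0) (0) (0) (0) (0) (0) (0) (by decide +kernel) (36 * a₁) (216 * c₁) hR
  have R12 := row_nonneg (0) (5318298) (320328) (-211032) (13620) (0) (0) (0) (0) (0) (0) (0) (0) (0) (by decide +kernel) (36 * a₁) (216 * c₁) hR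
  have R13 := row_nonneg (0) (7437501) (371304) (-322920) (24750) (0) (0) (0) (0) (0) (0) (0) (0) (0) (by decide +kernel) (36 * a₁) (216 * c₁) hR
  have R14 := row_nonneg (0) (3160053) (131904) (-144666) (12350) (0) (0) (0) (0) (0) (0) (0) (0) (0) (by decide +kernel) (36 * a₁) (216 * c₁) hR
  have R15 := row_nonneg (0) (1001970) (85392) (-27522) (580) (0) (0) (0) (0) (0) (0) (0) (0) (0) (by decide +kernel) (36 * a₁) (216 * c₁) hR
  have R16 := row_nonneg (0) (3467772) (221400) (-130716) (7920) (0) (0) (0) (0) (0) (0) (0) (0) (0) (by decide +kernel) (36 * a₁) (216 * c₁) hR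
  have R17 := row_nonneg (0) (2440287) (127152) (-102924) (7730) (0) (0) (0) (0) (0) (0) (0) (0) (0) (by decide +kernel) (36 * a₁) (216 * c₁) hR
  have R18 := row_nonneg (0) (481545) (44928) (-11133) (-30) (0) (0) (0) (0) (0) (0) (0) (0) (0) (by decide +kernel) (36 * a₁) (216 * c₁) hR
  have R19 := row_nonneg (0) (847503) (57312) (-30186) (1690) (0) (0) (0) (0) (0) (0) (0) (0) (0) (by decide +kernel) (36 * a₁) (216 * c₁) hR
  have R20 := row_nonneg (0) (92421) (9432) (-1701) (-70) (0) (0) (0) (0) (0) (0) (0) (0) (0) (by decide +kernel) (36 * a₁) (216 * c₁) hR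
  have key : (151165440 : ℝ) * DIIpoly ((l1 * (1) + l2 * (4) + l3 * (1)) / 36) ((l1 * (-1) + l2 * (8) + l3 * (1)) / 216) a₁ c₁ = (l1 ^ 0 * l2 ^ 0 * l3 ^ 5) * evalRow (0) (111861) (7200) (-4329) (250) (0) (0) (0) (0) (0) (0) (0) (0) (0) (36 * a₁) (216 * c₁) + (l1 ^ 0 * l2 ^ 1 * l3 ^ 4) * evalRow (0) (925263) (49464) (-40158) (2850) (0) (0) (0) (0) (0) (0) (0) (0) (0) (36 * a₁) (216 * c₁) + (l1 ^ 0 * l2 ^ 2 * l3 ^ 3) * evalRow (0) (2556927) (117000) (-117072) (9290) (0) (0) (0) (0) (0) (0) (0) (0) (0) (36 * a₁) (216 * c₁) + (l1 ^ 0 * l2 ^ 3 * l3 ^ 2) * evalRow (0) (3237813) (126216) (-153558) (13270) (0) (0) (0) (0) (0) (0) (0) (0) (0) (36 * a₁) (216 * c₁) + (l1 ^ 0 * l2 ^ 4 * l3 ^ 1) * evalRow (0) (1946592) (63288) (-94887) (8820) (0) (0) (0) (0) (0) (0) (0) (0) (0) (36 * a₁) (216 * c₁) + (l1 ^ 0 * l2 ^ 5 * l3 ^ 0) * evalRow (0) (452304) (11808) (-22572) (2240) (0) (0) (0) (0) (0) (0) (0) (0) (0) (36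 * a₁) (216 * c₁) + (l1 ^ 1 * l2 ^ 0 * l3 ^ 4) * evalRow (0) (539865) (38232) (-19017) (930) (0) (0) (0) (0) (0) (0) (0) (0) (0) (36 * a₁) (216 * c₁) + (l1 ^ 1 * l2 ^ 1 * l3 ^ 3) * evalRow (0) (3623292) (205704) (-150660) (10240) (0) (0) (0) (0) (0) (0) (0) (0) (0) (36 * a₁) (216 * c₁) + (l1 ^ 1 * l2 ^ 2 * l3 ^ 2) * evalRow (0) (7554141) (361152) (-337068) (26310) (0) (0) (0) (0) (0) (0) (0) (0) (0) (36 * a₁) (216 * c₁) + (l1 ^ 1 * l2 ^ 3 * l3 ^ 1) * evalRow (0) (6397866) (258120) (-298224) (25620) (0) (0) (0) (0) (0) (0) (0) (0) (0) (36 * a₁) (216 * c₁) + (l1 ^ 1 * l2 ^ 4 * l3 ^ 0) * evalRow (0) (1927152) (64440) (-92799) (8620) (0) (0) (0) (0) (0) (0) (0) (0) (0) (36 * a₁) (216 * c₁) + (l1 ^ 2 * l2 ^ 0 * l3 ^ 3) * evalRow (0) (1040850) (80928) (-32778) (1220) (0) (0) (0) (0) (0) (0) (0) (0) (0) (36 * a₁) (216 * c₁) + (l1 ^ 2 * l2 ^ 1 * l3 ^ 2) * evalRow (0) (5318298) (320328) (-211032) (13620) (0) (0)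 (0) (0) (0) (0) (0) (0) (0) (36 * a₁) (216 * c₁) + (l1 ^ 2 * l2 ^ 2 * l3 ^ 1) * evalRow (0) (7437501) (371304) (-322920) (24750) (0) (0) (0) (0) (0) (0) (0) (0) (0) (36 * a₁) (216 * c₁) + (l1 ^ 2 * l2 ^ 3 * l3 ^ 0) * evalRow (0) (3160053) (131904) (-144666) (12350) (0) (0) (0) (0) (0) (0) (0) (0) (0) (36 * a₁) (216 * c₁) + (l1 ^ 3 * l2 ^ 0 * l3 ^ 2) * evalRow (0) (1001970) (85392) (-27522) (580) (0) (0) (0) (0) (0) (0) (0) (0) (0) (36 * a₁) (216 * c₁) + (l1 ^ 3 * l2 ^ 1 * l3 ^ 1) * evalRow (0) (3467772) (221400) (-130716) (7920) (0) (0) (0) (0) (0) (0) (0) (0) (0) (36 * a₁) (216 * c₁) + (l1 ^ 3 * l2 ^ 2 * l3 ^ 0) * evalRow (0) (2440287) (127152) (-102924) (7730) (0) (0) (0) (0) (0) (0) (0) (0) (0) (36 * a₁) (216 * c₁) + (l1 ^ 4 * l2 ^ 0 * l3 ^ 1) * evalRow (0) (481545) (44928) (-11133) (-30) (0) (0) (0) (0) (0) (0) (0) (0) (0) (36 * a₁) (216 * c₁) + (l1 ^ 4 * l2 ^ 1 * l3 ^ 0) * evalRow (0) (847503) (57312)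 (-30186) (1690) (0) (0) (0) (0) (0) (0) (0) (0) (0) (36 * a₁) (216 * c₁) + (l1 ^ 5 * l2 ^ 0 * l3 ^ 0) * evalRow (0) (92421) (9432) (-1701) (-70) (0) (0) (0) (0) (0) (0) (0) (0) (0) (36 * a₁) (216 * c₁) := by
    have hl3 : l3 = 1 - l1 - l2 := by linarith
    subst hl3
    simp only [DIIpoly, evalRow]
    push_cast
    ring
  have hpos : 0 ≤ (151165440 : ℝ) * DIIpoly ((l1 * (1) + l2 * (4) + l3 * (1)) / 36) ((l1 * (-1) + l2 * (8) + l3 * (1)) / 216) a₁ c₁ := by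
    rw [key]
    exact add_nonneg (add_nonneg (add_nonneg (add_nonneg (add_nonneg (add_nonneg (add_nonneg (add_nonneg (add_nonneg (add_nonneg (add_nonneg (add_nonneg (add_nonneg (add_nonneg (add_nonneg (add_nonneg (add_nonneg (add_nonneg (add_nonneg (add_nonneg (mul_nonneg (by positivity) R0) (mul_nonneg (by positivity) R1)) (mul_nonneg (by positivity) R2)) (mul_nonneg (by positivity) R3)) (mul_nonneg (by positivity) R4)) (mul_nonneg (by positivity) R5)) (mul_nonneg (by positivity) R6)) (mul_nonneg (by positivity) R7)) (mul_nonneg (by positivity) R8)) (mul_nonneg (by positivity) R9)) (mul_nonneg (by positivity) R10)) (mul_nonneg (by positivity) R11)) (mul_nonneg (by positivity) R12)) (mul_nonneg (by positivity) R13)) (mul_nonneg (by positivity) R14)) (mul_nonneg (by positivity) R15)) (mul_nonneg (by positivity) R16)) (mul_nonneg (by positivity) R17)) (mul_nonneg (by positivity) R18)) (mul_nonneg (by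 positivity) R19)) (mul_nonneg (by positivity) R20)
  exact nonneg_of_mul_nonneg_right hpos (by norm_num)

set_option maxHeartbeats 16000000 in
theorem DII_tri3 (a₁ c₁ : ℝ) (hR : InR (36 * a₁) (216 * c₁)) (l1 l2 l3 : ℝ) (h1 : 0 ≤ l1) (h2 : 0 ≤ l2) (h3 : 0 ≤ l3)
    (hs : l1 + l2 + l3 = 1) :
    0 ≤ DIIpoly ((l1 * (4) + l2 * (9) + l3 * (9)) / 36) ((l1 * (-8) + l2 * (-27) + l3 * (27)) / 216) a₁ c₁ := by
  have R0 := row_nonneg (0) (977589) (-17496) (-56133) (7290) (0) (0) (0) (0) (0) (0) (0) (0) (0) (by decide +kernel) (36 * a₁) (216 * c₁) hR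
  have R1 := row_nonneg (0) (4363065) (-104976) (-248589) (36450) (0) (0) (0) (0) (0) (0) (0) (0) (0) (by decide +kernel) (36 * a₁) (216 * c₁) hR
  have R2 := row_nonneg (0) (7676370) (-244944) (-433026) (72900) (0) (0) (0) (0) (0) (0) (0) (0) (0) (by decide +kernel) (36 * a₁) (216 * c₁) hR
  have R3 := row_nonneg (0) (6626610) (-279936) (-368874) (72900) (0) (0) (0) (0) (0) (0) (0) (0) (0) (by decide +kernel) (36 * a₁) (216 * c₁) hR
  have R4 := row_nonneg (0) (2788425) (-157464) (-152361) (36450) (0) (0) (0) (0) (0) (0) (0) (0) (0) (by decide +kernel) (36 * a₁) (216 * c₁) hR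
  have R5 := row_nonneg (0) (452709) (-34992) (-24057) (7290) (0) (0) (0) (0) (0) (0) (0) (0) (0) (by decide +kernel) (36 * a₁) (216 * c₁) hR
  have R6 := row_nonneg (0) (4278015) (-45360) (-241650) (31050) (0) (0) (0) (0) (0) (0) (0) (0) (0) (by decide +kernel) (36 * a₁) (216 * c₁) hR
  have R7 := row_nonneg (0) (15012540) (-202824) (-813996) (118800) (0) (0) (0) (0) (0) (0) (0) (0) (0) (by decide +kernel) (36 * a₁) (216 * c₁) hR
  have R8 := row_nonneg (0) (19369530) (-336312) (-992088) (170100) (0) (0) (0) (0) (0) (0) (0) (0) (0) (by decide +kernel) (36 * a₁) (216 * c₁) hR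
  have R9 := row_nonneg (0) (10813500) (-245592) (-508788) (108000) (0) (0) (0) (0) (0) (0) (0) (0) (0) (by decide +kernel) (36 * a₁) (216 * c₁) hR
  have R10 := row_nonneg (0) (2178495) (-66744) (-89046) (25650) (0) (0) (0) (0) (0) (0) (0) (0) (0) (by decide +kernel) (36 * a₁) (216 * c₁) hR
  have R11 := row_nonneg (0) (7265295) (-10080) (-394020) (50050) (0) (0) (0) (0) (0) (0) (0) (0) (0) (by decide +kernel) (36 * a₁) (216 * c₁) hR
  have R12 := row_nonneg (0) (18646605) (10584) (-916704) (133950) (0) (0) (0) (0) (0) (0) (0) (0) (0) (by decide +kernel) (36 * a₁) (216 * c₁) hR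
  have R13 := row_nonneg (0) (15497325) (51408) (-651348) (117750) (0) (0) (0) (0) (0) (0) (0) (0) (0) (by decide +kernel) (36 * a₁) (216 * c₁) hR
  have R14 := row_nonneg (0) (4116015) (30744) (-128664) (33850) (0) (0) (0) (0) (0) (0) (0) (0) (0) (by decide +kernel) (36 * a₁) (216 * c₁) hR
  have R15 := row_nonneg (0) (5903685) (66960) (-293490) (36750) (0) (0) (0) (0) (0) (0) (0) (0) (0) (by decide +kernel) (36 * a₁) (216 * c₁) hR
  have R16 := row_nonneg (0) (9707850) (209736) (-385776) (57300) (0) (0) (0) (0) (0) (0) (0) (0) (0) (by decide +kernel) (36 * a₁) (216 * c₁) hR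
  have R17 := row_nonneg (0) (3804165) (142776) (-92286) (20550) (0) (0) (0) (0) (0) (0) (0) (0) (0) (by decide +kernel) (36 * a₁) (216 * c₁) hR
  have R18 := row_nonneg (0) (2235600) (70200) (-90855) (11100) (0) (0) (0) (0) (0) (0) (0) (0) (0) (by decide +kernel) (36 * a₁) (216 * c₁) hR
  have R19 := row_nonneg (0) (1710720) (101304) (-34479) (5700) (0) (0) (0) (0) (0) (0) (0) (0) (0) (by decide +kernel) (36 * a₁) (216 * c₁) hR
  have R20 := row_nonneg (0) (296784) (21024) (-5868) (640) (0) (0) (0) (0) (0) (0) (0) (0) (0) (by decide +kernel) (36 * a₁) (216 * c₁) hR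
  have key : (151165440 : ℝ) * DIIpoly ((l1 * (4) + l2 * (9) + l3 * (9)) / 36) ((l1 * (-8) + l2 * (-27) + l3 * (27)) / 216) a₁ c₁ = (l1 ^ 0 * l2 ^ 0 * l3 ^ 5) * evalRow (0) (977589) (-17496) (-56133) (7290) (0) (0) (0) (0) (0) (0) (0) (0) (0) (36 * a₁) (216 * c₁) + (l1 ^ 0 * l2 ^ 1 * l3 ^ 4) * evalRow (0) (4363065) (-104976) (-248589) (36450) (0) (0) (0) (0) (0) (0) (0) (0) (0) (36 * a₁) (216 * c₁) + (l1 ^ 0 * l2 ^ 2 * l3 ^ 3) * evalRow (0) (7676370) (-244944) (-433026) (72900) (0) (0) (0) (0) (0) (0) (0) (0) (0) (36 * a₁) (216 * c₁) + (l1 ^ 0 * l2 ^ 3 * l3 ^ 2) * evalRow (0) (6626610) (-279936) (-368874) (72900) (0) (0) (0) (0) (0) (0) (0) (0) (0) (36 * a₁) (216 * c₁) + (l1 ^ 0 * l2 ^ 4 * l3 ^ 1) * evalRow (0) (2788425) (-157464) (-152361) (36450) (0) (0) (0) (0) (0) (0) (0) (0) (0) (36 * a₁) (216 * c₁) + (l1 ^ 0 * l2 ^ 5 * l3 ^ 0) * evalRow (0) (452709) (-34992) (-24057) (7290) (0) (0) (0) (0) (0)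 (0) (0) (0) (0) (36 * a₁) (216 * c₁) + (l1 ^ 1 * l2 ^ 0 * l3 ^ 4) * evalRow (0) (4278015) (-45360) (-241650) (31050) (0) (0) (0) (0) (0) (0) (0) (0) (0) (36 * a₁) (216 * c₁) + (l1 ^ 1 * l2 ^ 1 * l3 ^ 3) * evalRow (0) (15012540) (-202824) (-813996) (118800) (0) (0) (0) (0) (0) (0) (0) (0) (0) (36 * a₁) (216 * c₁) + (l1 ^ 1 * l2 ^ 2 * l3 ^ 2) * evalRow (0) (19369530) (-336312) (-992088) (170100) (0) (0) (0) (0) (0) (0) (0) (0) (0) (36 * a₁) (216 * c₁) + (l1 ^ 1 * l2 ^ 3 * l3 ^ 1) * evalRow (0) (10813500) (-245592) (-508788) (108000) (0) (0) (0) (0) (0) (0) (0) (0) (0) (36 * a₁) (216 * c₁) + (l1 ^ 1 * l2 ^ 4 * l3 ^ 0) * evalRow (0) (2178495) (-66744) (-89046) (25650) (0) (0) (0) (0) (0) (0) (0) (0) (0) (36 * a₁) (216 * c₁) + (l1 ^ 2 * l2 ^ 0 * l3 ^ 3) * evalRow (0) (7265295) (-10080) (-394020) (50050) (0) (0) (0) (0) (0) (0) (0) (0) (0) (36 * a₁) (216 * c₁) + (l1 ^ 2 * l2 ^ 1 * l3 ^ 2) * evalRow (0) (18646605)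 (10584) (-916704) (133950) (0) (0) (0) (0) (0) (0) (0) (0) (0) (36 * a₁) (216 * c₁) + (l1 ^ 2 * l2 ^ 2 * l3 ^ 1) * evalRow (0) (15497325) (51408) (-651348) (117750) (0) (0) (0) (0) (0) (0) (0) (0) (0) (36 * a₁) (216 * c₁) + (l1 ^ 2 * l2 ^ 3 * l3 ^ 0) * evalRow (0) (4116015) (30744) (-128664) (33850) (0) (0) (0) (0) (0) (0) (0) (0) (0) (36 * a₁) (216 * c₁) + (l1 ^ 3 * l2 ^ 0 * l3 ^ 2) * evalRow (0) (5903685) (66960) (-293490) (36750) (0) (0) (0) (0) (0) (0) (0) (0) (0) (36 * a₁) (216 * c₁) + (l1 ^ 3 * l2 ^ 1 * l3 ^ 1) * evalRow (0) (9707850) (209736) (-385776) (57300) (0) (0) (0) (0) (0) (0) (0) (0) (0) (36 * a₁) (216 * c₁) + (l1 ^ 3 * l2 ^ 2 * l3 ^ 0) * evalRow (0) (3804165) (142776) (-92286) (20550) (0) (0) (0) (0) (0) (0) (0) (0) (0) (36 * a₁) (216 * c₁) + (l1 ^ 4 * l2 ^ 0 * l3 ^ 1) * evalRow (0) (2235600) (70200) (-90855) (11100) (0) (0) (0) (0) (0) (0) (0) (0) (0) (36 * a₁) (216 * c₁) + (l1 ^ 4 *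 l2 ^ 1 * l3 ^ 0) * evalRow (0) (1710720) (101304) (-34479) (5700) (0) (0) (0) (0) (0) (0) (0) (0) (0) (36 * a₁) (216 * c₁) + (l1 ^ 5 * l2 ^ 0 * l3 ^ 0) * evalRow (0) (296784) (21024) (-5868) (640) (0) (0) (0) (0) (0) (0) (0) (0) (0) (36 * a₁) (216 * c₁) := by
    have hl3 : l3 = 1 - l1 - l2 := by linarith
    subst hl3
    simp only [DIIpoly, evalRow]
    push_cast
    ring
  have hpos : 0 ≤ (151165440 : ℝ) * DIIpoly ((l1 * (4) + l2 * (9) + l3 * (9)) / 36) ((l1 * (-8) + l2 * (-27) + l3 * (27)) / 216) a₁ c₁ := by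
    rw [key]
    exact add_nonneg (add_nonneg (add_nonneg (add_nonneg (add_nonneg (add_nonneg (add_nonneg (add_nonneg (add_nonneg (add_nonneg (add_nonneg (add_nonneg (add_nonneg (add_nonneg (add_nonneg (add_nonneg (add_nonneg (add_nonneg (add_nonneg (add_nonneg (mul_nonneg (by positivity) R0) (mul_nonneg (by positivity) R1)) (mul_nonneg (by positivity) R2)) (mul_nonneg (by positivity) R3)) (mul_nonneg (by positivity) R4)) (mul_nonneg (by positivity) R5)) (mul_nonneg (by positivity) R6)) (mul_nonneg (by positivity) R7)) (mul_nonneg (by positivity) R8)) (mul_nonneg (by positivity) R9)) (mul_nonneg (by positivity) R10)) (mul_nonneg (by positivity) R11)) (mul_nonneg (by positivity) R12)) (mul_nonneg (by positivity) R13)) (mul_nonneg (by positivity) R14)) (mul_nonneg (by positivity) R15)) (mul_nonneg (by positivity) R16)) (mul_nonneg (by positivity) R17)) (mul_nonneg (by positivity) R18)) (mul_nonneg (by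 positivity) R19)) (mul_nonneg (by positivity) R20)
  exact nonneg_of_mul_nonneg_right hpos (by norm_num)

set_option maxHeartbeats 16000000 in
theorem DII_tri4 (a₁ c₁ : ℝ) (hR : InR (36 * a₁) (216 * c₁)) (l1 l2 l3 : ℝ) (h1 : 0 ≤ l1) (h2 : 0 ≤ l2) (h3 : 0 ≤ l3)
    (hs : l1 + l2 + l3 = 1) :
    0 ≤ DIIpoly ((l1 * (4) + l2 * (9) + l3 * (4)) / 36) ((l1 * (-8) + l2 * (27) + l3 * (8)) / 216) a₁ c₁ := by
  have R0 := row_nonneg (0) (452304) (11808) (-22572) (2240) (0) (0) (0) (0) (0) (0) (0) (0) (0) (by decide +kernel) (36 * a₁) (216 * c₁) hR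
  have R1 := row_nonneg (0) (2857680) (47736) (-150471) (15900) (0) (0) (0) (0) (0) (0) (0) (0) (0) (by decide +kernel) (36 * a₁) (216 * c₁) hR
  have R2 := row_nonneg (0) (6836805) (54864) (-372114) (41550) (0) (0) (0) (0) (0) (0) (0) (0) (0) (by decide +kernel) (36 * a₁) (216 * c₁) hR
  have R3 := row_nonneg (0) (7887375) (-3744) (-439236) (51650) (0) (0) (0) (0) (0) (0) (0) (0) (0) (by decide +kernel) (36 * a₁) (216 * c₁) hR
  have R4 := row_nonneg (0) (4433535) (-40176) (-251154) (31050) (0) (0) (0) (0) (0) (0) (0) (0) (0) (by decide +kernel) (36 * a₁) (216 * c₁) hR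
  have R5 := row_nonneg (0) (977589) (-17496) (-56133) (7290) (0) (0) (0) (0) (0) (0) (0) (0) (0) (by decide +kernel) (36 * a₁) (216 * c₁) hR
  have R6 := row_nonneg (0) (2106000) (68256) (-96156) (9600) (0) (0) (0) (0) (0) (0) (0) (0) (0) (by decide +kernel) (36 * a₁) (216 * c₁) hR
  have R7 := row_nonneg (0) (10808640) (213408) (-542268) (58800) (0) (0) (0) (0) (0) (0) (0) (0) (0) (by decide +kernel) (36 * a₁) (216 * c₁) hR
  have R8 := row_nonneg (0) (19577295) (176688) (-1037718) (119850) (0) (0) (0) (0) (0) (0) (0) (0) (0) (by decide +kernel) (36 * a₁) (216 * c₁) hR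
  have R9 := row_nonneg (0) (15152670) (-13824) (-833256) (101700) (0) (0) (0) (0) (0) (0) (0) (0) (0) (by decide +kernel) (36 * a₁) (216 * c₁) hR
  have R10 := row_nonneg (0) (4278015) (-45360) (-241650) (31050) (0) (0) (0) (0) (0) (0) (0) (0) (0) (by decide +kernel) (36 * a₁) (216 * c₁) hR
  have R11 := row_nonneg (0) (3900960) (154944) (-158904) (16000) (0) (0) (0) (0) (0) (0) (0) (0) (0) (by decide +kernel) (36 * a₁) (216 * c₁) hR
  have R12 := row_nonneg (0) (15279840) (353808) (-723978) (81000) (0) (0) (0) (0) (0) (0) (0) (0) (0) (by decide +kernel) (36 * a₁) (216 * c₁) hR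
  have R13 := row_nonneg (0) (18644175) (188784) (-959094) (115050) (0) (0) (0) (0) (0) (0) (0) (0) (0) (by decide +kernel) (36 * a₁) (216 * c₁) hR
  have R14 := row_nonneg (0) (7265295) (-10080) (-394020) (50050) (0) (0) (0) (0) (0) (0) (0) (0) (0) (by decide +kernel) (36 * a₁) (216 * c₁) hR
  have R15 := row_nonneg (0) (3589920) (173376) (-125496) (12800) (0) (0) (0) (0) (0) (0) (0) (0) (0) (by decide +kernel) (36 * a₁) (216 * c₁) hR
  have R16 := row_nonneg (0) (9564480) (258336) (-423036) (49200) (0) (0) (0) (0) (0) (0) (0) (0) (0) (by decide +kernel) (36 * a₁) (216 * c₁) hR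
  have R17 := row_nonneg (0) (5903685) (66960) (-293490) (36750) (0) (0) (0) (0) (0) (0) (0) (0) (0) (by decide +kernel) (36 * a₁) (216 * c₁) hR
  have R18 := row_nonneg (0) (1639440) (95904) (-46044) (4800) (0) (0) (0) (0) (0) (0) (0) (0) (0) (by decide +kernel) (36 * a₁) (216 * c₁) hR
  have R19 := row_nonneg (0) (2235600) (70200) (-90855) (11100) (0) (0) (0) (0) (0) (0) (0) (0) (0) (by decide +kernel) (36 * a₁) (216 * c₁) hR
  have R20 := row_nonneg (0) (296784) (21024) (-5868) (640) (0) (0) (0) (0) (0) (0) (0) (0) (0) (by decide +kernel) (36 * a₁) (216 * c₁) hR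
  have key : (151165440 : ℝ) * DIIpoly ((l1 * (4) + l2 * (9) + l3 * (4)) / 36) ((l1 * (-8) + l2 * (27) + l3 * (8)) / 216) a₁ c₁ = (l1 ^ 0 * l2 ^ 0 * l3 ^ 5) * evalRow (0) (452304) (11808) (-22572) (2240) (0) (0) (0) (0) (0) (0) (0) (0) (0) (36 * a₁) (216 * c₁) + (l1 ^ 0 * l2 ^ 1 * l3 ^ 4) * evalRow (0) (2857680) (47736) (-150471) (15900) (0) (0) (0) (0) (0) (0) (0) (0) (0) (36 * a₁) (216 * c₁) + (l1 ^ 0 * l2 ^ 2 * l3 ^ 3) * evalRow (0) (6836805) (54864) (-372114) (41550) (0) (0) (0) (0) (0) (0) (0) (0) (0) (36 * a₁) (216 * c₁) + (l1 ^ 0 * l2 ^ 3 * l3 ^ 2) * evalRow (0) (7887375) (-3744) (-439236) (51650) (0) (0) (0) (0) (0) (0) (0) (0) (0) (36 * a₁) (216 * c₁) + (l1 ^ 0 * l2 ^ 4 * l3 ^ 1) * evalRow (0) (4433535) (-40176) (-251154) (31050) (0) (0) (0) (0) (0) (0) (0) (0) (0) (36 * a₁) (216 * c₁) + (l1 ^ 0 * l2 ^ 5 * l3 ^ 0) * evalRow (0) (977589) (-17496) (-56133) (7290) (0) (0) (0) (0) (0) (0) (0) (0)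 (0) (36 * a₁) (216 * c₁) + (l1 ^ 1 * l2 ^ 0 * l3 ^ 4) * evalRow (0) (2106000) (68256) (-96156) (9600) (0) (0) (0) (0) (0) (0) (0) (0) (0) (36 * a₁) (216 * c₁) + (l1 ^ 1 * l2 ^ 1 * l3 ^ 3) * evalRow (0) (10808640) (213408) (-542268) (58800) (0) (0) (0) (0) (0) (0) (0) (0) (0) (36 * a₁) (216 * c₁) + (l1 ^ 1 * l2 ^ 2 * l3 ^ 2) * evalRow (0) (19577295) (176688) (-1037718) (119850) (0) (0) (0) (0) (0) (0) (0) (0) (0) (36 * a₁) (216 * c₁) + (l1 ^ 1 * l2 ^ 3 * l3 ^ 1) * evalRow (0) (15152670) (-13824) (-833256) (101700) (0) (0) (0) (0) (0) (0) (0) (0) (0) (36 * a₁) (216 * c₁) + (l1 ^ 1 * l2 ^ 4 * l3 ^ 0) * evalRow (0) (4278015) (-45360) (-241650) (31050) (0) (0) (0) (0) (0) (0) (0) (0) (0) (36 * a₁) (216 * c₁) + (l1 ^ 2 * l2 ^ 0 * l3 ^ 3) * evalRow (0) (3900960) (154944) (-158904) (16000) (0) (0) (0) (0) (0) (0) (0) (0) (0) (36 * a₁) (216 * c₁) + (l1 ^ 2 * l2 ^ 1 * l3 ^ 2) * evalRow (0) (15279840) (353808)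 (-723978) (81000) (0) (0) (0) (0) (0) (0) (0) (0) (0) (36 * a₁) (216 * c₁) + (l1 ^ 2 * l2 ^ 2 * l3 ^ 1) * evalRow (0) (18644175) (188784) (-959094) (115050) (0) (0) (0) (0) (0) (0) (0) (0) (0) (36 * a₁) (216 * c₁) + (l1 ^ 2 * l2 ^ 3 * l3 ^ 0) * evalRow (0) (7265295) (-10080) (-394020) (50050) (0) (0) (0) (0) (0) (0) (0) (0) (0) (36 * a₁) (216 * c₁) + (l1 ^ 3 * l2 ^ 0 * l3 ^ 2) * evalRow (0) (3589920) (173376) (-125496) (12800) (0) (0) (0) (0) (0) (0) (0) (0) (0) (36 * a₁) (216 * c₁) + (l1 ^ 3 * l2 ^ 1 * l3 ^ 1) * evalRow (0) (9564480) (258336) (-423036) (49200) (0) (0) (0) (0) (0) (0) (0) (0) (0) (36 * a₁) (216 * c₁) + (l1 ^ 3 * l2 ^ 2 * l3 ^ 0) * evalRow (0) (5903685) (66960) (-293490) (36750) (0) (0) (0) (0) (0) (0) (0) (0) (0) (36 * a₁) (216 * c₁) + (l1 ^ 4 * l2 ^ 0 * l3 ^ 1) * evalRow (0) (1639440) (95904) (-46044) (4800) (0) (0) (0) (0) (0) (0) (0) (0) (0) (36 * a₁) (216 * c₁) + (l1 ^ 4 * l2 ^ 1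 * l3 ^ 0) * evalRow (0) (2235600) (70200) (-90855) (11100) (0) (0) (0) (0) (0) (0) (0) (0) (0) (36 * a₁) (216 * c₁) + (l1 ^ 5 * l2 ^ 0 * l3 ^ 0) * evalRow (0) (296784) (21024) (-5868) (640) (0) (0) (0) (0) (0) (0) (0) (0) (0) (36 * a₁) (216 * c₁) := by
    have hl3 : l3 = 1 - l1 - l2 := by linarith
    subst hl3
    simp only [DIIpoly, evalRow]
    push_cast
    ring
  have hpos : 0 ≤ (151165440 : ℝ) * DIIpoly ((l1 * (4) + l2 * (9) + l3 * (4)) / 36) ((l1 * (-8) + l2 * (27) + l3 * (8)) / 216) a₁ c₁ := by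
    rw [key]
    exact add_nonneg (add_nonneg (add_nonneg (add_nonneg (add_nonneg (add_nonneg (add_nonneg (add_nonneg (add_nonneg (add_nonneg (add_nonneg (add_nonneg (add_nonneg (add_nonneg (add_nonneg (add_nonneg (add_nonneg (add_nonneg (add_nonneg (add_nonneg (mul_nonneg (by positivity) R0) (mul_nonneg (by positivity) R1)) (mul_nonneg (by positivity) R2)) (mul_nonneg (by positivity) R3)) (mul_nonneg (by positivity) R4)) (mul_nonneg (by positivity) R5)) (mul_nonneg (by positivity) R6)) (mul_nonneg (by positivity) R7)) (mul_nonneg (by positivity) R8)) (mul_nonneg (by positivity) R9)) (mul_nonneg (by positivity) R10)) (mul_nonneg (by positivity) R11)) (mul_nonneg (by positivity) R12)) (mul_nonneg (by positivity) R13)) (mul_nonneg (by positivity) R14)) (mul_nonneg (by positivity) R15)) (mul_nonneg (by positivity) R16)) (mul_nonneg (by positivity) R17)) (mul_nonneg (by positivity) R18)) (mul_nonneg (by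 positivity) R19)) (mul_nonneg (by positivity) R20)
  exact nonneg_of_mul_nonneg_right hpos (by norm_num)

set_option maxHeartbeats 16000000 in
theorem DII_tri5 (a₁ c₁ : ℝ) (hR : InR (36 * a₁) (216 * c₁)) (l1 l2 l3 : ℝ) (h1 : 0 ≤ l1) (h2 : 0 ≤ l2) (h3 : 0 ≤ l3)
    (hs : l1 + l2 + l3 = 1) :
    0 ≤ DIIpoly ((l1 * (9) + l2 * (16) + l3 * (16)) / 36) ((l1 * (-27) + l2 * (36) + l3 * (64)) / 216) a₁ c₁ := by
  have R0 := row_nonneg (0) (1575936) (-102528) (-89136) (14080) (0) (0) (0) (0) (0) (0) (0) (0) (0) (by decide +kernel) (36 * a₁) (216 * c₁) hR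
  have R1 := row_nonneg (0) (7607520) (-556992) (-446688) (74320) (0) (0) (0) (0) (0) (0) (0) (0) (0) (by decide +kernel) (36 * a₁) (216 * c₁) hR
  have R2 := row_nonneg (0) (14670720) (-1202688) (-895392) (156480) (0) (0) (0) (0) (0) (0) (0) (0) (0) (by decide +kernel) (36 * a₁) (216 * c₁) hR
  have R3 := row_nonneg (0) (14126400) (-1291392) (-897408) (164320) (0) (0) (0) (0) (0) (0) (0) (0) (0) (by decide +kernel) (36 * a₁) (216 * c₁) hR
  have R4 := row_nonneg (0) (6791040) (-690048) (-449712) (86080) (0) (0) (0) (0) (0) (0) (0) (0) (0) (by decide +kernel) (36 * a₁) (216 * c₁) hR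
  have R5 := row_nonneg (0) (1303776) (-146880) (-90144) (18000) (0) (0) (0) (0) (0) (0) (0) (0) (0) (by decide +kernel) (36 * a₁) (216 * c₁) hR
  have R6 := row_nonneg (0) (6895368) (-490968) (-429111) (71940) (0) (0) (0) (0) (0) (0) (0) (0) (0) (by decide +kernel) (36 * a₁) (216 * c₁) hR
  have R7 := row_nonneg (0) (26492832) (-2106000) (-1702836) (299520) (0) (0) (0) (0) (0) (0) (0) (0) (0) (by decide +kernel) (36 * a₁) (216 * c₁) hR
  have R8 := row_nonneg (0) (38106288) (-3372192) (-2533842) (466920) (0) (0) (0) (0) (0) (0) (0) (0) (0) (by decide +kernel) (36 * a₁) (216 * c₁) hR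
  have R9 := row_nonneg (0) (24315552) (-2390256) (-1675620) (323040) (0) (0) (0) (0) (0) (0) (0) (0) (0) (by decide +kernel) (36 * a₁) (216 * c₁) hR
  have R10 := row_nonneg (0) (5806728) (-633096) (-415503) (83700) (0) (0) (0) (0) (0) (0) (0) (0) (0) (by decide +kernel) (36 * a₁) (216 * c₁) hR
  have R11 := row_nonneg (0) (11683197) (-892728) (-776574) (138630) (0) (0) (0) (0) (0) (0) (0) (0) (0) (by decide +kernel) (36 * a₁) (216 * c₁) hR
  have R12 := row_nonneg (0) (33416631) (-2838456) (-2282850) (427650) (0) (0) (0) (0) (0) (0) (0) (0) (0) (by decide +kernel) (36 * a₁) (216 * c₁) hR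
  have R13 := row_nonneg (0) (31783671) (-2998728) (-2235978) (439410) (0) (0) (0) (0) (0) (0) (0) (0) (0) (by decide +kernel) (36 * a₁) (216 * c₁) hR
  have R14 := row_nonneg (0) (10050237) (-1053000) (-729702) (150390) (0) (0) (0) (0) (0) (0) (0) (0) (0) (by decide +kernel) (36 * a₁) (216 * c₁) hR
  have R15 := row_nonneg (0) (9436743) (-757656) (-646416) (125050) (0) (0) (0) (0) (0) (0) (0) (0) (0) (by decide +kernel) (36 * a₁) (216 * c₁) hR
  have R16 := row_nonneg (0) (17784846) (-1586880) (-1243944) (254020) (0) (0) (0) (0) (0) (0) (0) (0) (0) (by decide +kernel) (36 * a₁) (216 * c₁) hR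
  have R17 := row_nonneg (0) (8348103) (-829224) (-597528) (128970) (0) (0) (0) (0) (0) (0) (0) (0) (0) (by decide +kernel) (36 * a₁) (216 * c₁) hR
  have R18 := row_nonneg (0) (3525687) (-288360) (-233874) (51570) (0) (0) (0) (0) (0) (0) (0) (0) (0) (by decide +kernel) (36 * a₁) (216 * c₁) hR
  have R19 := row_nonneg (0) (3253527) (-297432) (-217242) (51570) (0) (0) (0) (0) (0) (0) (0) (0) (0) (by decide +kernel) (36 * a₁) (216 * c₁) hR
  have R20 := row_nonneg (0) (452709) (-34992) (-24057) (7290) (0) (0) (0) (0) (0) (0) (0) (0) (0) (by decide +kernel) (36 * a₁) (216 * c₁) hR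
  have key : (151165440 : ℝ) * DIIpoly ((l1 * (9) + l2 * (16) + l3 * (16)) / 36) ((l1 * (-27) + l2 * (36) + l3 * (64)) / 216) a₁ c₁ = (l1 ^ 0 * l2 ^ 0 * l3 ^ 5) * evalRow (0) (1575936) (-102528) (-89136) (14080) (0) (0) (0) (0) (0) (0) (0) (0) (0) (36 * a₁) (216 * c₁) + (l1 ^ 0 * l2 ^ 1 * l3 ^ 4) * evalRow (0) (7607520) (-556992) (-446688) (74320) (0) (0) (0) (0) (0) (0) (0) (0) (0) (36 * a₁) (216 * c₁) + (l1 ^ 0 * l2 ^ 2 * l3 ^ 3) * evalRow (0) (14670720) (-1202688) (-895392) (156480) (0) (0) (0) (0) (0) (0) (0) (0) (0) (36 * a₁) (216 * c₁) + (l1 ^ 0 * l2 ^ 3 * l3 ^ 2) * evalRow (0) (14126400) (-1291392) (-897408) (164320) (0) (0) (0) (0) (0) (0) (0) (0) (0) (36 * a₁) (216 * c₁) + (l1 ^ 0 * l2 ^ 4 * l3 ^ 1) * evalRow (0) (6791040) (-690048) (-449712) (86080) (0) (0) (0) (0) (0) (0) (0) (0) (0) (36 * a₁) (216 * c₁) + (l1 ^ 0 * l2 ^ 5 * l3 ^ 0) * evalRow (0) (1303776) (-146880) (-90144) (18000) (0) (0)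 (0) (0) (0) (0) (0) (0) (0) (36 * a₁) (216 * c₁) + (l1 ^ 1 * l2 ^ 0 * l3 ^ 4) * evalRow (0) (6895368) (-490968) (-429111) (71940) (0) (0) (0) (0) (0) (0) (0) (0) (0) (36 * a₁) (216 * c₁) + (l1 ^ 1 * l2 ^ 1 * l3 ^ 3) * evalRow (0) (26492832) (-2106000) (-1702836) (299520) (0) (0) (0) (0) (0) (0) (0) (0) (0) (36 * a₁) (216 * c₁) + (l1 ^ 1 * l2 ^ 2 * l3 ^ 2) * evalRow (0) (38106288) (-3372192) (-2533842) (466920) (0) (0) (0) (0) (0) (0) (0) (0) (0) (36 * a₁) (216 * c₁) + (l1 ^ 1 * l2 ^ 3 * l3 ^ 1) * evalRow (0) (24315552) (-2390256) (-1675620) (323040) (0) (0) (0) (0) (0) (0) (0) (0) (0) (36 * a₁) (216 * c₁) + (l1 ^ 1 * l2 ^ 4 * l3 ^ 0) * evalRow (0) (5806728) (-633096) (-415503) (83700) (0) (0) (0) (0) (0) (0) (0) (0) (0) (36 * a₁) (216 * c₁) + (l1 ^ 2 * l2 ^ 0 * l3 ^ 3) * evalRow (0) (11683197) (-892728) (-776574) (138630) (0) (0) (0) (0) (0) (0) (0) (0) (0) (36 * a₁) (216 * c₁) + (l1 ^ 2 * l2 ^ 1 * l3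 ^ 2) * evalRow (0) (33416631) (-2838456) (-2282850) (427650) (0) (0) (0) (0) (0) (0) (0) (0) (0) (36 * a₁) (216 * c₁) + (l1 ^ 2 * l2 ^ 2 * l3 ^ 1) * evalRow (0) (31783671) (-2998728) (-2235978) (439410) (0) (0) (0) (0) (0) (0) (0) (0) (0) (36 * a₁) (216 * c₁) + (l1 ^ 2 * l2 ^ 3 * l3 ^ 0) * evalRow (0) (10050237) (-1053000) (-729702) (150390) (0) (0) (0) (0) (0) (0) (0) (0) (0) (36 * a₁) (216 * c₁) + (l1 ^ 3 * l2 ^ 0 * l3 ^ 2) * evalRow (0) (9436743) (-757656) (-646416) (125050) (0) (0) (0) (0) (0) (0) (0) (0) (0) (36 * a₁) (216 * c₁) + (l1 ^ 3 * l2 ^ 1 * l3 ^ 1) * evalRow (0) (17784846) (-1586880) (-1243944) (254020) (0) (0) (0) (0) (0) (0) (0) (0) (0) (36 * a₁) (216 * c₁) + (l1 ^ 3 * l2 ^ 2 * l3 ^ 0) * evalRow (0) (8348103) (-829224) (-597528) (128970) (0) (0) (0) (0) (0) (0) (0) (0) (0) (36 * a₁) (216 * c₁) + (l1 ^ 4 * l2 ^ 0 * l3 ^ 1) * evalRow (0) (3525687) (-288360) (-233874) (51570) (0) (0) (0)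 (0) (0) (0) (0) (0) (0) (36 * a₁) (216 * c₁) + (l1 ^ 4 * l2 ^ 1 * l3 ^ 0) * evalRow (0) (3253527) (-297432) (-217242) (51570) (0) (0) (0) (0) (0) (0) (0) (0) (0) (36 * a₁) (216 * c₁) + (l1 ^ 5 * l2 ^ 0 * l3 ^ 0) * evalRow (0) (452709) (-34992) (-24057) (7290) (0) (0) (0) (0) (0) (0) (0) (0) (0) (36 * a₁) (216 * c₁) := by
    have hl3 : l3 = 1 - l1 - l2 := by linarith
    subst hl3
    simp only [DIIpoly, evalRow]
    push_cast
    ring
  have hpos : 0 ≤ (151165440 : ℝ) * DIIpoly ((l1 * (9) + l2 * (16) + l3 * (16)) / 36) ((l1 * (-27) + l2 * (36) + l3 * (64)) / 216) a₁ c₁ := by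
    rw [key]
    exact add_nonneg (add_nonneg (add_nonneg (add_nonneg (add_nonneg (add_nonneg (add_nonneg (add_nonneg (add_nonneg (add_nonneg (add_nonneg (add_nonneg (add_nonneg (add_nonneg (add_nonneg (add_nonneg (add_nonneg (add_nonneg (add_nonneg (add_nonneg (mul_nonneg (by positivity) R0) (mul_nonneg (by positivity) R1)) (mul_nonneg (by positivity) R2)) (mul_nonneg (by positivity) R3)) (mul_nonneg (by positivity) R4)) (mul_nonneg (by positivity) R5)) (mul_nonneg (by positivity) R6)) (mul_nonneg (by positivity) R7)) (mul_nonneg (by positivity) R8)) (mul_nonneg (by positivity) R9)) (mul_nonneg (by positivity) R10)) (mul_nonneg (by positivity) R11)) (mul_nonneg (by positivity) R12)) (mul_nonneg (by positivity) R13)) (mul_nonneg (by positivity) R14)) (mul_nonneg (by positivity) R15)) (mul_nonneg (by positivity) R16)) (mul_nonneg (by positivity) R17)) (mul_nonneg (by positivity) R18)) (mul_nonneg (by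 positivity) R19)) (mul_nonneg (by positivity) R20)
  exact nonneg_of_mul_nonneg_right hpos (by norm_num)

set_option maxHeartbeats 16000000 in
theorem DII_tri6 (a₁ c₁ : ℝ) (hR : InR (36 * a₁) (216 * c₁)) (l1 l2 l3 : ℝ) (h1 : 0 ≤ l1) (h2 : 0 ≤ l2) (h3 : 0 ≤ l3)
    (hs : l1 + l2 + l3 = 1) :
    0 ≤ DIIpoly ((l1 * (9) + l2 * (16) + l3 * (9)) / 36) ((l1 * (-27) + l2 * (64) + l3 * (27)) / 216) a₁ c₁ := by
  have R0 := row_nonneg (0) (977589) (-17496) (-56133) (7290) (0) (0) (0) (0) (0) (0) (0) (0) (0) (by decide +kernel) (36 * a₁) (216 * c₁) hR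
  have R1 := row_nonneg (0) (5625207) (-150336) (-328158) (44010) (0) (0) (0) (0) (0) (0) (0) (0) (0) (by decide +kernel) (36 * a₁) (216 * c₁) hR
  have R2 := row_nonneg (0) (12586023) (-448560) (-736812) (102370) (0) (0) (0) (0) (0) (0) (0) (0) (0) (by decide +kernel) (36 * a₁) (216 * c₁) hR
  have R3 := row_nonneg (0) (13782717) (-618624) (-802818) (115950) (0) (0) (0) (0) (0) (0) (0) (0) (0) (by decide +kernel) (36 * a₁) (216 * c₁) hR
  have R4 := row_nonneg (0) (7420248) (-405432) (-427167) (64380) (0) (0) (0) (0) (0) (0) (0) (0) (0) (by decide +kernel) (36 * a₁) (216 * c₁) hR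
  have R5 := row_nonneg (0) (1575936) (-102528) (-89136) (14080) (0) (0) (0) (0) (0) (0) (0) (0) (0) (by decide +kernel) (36 * a₁) (216 * c₁) hR
  have R6 := row_nonneg (0) (4363065) (-104976) (-248589) (36450) (0) (0) (0) (0) (0) (0) (0) (0) (0) (by decide +kernel) (36 * a₁) (216 * c₁) hR
  have R7 := row_nonneg (0) (20401308) (-739368) (-1218348) (183600) (0) (0) (0) (0) (0) (0) (0) (0) (0) (by decide +kernel) (36 * a₁) (216 * c₁) hR
  have R8 := row_nonneg (0) (34608789) (-1654776) (-2120040) (329790) (0) (0) (0) (0) (0) (0) (0) (0) (0) (by decide +kernel) (36 * a₁) (216 * c₁) hR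
  have R9 := row_nonneg (0) (25465914) (-1511352) (-1579392) (254580) (0) (0) (0) (0) (0) (0) (0) (0) (0) (by decide +kernel) (36 * a₁) (216 * c₁) hR
  have R10 := row_nonneg (0) (6895368) (-490968) (-429111) (71940) (0) (0) (0) (0) (0) (0) (0) (0) (0) (by decide +kernel) (36 * a₁) (216 * c₁) hR
  have R11 := row_nonneg (0) (7676370) (-244944) (-433026) (72900) (0) (0) (0) (0) (0) (0) (0) (0) (0) (by decide +kernel) (36 * a₁) (216 * c₁) hR
  have R12 := row_nonneg (0) (27452682) (-1316088) (-1686096) (286740) (0) (0) (0) (0) (0) (0) (0) (0) (0) (by decide +kernel) (36 * a₁) (216 * c₁) hR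
  have R13 := row_nonneg (0) (31459509) (-1963872) (-2029644) (352470) (0) (0) (0) (0) (0) (0) (0) (0) (0) (by decide +kernel) (36 * a₁) (216 * c₁) hR
  have R14 := row_nonneg (0) (11683197) (-892728) (-776574) (138630) (0) (0) (0) (0) (0) (0) (0) (0) (0) (by decide +kernel) (36 * a₁) (216 * c₁) hR
  have R15 := row_nonneg (0) (6626610) (-279936) (-368874) (72900) (0) (0) (0) (0) (0) (0) (0) (0) (0) (by decide +kernel) (36 * a₁) (216 * c₁) hR
  have R16 := row_nonneg (0) (16202268) (-1015416) (-1029780) (198720) (0) (0) (0) (0) (0) (0) (0) (0) (0) (by decide +kernel) (36 * a₁) (216 * c₁) hR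
  have R17 := row_nonneg (0) (9436743) (-757656) (-646416) (125050) (0) (0) (0) (0) (0) (0) (0) (0) (0) (by decide +kernel) (36 * a₁) (216 * c₁) hR
  have R18 := row_nonneg (0) (2788425) (-157464) (-152361) (36450) (0) (0) (0) (0) (0) (0) (0) (0) (0) (by decide +kernel) (36 * a₁) (216 * c₁) hR
  have R19 := row_nonneg (0) (3525687) (-288360) (-233874) (51570) (0) (0) (0) (0) (0) (0) (0) (0) (0) (by decide +kernel) (36 * a₁) (216 * c₁) hR
  have R20 := row_nonneg (0) (452709) (-34992) (-24057) (7290) (0) (0) (0) (0) (0) (0) (0) (0) (0) (by decide +kernel) (36 * a₁) (216 * c₁) hR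
  have key : (151165440 : ℝ) * DIIpoly ((l1 * (9) + l2 * (16) + l3 * (9)) / 36) ((l1 * (-27) + l2 * (64) + l3 * (27)) / 216) a₁ c₁ = (l1 ^ 0 * l2 ^ 0 * l3 ^ 5) * evalRow (0) (977589) (-17496) (-56133) (7290) (0) (0) (0) (0) (0) (0) (0) (0) (0) (36 * a₁) (216 * c₁) + (l1 ^ 0 * l2 ^ 1 * l3 ^ 4) * evalRow (0) (5625207) (-150336) (-328158) (44010) (0) (0) (0) (0) (0) (0) (0) (0) (0) (36 * a₁) (216 * c₁) + (l1 ^ 0 * l2 ^ 2 * l3 ^ 3) * evalRow (0) (12586023) (-448560) (-736812) (102370) (0) (0) (0) (0) (0) (0) (0) (0) (0) (36 * a₁) (216 * c₁) + (l1 ^ 0 * l2 ^ 3 * l3 ^ 2) * evalRow (0) (13782717) (-618624) (-802818) (115950) (0) (0) (0) (0) (0) (0) (0) (0) (0) (36 * a₁) (216 * c₁) + (l1 ^ 0 * l2 ^ 4 * l3 ^ 1) * evalRow (0) (7420248) (-405432) (-427167) (64380) (0) (0) (0) (0) (0) (0) (0) (0) (0) (36 * a₁) (216 * c₁) + (l1 ^ 0 * l2 ^ 5 * l3 ^ 0) * evalRow (0) (1575936) (-102528) (-89136) (14080) (0) (0) (0)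 (0) (0) (0) (0) (0) (0) (36 * a₁) (216 * c₁) + (l1 ^ 1 * l2 ^ 0 * l3 ^ 4) * evalRow (0) (4363065) (-104976) (-248589) (36450) (0) (0) (0) (0) (0) (0) (0) (0) (0) (36 * a₁) (216 * c₁) + (l1 ^ 1 * l2 ^ 1 * l3 ^ 3) * evalRow (0) (20401308) (-739368) (-1218348) (183600) (0) (0) (0) (0) (0) (0) (0) (0) (0) (36 * a₁) (216 * c₁) + (l1 ^ 1 * l2 ^ 2 * l3 ^ 2) * evalRow (0) (34608789) (-1654776) (-2120040) (329790) (0) (0) (0) (0) (0) (0) (0) (0) (0) (36 * a₁) (216 * c₁) + (l1 ^ 1 * l2 ^ 3 * l3 ^ 1) * evalRow (0) (25465914) (-1511352) (-1579392) (254580) (0) (0) (0) (0) (0) (0) (0) (0) (0) (36 * a₁) (216 * c₁) + (l1 ^ 1 * l2 ^ 4 * l3 ^ 0) * evalRow (0) (6895368) (-490968) (-429111) (71940) (0) (0) (0) (0) (0) (0) (0) (0) (0) (36 * a₁) (216 * c₁) + (l1 ^ 2 * l2 ^ 0 * l3 ^ 3) * evalRow (0) (7676370) (-244944) (-433026) (72900) (0) (0) (0) (0) (0) (0) (0) (0) (0) (36 * a₁) (216 * c₁) + (l1 ^ 2 * l2 ^ 1 * l3 ^ 2)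 * evalRow (0) (27452682) (-1316088) (-1686096) (286740) (0) (0) (0) (0) (0) (0) (0) (0) (0) (36 * a₁) (216 * c₁) + (l1 ^ 2 * l2 ^ 2 * l3 ^ 1) * evalRow (0) (31459509) (-1963872) (-2029644) (352470) (0) (0) (0) (0) (0) (0) (0) (0) (0) (36 * a₁) (216 * c₁) + (l1 ^ 2 * l2 ^ 3 * l3 ^ 0) * evalRow (0) (11683197) (-892728) (-776574) (138630) (0) (0) (0) (0) (0) (0) (0) (0) (0) (36 * a₁) (216 * c₁) + (l1 ^ 3 * l2 ^ 0 * l3 ^ 2) * evalRow (0) (6626610) (-279936) (-368874) (72900) (0) (0) (0) (0) (0) (0) (0) (0) (0) (36 * a₁) (216 * c₁) + (l1 ^ 3 * l2 ^ 1 * l3 ^ 1) * evalRow (0) (16202268) (-1015416) (-1029780) (198720) (0) (0) (0) (0) (0) (0) (0) (0) (0) (36 * a₁) (216 * c₁) + (l1 ^ 3 * l2 ^ 2 * l3 ^ 0) * evalRow (0) (9436743) (-757656) (-646416) (125050) (0) (0) (0) (0) (0) (0) (0) (0) (0) (36 * a₁) (216 * c₁) + (l1 ^ 4 * l2 ^ 0 * l3 ^ 1) * evalRow (0) (2788425) (-157464) (-152361) (36450) (0) (0) (0) (0) (0)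 (0) (0) (0) (0) (36 * a₁) (216 * c₁) + (l1 ^ 4 * l2 ^ 1 * l3 ^ 0) * evalRow (0) (3525687) (-288360) (-233874) (51570) (0) (0) (0) (0) (0) (0) (0) (0) (0) (36 * a₁) (216 * c₁) + (l1 ^ 5 * l2 ^ 0 * l3 ^ 0) * evalRow (0) (452709) (-34992) (-24057) (7290) (0) (0) (0) (0) (0) (0) (0) (0) (0) (36 * a₁) (216 * c₁) := by
    have hl3 : l3 = 1 - l1 - l2 := by linarith
    subst hl3
    simp only [DIIpoly, evalRow]
    push_cast
    ring
  have hpos : 0 ≤ (151165440 : ℝ) * DIIpoly ((l1 * (9) + l2 * (16) + l3 * (9)) / 36) ((l1 * (-27) + l2 * (64) + l3 * (27)) / 216) a₁ c₁ := by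
    rw [key]
    exact add_nonneg (add_nonneg (add_nonneg (add_nonneg (add_nonneg (add_nonneg (add_nonneg (add_nonneg (add_nonneg (add_nonneg (add_nonneg (add_nonneg (add_nonneg (add_nonneg (add_nonneg (add_nonneg (add_nonneg (add_nonneg (add_nonneg (add_nonneg (mul_nonneg (by positivity) R0) (mul_nonneg (by positivity) R1)) (mul_nonneg (by positivity) R2)) (mul_nonneg (by positivity) R3)) (mul_nonneg (by positivity) R4)) (mul_nonneg (by positivity) R5)) (mul_nonneg (by positivity) R6)) (mul_nonneg (by positivity) R7)) (mul_nonneg (by positivity) R8)) (mul_nonneg (by positivity) R9)) (mul_nonneg (by positivity) R10)) (mul_nonneg (by positivity) R11)) (mul_nonneg (by positivity) R12)) (mul_nonneg (by positivity) R13)) (mul_nonneg (by positivity) R14)) (mul_nonneg (by positivity) R15)) (mul_nonneg (by positivity) R16)) (mul_nonneg (by positivity) R17)) (mul_nonneg (by positivity) R18)) (mul_nonneg (by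 positivity) R19)) (mul_nonneg (by positivity) R20)
  exact nonneg_of_mul_nonneg_right hpos (by norm_num)

set_option maxHeartbeats 16000000 in
theorem DII_tri7 (a₁ c₁ : ℝ) (hR : InR (36 * a₁) (216 * c₁)) (l1 l2 l3 : ℝ) (h1 : 0 ≤ l1) (h2 : 0 ≤ l2) (h3 : 0 ≤ l3)
    (hs : l1 + l2 + l3 = 1) :
    0 ≤ DIIpoly ((l1 * (16) + l2 * (25) + l3 * (25)) / 36) ((l1 * (36) + l2 * (117) + l3 * (125)) / 216) a₁ c₁ := by
  have R0 := row_nonneg (0) (2067525) (-234000) (-77625) (16250) (0) (0) (0) (0) (0) (0) (0) (0) (0) (by decide +kernel) (36 * a₁) (216 * c₁) hR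
  have R1 := row_nonneg (0) (10259865) (-1195632) (-394893) (83810) (0) (0) (0) (0) (0) (0) (0) (0) (0) (by decide +kernel) (36 * a₁) (216 * c₁) hR
  have R2 := row_nonneg (0) (20364210) (-2442528) (-803322) (172740) (0) (0) (0) (0) (0) (0) (0) (0) (0) (by decide +kernel) (36 * a₁) (216 * c₁) hR
  have R3 := row_nonneg (0) (20208690) (-2493792) (-816858) (177860) (0) (0) (0) (0) (0) (0) (0) (0) (0) (by decide +kernel) (36 * a₁) (216 * c₁) hR
  have R4 := row_nonneg (0) (10026585) (-1272528) (-415197) (91490) (0) (0) (0) (0) (0) (0) (0) (0) (0) (by decide +kernel) (36 * a₁) (216 * c₁) hR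
  have R5 := row_nonneg (0) (1989765) (-259632) (-84393) (18810) (0) (0) (0) (0) (0) (0) (0) (0) (0) (by decide +kernel) (36 * a₁) (216 * c₁) hR
  have R6 := row_nonneg (0) (9803511) (-1113336) (-458154) (91730) (0) (0) (0) (0) (0) (0) (0) (0) (0) (by decide +kernel) (36 * a₁) (216 * c₁) hR
  have R7 := row_nonneg (0) (38903004) (-4542912) (-1853208) (375720) (0) (0) (0) (0) (0) (0) (0) (0) (0) (by decide +kernel) (36 * a₁) (216 * c₁) hR
  have R8 := row_nonneg (0) (57887946) (-6948720) (-2810700) (576780) (0) (0) (0) (0) (0) (0) (0) (0) (0) (by decide +kernel) (36 * a₁) (216 * c₁) hR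
  have R9 := row_nonneg (0) (38280924) (-4722048) (-1894392) (393320) (0) (0) (0) (0) (0) (0) (0) (0) (0) (by decide +kernel) (36 * a₁) (216 * c₁) hR
  have R10 := row_nonneg (0) (9492471) (-1202904) (-478746) (100530) (0) (0) (0) (0) (0) (0) (0) (0) (0) (by decide +kernel) (36 * a₁) (216 * c₁) hR
  have R11 := row_nonneg (0) (18309159) (-2082888) (-998856) (195690) (0) (0) (0) (0) (0) (0) (0) (0) (0) (by decide +kernel) (36 * a₁) (216 * c₁) hR
  have R12 := row_nonneg (0) (54460917) (-6363576) (-3017736) (598110) (0) (0) (0) (0) (0) (0) (0) (0) (0) (by decide +kernel) (36 * a₁) (216 * c₁) hR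
  have R13 := row_nonneg (0) (53994357) (-6478488) (-3038904) (609150) (0) (0) (0) (0) (0) (0) (0) (0) (0) (by decide +kernel) (36 * a₁) (216 * c₁) hR
  have R14 := row_nonneg (0) (17842599) (-2197800) (-1020024) (206730) (0) (0) (0) (0) (0) (0) (0) (0) (0) (by decide +kernel) (36 * a₁) (216 * c₁) hR
  have R15 := row_nonneg (0) (16781661) (-1908648) (-1023894) (199190) (0) (0) (0) (0) (0) (0) (0) (0) (0) (by decide +kernel) (36 * a₁) (216 * c₁) hR
  have R16 := row_nonneg (0) (33252282) (-3880944) (-2055420) (404300) (0) (0) (0) (0) (0) (0) (0) (0) (0) (by decide +kernel) (36 * a₁) (216 * c₁) hR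
  have R17 := row_nonneg (0) (16470621) (-1972296) (-1031526) (205110) (0) (0) (0) (0) (0) (0) (0) (0) (0) (by decide +kernel) (36 * a₁) (216 * c₁) hR
  have R18 := row_nonneg (0) (7512264) (-851976) (-495711) (96980) (0) (0) (0) (0) (0) (0) (0) (0) (0) (by decide +kernel) (36 * a₁) (216 * c₁) hR
  have R19 := row_nonneg (0) (7434504) (-864648) (-495999) (98100) (0) (0) (0) (0) (0) (0) (0) (0) (0) (by decide +kernel) (36 * a₁) (216 * c₁) hR
  have R20 := row_nonneg (0) (1303776) (-146880) (-90144) (18000) (0) (0) (0) (0) (0) (0) (0) (0) (0) (by decide +kernel) (36 * a₁) (216 * c₁) hR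
  have key : (151165440 : ℝ) * DIIpoly ((l1 * (16) + l2 * (25) + l3 * (25)) / 36) ((l1 * (36) + l2 * (117) + l3 * (125)) / 216) a₁ c₁ = (l1 ^ 0 * l2 ^ 0 * l3 ^ 5) * evalRow (0) (2067525) (-234000) (-77625) (16250) (0) (0) (0) (0) (0) (0) (0) (0) (0) (36 * a₁) (216 * c₁) + (l1 ^ 0 * l2 ^ 1 * l3 ^ 4) * evalRow (0) (10259865) (-1195632) (-394893) (83810) (0) (0) (0) (0) (0) (0) (0) (0) (0) (36 * a₁) (216 * c₁) + (l1 ^ 0 * l2 ^ 2 * l3 ^ 3) * evalRow (0) (20364210) (-2442528) (-803322) (172740) (0) (0) (0) (0) (0) (0) (0) (0) (0) (36 * a₁) (216 * c₁) + (l1 ^ 0 * l2 ^ 3 * l3 ^ 2) * evalRow (0) (20208690) (-2493792) (-816858) (177860) (0) (0) (0) (0) (0) (0) (0) (0) (0) (36 * a₁) (216 * c₁) + (l1 ^ 0 * l2 ^ 4 * l3 ^ 1) * evalRow (0) (10026585) (-1272528) (-415197) (91490) (0) (0) (0) (0) (0) (0) (0) (0) (0) (36 * a₁) (216 * c₁) + (l1 ^ 0 * l2 ^ 5 * l3 ^ 0) * evalRow (0) (1989765) (-259632) (-84393) (18810)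 (0) (0) (0) (0) (0) (0) (0) (0) (0) (36 * a₁) (216 * c₁) + (l1 ^ 1 * l2 ^ 0 * l3 ^ 4) * evalRow (0) (9803511) (-1113336) (-458154) (91730) (0) (0) (0) (0) (0) (0) (0) (0) (0) (36 * a₁) (216 * c₁) + (l1 ^ 1 * l2 ^ 1 * l3 ^ 3) * evalRow (0) (38903004) (-4542912) (-1853208) (375720) (0) (0) (0) (0) (0) (0) (0) (0) (0) (36 * a₁) (216 * c₁) + (l1 ^ 1 * l2 ^ 2 * l3 ^ 2) * evalRow (0) (57887946) (-6948720) (-2810700) (576780) (0) (0) (0) (0) (0) (0) (0) (0) (0) (36 * a₁) (216 * c₁) + (l1 ^ 1 * l2 ^ 3 * l3 ^ 1) * evalRow (0) (38280924) (-4722048) (-1894392) (393320) (0) (0) (0) (0) (0) (0) (0) (0) (0) (36 * a₁) (216 * c₁) + (l1 ^ 1 * l2 ^ 4 * l3 ^ 0) * evalRow (0) (9492471) (-1202904) (-478746) (100530) (0) (0) (0) (0) (0) (0) (0) (0) (0) (36 * a₁) (216 * c₁) + (l1 ^ 2 * l2 ^ 0 * l3 ^ 3) * evalRow (0) (18309159) (-2082888) (-998856) (195690) (0) (0) (0) (0) (0) (0) (0) (0) (0) (36 * a₁) (216 * c₁) + (l1 ^ 2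 * l2 ^ 1 * l3 ^ 2) * evalRow (0) (54460917) (-6363576) (-3017736) (598110) (0) (0) (0) (0) (0) (0) (0) (0) (0) (36 * a₁) (216 * c₁) + (l1 ^ 2 * l2 ^ 2 * l3 ^ 1) * evalRow (0) (53994357) (-6478488) (-3038904) (609150) (0) (0) (0) (0) (0) (0) (0) (0) (0) (36 * a₁) (216 * c₁) + (l1 ^ 2 * l2 ^ 3 * l3 ^ 0) * evalRow (0) (17842599) (-2197800) (-1020024) (206730) (0) (0) (0) (0) (0) (0) (0) (0) (0) (36 * a₁) (216 * c₁) + (l1 ^ 3 * l2 ^ 0 * l3 ^ 2) * evalRow (0) (16781661) (-1908648) (-1023894) (199190) (0) (0) (0) (0) (0) (0) (0) (0) (0) (36 * a₁) (216 * c₁) + (l1 ^ 3 * l2 ^ 1 * l3 ^ 1) * evalRow (0) (33252282) (-3880944) (-2055420) (404300) (0) (0) (0) (0) (0) (0) (0) (0) (0) (36 * a₁) (216 * c₁) + (l1 ^ 3 * l2 ^ 2 * l3 ^ 0) * evalRow (0) (16470621) (-1972296) (-1031526) (205110) (0) (0) (0) (0) (0) (0) (0) (0) (0) (36 * a₁) (216 * c₁) + (l1 ^ 4 * l2 ^ 0 * l3 ^ 1) * evalRow (0) (7512264) (-851976) (-495711)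 (96980) (0) (0) (0) (0) (0) (0) (0) (0) (0) (36 * a₁) (216 * c₁) + (l1 ^ 4 * l2 ^ 1 * l3 ^ 0) * evalRow (0) (7434504) (-864648) (-495999) (98100) (0) (0) (0) (0) (0) (0) (0) (0) (0) (36 * a₁) (216 * c₁) + (l1 ^ 5 * l2 ^ 0 * l3 ^ 0) * evalRow (0) (1303776) (-146880) (-90144) (18000) (0) (0) (0) (0) (0) (0) (0) (0) (0) (36 * a₁) (216 * c₁) := by
    have hl3 : l3 = 1 - l1 - l2 := by linarith
    subst hl3
    simp only [DIIpoly, evalRow]
    push_cast
    ring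
  have hpos : 0 ≤ (151165440 : ℝ) * DIIpoly ((l1 * (16) + l2 * (25) + l3 * (25)) / 36) ((l1 * (36) + l2 * (117) + l3 * (125)) / 216) a₁ c₁ := by
    rw [key]
    exact add_nonneg (add_nonneg (add_nonneg (add_nonneg (add_nonneg (add_nonneg (add_nonneg (add_nonneg (add_nonneg (add_nonneg (add_nonneg (add_nonneg (add_nonneg (add_nonneg (add_nonneg (add_nonneg (add_nonneg (add_nonneg (add_nonneg (add_nonneg (mul_nonneg (by positivity) R0) (mul_nonneg (by positivity) R1)) (mul_nonneg (by positivity) R2)) (mul_nonneg (by positivity) R3)) (mul_nonneg (by positivity) R4)) (mul_nonneg (by positivity) R5)) (mul_nonneg (by positivity) R6)) (mul_nonneg (by positivity) R7)) (mul_nonneg (by positivity) R8)) (mul_nonneg (by positivity) R9)) (mul_nonneg (by positivity) R10)) (mul_nonneg (by positivity) R11)) (mul_nonneg (by positivity) R12)) (mul_nonneg (by positivity) R13)) (mul_nonneg (by positivity) R14)) (mul_nonneg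 (by positivity) R15)) (mul_nonneg (by positivity) R16)) (mul_nonneg (by positivity) R17)) (mul_nonneg (by positivity) R18)) (mul_nonneg (by positivity) R19)) (mul_nonneg (by positivity) R20)
  exact nonneg_of_mul_nonneg_right hpos (by norm_num)

set_option maxHeartbeats 16000000 in
theorem DII_tri8 (a₁ c₁ : ℝ) (hR : InR (36 * a₁) (216 * c₁)) (l1 l2 l3 : ℝ) (h1 : 0 ≤ l1) (h2 : 0 ≤ l2) (h3 : 0 ≤ l3)
    (hs : l1 + l2 + l3 = 1) :
    0 ≤ DIIpoly ((l1 * (16) + l2 * (25) + l3 * (16)) / 36) ((l1 * (36) + l2 * (125) + l3 * (64)) / 216) a₁ c₁ := by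
  have R0 := row_nonneg (0) (1575936) (-102528) (-89136) (14080) (0) (0) (0) (0) (0) (0) (0) (0) (0) (by decide +kernel) (36 * a₁) (216 * c₁) hR
  have R1 := row_nonneg (0) (8600904) (-629208) (-468999) (76260) (0) (0) (0) (0) (0) (0) (0) (0) (0) (by decide +kernel) (36 * a₁) (216 * c₁) hR
  have R2 := row_nonneg (0) (18414621) (-1506456) (-949806) (160550) (0) (0) (0) (0) (0) (0) (0) (0) (0) (by decide +kernel) (36 * a₁) (216 * c₁) hR
  have R3 := row_nonneg (0) (19397799) (-1769400) (-926784) (164890) (0) (0) (0) (0) (0) (0) (0) (0) (0) (by decide +kernel) (36 * a₁) (216 * c₁) hR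
  have R4 := row_nonneg (0) (10075671) (-1023624) (-434466) (82770) (0) (0) (0) (0) (0) (0) (0) (0) (0) (by decide +kernel) (36 * a₁) (216 * c₁) hR
  have R5 := row_nonneg (0) (2067525) (-234000) (-77625) (16250) (0) (0) (0) (0) (0) (0) (0) (0) (0) (by decide +kernel) (36 * a₁) (216 * c₁) hR
  have R6 := row_nonneg (0) (7607520) (-556992) (-446688) (74320) (0) (0) (0) (0) (0) (0) (0) (0) (0) (by decide +kernel) (36 * a₁) (216 * c₁) hR
  have R7 := row_nonneg (0) (33314976) (-2739600) (-1902708) (325760) (0) (0) (0) (0) (0) (0) (0) (0) (0) (by decide +kernel) (36 * a₁) (216 * c₁) hR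
  have R8 := row_nonneg (0) (53610903) (-4921560) (-2923506) (520290) (0) (0) (0) (0) (0) (0) (0) (0) (0) (by decide +kernel) (36 * a₁) (216 * c₁) hR
  have R9 := row_nonneg (0) (37706958) (-3852288) (-1925640) (360580) (0) (0) (0) (0) (0) (0) (0) (0) (0) (by decide +kernel) (36 * a₁) (216 * c₁) hR
  have R10 := row_nonneg (0) (9803511) (-1113336) (-458154) (91730) (0) (0) (0) (0) (0) (0) (0) (0) (0) (by decide +kernel) (36 * a₁) (216 * c₁) hR
  have R11 := row_nonneg (0) (14670720) (-1202688) (-895392) (156480) (0) (0) (0) (0) (0) (0) (0) (0) (0) (by decide +kernel) (36 * a₁) (216 * c₁) hR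
  have R12 := row_nonneg (0) (48339504) (-4443552) (-2894130) (519720) (0) (0) (0) (0) (0) (0) (0) (0) (0) (by decide +kernel) (36 * a₁) (216 * c₁) hR
  have R13 := row_nonneg (0) (51977943) (-5323752) (-2997594) (558930) (0) (0) (0) (0) (0) (0) (0) (0) (0) (by decide +kernel) (36 * a₁) (216 * c₁) hR
  have R14 := row_nonneg (0) (18309159) (-2082888) (-998856) (195690) (0) (0) (0) (0) (0) (0) (0) (0) (0) (by decide +kernel) (36 * a₁) (216 * c₁) hR
  have R15 := row_nonneg (0) (14126400) (-1291392) (-897408) (164320) (0) (0) (0) (0) (0) (0) (0) (0) (0) (by decide +kernel) (36 * a₁) (216 * c₁) hR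
  have R16 := row_nonneg (0) (31137696) (-3185136) (-1956132) (367200) (0) (0) (0) (0) (0) (0) (0) (0) (0) (by decide +kernel) (36 * a₁) (216 * c₁) hR
  have R17 := row_nonneg (0) (16781661) (-1908648) (-1023894) (199190) (0) (0) (0) (0) (0) (0) (0) (0) (0) (by decide +kernel) (36 * a₁) (216 * c₁) hR
  have R18 := row_nonneg (0) (6791040) (-690048) (-449712) (86080) (0) (0) (0) (0) (0) (0) (0) (0) (0) (by decide +kernel) (36 * a₁) (216 * c₁) hR
  have R19 := row_nonneg (0) (7512264) (-851976) (-495711) (96980) (0) (0) (0) (0) (0) (0) (0) (0) (0) (by decide +kernel) (36 * a₁) (216 * c₁) hR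
  have R20 := row_nonneg (0) (1303776) (-146880) (-90144) (18000) (0) (0) (0) (0) (0) (0) (0) (0) (0) (by decide +kernel) (36 * a₁) (216 * c₁) hR
  have key : (151165440 : ℝ) * DIIpoly ((l1 * (16) + l2 * (25) + l3 * (16)) / 36) ((l1 * (36) + l2 * (125) + l3 * (64)) / 216) a₁ c₁ = (l1 ^ 0 * l2 ^ 0 * l3 ^ 5) * evalRow (0) (1575936) (-102528) (-89136) (14080) (0) (0) (0) (0) (0) (0) (0) (0) (0) (36 * a₁) (216 * c₁) + (l1 ^ 0 * l2 ^ 1 * l3 ^ 4) * evalRow (0) (8600904) (-629208) (-468999) (76260) (0) (0) (0) (0) (0) (0) (0) (0) (0) (36 * a₁) (216 * c₁) + (l1 ^ 0 * l2 ^ 2 * l3 ^ 3) * evalRow (0) (18414621) (-1506456) (-949806) (160550) (0) (0) (0) (0) (0) (0) (0) (0) (0) (36 * a₁) (216 * c₁) + (l1 ^ 0 * l2 ^ 3 * l3 ^ 2) * evalRow (0) (19397799) (-1769400) (-926784) (164890) (0) (0) (0) (0) (0) (0) (0) (0) (0) (36 * a₁) (216 * c₁) + (l1 ^ 0 * l2 ^ 4 * l3 ^ 1) * evalRow (0) (10075671) (-1023624) (-434466) (82770)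 (0) (0) (0) (0) (0) (0) (0) (0) (0) (36 * a₁) (216 * c₁) + (l1 ^ 0 * l2 ^ 5 * l3 ^ 0) * evalRow (0) (2067525) (-234000) (-77625) (16250) (0) (0) (0) (0) (0) (0) (0) (0) (0) (36 * a₁) (216 * c₁) + (l1 ^ 1 * l2 ^ 0 * l3 ^ 4) * evalRow (0) (7607520) (-556992) (-446688) (74320) (0) (0) (0) (0) (0) (0) (0) (0) (0) (36 * a₁) (216 * c₁) + (l1 ^ 1 * l2 ^ 1 * l3 ^ 3) * evalRow (0) (33314976) (-2739600) (-1902708) (325760) (0) (0) (0) (0) (0) (0) (0) (0) (0) (36 * a₁) (216 * c₁) + (l1 ^ 1 * l2 ^ 2 * l3 ^ 2) * evalRow (0) (53610903) (-4921560) (-2923506) (520290) (0) (0) (0) (0) (0) (0) (0) (0) (0) (36 * a₁) (216 * c₁) + (l1 ^ 1 * l2 ^ 3 * l3 ^ 1) * evalRow (0) (37706958) (-3852288) (-1925640) (360580) (0) (0) (0) (0) (0) (0) (0) (0) (0) (36 * a₁) (216 * c₁) + (l1 ^ 1 * l2 ^ 4 * l3 ^ 0) * evalRow (0) (9803511) (-1113336) (-458154) (91730) (0) (0) (0) (0) (0) (0) (0) (0) (0) (36 * a₁) (216 * c₁) + (l1 ^ 2 * l2 ^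 0 * l3 ^ 3) * evalRow (0) (14670720) (-1202688) (-895392) (156480) (0) (0) (0) (0) (0) (0) (0) (0) (0) (36 * a₁) (216 * c₁) + (l1 ^ 2 * l2 ^ 1 * l3 ^ 2) * evalRow (0) (48339504) (-4443552) (-2894130) (519720) (0) (0) (0) (0) (0) (0) (0) (0) (0) (36 * a₁) (216 * c₁) + (l1 ^ 2 * l2 ^ 2 * l3 ^ 1) * evalRow (0) (51977943) (-5323752) (-2997594) (558930) (0) (0) (0) (0) (0) (0) (0) (0) (0) (36 * a₁) (216 * c₁) + (l1 ^ 2 * l2 ^ 3 * l3 ^ 0) * evalRow (0) (18309159) (-2082888) (-998856) (195690) (0) (0) (0) (0) (0) (0) (0) (0) (0) (36 * a₁) (216 * c₁) + (l1 ^ 3 * l2 ^ 0 * l3 ^ 2) * evalRow (0) (14126400) (-1291392) (-897408) (164320) (0) (0) (0) (0) (0) (0) (0) (0) (0) (36 * a₁) (216 * c₁) + (l1 ^ 3 * l2 ^ 1 * l3 ^ 1) * evalRow (0) (31137696) (-3185136) (-1956132) (367200) (0) (0) (0) (0) (0) (0) (0) (0) (0) (36 * a₁) (216 * c₁) + (l1 ^ 3 * l2 ^ 2 * l3 ^ 0) * evalRow (0) (16781661) (-1908648) (-1023894) (199190)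 (0) (0) (0) (0) (0) (0) (0) (0) (0) (36 * a₁) (216 * c₁) + (l1 ^ 4 * l2 ^ 0 * l3 ^ 1) * evalRow (0) (6791040) (-690048) (-449712) (86080) (0) (0) (0) (0) (0) (0) (0) (0) (0) (36 * a₁) (216 * c₁) + (l1 ^ 4 * l2 ^ 1 * l3 ^ 0) * evalRow (0) (7512264) (-851976) (-495711) (96980) (0) (0) (0) (0) (0) (0) (0) (0) (0) (36 * a₁) (216 * c₁) + (l1 ^ 5 * l2 ^ 0 * l3 ^ 0) * evalRow (0) (1303776) (-146880) (-90144) (18000) (0) (0) (0) (0) (0) (0) (0) (0) (0) (36 * a₁) (216 * c₁) := by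
    have hl3 : l3 = 1 - l1 - l2 := by linarith
    subst hl3
    simp only [DIIpoly, evalRow]
    push_cast
    ring
  have hpos : 0 ≤ (151165440 : ℝ) * DIIpoly ((l1 * (16) + l2 * (25) + l3 * (16)) / 36) ((l1 * (36) + l2 * (125) + l3 * (64)) / 216) a₁ c₁ := by
    rw [key]
    exact add_nonneg (add_nonneg (add_nonneg (add_nonneg (add_nonneg (add_nonneg (add_nonneg (add_nonneg (add_nonneg (add_nonneg (add_nonneg (add_nonneg (add_nonneg (add_nonneg (add_nonneg (add_nonneg (add_nonneg (add_nonneg (add_nonneg (add_nonneg (mul_nonneg (by positivity) R0) (mul_nonneg (by positivity) R1)) (mul_nonneg (by positivity) R2)) (mul_nonneg (by positivity) R3)) (mul_nonneg (by positivity) R4)) (mul_nonneg (by positivity) R5)) (mul_nonneg (by positivity) R6)) (mul_nonneg (by positivity) R7)) (mul_nonneg (by positivity) R8)) (mul_nonneg (by positivity) R9)) (mul_nonneg (by positivity) R10)) (mul_nonneg (by positivity)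 R11)) (mul_nonneg (by positivity) R12)) (mul_nonneg (by positivity) R13)) (mul_nonneg (by positivity) R14)) (mul_nonneg (by positivity) R15)) (mul_nonneg (by positivity) R16)) (mul_nonneg (by positivity) R17)) (mul_nonneg (by positivity) R18)) (mul_nonneg (by positivity) R19)) (mul_nonneg (by positivity) R20)
  exact nonneg_of_mul_nonneg_right hpos (by norm_num)

set_option maxHeartbeats 16000000 in
theorem DII_tri9 (a₁ c₁ : ℝ) (hR : InR (36 * a₁) (216 * c₁)) (l1 l2 l3 : ℝ) (h1 : 0 ≤ l1) (h2 : 0 ≤ l2) (h3 : 0 ≤ l3)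
    (hs : l1 + l2 + l3 = 1) :
    0 ≤ DIIpoly ((l1 * (25) + l2 * (36) + l3 * (25)) / 36) ((l1 * (117) + l2 * (216) + l3 * (125)) / 216) a₁ c₁ := by
  have R0 := row_nonneg (0) (2067525) (-234000) (-77625) (16250) (0) (0) (0) (0) (0) (0) (0) (0) (0) (by decide +kernel) (36 * a₁) (216 * c₁) hR
  have R1 := row_nonneg (0) (10817631) (-1296216) (-317574) (74130) (0) (0) (0) (0) (0) (0) (0) (0) (0) (by decide +kernel) (36 * a₁) (216 * c₁) hR
  have R2 := row_nonneg (0) (22252239) (-2834568) (-425736) (124890) (0) (0) (0) (0) (0) (0) (0) (0) (0) (by decide +kernel) (36 * a₁) (216 * c₁) hR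
  have R3 := row_nonneg (0) (22526181) (-3066408) (-148014) (92390) (0) (0) (0) (0) (0) (0) (0) (0) (0) (by decide +kernel) (36 * a₁) (216 * c₁) hR
  have R4 := row_nonneg (0) (11228544) (-1643976) (99009) (25380) (0) (0) (0) (0) (0) (0) (0) (0) (0) (by decide +kernel) (36 * a₁) (216 * c₁) hR
  have R5 := row_nonneg (0) (2204496) (-349920) (61236) (0) (0) (0) (0) (0) (0) (0) (0) (0) (0) (by decide +kernel) (36 * a₁) (216 * c₁) hR
  have R6 := row_nonneg (0) (10259865) (-1195632) (-394893) (83810) (0) (0) (0) (0) (0) (0) (0) (0) (0) (by decide +kernel) (36 * a₁) (216 * c₁) hR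
  have R7 := row_nonneg (0) (42959484) (-5303232) (-1305288) (308520) (0) (0) (0) (0) (0) (0) (0) (0) (0) (by decide +kernel) (36 * a₁) (216 * c₁) hR
  have R8 := row_nonneg (0) (66290157) (-8705016) (-1341576) (395310) (0) (0) (0) (0) (0) (0) (0) (0) (0) (by decide +kernel) (36 * a₁) (216 * c₁) hR
  have R9 := row_nonneg (0) (44741322) (-6282864) (-346860) (200300) (0) (0) (0) (0) (0) (0) (0) (0) (0) (by decide +kernel) (36 * a₁) (216 * c₁) hR
  have R10 := row_nonneg (0) (11150784) (-1685448) (84321) (29700) (0) (0) (0) (0) (0) (0) (0) (0) (0) (by decide +kernel) (36 * a₁) (216 * c₁) hR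
  have R11 := row_nonneg (0) (20364210) (-2442528) (-803322) (172740) (0) (0) (0) (0) (0) (0) (0) (0) (0) (by decide +kernel) (36 * a₁) (216 * c₁) hR
  have R12 := row_nonneg (0) (63972666) (-8132400) (-2010420) (480780) (0) (0) (0) (0) (0) (0) (0) (0) (0) (by decide +kernel) (36 * a₁) (216 * c₁) hR
  have R13 := row_nonneg (0) (65823597) (-8906328) (-1405944) (415950) (0) (0) (0) (0) (0) (0) (0) (0) (0) (by decide +kernel) (36 * a₁) (216 * c₁) hR
  have R14 := row_nonneg (0) (22215141) (-3216456) (-198846) (107910) (0) (0) (0) (0) (0) (0) (0) (0) (0) (by decide +kernel) (36 * a₁) (216 * c₁) hR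
  have R15 := row_nonneg (0) (20208690) (-2493792) (-816858) (177860) (0) (0) (0) (0) (0) (0) (0) (0) (0) (by decide +kernel) (36 * a₁) (216 * c₁) hR
  have R16 := row_nonneg (0) (42337404) (-5539968) (-1375272) (332520) (0) (0) (0) (0) (0) (0) (0) (0) (0) (by decide +kernel) (36 * a₁) (216 * c₁) hR
  have R17 := row_nonneg (0) (21785679) (-3035880) (-490104) (145530) (0) (0) (0) (0) (0) (0) (0) (0) (0) (by decide +kernel) (36 * a₁) (216 * c₁) hR
  have R18 := row_nonneg (0) (10026585) (-1272528) (-415197) (91490) (0) (0) (0) (0) (0) (0) (0) (0) (0) (by decide +kernel) (36 * a₁) (216 * c₁) hR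
  have R19 := row_nonneg (0) (10506591) (-1414584) (-352566) (86130) (0) (0) (0) (0) (0) (0) (0) (0) (0) (by decide +kernel) (36 * a₁) (216 * c₁) hR
  have R20 := row_nonneg (0) (1989765) (-259632) (-84393) (18810) (0) (0) (0) (0) (0) (0) (0) (0) (0) (by decide +kernel) (36 * a₁) (216 * c₁) hR
  have key : (151165440 : ℝ) * DIIpoly ((l1 * (25) + l2 * (36) + l3 * (25)) / 36) ((l1 * (117) + l2 * (216) + l3 * (125)) / 216) a₁ c₁ = (l1 ^ 0 * l2 ^ 0 * l3 ^ 5) * evalRow (0) (2067525) (-234000) (-77625) (16250) (0) (0) (0) (0) (0) (0) (0) (0) (0) (36 * a₁) (216 * c₁) + (l1 ^ 0 * l2 ^ 1 * l3 ^ 4) * evalRow (0) (10817631) (-1296216) (-317574) (74130) (0) (0) (0) (0) (0) (0) (0) (0) (0) (36 * a₁) (216 * c₁) + (l1 ^ 0 * l2 ^ 2 * l3 ^ 3) * evalRow (0) (22252239) (-2834568) (-425736) (124890) (0) (0) (0) (0) (0) (0) (0) (0) (0) (36 * a₁) (216 * c₁) + (l1 ^ 0 * l2 ^ 3 * l3 ^ 2) * evalRow (0) (22526181) (-3066408)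 (-148014) (92390) (0) (0) (0) (0) (0) (0) (0) (0) (0) (36 * a₁) (216 * c₁) + (l1 ^ 0 * l2 ^ 4 * l3 ^ 1) * evalRow (0) (11228544) (-1643976) (99009) (25380) (0) (0) (0) (0) (0) (0) (0) (0) (0) (36 * a₁) (216 * c₁) + (l1 ^ 0 * l2 ^ 5 * l3 ^ 0) * evalRow (0) (2204496) (-349920) (61236) (0) (0) (0) (0) (0) (0) (0) (0) (0) (0) (36 * a₁) (216 * c₁) + (l1 ^ 1 * l2 ^ 0 * l3 ^ 4) * evalRow (0) (10259865) (-1195632) (-394893) (83810) (0) (0) (0) (0) (0) (0) (0) (0) (0) (36 * a₁) (216 * c₁) + (l1 ^ 1 * l2 ^ 1 * l3 ^ 3) * evalRow (0) (42959484) (-5303232) (-1305288) (308520) (0) (0) (0) (0) (0) (0) (0) (0) (0) (36 * a₁) (216 * c₁) + (l1 ^ 1 * l2 ^ 2 * l3 ^ 2) * evalRow (0) (66290157) (-8705016) (-1341576) (395310) (0) (0) (0) (0) (0) (0) (0) (0) (0) (36 * a₁) (216 * c₁) + (l1 ^ 1 * l2 ^ 3 * l3 ^ 1) * evalRow (0) (44741322) (-6282864) (-346860) (200300) (0) (0) (0) (0) (0) (0) (0) (0) (0) (36 * a₁) (216 * c₁) + (l1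 ^ 1 * l2 ^ 4 * l3 ^ 0) * evalRow (0) (11150784) (-1685448) (84321) (29700) (0) (0) (0) (0) (0) (0) (0) (0) (0) (36 * a₁) (216 * c₁) + (l1 ^ 2 * l2 ^ 0 * l3 ^ 3) * evalRow (0) (20364210) (-2442528) (-803322) (172740) (0) (0) (0) (0) (0) (0) (0) (0) (0) (36 * a₁) (216 * c₁) + (l1 ^ 2 * l2 ^ 1 * l3 ^ 2) * evalRow (0) (63972666) (-8132400) (-2010420) (480780) (0) (0) (0) (0) (0) (0) (0) (0) (0) (36 * a₁) (216 * c₁) + (l1 ^ 2 * l2 ^ 2 * l3 ^ 1) * evalRow (0) (65823597) (-8906328) (-1405944) (415950) (0) (0) (0) (0) (0) (0) (0) (0) (0) (36 * a₁) (216 * c₁) + (l1 ^ 2 * l2 ^ 3 * l3 ^ 0) * evalRow (0) (22215141) (-3216456) (-198846) (107910) (0) (0) (0) (0) (0) (0) (0) (0) (0) (36 * a₁) (216 * c₁) + (l1 ^ 3 * l2 ^ 0 * l3 ^ 2) * evalRow (0) (20208690) (-2493792) (-816858) (177860) (0) (0) (0) (0) (0) (0) (0) (0) (0) (36 * a₁) (216 * c₁) + (l1 ^ 3 * l2 ^ 1 * l3 ^ 1) * evalRow (0) (42337404) (-5539968) (-1375272)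 (332520) (0) (0) (0) (0) (0) (0) (0) (0) (0) (36 * a₁) (216 * c₁) + (l1 ^ 3 * l2 ^ 2 * l3 ^ 0) * evalRow (0) (21785679) (-3035880) (-490104) (145530) (0) (0) (0) (0) (0) (0) (0) (0) (0) (36 * a₁) (216 * c₁) + (l1 ^ 4 * l2 ^ 0 * l3 ^ 1) * evalRow (0) (10026585) (-1272528) (-415197) (91490) (0) (0) (0) (0) (0) (0) (0) (0) (0) (36 * a₁) (216 * c₁) + (l1 ^ 4 * l2 ^ 1 * l3 ^ 0) * evalRow (0) (10506591) (-1414584) (-352566) (86130) (0) (0) (0) (0) (0) (0) (0) (0) (0) (36 * a₁) (216 * c₁) + (l1 ^ 5 * l2 ^ 0 * l3 ^ 0) * evalRow (0) (1989765) (-259632) (-84393) (18810) (0) (0) (0) (0) (0) (0) (0) (0) (0) (36 * a₁) (216 * c₁) := by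
    have hl3 : l3 = 1 - l1 - l2 := by linarith
    subst hl3
    simp only [DIIpoly, evalRow]
    push_cast
    ring
  have hpos : 0 ≤ (151165440 : ℝ) * DIIpoly ((l1 * (25) + l2 * (36) + l3 * (25)) / 36) ((l1 * (117) + l2 * (216) + l3 * (125)) / 216) a₁ c₁ := by
    rw [key]
    exact add_nonneg (add_nonneg (add_nonneg (add_nonneg (add_nonneg (add_nonneg (add_nonneg (add_nonneg (add_nonneg (add_nonneg (add_nonneg (add_nonneg (add_nonneg (add_nonneg (add_nonneg (add_nonneg (add_nonneg (add_nonneg (add_nonneg (add_nonneg (mul_nonneg (by positivity) R0) (mul_nonneg (by positivity) R1)) (mul_nonneg (by positivity) R2)) (mul_nonneg (by positivity) R3)) (mul_nonneg (by positivity) R4)) (mul_nonneg (by positivity) R5)) (mul_nonneg (by positivity) R6)) (mul_nonneg (by positivity) R7)) (mul_nonneg (by positivity) R8)) (mul_nonneg (by positivity) R9)) (mul_nonneg (by positivity) R10)) (mul_nonneg (by positivity)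 R11)) (mul_nonneg (by positivity) R12)) (mul_nonneg (by positivity) R13)) (mul_nonneg (by positivity) R14)) (mul_nonneg (by positivity) R15)) (mul_nonneg (by positivity) R16)) (mul_nonneg (by positivity) R17)) (mul_nonneg (by positivity) R18)) (mul_nonneg (by positivity) R19)) (mul_nonneg (by positivity) R20)
  exact nonneg_of_mul_nonneg_right hpos (by norm_num)

theorem DII_nonneg (a c a₁ c₁ : ℝ) (hR : InR (36 * a) (216 * c)) (hR₁ : InR (36 * a₁) (216 * c₁)) :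
    0 ≤ DIIpoly a c a₁ c₁ := by
  rcases locate (36 * a) (216 * c) hR with h0 | h1 | h2 | h3 | h4 | h5 | h6 | h7 | h8 | h9
  · obtain ⟨l1, l2, l3, h1, h2, h3, hs, hA, hC⟩ := h0
    have e1 : a = (l1 * (0) + l2 * (1) + l3 * (1)) / 36 := by rw [← hA]; ring
    have e2 : c = (l1 * (0) + l2 * (-1) + l3 * (1)) / 216 := by rw [← hC]; ring
    rw [e1, e2]
    exact DII_tri0 a₁ c₁ hR₁ l1 l2 l3 h1 h2 h3 hs
  · obtain ⟨l1, l2, l3, h1, h2, h3, hs, hA, hC⟩ := h1
    have e1 : a = (l1 * (1) + l2 * (4) + l3 * (4)) / 36 := by rw [← hA]; ring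
    have e2 : c = (l1 * (-1) + l2 * (-8) + l3 * (8)) / 216 := by rw [← hC]; ring
    rw [e1, e2]
    exact DII_tri1 a₁ c₁ hR₁ l1 l2 l3 h1 h2 h3 hs
  · obtain ⟨l1, l2, l3, h1, h2, h3, hs, hA, hC⟩ := h2
    have e1 : a = (l1 * (1) + l2 * (4) + l3 * (1)) / 36 := by rw [← hA]; ring
    have e2 : c = (l1 * (-1) + l2 * (8) + l3 * (1)) / 216 := by rw [← hC]; ring
    rw [e1, e2]
    exact DII_tri2 a₁ c₁ hR₁ l1 l2 l3 h1 h2 h3 hs
  · obtain ⟨l1, l2, l3, h1, h2, h3, hs, hA, hC⟩ := h3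
    have e1 : a = (l1 * (4) + l2 * (9) + l3 * (9)) / 36 := by rw [← hA]; ring
    have e2 : c = (l1 * (-8) + l2 * (-27) + l3 * (27)) / 216 := by rw [← hC]; ring
    rw [e1, e2]
    exact DII_tri3 a₁ c₁ hR₁ l1 l2 l3 h1 h2 h3 hs
  · obtain ⟨l1, l2, l3, h1, h2, h3, hs, hA, hC⟩ := h4
    have e1 : a = (l1 * (4) + l2 * (9) + l3 * (4)) / 36 := by rw [← hA]; ring
    have e2 : c = (l1 * (-8) + l2 * (27) + l3 * (8)) / 216 := by rw [← hC]; ring
    rw [e1, e2]
    exact DII_tri4 a₁ c₁ hR₁ l1 l2 l3 h1 h2 h3 hs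
  · obtain ⟨l1, l2, l3, h1, h2, h3, hs, hA, hC⟩ := h5
    have e1 : a = (l1 * (9) + l2 * (16) + l3 * (16)) / 36 := by rw [← hA]; ring
    have e2 : c = (l1 * (-27) + l2 * (36) + l3 * (64)) / 216 := by rw [← hC]; ring
    rw [e1, e2]
    exact DII_tri5 a₁ c₁ hR₁ l1 l2 l3 h1 h2 h3 hs
  · obtain ⟨l1, l2, l3, h1, h2, h3, hs, hA, hC⟩ := h6
    have e1 : a = (l1 * (9) + l2 * (16) + l3 * (9)) / 36 := by rw [← hA]; ring
    have e2 : c = (l1 * (-27) + l2 * (64) + l3 * (27)) / 216 := by rw [← hC]; ring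
    rw [e1, e2]
    exact DII_tri6 a₁ c₁ hR₁ l1 l2 l3 h1 h2 h3 hs
  · obtain ⟨l1, l2, l3, h1, h2, h3, hs, hA, hC⟩ := h7
    have e1 : a = (l1 * (16) + l2 * (25) + l3 * (25)) / 36 := by rw [← hA]; ring
    have e2 : c = (l1 * (36) + l2 * (117) + l3 * (125)) / 216 := by rw [← hC]; ring
    rw [e1, e2]
    exact DII_tri7 a₁ c₁ hR₁ l1 l2 l3 h1 h2 h3 hs
  · obtain ⟨l1, l2, l3, h1, h2, h3, hs, hA, hC⟩ := h8
    have e1 : a = (l1 * (16) + l2 * (25) + l3 * (16)) / 36 := by rw [← hA]; ring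
    have e2 : c = (l1 * (36) + l2 * (125) + l3 * (64)) / 216 := by rw [← hC]; ring
    rw [e1, e2]
    exact DII_tri8 a₁ c₁ hR₁ l1 l2 l3 h1 h2 h3 hs
  · obtain ⟨l1, l2, l3, h1, h2, h3, hs, hA, hC⟩ := h9
    have e1 : a = (l1 * (25) + l2 * (36) + l3 * (25)) / 36 := by rw [← hA]; ring
    have e2 : c = (l1 * (117) + l2 * (216) + l3 * (125)) / 216 := by rw [← hC]; ring
    rw [e1, e2]
    exact DII_tri9 a₁ c₁ hR₁ l1 l2 l3 h1 h2 h3 hs

/-- the multiplier, as a polynomial in the invariants -/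
noncomputable def alphaP (a c : ℝ) : ℝ := 1 + ((17) / 10) * c + ((7) / 5) * c ^ 2 + ((-28) / 5) * a + ((-53) / 10) * a * c + ((179) / 20) * a ^ 2 + ((-43) / 20) * a ^ 3

theorem alphaP_nonneg (a c : ℝ) (hR : InR (36 * a) (216 * c)) : 0 ≤ alphaP a c := by
  have R := row_nonneg (933120) (-145152) (7344) (6444) (-636) (28) (-43) (0) (0) (0) (0) (0) (0) (0) (by decide +kernel) (36 * a) (216 * c) hR
  have key : (933120 : ℝ) * alphaP a c = evalRow (933120) (-145152) (7344) (6444) (-636) (28) (-43) (0) (0) (0) (0) (0) (0) (0) (36 * a) (216 * c) := by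
    simp only [alphaP, evalRow]
    push_cast
    ring
  have hpos : 0 ≤ (933120 : ℝ) * alphaP a c := by rw [key]; exact R
  exact nonneg_of_mul_nonneg_right hpos (by norm_num)

/-- the multiplier, as a polynomial in the invariants -/
noncomputable def betaP (a c : ℝ) : ℝ := ((-4) / 5) * c + ((3) / 2) * a

theorem betaP_nonneg (a c : ℝ) (hR : InR (36 * a) (216 * c)) : 0 ≤ betaP a c := by
  have R := row_nonneg (0) (45) (-4) (0) (0) (0) (0) (0) (0) (0) (0) (0) (0) (0) (by decide +kernel) (36 * a) (216 * c) hR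
  have key : (1080 : ℝ) * betaP a c = evalRow (0) (45) (-4) (0) (0) (0) (0) (0) (0) (0) (0) (0) (0) (0) (36 * a) (216 * c) := by
    simp only [betaP, evalRow]
    push_cast
    ring
  have hpos : 0 ≤ (1080 : ℝ) * betaP a c := by rw [key]; exact R
  exact nonneg_of_mul_nonneg_right hpos (by norm_num)

end Crest.Agent.Lib.Bc.Q3
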