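import Crest.Agent.Lib.Bc.Q3Moments
/-!
# Row 163, `Cert 3`: the degree 8 polynomial `Q₈ ≥ 0` on `[-1, 2]` (generated Bernstein certificate)
-/
namespace Crest.Agent.Lib.Bc.Q3

/-- the polynomial with `E + Z⁴ U₃ - Z = w² Q₈(w)`, `Z = 1 + w` -/
noncomputable def Q8 (w : ℝ) : ℝ :=
  (13/25) * w ^ 0 + (-181/50) * w ^ 1 + (33/100) * w ^ 2 + (142/5) * w ^ 3 + (13) * w ^ 4 + (-451/10) * w ^ 5 + (-55/2) * w ^ 6 + (104/5) * w ^ 7 + (72/5) * w ^ 8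

lemma Q8_aux0 (s t : ℝ) (hs : 0 ≤ s) (ht : 0 ≤ t) :
    0 ≤ (27/100) * s ^ 0 * t ^ 8 + (1551/800) * s ^ 1 * t ^ 7 + (30423/5120) * s ^ 2 * t ^ 6 + (205587/20480) * s ^ 3 * t ^ 5 + (1662897/163840) * s ^ 4 * t ^ 4 + (328179201/52428800) * s ^ 5 * t ^ 3 + (1929044601/838860800) * s ^ 6 * t ^ 2 + (78266193/167772160) * s ^ 7 * t ^ 1 + (113048169/2684354560) * s ^ 8 * t ^ 0 := by
  positivity

lemma Q8_piece0 (w : ℝ) (h1 : (-1) ≤ w) (h2 : w ≤ (-13/16)) : 0 ≤ Q8 w := by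
  have key := Q8_aux0 (w - (-1)) ((-13/16) - w) (by linarith) (by linarith)
  have e : (6561/4294967296) * Q8 w = (27/100) * (w - (-1)) ^ 0 * ((-13/16) - w) ^ 8 + (1551/800) * (w - (-1)) ^ 1 * ((-13/16) - w) ^ 7 + (30423/5120) * (w - (-1)) ^ 2 * ((-13/16) - w) ^ 6 + (205587/20480) * (w - (-1)) ^ 3 * ((-13/16) - w) ^ 5 + (1662897/163840) * (w - (-1)) ^ 4 * ((-13/16) - w) ^ 4 + (328179201/52428800) * (w - (-1)) ^ 5 * ((-13/16) - w) ^ 3 + (1929044601/838860800) * (w - (-1)) ^ 6 * ((-13/16) - w) ^ 2 + (78266193/167772160) * (w - (-1)) ^ 7 * ((-13/16) - w) ^ 1 + (113048169/2684354560) * (w - (-1)) ^ 8 * ((-13/16) - w) ^ 0 := by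
    simp only [Q8]
    ring
  rw [← e] at key
  have hp : (0 : ℝ) < (6561/4294967296) := by norm_num
  exact nonneg_of_mul_nonneg_right key hp

lemma Q8_aux1 (s t : ℝ) (hs : 0 ≤ s) (ht : 0 ≤ t) :
    0 ≤ (113048169/2684354560) * s ^ 0 * t ^ 8 + (4347747/20971520) * s ^ 1 * t ^ 7 + (203548503/419430400) * s ^ 2 * t ^ 6 + (213152649/209715200) * s ^ 3 * t ^ 5 + (174222549/83886080) * s ^ 4 * t ^ 4 + (15409371/5242880) * s ^ 5 * t ^ 3 + (1586031/655360) * s ^ 6 * t ^ 2 + (13701969/13107200) * s ^ 7 * t ^ 1 + (9637161/52428800) * s ^ 8 * t ^ 0 := by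
  positivity

lemma Q8_piece1 (w : ℝ) (h1 : (-13/16) ≤ w) (h2 : w ≤ (-5/8)) : 0 ≤ Q8 w := by
  have key := Q8_aux1 (w - (-13/16)) ((-5/8) - w) (by linarith) (by linarith)
  have e : (6561/4294967296) * Q8 w = (113048169/2684354560) * (w - (-13/16)) ^ 0 * ((-5/8) - w) ^ 8 + (4347747/20971520) * (w - (-13/16)) ^ 1 * ((-5/8) - w) ^ 7 + (203548503/419430400) * (w - (-13/16)) ^ 2 * ((-5/8) - w) ^ 6 + (213152649/209715200) * (w - (-13/16)) ^ 3 * ((-5/8) - w) ^ 5 + (174222549/83886080) * (w - (-13/16)) ^ 4 * ((-5/8) - w) ^ 4 + (15409371/5242880) * (w - (-13/16)) ^ 5 * ((-5/8) - w) ^ 3 + (1586031/655360) * (w - (-13/16)) ^ 6 * ((-5/8) - w) ^ 2 + (13701969/13107200) * (w - (-13/16)) ^ 7 * ((-5/8) - w) ^ 1 + (9637161/52428800) * (w - (-13/16)) ^ 8 * ((-5/8) - w) ^ 0 := by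
    simp only [Q8]
    ring
  rw [← e] at key
  have hp : (0 : ℝ) < (6561/4294967296) := by norm_num
  exact nonneg_of_mul_nonneg_right key hp

lemma Q8_aux2 (s t : ℝ) (hs : 0 ≤ s) (ht : 0 ≤ t) :
    0 ≤ (9637161/52428800) * s ^ 0 * t ^ 8 + (7604757/3276800) * s ^ 1 * t ^ 7 + (6341637/524288) * s ^ 2 * t ^ 6 + (109799949/3276800) * s ^ 3 * t ^ 5 + (35291709/655360) * s ^ 4 * t ^ 4 + (21109377/409600) * s ^ 5 * t ^ 3 + (23633763/819200) * s ^ 6 * t ^ 2 + (71253/8192) * s ^ 7 * t ^ 1 + (111507/102400) * s ^ 8 * t ^ 0 := by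
  positivity

lemma Q8_piece2 (w : ℝ) (h1 : (-5/8) ≤ w) (h2 : w ≤ (-1/4)) : 0 ≤ Q8 w := by
  have key := Q8_aux2 (w - (-5/8)) ((-1/4) - w) (by linarith) (by linarith)
  have e : (6561/16777216) * Q8 w = (9637161/52428800) * (w - (-5/8)) ^ 0 * ((-1/4) - w) ^ 8 + (7604757/3276800) * (w - (-5/8)) ^ 1 * ((-1/4) - w) ^ 7 + (6341637/524288) * (w - (-5/8)) ^ 2 * ((-1/4) - w) ^ 6 + (109799949/3276800) * (w - (-5/8)) ^ 3 * ((-1/4) - w) ^ 5 + (35291709/655360) * (w - (-5/8)) ^ 4 * ((-1/4) - w) ^ 4 + (21109377/409600) * (w - (-5/8)) ^ 5 * ((-1/4) - w) ^ 3 + (23633763/819200) * (w - (-5/8)) ^ 6 * ((-1/4) - w) ^ 2 + (71253/8192) * (w - (-5/8)) ^ 7 * ((-1/4) - w) ^ 1 + (111507/102400) * (w - (-5/8)) ^ 8 * ((-1/4) - w) ^ 0 := by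
    simp only [Q8]
    ring
  rw [← e] at key
  have hp : (0 : ℝ) < (6561/16777216) := by norm_num
  exact nonneg_of_mul_nonneg_right key hp

lemma Q8_aux3 (s t : ℝ) (hs : 0 ≤ s) (ht : 0 ≤ t) :
    0 ≤ (111507/102400) * s ^ 0 * t ^ 8 + (1786899/204800) * s ^ 1 * t ^ 7 + (4757967/163840) * s ^ 2 * t ^ 6 + (4250229/81920) * s ^ 3 * t ^ 5 + (35177277/655360) * s ^ 4 * t ^ 4 + (106061499/3276800) * s ^ 5 * t ^ 3 + (142811301/13107200) * s ^ 6 * t ^ 2 + (60627/32768) * s ^ 7 * t ^ 1 + (1361349/10485760) * s ^ 8 * t ^ 0 := by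
  positivity

lemma Q8_piece3 (w : ℝ) (h1 : (-1/4) ≤ w) (h2 : w ≤ (1/8)) : 0 ≤ Q8 w := by
  have key := Q8_aux3 (w - (-1/4)) ((1/8) - w) (by linarith) (by linarith)
  have e : (6561/16777216) * Q8 w = (111507/102400) * (w - (-1/4)) ^ 0 * ((1/8) - w) ^ 8 + (1786899/204800) * (w - (-1/4)) ^ 1 * ((1/8) - w) ^ 7 + (4757967/163840) * (w - (-1/4)) ^ 2 * ((1/8) - w) ^ 6 + (4250229/81920) * (w - (-1/4)) ^ 3 * ((1/8) - w) ^ 5 + (35177277/655360) * (w - (-1/4)) ^ 4 * ((1/8) - w) ^ 4 + (106061499/3276800) * (w - (-1/4)) ^ 5 * ((1/8) - w) ^ 3 + (142811301/13107200) * (w - (-1/4)) ^ 6 * ((1/8) - w) ^ 2 + (60627/32768) * (w - (-1/4)) ^ 7 * ((1/8) - w) ^ 1 + (1361349/10485760) * (w - (-1/4)) ^ 8 * ((1/8) - w) ^ 0 := by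
    simp only [Q8]
    ring
  rw [← e] at key
  have hp : (0 : ℝ) < (6561/16777216) := by norm_num
  exact nonneg_of_mul_nonneg_right key hp

lemma Q8_aux4 (s t : ℝ) (hs : 0 ≤ s) (ht : 0 ≤ t) :
    0 ≤ (1361349/10485760) * s ^ 0 * t ^ 8 + (1658967/2621440) * s ^ 1 * t ^ 7 + (15592359/13107200) * s ^ 2 * t ^ 6 + (16988229/13107200) * s ^ 3 * t ^ 5 + (140374509/83886080) * s ^ 4 * t ^ 4 + (110400123/41943040) * s ^ 5 * t ^ 3 + (220406589/83886080) * s ^ 6 * t ^ 2 + (552877593/419430400) * s ^ 7 * t ^ 1 + (3476197101/13421772800) * s ^ 8 * t ^ 0 := by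
  positivity

lemma Q8_piece4 (w : ℝ) (h1 : (1/8) ≤ w) (h2 : w ≤ (5/16)) : 0 ≤ Q8 w := by
  have key := Q8_aux4 (w - (1/8)) ((5/16) - w) (by linarith) (by linarith)
  have e : (6561/4294967296) * Q8 w = (1361349/10485760) * (w - (1/8)) ^ 0 * ((5/16) - w) ^ 8 + (1658967/2621440) * (w - (1/8)) ^ 1 * ((5/16) - w) ^ 7 + (15592359/13107200) * (w - (1/8)) ^ 2 * ((5/16) - w) ^ 6 + (16988229/13107200) * (w - (1/8)) ^ 3 * ((5/16) - w) ^ 5 + (140374509/83886080) * (w - (1/8)) ^ 4 * ((5/16) - w) ^ 4 + (110400123/41943040) * (w - (1/8)) ^ 5 * ((5/16) - w) ^ 3 + (220406589/83886080) * (w - (1/8)) ^ 6 * ((5/16) - w) ^ 2 + (552877593/419430400) * (w - (1/8)) ^ 7 * ((5/16) - w) ^ 1 + (3476197101/13421772800) * (w - (1/8)) ^ 8 * ((5/16) - w) ^ 0 := by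
    simp only [Q8]
    ring
  rw [← e] at key
  have hp : (0 : ℝ) < (6561/4294967296) := by norm_num
  exact nonneg_of_mul_nonneg_right key hp

lemma Q8_aux5 (s t : ℝ) (hs : 0 ≤ s) (ht : 0 ≤ t) :
    0 ≤ (3476197101/13421772800) * s ^ 0 * t ^ 8 + (474088383/167772160) * s ^ 1 * t ^ 7 + (11056872993/838860800) * s ^ 2 * t ^ 6 + (224147433/6553600) * s ^ 3 * t ^ 5 + (141531309/2621440) * s ^ 4 * t ^ 4 + (5442423/102400) * s ^ 5 * t ^ 3 + (1306959/40960) * s ^ 6 * t ^ 2 + (34227/3200) * s ^ 7 * t ^ 1 + (4911/3200) * s ^ 8 * t ^ 0 := by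
  positivity

lemma Q8_piece5 (w : ℝ) (h1 : (5/16) ≤ w) (h2 : w ≤ (1/2)) : 0 ≤ Q8 w := by
  have key := Q8_aux5 (w - (5/16)) ((1/2) - w) (by linarith) (by linarith)
  have e : (6561/4294967296) * Q8 w = (3476197101/13421772800) * (w - (5/16)) ^ 0 * ((1/2) - w) ^ 8 + (474088383/167772160) * (w - (5/16)) ^ 1 * ((1/2) - w) ^ 7 + (11056872993/838860800) * (w - (5/16)) ^ 2 * ((1/2) - w) ^ 6 + (224147433/6553600) * (w - (5/16)) ^ 3 * ((1/2) - w) ^ 5 + (141531309/2621440) * (w - (5/16)) ^ 4 * ((1/2) - w) ^ 4 + (5442423/102400) * (w - (5/16)) ^ 5 * ((1/2) - w) ^ 3 + (1306959/40960) * (w - (5/16)) ^ 6 * ((1/2) - w) ^ 2 + (34227/3200) * (w - (5/16)) ^ 7 * ((1/2) - w) ^ 1 + (4911/3200) * (w - (5/16)) ^ 8 * ((1/2) - w) ^ 0 := by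
    simp only [Q8]
    ring
  rw [← e] at key
  have hp : (0 : ℝ) < (6561/4294967296) := by norm_num
  exact nonneg_of_mul_nonneg_right key hp

lemma Q8_aux6 (s t : ℝ) (hs : 0 ≤ s) (ht : 0 ≤ t) :
    0 ≤ (4911/3200) * s ^ 0 * t ^ 8 + (4941/320) * s ^ 1 * t ^ 7 + (3335403/51200) * s ^ 2 * t ^ 6 + (3829317/25600) * s ^ 3 * t ^ 5 + (33222141/163840) * s ^ 4 * t ^ 4 + (16822677/102400) * s ^ 5 * t ^ 3 + (200715789/2621440) * s ^ 6 * t ^ 2 + (15235893/819200) * s ^ 7 * t ^ 1 + (99262281/52428800) * s ^ 8 * t ^ 0 := by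
  positivity

lemma Q8_piece6 (w : ℝ) (h1 : (1/2) ≤ w) (h2 : w ≤ (7/8)) : 0 ≤ Q8 w := by
  have key := Q8_aux6 (w - (1/2)) ((7/8) - w) (by linarith) (by linarith)
  have e : (6561/16777216) * Q8 w = (4911/3200) * (w - (1/2)) ^ 0 * ((7/8) - w) ^ 8 + (4941/320) * (w - (1/2)) ^ 1 * ((7/8) - w) ^ 7 + (3335403/51200) * (w - (1/2)) ^ 2 * ((7/8) - w) ^ 6 + (3829317/25600) * (w - (1/2)) ^ 3 * ((7/8) - w) ^ 5 + (33222141/163840) * (w - (1/2)) ^ 4 * ((7/8) - w) ^ 4 + (16822677/102400) * (w - (1/2)) ^ 5 * ((7/8) - w) ^ 3 + (200715789/2621440) * (w - (1/2)) ^ 6 * ((7/8) - w) ^ 2 + (15235893/819200) * (w - (1/2)) ^ 7 * ((7/8) - w) ^ 1 + (99262281/52428800) * (w - (1/2)) ^ 8 * ((7/8) - w) ^ 0 := by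
    simp only [Q8]
    ring
  rw [← e] at key
  have hp : (0 : ℝ) < (6561/16777216) := by norm_num
  exact nonneg_of_mul_nonneg_right key hp

lemma Q8_aux7 (s t : ℝ) (hs : 0 ≤ s) (ht : 0 ≤ t) :
    0 ≤ (99262281/52428800) * s ^ 0 * t ^ 8 + (38318709/3276800) * s ^ 1 * t ^ 7 + (370082781/13107200) * s ^ 2 * t ^ 6 + (132494991/3276800) * s ^ 3 * t ^ 5 + (43805973/655360) * s ^ 4 * t ^ 4 + (53062047/409600) * s ^ 5 * t ^ 3 + (132789171/819200) * s ^ 6 * t ^ 2 + (21213039/204800) * s ^ 7 * t ^ 1 + (2682063/102400) * s ^ 8 * t ^ 0 := by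
  positivity

lemma Q8_piece7 (w : ℝ) (h1 : (7/8) ≤ w) (h2 : w ≤ (5/4)) : 0 ≤ Q8 w := by
  have key := Q8_aux7 (w - (7/8)) ((5/4) - w) (by linarith) (by linarith)
  have e : (6561/16777216) * Q8 w = (99262281/52428800) * (w - (7/8)) ^ 0 * ((5/4) - w) ^ 8 + (38318709/3276800) * (w - (7/8)) ^ 1 * ((5/4) - w) ^ 7 + (370082781/13107200) * (w - (7/8)) ^ 2 * ((5/4) - w) ^ 6 + (132494991/3276800) * (w - (7/8)) ^ 3 * ((5/4) - w) ^ 5 + (43805973/655360) * (w - (7/8)) ^ 4 * ((5/4) - w) ^ 4 + (53062047/409600) * (w - (7/8)) ^ 5 * ((5/4) - w) ^ 3 + (132789171/819200) * (w - (7/8)) ^ 6 * ((5/4) - w) ^ 2 + (21213039/204800) * (w - (7/8)) ^ 7 * ((5/4) - w) ^ 1 + (2682063/102400) * (w - (7/8)) ^ 8 * ((5/4) - w) ^ 0 := by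
    simp only [Q8]
    ring
  rw [← e] at key
  have hp : (0 : ℝ) < (6561/16777216) := by norm_num
  exact nonneg_of_mul_nonneg_right key hp

lemma Q8_aux8 (s t : ℝ) (hs : 0 ≤ s) (ht : 0 ≤ t) :
    0 ≤ (2682063/102400) * s ^ 0 * t ^ 8 + (43156473/102400) * s ^ 1 * t ^ 7 + (118720257/40960) * s ^ 2 * t ^ 6 + (113499333/10240) * s ^ 3 * t ^ 5 + (8255931/320) * s ^ 4 * t ^ 4 + (7504179/200) * s ^ 5 * t ^ 3 + (53413137/1600) * s ^ 6 * t ^ 2 + (666213/40) * s ^ 7 * t ^ 1 + (17877/5) * s ^ 8 * t ^ 0 := by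
  positivity

lemma Q8_piece8 (w : ℝ) (h1 : (5/4) ≤ w) (h2 : w ≤ (2)) : 0 ≤ Q8 w := by
  have key := Q8_aux8 (w - (5/4)) ((2) - w) (by linarith) (by linarith)
  have e : (6561/65536) * Q8 w = (2682063/102400) * (w - (5/4)) ^ 0 * ((2) - w) ^ 8 + (43156473/102400) * (w - (5/4)) ^ 1 * ((2) - w) ^ 7 + (118720257/40960) * (w - (5/4)) ^ 2 * ((2) - w) ^ 6 + (113499333/10240) * (w - (5/4)) ^ 3 * ((2) - w) ^ 5 + (8255931/320) * (w - (5/4)) ^ 4 * ((2) - w) ^ 4 + (7504179/200) * (w - (5/4)) ^ 5 * ((2) - w) ^ 3 + (53413137/1600) * (w - (5/4)) ^ 6 * ((2) - w) ^ 2 + (666213/40) * (w - (5/4)) ^ 7 * ((2) - w) ^ 1 + (17877/5) * (w - (5/4)) ^ 8 * ((2) - w) ^ 0 := by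
    simp only [Q8]
    ring
  rw [← e] at key
  have hp : (0 : ℝ) < (6561/65536) := by norm_num
  exact nonneg_of_mul_nonneg_right key hp

/-- `Q₈ ≥ 0` on `[-1, 2]` -/
theorem Q8_nonneg (w : ℝ) (h1 : -1 ≤ w) (h2 : w ≤ 2) : 0 ≤ Q8 w := by
  rcases le_total w (-13/16) with h0 | h0
  · exact Q8_piece0 w (by linarith) (by linarith)
  rcases le_total w (-5/8) with h1 | h1
  · exact Q8_piece1 w (by linarith) (by linarith)
  rcases le_total w (-1/4) with h2 | h2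
  · exact Q8_piece2 w (by linarith) (by linarith)
  rcases le_total w (1/8) with h3 | h3
  · exact Q8_piece3 w (by linarith) (by linarith)
  rcases le_total w (5/16) with h4 | h4
  · exact Q8_piece4 w (by linarith) (by linarith)
  rcases le_total w (1/2) with h5 | h5
  · exact Q8_piece5 w (by linarith) (by linarith)
  rcases le_total w (7/8) with h6 | h6
  · exact Q8_piece6 w (by linarith) (by linarith)
  rcases le_total w (5/4) with h7 | h7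
  · exact Q8_piece7 w (by linarith) (by linarith)
  exact Q8_piece8 w (by linarith) (by linarith)

end Crest.Agent.Lib.Bc.Q3
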