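import Crest.Agent.Lib.Bc.Q3Table
/-!
# Row 163, `Cert 3`: a row is nonnegative on the region as soon as `rowOK`
-/
namespace Crest.Agent.Lib.Bc.Q3

lemma chord_cubic (k r : ℝ) (hk : 0 ≤ k) (h1 : k ≤ r) (h2 : r ≤ k + 1) :
    r ^ 3 ≤ k ^ 3 + (r ^ 2 - k ^ 2) / (2 * k + 1) * (3 * k ^ 2 + 3 * k + 1) := by
  have hd : 0 < 2 * k + 1 := by linarith
  have hr : 0 ≤ r := by linarith
  have hp : 0 ≤ (r - k) * (k + 1 - r) * ((2 * k + 1) * r + k ^ 2 + k) :=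
    mul_nonneg (mul_nonneg (by linarith) (by linarith)) (by positivity)
  have e : k ^ 3 + (r ^ 2 - k ^ 2) / (2 * k + 1) * (3 * k ^ 2 + 3 * k + 1) - r ^ 3
      = (r - k) * (k + 1 - r) * ((2 * k + 1) * r + k ^ 2 + k) / (2 * k + 1) := by
    field_simp
    ring
  have : 0 ≤ k ^ 3 + (r ^ 2 - k ^ 2) / (2 * k + 1) * (3 * k ^ 2 + 3 * k + 1) - r ^ 3 := by
    rw [e]; exact div_nonneg hp hd.le
  linarith

lemma tri1_rep (a0 a1 L0 L1 U1 A C : ℝ) (ha : a0 < a1) (h0 : a0 ≤ A) (h1 : A ≤ a1) (hd : L1 < U1)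
    (hL : (1 - (A - a0) / (a1 - a0)) * L0 + (A - a0) / (a1 - a0) * L1 ≤ C)
    (hD : C ≤ (1 - (A - a0) / (a1 - a0)) * L0 + (A - a0) / (a1 - a0) * U1) :
    ∃ l1 l2 l3 : ℝ, 0 ≤ l1 ∧ 0 ≤ l2 ∧ 0 ≤ l3 ∧ l1 + l2 + l3 = 1 ∧
      A = l1 * a0 + l2 * a1 + l3 * a1 ∧ C = l1 * L0 + l2 * L1 + l3 * U1 := by
  have hda : 0 < a1 - a0 := by linarith
  have hdu : 0 < U1 - L1 := by linarith
  set s := (A - a0) / (a1 - a0) with hs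
  have hs0 : 0 ≤ s := div_nonneg (by linarith) hda.le
  have hs1 : s ≤ 1 := by
    rw [hs, div_le_one hda]; linarith
  have hsA : A = (1 - s) * a0 + s * a1 := by
    rw [hs]; field_simp; ring
  refine ⟨1 - s, s - (C - ((1 - s) * L0 + s * L1)) / (U1 - L1), (C - ((1 - s) * L0 + s * L1)) / (U1 - L1),
    by linarith, ?_, div_nonneg (by linarith) hdu.le, by ring, ?_, ?_⟩
  · rw [sub_nonneg, div_le_iff₀ hdu]; linarith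
  · rw [hsA]; ring
  · field_simp
    ring

lemma tri2_rep (a0 a1 L0 U0 U1 A C : ℝ) (ha : a0 < a1) (h0 : a0 ≤ A) (h1 : A ≤ a1) (hd : L0 < U0)
    (hD : (1 - (A - a0) / (a1 - a0)) * L0 + (A - a0) / (a1 - a0) * U1 ≤ C)
    (hU : C ≤ (1 - (A - a0) / (a1 - a0)) * U0 + (A - a0) / (a1 - a0) * U1) :
    ∃ l1 l2 l3 : ℝ, 0 ≤ l1 ∧ 0 ≤ l2 ∧ 0 ≤ l3 ∧ l1 + l2 + l3 = 1 ∧
      A = l1 * a0 + l2 * a1 + l3 * a0 ∧ C = l1 * L0 + l2 * U1 + l3 * U0 := by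
  have hda : 0 < a1 - a0 := by linarith
  have hdu : 0 < U0 - L0 := by linarith
  set s := (A - a0) / (a1 - a0) with hs
  have hs0 : 0 ≤ s := div_nonneg (by linarith) hda.le
  have hs1 : s ≤ 1 := by
    rw [hs, div_le_one hda]; linarith
  have hsA : A = (1 - s) * a0 + s * a1 := by
    rw [hs]; field_simp; ring
  refine ⟨1 - s - (C - ((1 - s) * L0 + s * U1)) / (U0 - L0), s, (C - ((1 - s) * L0 + s * U1)) / (U0 - L0),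
    ?_, hs0, div_nonneg (by linarith) hdu.le, by ring, ?_, ?_⟩
  · have : (C - ((1 - s) * L0 + s * U1)) / (U0 - L0) ≤ 1 - s := by
      rw [div_le_iff₀ hdu]; linarith
    linarith
  · rw [hsA]; ring
  · field_simp
    ring

theorem cell0 (y0 y1 y2 y3 y4 y5 y6 y7 y8 y9 y10 y11 y12 y13 : ℤ) (h : rowOK [y0, y1, y2, y3, y4, y5, y6, y7, y8, y9, y10, y11, y12, y13] = true) (A C r : ℝ) (hR : InR A C) (hrA : A = r ^ 2)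
    (hC1 : C ≤ r ^ 3) (_hC2 : - r ^ 3 ≤ C) (hk0 : (0 : ℝ) ≤ r) (hk1 : r ≤ 1) :
    0 ≤ evalRow y0 y1 y2 y3 y4 y5 y6 y7 y8 y9 y10 y11 y12 y13 A C := by
  simp only [rowOK, Bool.and_eq_true] at h
  obtain ⟨⟨⟨⟨⟨⟨⟨⟨⟨b0, b1⟩, b2⟩, b3⟩, b4⟩, b5⟩, b6⟩, b7⟩, b8⟩, b9⟩ := h
  have hr0 : (0 : ℝ) ≤ r := by linarith
  have hA0 : ((0 : ℝ)) ^ 2 ≤ r ^ 2 := by nlinarith
  have hA1 : r ^ 2 ≤ ((1 : ℝ)) ^ 2 := by nlinarith
  have hB0 : (0 : ℝ) ≤ A := by rw [hrA]; nlinarith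
  have hB1 : A ≤ (1 : ℝ) := by rw [hrA]; nlinarith
  have hch := chord_cubic 0 r (by norm_num) (by simpa using hk0) (by norm_num; linarith)
  have hU : C ≤ (1 - ((A - 0) / (1 - 0))) * 0 + ((A - 0) / (1 - 0)) * 1 := by
    have e : (1 - ((A - 0) / (1 - 0))) * 0 + ((A - 0) / (1 - 0)) * 1 = (0 : ℝ) ^ 3 + (r ^ 2 - (0 : ℝ) ^ 2) / (2 * (0 : ℝ) + 1) * (3 * (0 : ℝ) ^ 2 + 3 * (0 : ℝ) + 1) := by
      rw [hrA]; norm_num <;> ring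
    rw [e]; linarith
  have hL : (1 - ((A - 0) / (1 - 0))) * (0) + ((A - 0) / (1 - 0)) * (-1) ≤ C := by
    have e : (1 - ((A - 0) / (1 - 0))) * (0) + ((A - 0) / (1 - 0)) * (-1) = - ((0 : ℝ) ^ 3 + (r ^ 2 - (0 : ℝ) ^ 2) / (2 * (0 : ℝ) + 1) * (3 * (0 : ℝ) ^ 2 + 3 * (0 : ℝ) + 1)) := by
      rw [hrA]; norm_num <;> ring
    rw [e]; linarith
  obtain ⟨l1, l2, l3, h1, h2, h3, hs, hA, hC⟩ := tri1_rep 0 1 (0) (-1) 1 A C (by norm_num) (by nlinarith) (by nlinarith) (by norm_num) hL (by simpa using hU)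
  rw [hA, hC]
  exact tri0 y0 y1 y2 y3 y4 y5 y6 y7 y8 y9 y10 y11 y12 y13 b0 l1 l2 l3 h1 h2 h3 hs

theorem cell1 (y0 y1 y2 y3 y4 y5 y6 y7 y8 y9 y10 y11 y12 y13 : ℤ) (h : rowOK [y0, y1, y2, y3, y4, y5, y6, y7, y8, y9, y10, y11, y12, y13] = true) (A C r : ℝ) (hR : InR A C) (hrA : A = r ^ 2)
    (hC1 : C ≤ r ^ 3) (_hC2 : - r ^ 3 ≤ C) (hk0 : (1 : ℝ) ≤ r) (hk1 : r ≤ 2) :
    0 ≤ evalRow y0 y1 y2 y3 y4 y5 y6 y7 y8 y9 y10 y11 y12 y13 A C := by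
  simp only [rowOK, Bool.and_eq_true] at h
  obtain ⟨⟨⟨⟨⟨⟨⟨⟨⟨b0, b1⟩, b2⟩, b3⟩, b4⟩, b5⟩, b6⟩, b7⟩, b8⟩, b9⟩ := h
  have hr0 : (0 : ℝ) ≤ r := by linarith
  have hA0 : ((1 : ℝ)) ^ 2 ≤ r ^ 2 := by nlinarith
  have hA1 : r ^ 2 ≤ ((2 : ℝ)) ^ 2 := by nlinarith
  have hB0 : (1 : ℝ) ≤ A := by rw [hrA]; nlinarith
  have hB1 : A ≤ (4 : ℝ) := by rw [hrA]; nlinarith
  have hch := chord_cubic 1 r (by norm_num) (by simpa using hk0) (by norm_num; linarith)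
  have hU : C ≤ (1 - ((A - 1) / (4 - 1))) * 1 + ((A - 1) / (4 - 1)) * 8 := by
    have e : (1 - ((A - 1) / (4 - 1))) * 1 + ((A - 1) / (4 - 1)) * 8 = (1 : ℝ) ^ 3 + (r ^ 2 - (1 : ℝ) ^ 2) / (2 * (1 : ℝ) + 1) * (3 * (1 : ℝ) ^ 2 + 3 * (1 : ℝ) + 1) := by
      rw [hrA]; norm_num <;> ring
    rw [e]; linarith
  have hL : (1 - ((A - 1) / (4 - 1))) * (-1) + ((A - 1) / (4 - 1)) * (-8) ≤ C := by
    have e : (1 - ((A - 1) / (4 - 1))) * (-1) + ((A - 1) / (4 - 1)) * (-8) = - ((1 : ℝ) ^ 3 + (r ^ 2 - (1 : ℝ) ^ 2) / (2 * (1 : ℝ) + 1) * (3 * (1 : ℝ) ^ 2 + 3 * (1 : ℝ) + 1)) := by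
      rw [hrA]; norm_num <;> ring
    rw [e]; linarith
  by_cases hD : C ≤ (1 - ((A - 1) / (4 - 1))) * (-1) + ((A - 1) / (4 - 1)) * 8
  · obtain ⟨l1, l2, l3, h1, h2, h3, hs, hA, hC⟩ := tri1_rep 1 4 (-1) (-8) 8 A C (by norm_num) (by nlinarith) (by nlinarith) (by norm_num) hL hD
    rw [hA, hC]
    exact tri1 y0 y1 y2 y3 y4 y5 y6 y7 y8 y9 y10 y11 y12 y13 b1 l1 l2 l3 h1 h2 h3 hs
  · obtain ⟨l1, l2, l3, h1, h2, h3, hs, hA, hC⟩ := tri2_rep 1 4 (-1) 1 8 A C (by norm_num) (by nlinarith) (by nlinarith) (by norm_num) (le_of_not_ge hD) hU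
    rw [hA, hC]
    exact tri2 y0 y1 y2 y3 y4 y5 y6 y7 y8 y9 y10 y11 y12 y13 b2 l1 l2 l3 h1 h2 h3 hs

theorem cell2 (y0 y1 y2 y3 y4 y5 y6 y7 y8 y9 y10 y11 y12 y13 : ℤ) (h : rowOK [y0, y1, y2, y3, y4, y5, y6, y7, y8, y9, y10, y11, y12, y13] = true) (A C r : ℝ) (hR : InR A C) (hrA : A = r ^ 2)
    (hC1 : C ≤ r ^ 3) (_hC2 : - r ^ 3 ≤ C) (hk0 : (2 : ℝ) ≤ r) (hk1 : r ≤ 3) :
    0 ≤ evalRow y0 y1 y2 y3 y4 y5 y6 y7 y8 y9 y10 y11 y12 y13 A C := by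
  simp only [rowOK, Bool.and_eq_true] at h
  obtain ⟨⟨⟨⟨⟨⟨⟨⟨⟨b0, b1⟩, b2⟩, b3⟩, b4⟩, b5⟩, b6⟩, b7⟩, b8⟩, b9⟩ := h
  have hr0 : (0 : ℝ) ≤ r := by linarith
  have hA0 : ((2 : ℝ)) ^ 2 ≤ r ^ 2 := by nlinarith
  have hA1 : r ^ 2 ≤ ((3 : ℝ)) ^ 2 := by nlinarith
  have hB0 : (4 : ℝ) ≤ A := by rw [hrA]; nlinarith
  have hB1 : A ≤ (9 : ℝ) := by rw [hrA]; nlinarith
  have hch := chord_cubic 2 r (by norm_num) (by simpa using hk0) (by norm_num; linarith)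
  have hU : C ≤ (1 - ((A - 4) / (9 - 4))) * 8 + ((A - 4) / (9 - 4)) * 27 := by
    have e : (1 - ((A - 4) / (9 - 4))) * 8 + ((A - 4) / (9 - 4)) * 27 = (2 : ℝ) ^ 3 + (r ^ 2 - (2 : ℝ) ^ 2) / (2 * (2 : ℝ) + 1) * (3 * (2 : ℝ) ^ 2 + 3 * (2 : ℝ) + 1) := by
      rw [hrA]; norm_num <;> ring
    rw [e]; linarith
  have hL : (1 - ((A - 4) / (9 - 4))) * (-8) + ((A - 4) / (9 - 4)) * (-27) ≤ C := by
    have e : (1 - ((A - 4) / (9 - 4))) * (-8) + ((A - 4) / (9 - 4)) * (-27) = - ((2 : ℝ) ^ 3 + (r ^ 2 - (2 : ℝ) ^ 2) / (2 * (2 : ℝ) + 1) * (3 * (2 : ℝ) ^ 2 + 3 * (2 : ℝ) + 1)) := by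
      rw [hrA]; norm_num <;> ring
    rw [e]; linarith
  by_cases hD : C ≤ (1 - ((A - 4) / (9 - 4))) * (-8) + ((A - 4) / (9 - 4)) * 27
  · obtain ⟨l1, l2, l3, h1, h2, h3, hs, hA, hC⟩ := tri1_rep 4 9 (-8) (-27) 27 A C (by norm_num) (by nlinarith) (by nlinarith) (by norm_num) hL hD
    rw [hA, hC]
    exact tri3 y0 y1 y2 y3 y4 y5 y6 y7 y8 y9 y10 y11 y12 y13 b3 l1 l2 l3 h1 h2 h3 hs
  · obtain ⟨l1, l2, l3, h1, h2, h3, hs, hA, hC⟩ := tri2_rep 4 9 (-8) 8 27 A C (by norm_num) (by nlinarith) (by nlinarith) (by norm_num) (le_of_not_ge hD) hU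
    rw [hA, hC]
    exact tri4 y0 y1 y2 y3 y4 y5 y6 y7 y8 y9 y10 y11 y12 y13 b4 l1 l2 l3 h1 h2 h3 hs

theorem cell3 (y0 y1 y2 y3 y4 y5 y6 y7 y8 y9 y10 y11 y12 y13 : ℤ) (h : rowOK [y0, y1, y2, y3, y4, y5, y6, y7, y8, y9, y10, y11, y12, y13] = true) (A C r : ℝ) (hR : InR A C) (hrA : A = r ^ 2)
    (hC1 : C ≤ r ^ 3) (_hC2 : - r ^ 3 ≤ C) (hk0 : (3 : ℝ) ≤ r) (hk1 : r ≤ 4) :
    0 ≤ evalRow y0 y1 y2 y3 y4 y5 y6 y7 y8 y9 y10 y11 y12 y13 A C := by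
  simp only [rowOK, Bool.and_eq_true] at h
  obtain ⟨⟨⟨⟨⟨⟨⟨⟨⟨b0, b1⟩, b2⟩, b3⟩, b4⟩, b5⟩, b6⟩, b7⟩, b8⟩, b9⟩ := h
  have hr0 : (0 : ℝ) ≤ r := by linarith
  have hA0 : ((3 : ℝ)) ^ 2 ≤ r ^ 2 := by nlinarith
  have hA1 : r ^ 2 ≤ ((4 : ℝ)) ^ 2 := by nlinarith
  have hB0 : (9 : ℝ) ≤ A := by rw [hrA]; nlinarith
  have hB1 : A ≤ (16 : ℝ) := by rw [hrA]; nlinarith
  have hch := chord_cubic 3 r (by norm_num) (by simpa using hk0) (by norm_num; linarith)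
  have hU : C ≤ (1 - ((A - 9) / (16 - 9))) * 27 + ((A - 9) / (16 - 9)) * 64 := by
    have e : (1 - ((A - 9) / (16 - 9))) * 27 + ((A - 9) / (16 - 9)) * 64 = (3 : ℝ) ^ 3 + (r ^ 2 - (3 : ℝ) ^ 2) / (2 * (3 : ℝ) + 1) * (3 * (3 : ℝ) ^ 2 + 3 * (3 : ℝ) + 1) := by
      rw [hrA]; norm_num <;> ring
    rw [e]; linarith
  have hL : (1 - ((A - 9) / (16 - 9))) * (-27) + ((A - 9) / (16 - 9)) * (36) ≤ C := by
    have e : (1 - ((A - 9) / (16 - 9))) * (-27) + ((A - 9) / (16 - 9)) * (36) = 9 * A - 108 := by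
      norm_num <;> ring
    rw [e]; exact hR.2.2.2
  by_cases hD : C ≤ (1 - ((A - 9) / (16 - 9))) * (-27) + ((A - 9) / (16 - 9)) * 64
  · obtain ⟨l1, l2, l3, h1, h2, h3, hs, hA, hC⟩ := tri1_rep 9 16 (-27) (36) 64 A C (by norm_num) (by nlinarith) (by nlinarith) (by norm_num) hL hD
    rw [hA, hC]
    exact tri5 y0 y1 y2 y3 y4 y5 y6 y7 y8 y9 y10 y11 y12 y13 b5 l1 l2 l3 h1 h2 h3 hs
  · obtain ⟨l1, l2, l3, h1, h2, h3, hs, hA, hC⟩ := tri2_rep 9 16 (-27) 27 64 A C (by norm_num) (by nlinarith) (by nlinarith) (by norm_num) (le_of_not_ge hD) hU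
    rw [hA, hC]
    exact tri6 y0 y1 y2 y3 y4 y5 y6 y7 y8 y9 y10 y11 y12 y13 b6 l1 l2 l3 h1 h2 h3 hs

theorem cell4 (y0 y1 y2 y3 y4 y5 y6 y7 y8 y9 y10 y11 y12 y13 : ℤ) (h : rowOK [y0, y1, y2, y3, y4, y5, y6, y7, y8, y9, y10, y11, y12, y13] = true) (A C r : ℝ) (hR : InR A C) (hrA : A = r ^ 2)
    (hC1 : C ≤ r ^ 3) (_hC2 : - r ^ 3 ≤ C) (hk0 : (4 : ℝ) ≤ r) (hk1 : r ≤ 5) :
    0 ≤ evalRow y0 y1 y2 y3 y4 y5 y6 y7 y8 y9 y10 y11 y12 y13 A C := by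
  simp only [rowOK, Bool.and_eq_true] at h
  obtain ⟨⟨⟨⟨⟨⟨⟨⟨⟨b0, b1⟩, b2⟩, b3⟩, b4⟩, b5⟩, b6⟩, b7⟩, b8⟩, b9⟩ := h
  have hr0 : (0 : ℝ) ≤ r := by linarith
  have hA0 : ((4 : ℝ)) ^ 2 ≤ r ^ 2 := by nlinarith
  have hA1 : r ^ 2 ≤ ((5 : ℝ)) ^ 2 := by nlinarith
  have hB0 : (16 : ℝ) ≤ A := by rw [hrA]; nlinarith
  have hB1 : A ≤ (25 : ℝ) := by rw [hrA]; nlinarith
  have hch := chord_cubic 4 r (by norm_num) (by simpa using hk0) (by norm_num; linarith)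
  have hU : C ≤ (1 - ((A - 16) / (25 - 16))) * 64 + ((A - 16) / (25 - 16)) * 125 := by
    have e : (1 - ((A - 16) / (25 - 16))) * 64 + ((A - 16) / (25 - 16)) * 125 = (4 : ℝ) ^ 3 + (r ^ 2 - (4 : ℝ) ^ 2) / (2 * (4 : ℝ) + 1) * (3 * (4 : ℝ) ^ 2 + 3 * (4 : ℝ) + 1) := by
      rw [hrA]; norm_num <;> ring
    rw [e]; linarith
  have hL : (1 - ((A - 16) / (25 - 16))) * (36) + ((A - 16) / (25 - 16)) * (117) ≤ C := by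
    have e : (1 - ((A - 16) / (25 - 16))) * (36) + ((A - 16) / (25 - 16)) * (117) = 9 * A - 108 := by
      norm_num <;> ring
    rw [e]; exact hR.2.2.2
  by_cases hD : C ≤ (1 - ((A - 16) / (25 - 16))) * (36) + ((A - 16) / (25 - 16)) * 125
  · obtain ⟨l1, l2, l3, h1, h2, h3, hs, hA, hC⟩ := tri1_rep 16 25 (36) (117) 125 A C (by norm_num) (by nlinarith) (by nlinarith) (by norm_num) hL hD
    rw [hA, hC]
    exact tri7 y0 y1 y2 y3 y4 y5 y6 y7 y8 y9 y10 y11 y12 y13 b7 l1 l2 l3 h1 h2 h3 hs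
  · obtain ⟨l1, l2, l3, h1, h2, h3, hs, hA, hC⟩ := tri2_rep 16 25 (36) 64 125 A C (by norm_num) (by nlinarith) (by nlinarith) (by norm_num) (le_of_not_ge hD) hU
    rw [hA, hC]
    exact tri8 y0 y1 y2 y3 y4 y5 y6 y7 y8 y9 y10 y11 y12 y13 b8 l1 l2 l3 h1 h2 h3 hs

theorem cell5 (y0 y1 y2 y3 y4 y5 y6 y7 y8 y9 y10 y11 y12 y13 : ℤ) (h : rowOK [y0, y1, y2, y3, y4, y5, y6, y7, y8, y9, y10, y11, y12, y13] = true) (A C r : ℝ) (hR : InR A C) (hrA : A = r ^ 2)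
    (hC1 : C ≤ r ^ 3) (_hC2 : - r ^ 3 ≤ C) (hk0 : (5 : ℝ) ≤ r) (hk1 : r ≤ 6) :
    0 ≤ evalRow y0 y1 y2 y3 y4 y5 y6 y7 y8 y9 y10 y11 y12 y13 A C := by
  simp only [rowOK, Bool.and_eq_true] at h
  obtain ⟨⟨⟨⟨⟨⟨⟨⟨⟨b0, b1⟩, b2⟩, b3⟩, b4⟩, b5⟩, b6⟩, b7⟩, b8⟩, b9⟩ := h
  have hr0 : (0 : ℝ) ≤ r := by linarith
  have hA0 : ((5 : ℝ)) ^ 2 ≤ r ^ 2 := by nlinarith
  have hA1 : r ^ 2 ≤ ((6 : ℝ)) ^ 2 := by nlinarith
  have hB0 : (25 : ℝ) ≤ A := by rw [hrA]; nlinarith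
  have hB1 : A ≤ (36 : ℝ) := by rw [hrA]; nlinarith
  have hch := chord_cubic 5 r (by norm_num) (by simpa using hk0) (by norm_num; linarith)
  have hU : C ≤ (1 - ((A - 25) / (36 - 25))) * 125 + ((A - 25) / (36 - 25)) * 216 := by
    have e : (1 - ((A - 25) / (36 - 25))) * 125 + ((A - 25) / (36 - 25)) * 216 = (5 : ℝ) ^ 3 + (r ^ 2 - (5 : ℝ) ^ 2) / (2 * (5 : ℝ) + 1) * (3 * (5 : ℝ) ^ 2 + 3 * (5 : ℝ) + 1) := by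
      rw [hrA]; norm_num <;> ring
    rw [e]; linarith
  have hL : (1 - ((A - 25) / (36 - 25))) * (117) + ((A - 25) / (36 - 25)) * (216) ≤ C := by
    have e : (1 - ((A - 25) / (36 - 25))) * (117) + ((A - 25) / (36 - 25)) * (216) = 9 * A - 108 := by
      norm_num <;> ring
    rw [e]; exact hR.2.2.2
  obtain ⟨l1, l2, l3, h1, h2, h3, hs, hA, hC⟩ := tri2_rep 25 36 (117) 125 216 A C (by norm_num) (by nlinarith) (by nlinarith) (by norm_num) (by simpa using hL) hU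
  rw [hA, hC]
  exact tri9 y0 y1 y2 y3 y4 y5 y6 y7 y8 y9 y10 y11 y12 y13 b9 l1 l2 l3 h1 h2 h3 hs

/-- a row whose Bernstein coefficients are all nonnegative is nonnegative on the region -/
theorem row_nonneg (y0 y1 y2 y3 y4 y5 y6 y7 y8 y9 y10 y11 y12 y13 : ℤ) (h : rowOK [y0, y1, y2, y3, y4, y5, y6, y7, y8, y9, y10, y11, y12, y13] = true) (A C : ℝ) (hR : InR A C) :
    0 ≤ evalRow y0 y1 y2 y3 y4 y5 y6 y7 y8 y9 y10 y11 y12 y13 A C := by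
  obtain ⟨hA0, hA1, hC, _⟩ := id hR
  set r := Real.sqrt A with hr
  have hr0 : 0 ≤ r := Real.sqrt_nonneg A
  have hrA : A = r ^ 2 := (Real.sq_sqrt hA0).symm
  have hr6 : r ≤ 6 := by
    rw [hr]
    calc Real.sqrt A ≤ Real.sqrt 36 := Real.sqrt_le_sqrt hA1
      _ = 6 := by
        rw [show (36 : ℝ) = 6 ^ 2 by norm_num]
        exact Real.sqrt_sq (by norm_num)
  have hC' : C ^ 2 ≤ (r ^ 3) ^ 2 := by
    rw [hrA] at hC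
    calc C ^ 2 ≤ (r ^ 2) ^ 3 := hC
      _ = (r ^ 3) ^ 2 := by ring
  have hab := abs_le.mp (abs_le_of_sq_le_sq hC' (by positivity))
  have hC1 : C ≤ r ^ 3 := hab.2
  have hC2 : - r ^ 3 ≤ C := hab.1
  rcases le_total r 1 with h1 | h1
  · exact cell0 y0 y1 y2 y3 y4 y5 y6 y7 y8 y9 y10 y11 y12 y13 h A C r hR hrA hC1 hC2 (by simpa using hr0) (by simpa using h1)
  rcases le_total r 2 with h2 | h2
  · exact cell1 y0 y1 y2 y3 y4 y5 y6 y7 y8 y9 y10 y11 y12 y13 h A C r hR hrA hC1 hC2 (by simpa using h1) (by simpa using h2)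
  rcases le_total r 3 with h3 | h3
  · exact cell2 y0 y1 y2 y3 y4 y5 y6 y7 y8 y9 y10 y11 y12 y13 h A C r hR hrA hC1 hC2 (by simpa using h2) (by simpa using h3)
  rcases le_total r 4 with h4 | h4
  · exact cell3 y0 y1 y2 y3 y4 y5 y6 y7 y8 y9 y10 y11 y12 y13 h A C r hR hrA hC1 hC2 (by simpa using h3) (by simpa using h4)
  rcases le_total r 5 with h5 | h5
  · exact cell4 y0 y1 y2 y3 y4 y5 y6 y7 y8 y9 y10 y11 y12 y13 h A C r hR hrA hC1 hC2 (by simpa using h4) (by simpa using h5)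
  · exact cell5 y0 y1 y2 y3 y4 y5 y6 y7 y8 y9 y10 y11 y12 y13 h A C r hR hrA hC1 hC2 (by simpa using h5) (by simpa using hr6)

end Crest.Agent.Lib.Bc.Q3
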