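import Mathlib
/-!
# Row 163, `Cert 3`: Bernstein tables on a cover of the region of invariants (generated)

The region of `(a, c)` is covered by ten triangles, in the scaled coordinates `A = 36 a`, `C = 216 c`.
A row `y` (integer coefficients in the monomial list below) is nonnegative on the region as soon as all
its Bernstein coefficients on the ten triangles are, which `rowOK` checks.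
-/
namespace Crest.Agent.Lib.Bc.Q3

/-- integer dot product -/
def dotI : List ℤ → List ℤ → ℤ
  | a :: l, b :: r => a * b + dotI l r
  | _, _ => 0

/-- the region, scaled -/
def InR (A C : ℝ) : Prop := 0 ≤ A ∧ A ≤ 36 ∧ C ^ 2 ≤ A ^ 3 ∧ 9 * A - 108 ≤ C

/-- a row as a polynomial in the scaled coordinates -/
noncomputable def evalRow (y0 y1 y2 y3 y4 y5 y6 y7 y8 y9 y10 y11 y12 y13 : ℤ) (A C : ℝ) : ℝ :=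
  (y0 : ℝ) * (1) + (y1 : ℝ) * (A) + (y2 : ℝ) * (C) + (y3 : ℝ) * (A ^ 2) + (y4 : ℝ) * (A * C) + (y5 : ℝ) * (C ^ 2) + (y6 : ℝ) * (A ^ 3) + (y7 : ℝ) * (A ^ 2 * C) + (y8 : ℝ) * (A * C ^ 2) + (y9 : ℝ) * (C ^ 3) + (y10 : ℝ) * (A ^ 4) + (y11 : ℝ) * (A ^ 3 * C) + (y12 : ℝ) * (A ^ 2 * C ^ 2) + (y13 : ℝ) * (A ^ 5)

/-- Bernstein rows on triangle 0 -/
def BT0 : List (List ℤ) := [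
  [1, 1, 1, 1, 1, 1, 1, 1, 1, 1, 1, 1, 1, 1],
  [5, 5, 3, 5, 3, 1, 5, 3, 1, -1, 5, 3, 1, 5],
  [10, 10, 2, 10, 2, -2, 10, 2, -2, -2, 10, 2, -2, 10],
  [10, 10, -2, 10, -2, -2, 10, -2, -2, 2, 10, -2, -2, 10],
  [5, 5, -3, 5, -3, 1, 5, -3, 1, 1, 5, -3, 1, 5],
  [1, 1, -1, 1, -1, 1, 1, -1, 1, -1, 1, -1, 1, 1],
  [5, 4, 4, 3, 3, 3, 2, 2, 2, 2, 1, 1, 1, 0],
  [20, 16, 8, 12, 6, 0, 8, 4, 0, -4, 4, 2, 0, 0],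
  [30, 24, 0, 18, 0, -6, 12, 0, -4, 0, 6, 0, -2, 0],
  [20, 16, -8, 12, -6, 0, 8, -4, 0, 4, 4, -2, 0, 0],
  [5, 4, -4, 3, -3, 3, 2, -2, 2, -2, 1, -1, 1, 0],
  [10, 6, 6, 3, 3, 3, 1, 1, 1, 1, 0, 0, 0, 0],
  [30, 18, 6, 9, 3, -3, 3, 1, -1, -3, 0, 0, 0, 0],
  [30, 18, -6, 9, -3, -3, 3, -1, -1, 3, 0, 0, 0, 0],
  [10, 6, -6, 3, -3, 3, 1, -1, 1, -1, 0, 0, 0, 0],
  [10, 4, 4, 1, 1, 1, 0, 0, 0, 0, 0, 0, 0, 0],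
  [20, 8, 0, 2, 0, -2, 0, 0, 0, 0, 0, 0, 0, 0],
  [10, 4, -4, 1, -1, 1, 0, 0, 0, 0, 0, 0, 0, 0],
  [5, 1, 1, 0, 0, 0, 0, 0, 0, 0, 0, 0, 0, 0],
  [5, 1, -1, 0, 0, 0, 0, 0, 0, 0, 0, 0, 0, 0],
  [1, 0, 0, 0, 0, 0, 0, 0, 0, 0, 0, 0, 0, 0]]

/-- Bernstein rows on triangle 1 -/
def BT1 : List (List ℤ) := [
  [1, 4, 8, 16, 32, 64, 64, 128, 256, 512, 256, 512, 1024, 1024],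
  [5, 20, 24, 80, 96, 64, 320, 384, 256, -512, 1280, 1536, 1024, 5120],
  [10, 40, 16, 160, 64, -128, 640, 256, -512, -1024, 2560, 1024, -2048, 10240],
  [10, 40, -16, 160, -64, -128, 640, -256, -512, 1024, 2560, -1024, -2048, 10240],
  [5, 20, -24, 80, -96, 64, 320, -384, 256, 512, 1280, -1536, 1024, 5120],
  [1, 4, -8, 16, -32, 64, 64, -128, 256, -512, 256, -512, 1024, 1024],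
  [5, 17, 31, 56, 100, 176, 176, 304, 512, 832, 512, 832, 1280, 1280],
  [20, 68, 60, 224, 192, -32, 704, 576, -128, -2048, 2048, 1536, -512, 5120],
  [30, 102, -6, 336, -24, -384, 1056, -96, -1152, 384, 3072, -384, -3072, 7680],
  [20, 68, -68, 224, -224, 32, 704, -704, 128, 2048, 2048, -2048, 512, 5120],
  [5, 17, -33, 56, -108, 208, 176, -336, 640, -1216, 512, -960, 1792, 1280],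
  [10, 28, 44, 73, 107, 145, 172, 224, 244, 152, 352, 368, 208, 640],
  [30, 84, 36, 219, 81, -237, 516, 144, -516, -1128, 1056, 144, -912, 1920],
  [30, 84, -60, 219, -159, -141, 516, -384, -228, 1896, 1056, -816, -144, 1920],
  [10, 28, -52, 73, -133, 241, 172, -304, 532, -920, 352, -592, 976, 640],
  [10, 22, 26, 43, 41, 19, 73, 47, -23, -145, 112, 44, -56, 160],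
  [20, 44, -12, 86, -30, -122, 146, -66, -110, 382, 224, -120, -80, 320],
  [10, 22, -38, 43, -71, 115, 73, -113, 169, -241, 112, -164, 232, 160],
  [5, 8, 4, 11, 1, -13, 14, -2, -10, 22, 17, -5, -7, 20],
  [5, 8, -12, 11, -15, 19, 14, -18, 22, -26, 17, -21, 25, 20],
  [1, 1, -1, 1, -1, 1, 1, -1, 1, -1, 1, -1, 1, 1]]

/-- Bernstein rows on triangle 2 -/
def BT2 : List (List ℤ) := [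
  [1, 1, 1, 1, 1, 1, 1, 1, 1, 1, 1, 1, 1, 1],
  [5, 8, 12, 11, 15, 19, 14, 18, 22, 26, 17, 21, 25, 20],
  [10, 22, 38, 43, 71, 115, 73, 113, 169, 241, 112, 164, 232, 160],
  [10, 28, 52, 73, 133, 241, 172, 304, 532, 920, 352, 592, 976, 640],
  [5, 17, 33, 56, 108, 208, 176, 336, 640, 1216, 512, 960, 1792, 1280],
  [1, 4, 8, 16, 32, 64, 64, 128, 256, 512, 256, 512, 1024, 1024],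
  [5, 5, 3, 5, 3, 1, 5, 3, 1, -1, 5, 3, 1, 5],
  [20, 32, 40, 44, 46, 32, 56, 52, 32, -4, 68, 58, 32, 80],
  [30, 66, 102, 129, 183, 237, 219, 273, 279, 141, 336, 372, 312, 480],
  [20, 56, 96, 146, 240, 382, 344, 528, 760, 976, 704, 960, 1120, 1280],
  [5, 17, 31, 56, 100, 176, 176, 304, 512, 832, 512, 832, 1280, 1280],
  [10, 10, 2, 10, 2, -2, 10, 2, -2, -2, 10, 2, -2, 10],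
  [30, 48, 48, 66, 48, -6, 84, 48, -12, -48, 102, 48, -18, 120],
  [30, 66, 90, 129, 153, 141, 219, 207, 87, -237, 336, 252, 24, 480],
  [10, 28, 44, 73, 107, 145, 172, 224, 244, 152, 352, 368, 208, 640],
  [10, 10, -2, 10, -2, -2, 10, -2, -2, 2, 10, -2, -2, 10],
  [20, 32, 24, 44, 18, -32, 56, 12, -32, 4, 68, 6, -32, 80],
  [10, 22, 26, 43, 41, 19, 73, 47, -23, -145, 112, 44, -56, 160],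
  [5, 5, -3, 5, -3, 1, 5, -3, 1, 1, 5, -3, 1, 5],
  [5, 8, 4, 11, 1, -13, 14, -2, -10, 22, 17, -5, -7, 20],
  [1, 1, -1, 1, -1, 1, 1, -1, 1, -1, 1, -1, 1, 1]]

/-- Bernstein rows on triangle 3 -/
def BT3 : List (List ℤ) := [
  [1, 9, 27, 81, 243, 729, 729, 2187, 6561, 19683, 6561, 19683, 59049, 59049],
  [5, 45, 81, 405, 729, 729, 3645, 6561, 6561, -19683, 32805, 59049, 59049, 295245],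
  [10, 90, 54, 810, 486, -1458, 7290, 4374, -13122, -39366, 65610, 39366, -118098, 590490],
  [10, 90, -54, 810, -486, -1458, 7290, -4374, -13122, 39366, 65610, -39366, -118098, 590490],
  [5, 45, -81, 405, -729, 729, 3645, -6561, 6561, 19683, 32805, -59049, 59049, 295245],
  [1, 9, -27, 81, -243, 729, 729, -2187, 6561, -19683, 6561, -19683, 59049, 59049],
  [5, 40, 100, 315, 765, 1755, 2430, 5670, 12150, 21870, 18225, 40095, 76545, 131220],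
  [20, 160, 184, 1260, 1386, -864, 9720, 10044, -7776, -78732, 72900, 68526, -69984, 524880],
  [30, 240, -48, 1890, -432, -4374, 14580, -3888, -32076, 34992, 109350, -34992, -223074, 787320],
  [20, 160, -248, 1260, -1962, 864, 9720, -15228, 7776, 78732, 72900, -115182, 69984, 524880],
  [5, 40, -116, 315, -909, 2619, 2430, -6966, 19926, -56862, 18225, -51759, 146529, 131220],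
  [10, 70, 130, 475, 805, 955, 3105, 4635, 3465, -10125, 19440, 24300, 3240, 116640],
  [30, 210, 66, 1425, 309, -3291, 9315, 891, -20169, -18873, 58320, -2916, -114696, 349920],
  [30, 210, -258, 1425, -1797, -699, 9315, -12123, -1161, 88857, 58320, -78732, 17496, 349920],
  [10, 70, -194, 475, -1301, 3547, 3105, -8379, 22473, -59859, 19440, -51516, 135432, 116640],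
  [10, 60, 60, 345, 255, -375, 1900, 880, -3020, -7640, 10080, 2160, -16560, 51840],
  [20, 120, -96, 690, -624, -1074, 3800, -3856, -3016, 33968, 20160, -22464, -3744, 103680],
  [10, 60, -156, 345, -879, 2217, 1900, -4736, 11668, -28376, 10080, -24624, 59472, 51840],
  [5, 25, -5, 120, -60, -240, 560, -400, -640, 4160, 2560, -2240, -1280, 11520],
  [5, 25, -59, 120, -276, 624, 560, -1264, 2816, -6208, 2560, -5696, 12544, 11520],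
  [1, 4, -8, 16, -32, 64, 64, -128, 256, -512, 256, -512, 1024, 1024]]

/-- Bernstein rows on triangle 4 -/
def BT4 : List (List ℤ) := [
  [1, 4, 8, 16, 32, 64, 64, 128, 256, 512, 256, 512, 1024, 1024],
  [5, 25, 59, 120, 276, 624, 560, 1264, 2816, 6208, 2560, 5696, 12544, 11520],
  [10, 60, 156, 345, 879, 2217, 1900, 4736, 11668, 28376, 10080, 24624, 59472, 51840],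
  [10, 70, 194, 475, 1301, 3547, 3105, 8379, 22473, 59859, 19440, 51516, 135432, 116640],
  [5, 40, 116, 315, 909, 2619, 2430, 6966, 19926, 56862, 18225, 51759, 146529, 131220],
  [1, 9, 27, 81, 243, 729, 729, 2187, 6561, 19683, 6561, 19683, 59049, 59049],
  [5, 20, 24, 80, 96, 64, 320, 384, 256, -512, 1280, 1536, 1024, 5120],
  [20, 100, 172, 480, 768, 864, 2240, 3392, 3456, -2048, 10240, 14848, 13824, 46080],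
  [30, 180, 372, 1035, 2013, 3291, 5700, 10352, 14684, 5592, 30240, 51408, 63216, 155520],
  [20, 140, 324, 950, 2106, 4246, 6210, 13014, 23634, 28998, 38880, 75816, 117936, 233280],
  [5, 40, 100, 315, 765, 1755, 2430, 5670, 12150, 21870, 18225, 40095, 76545, 131220],
  [10, 40, 16, 160, 64, -128, 640, 256, -512, -1024, 2560, 1024, -2048, 10240],
  [30, 150, 162, 720, 648, -384, 3360, 2592, -2176, -10368, 15360, 10368, -11264, 69120],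
  [30, 180, 276, 1035, 1389, 699, 5700, 6496, -4, -26328, 30240, 28944, -12816, 155520],
  [10, 70, 130, 475, 805, 955, 3105, 4635, 3465, -10125, 19440, 24300, 3240, 116640],
  [10, 40, -16, 160, -64, -128, 640, -256, -512, 1024, 2560, -1024, -2048, 10240],
  [20, 100, 44, 480, 96, -864, 2240, 64, -3456, 2048, 10240, -1024, -13824, 46080],
  [10, 60, 60, 345, 255, -375, 1900, 880, -3020, -7640, 10080, 2160, -16560, 51840],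
  [5, 20, -24, 80, -96, 64, 320, -384, 256, 512, 1280, -1536, 1024, 5120],
  [5, 25, -5, 120, -60, -240, 560, -400, -640, 4160, 2560, -2240, -1280, 11520],
  [1, 4, -8, 16, -32, 64, 64, -128, 256, -512, 256, -512, 1024, 1024]]

/-- Bernstein rows on triangle 5 -/
def BT5 : List (List ℤ) := [
  [1, 16, 64, 256, 1024, 4096, 4096, 16384, 65536, 262144, 65536, 262144, 1048576, 1048576],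
  [5, 80, 292, 1280, 4672, 16896, 20480, 74752, 270336, 966656, 327680, 1196032, 4325376, 5242880],
  [10, 160, 528, 2560, 8448, 27408, 40960, 135168, 438528, 1395712, 655360, 2162688, 7016448, 10485760],
  [10, 160, 472, 2560, 7552, 21808, 40960, 120832, 348928, 986688, 655360, 1933312, 5582848, 10485760],
  [5, 80, 208, 1280, 3328, 8496, 20480, 53248, 135936, 342144, 327680, 851968, 2174976, 5242880],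
  [1, 16, 36, 256, 576, 1296, 4096, 9216, 20736, 46656, 65536, 147456, 331776, 1048576],
  [5, 73, 229, 1056, 3216, 8832, 15104, 44288, 112640, 192512, 212992, 593920, 1343488, 2949120],
  [20, 292, 804, 4224, 11268, 26088, 60416, 154752, 327808, 372224, 851968, 2067456, 3811328, 11796480],
  [30, 438, 1038, 6336, 14508, 27624, 90624, 198528, 339728, 199152, 1277952, 2638848, 3799552, 17694720],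
  [20, 292, 580, 4224, 8076, 12312, 60416, 109952, 146592, 7776, 851968, 1451008, 1539072, 11796480],
  [5, 73, 117, 1056, 1620, 1944, 15104, 21888, 22032, -11664, 212992, 285696, 207360, 2949120],
  [10, 132, 276, 1713, 3261, 2649, 21808, 36832, 9232, -261440, 271872, 393984, -182016, 3317760],
  [30, 396, 660, 5139, 7683, 1731, 65424, 84932, -32168, -609012, 815616, 879552, -1046016, 9953280],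
  [30, 396, 492, 5139, 5583, -2133, 65424, 59368, -65376, -410184, 815616, 577152, -1256688, 9953280],
  [10, 132, 108, 1713, 1161, -1215, 21808, 11268, -23976, -84564, 271872, 91584, -392688, 3317760],
  [10, 118, 94, 1363, 727, -4085, 15417, 4149, -50751, -71523, 171072, 3888, -546912, 1866240],
  [20, 236, 76, 2726, 250, -7218, 30834, -4302, -82350, 24786, 342144, -121500, -826200, 3732480],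
  [10, 118, -18, 1363, -477, -2349, 15417, -8451, -24543, 32805, 171072, -125388, -215784, 1866240],
  [5, 52, -44, 531, -585, -1269, 5346, -6966, -6318, 100602, 53217, -78003, -10935, 524880],
  [5, 52, -72, 531, -837, 243, 5346, -9234, 7290, 39366, 53217, -98415, 111537, 524880],
  [1, 9, -27, 81, -243, 729, 729, -2187, 6561, -19683, 6561, -19683, 59049, 59049]]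

/-- Bernstein rows on triangle 6 -/
def BT6 : List (List ℤ) := [
  [1, 9, 27, 81, 243, 729, 729, 2187, 6561, 19683, 6561, 19683, 59049, 59049],
  [5, 52, 172, 531, 1737, 5643, 5346, 17334, 55890, 179334, 53217, 171315, 548937, 524880],
  [10, 118, 418, 1363, 4777, 16651, 15417, 53451, 184257, 631395, 171072, 587088, 2003616, 1866240],
  [10, 132, 492, 1713, 6339, 23385, 21808, 80032, 292624, 1065664, 271872, 988416, 3578112, 3317760],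
  [5, 73, 283, 1056, 4080, 15744, 15104, 58112, 223232, 856064, 212992, 815104, 3112960, 2949120],
  [1, 16, 64, 256, 1024, 4096, 4096, 16384, 65536, 262144, 65536, 262144, 1048576, 1048576],
  [5, 45, 81, 405, 729, 729, 3645, 6561, 6561, -19683, 32805, 59049, 59049, 295245],
  [20, 208, 472, 2124, 4626, 6912, 21384, 45036, 62208, -78732, 212868, 435942, 559872, 2099520],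
  [30, 354, 930, 4089, 10281, 20469, 46251, 111051, 198207, -7209, 513216, 1178064, 1874016, 5598720],
  [20, 264, 768, 3426, 9600, 23118, 43616, 116864, 255200, 244352, 543744, 1382400, 2649600, 6635520],
  [5, 73, 229, 1056, 3216, 8832, 15104, 44288, 112640, 192512, 212992, 593920, 1343488, 2949120],
  [10, 90, 54, 810, 486, -1458, 7290, 4374, -13122, -39366, 65610, 39366, -118098, 590490],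
  [30, 312, 384, 3186, 3456, -4374, 32076, 31104, -49572, -279936, 319302, 279936, -538002, 3149280],
  [30, 354, 606, 4089, 6231, -267, 46251, 61749, -36801, -552663, 513216, 594864, -676512, 5598720],
  [10, 132, 276, 1713, 3261, 2649, 21808, 36832, 9232, -261440, 271872, 393984, -182016, 3317760],
  [10, 90, -54, 810, -486, -1458, 7290, -4374, -13122, 39366, 65610, -39366, -118098, 590490],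
  [20, 208, 40, 2124, -18, -6912, 21384, -3564, -62208, 78732, 212868, -62694, -559872, 2099520],
  [10, 118, 94, 1363, 727, -4085, 15417, 4149, -50751, -71523, 171072, 3888, -546912, 1866240],
  [5, 45, -81, 405, -729, 729, 3645, -6561, 6561, 19683, 32805, -59049, 59049, 295245],
  [5, 52, -44, 531, -585, -1269, 5346, -6966, -6318, 100602, 53217, -78003, -10935, 524880],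
  [1, 9, -27, 81, -243, 729, 729, -2187, 6561, -19683, 6561, -19683, 59049, 59049]]

/-- Bernstein rows on triangle 7 -/
def BT7 : List (List ℤ) := [
  [1, 25, 125, 625, 3125, 15625, 15625, 78125, 390625, 1953125, 390625, 1953125, 9765625, 9765625],
  [5, 125, 617, 3125, 15425, 76125, 78125, 385625, 1903125, 9390625, 1953125, 9640625, 47578125, 48828125],
  [10, 250, 1218, 6250, 30450, 148314, 156250, 761250, 3707850, 18055250, 3906250, 19031250, 92696250, 97656250],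
  [10, 250, 1202, 6250, 30050, 144442, 156250, 751250, 3611050, 17352738, 3906250, 18781250, 90276250, 97656250],
  [5, 125, 593, 3125, 14825, 70317, 78125, 370625, 1757925, 8336601, 1953125, 9265625, 43948125, 48828125],
  [1, 25, 117, 625, 2925, 13689, 15625, 73125, 342225, 1601613, 390625, 1828125, 8555625, 9765625],
  [5, 116, 536, 2675, 12275, 55875, 61250, 278750, 1256250, 5593750, 1390625, 6265625, 27890625, 31250000],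
  [20, 464, 2112, 10700, 48372, 216924, 245000, 1098600, 4878600, 21409000, 5562500, 24697500, 108352500, 125000000],
  [30, 696, 3120, 16050, 71466, 315714, 367500, 1623300, 7102524, 30719412, 8343750, 36498750, 157804950, 187500000],
  [20, 464, 2048, 10700, 46916, 204156, 245000, 1065800, 4594248, 19585800, 5562500, 23967500, 102114900, 125000000],
  [5, 116, 504, 2675, 11547, 49491, 61250, 262350, 1114074, 4681638, 1390625, 5900625, 24771825, 31250000],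
  [10, 214, 894, 4531, 18651, 75171, 94825, 383925, 1517025, 5814125, 1960000, 7792500, 30135000, 40000000],
  [30, 642, 2634, 13593, 54969, 217785, 284475, 1131927, 4399059, 16604271, 5880000, 22983900, 87472200, 120000000],
  [30, 642, 2586, 13593, 53985, 210249, 284475, 1112079, 4250691, 15803991, 5880000, 22590300, 84606984, 120000000],
  [10, 214, 846, 4531, 17667, 67635, 94825, 364077, 1368657, 5013333, 1960000, 7398900, 27269784, 40000000],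
  [10, 196, 716, 3793, 13553, 46513, 72496, 253316, 848536, 2706156, 1369600, 4683200, 15350800, 25600000],
  [20, 392, 1400, 7586, 26522, 89298, 144992, 496136, 1632240, 5134104, 2739200, 9180032, 29581344, 51200000],
  [10, 196, 684, 3793, 12969, 42849, 72496, 242820, 784728, 2434860, 1369600, 4496832, 14246928, 25600000],
  [5, 89, 269, 1568, 4628, 12888, 27392, 79232, 217872, 579312, 475136, 1350656, 3672576, 8192000],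
  [5, 89, 261, 1568, 4500, 12312, 27392, 77184, 208656, 548208, 475136, 1317888, 3525120, 8192000],
  [1, 16, 36, 256, 576, 1296, 4096, 9216, 20736, 46656, 65536, 147456, 331776, 1048576]]

/-- Bernstein rows on triangle 8 -/
def BT8 : List (List ℤ) := [
  [1, 16, 64, 256, 1024, 4096, 4096, 16384, 65536, 262144, 65536, 262144, 1048576, 1048576],
  [5, 89, 381, 1568, 6672, 28288, 27392, 115968, 489472, 2060288, 475136, 2002944, 8421376, 8192000],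
  [10, 196, 884, 3793, 16997, 75913, 72496, 322784, 1432336, 6334144, 1369600, 6060800, 26732800, 25600000],
  [10, 214, 1006, 4531, 21199, 98971, 94825, 441325, 2049025, 9489125, 1960000, 9070000, 41860000, 40000000],
  [5, 116, 564, 2675, 12975, 62875, 61250, 296250, 1431250, 6906250, 1390625, 6703125, 32265625, 31250000],
  [1, 25, 125, 625, 3125, 15625, 15625, 78125, 390625, 1953125, 390625, 1953125, 9765625, 9765625],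
  [5, 80, 292, 1280, 4672, 16896, 20480, 74752, 270336, 966656, 327680, 1196032, 4325376, 5242880],
  [20, 356, 1412, 6272, 24644, 95400, 109568, 427136, 1641600, 6209024, 1900544, 7359488, 28108800, 32768000],
  [30, 588, 2484, 11379, 47547, 195987, 217488, 898884, 3661464, 14657868, 4108800, 16804800, 67699200, 76800000],
  [20, 428, 1900, 9062, 39850, 173358, 189650, 825250, 3546450, 15009250, 3920000, 16862500, 71505000, 80000000],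
  [5, 116, 536, 2675, 12275, 55875, 61250, 278750, 1256250, 5593750, 1390625, 6265625, 27890625, 31250000],
  [10, 160, 528, 2560, 8448, 27408, 40960, 135168, 438528, 1395712, 655360, 2162688, 7016448, 10485760],
  [30, 534, 1950, 9408, 33900, 118824, 164352, 585600, 2032656, 6860400, 2850816, 10060800, 34626048, 49152000],
  [30, 588, 2316, 11379, 44103, 166587, 217488, 829416, 3077664, 11051832, 4108800, 15427200, 56317200, 76800000],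
  [10, 214, 894, 4531, 18651, 75171, 94825, 383925, 1517025, 5814125, 1960000, 7792500, 30135000, 40000000],
  [10, 160, 472, 2560, 7552, 21808, 40960, 120832, 348928, 986688, 655360, 1933312, 5582848, 10485760],
  [20, 356, 1188, 6272, 20556, 64600, 109568, 353664, 1098400, 3290976, 1900544, 6054912, 18611200, 32768000],
  [10, 196, 716, 3793, 13553, 46513, 72496, 253316, 848536, 2706156, 1369600, 4683200, 15350800, 25600000],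
  [5, 80, 208, 1280, 3328, 8496, 20480, 53248, 135936, 342144, 327680, 851968, 2174976, 5242880],
  [5, 89, 269, 1568, 4628, 12888, 27392, 79232, 217872, 579312, 475136, 1350656, 3672576, 8192000],
  [1, 16, 36, 256, 576, 1296, 4096, 9216, 20736, 46656, 65536, 147456, 331776, 1048576]]

/-- Bernstein rows on triangle 9 -/
def BT9 : List (List ℤ) := [
  [1, 25, 125, 625, 3125, 15625, 15625, 78125, 390625, 1953125, 390625, 1953125, 9765625, 9765625],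
  [5, 136, 716, 3675, 19275, 100875, 98750, 516250, 2693750, 14031250, 2640625, 13765625, 71640625, 70312500],
  [10, 294, 1614, 8571, 46851, 255531, 247825, 1348925, 7326025, 39699125, 7110000, 38542500, 208485000, 202500000],
  [10, 316, 1796, 9913, 56153, 317593, 308556, 1741536, 9812916, 55194696, 9525600, 53557200, 300574800, 291600000],
  [5, 169, 989, 5688, 33228, 193968, 190512, 1110672, 6469632, 37651392, 6345216, 36904896, 214430976, 209952000],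
  [1, 36, 216, 1296, 7776, 46656, 46656, 279936, 1679616, 10077696, 1679616, 10077696, 60466176, 60466176],
  [5, 125, 617, 3125, 15425, 76125, 78125, 385625, 1903125, 9390625, 1953125, 9640625, 47578125, 48828125],
  [20, 544, 2832, 14700, 76212, 394044, 395000, 2040600, 10516600, 54079000, 10562500, 54397500, 279552500, 281250000],
  [30, 882, 4794, 25713, 139089, 750225, 743475, 4002607, 21486859, 115010631, 21330000, 114309900, 610882200, 607500000],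
  [20, 632, 3560, 19826, 111242, 622818, 617112, 3447936, 19218600, 106853904, 19051200, 105963552, 587857824, 583200000],
  [5, 169, 981, 5688, 32940, 190512, 190512, 1100304, 6345216, 36531648, 6345216, 36531648, 209952000, 209952000],
  [10, 250, 1218, 6250, 30450, 148314, 156250, 761250, 3707850, 18055250, 3906250, 19031250, 92696250, 97656250],
  [30, 816, 4200, 22050, 112986, 577074, 592500, 3024300, 15392804, 78138972, 15843750, 80598750, 408968950, 421875000],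
  [30, 882, 4746, 25713, 137625, 734049, 743475, 3958439, 21001851, 111030831, 21330000, 112992300, 596507544, 607500000],
  [10, 316, 1764, 9913, 55089, 305289, 308556, 1706400, 9407988, 51700680, 9525600, 52406352, 287365968, 291600000],
  [10, 250, 1202, 6250, 30050, 144442, 156250, 751250, 3611050, 17352738, 3906250, 18781250, 90276250, 97656250],
  [20, 544, 2768, 14700, 74436, 375516, 395000, 1991800, 10010808, 50164920, 10562500, 53067500, 265842900, 281250000],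
  [10, 294, 1566, 8571, 45387, 239355, 247825, 1304757, 6841017, 35718813, 7110000, 37224900, 194110344, 202500000],
  [5, 125, 593, 3125, 14825, 70317, 78125, 370625, 1757925, 8336601, 1953125, 9265625, 43948125, 48828125],
  [5, 136, 684, 3675, 18387, 91611, 98750, 491850, 2440854, 12073698, 2640625, 13100625, 64785825, 70312500],
  [1, 25, 117, 625, 2925, 13689, 15625, 73125, 342225, 1601613, 390625, 1828125, 8555625, 9765625]]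

/-- all Bernstein coefficients of the row are nonnegative -/
def rowOK (y : List ℤ) : Bool :=
  (BT0.all fun r => decide (0 ≤ dotI r y)) && (BT1.all fun r => decide (0 ≤ dotI r y)) && (BT2.all fun r => decide (0 ≤ dotI r y)) && (BT3.all fun r => decide (0 ≤ dotI r y)) && (BT4.all fun r => decide (0 ≤ dotI r y)) && (BT5.all fun r => decide (0 ≤ dotI r y)) && (BT6.all fun r => decide (0 ≤ dotI r y)) && (BT7.all fun r => decide (0 ≤ dotI r y)) && (BT8.all fun r => decide (0 ≤ dotI r y)) && (BT9.all fun r => decide (0 ≤ dotI r y))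

set_option maxHeartbeats 8000000 in
theorem tri0 (y0 y1 y2 y3 y4 y5 y6 y7 y8 y9 y10 y11 y12 y13 : ℤ) (h : (BT0.all fun r => decide (0 ≤ dotI r [y0, y1, y2, y3, y4, y5, y6, y7, y8, y9, y10, y11, y12, y13])) = true)
    (l1 l2 l3 : ℝ) (h1 : 0 ≤ l1) (h2 : 0 ≤ l2) (h3 : 0 ≤ l3) (hs : l1 + l2 + l3 = 1) :
    0 ≤ evalRow y0 y1 y2 y3 y4 y5 y6 y7 y8 y9 y10 y11 y12 y13 (l1 * (0) + l2 * (1) + l3 * (1)) (l1 * (0) + l2 * (-1) + l3 * (1)) := by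
  simp only [BT0, List.all_cons, List.all_nil, Bool.and_true, Bool.and_eq_true, decide_eq_true_eq, dotI] at h
  obtain ⟨h0, h1, h2, h3, h4, h5, h6, h7, h8, h9, h10, h11, h12, h13, h14, h15, h16, h17, h18, h19, h20⟩ := h
  have H0 : (0 : ℝ) ≤ (1 : ℝ) * (y0 : ℝ) + ((1 : ℝ) * (y1 : ℝ) + ((1 : ℝ) * (y2 : ℝ) + ((1 : ℝ) * (y3 : ℝ) + ((1 : ℝ) * (y4 : ℝ) + ((1 : ℝ) * (y5 : ℝ) + ((1 : ℝ) * (y6 : ℝ) + ((1 : ℝ) * (y7 : ℝ) + ((1 : ℝ) * (y8 : ℝ) + ((1 : ℝ) * (y9 : ℝ) + ((1 : ℝ) * (y10 : ℝ) + ((1 : ℝ) * (y11 : ℝ) + ((1 : ℝ) * (y12 : ℝ) + ((1 : ℝ) * (y13 : ℝ) + 0))))))))))))) := by exact_mod_cast h0;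
  have H1 : (0 : ℝ) ≤ (5 : ℝ) * (y0 : ℝ) + ((5 : ℝ) * (y1 : ℝ) + ((3 : ℝ) * (y2 : ℝ) + ((5 : ℝ) * (y3 : ℝ) + ((3 : ℝ) * (y4 : ℝ) + ((1 : ℝ) * (y5 : ℝ) + ((5 : ℝ) * (y6 : ℝ) + ((3 : ℝ) * (y7 : ℝ) + ((1 : ℝ) * (y8 : ℝ) + ((-1 : ℝ) * (y9 : ℝ) + ((5 : ℝ) * (y10 : ℝ) + ((3 : ℝ) * (y11 : ℝ) + ((1 : ℝ) * (y12 : ℝ) + ((5 : ℝ) * (y13 : ℝ) + 0))))))))))))) := by exact_mod_cast h1;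
  have H2 : (0 : ℝ) ≤ (10 : ℝ) * (y0 : ℝ) + ((10 : ℝ) * (y1 : ℝ) + ((2 : ℝ) * (y2 : ℝ) + ((10 : ℝ) * (y3 : ℝ) + ((2 : ℝ) * (y4 : ℝ) + ((-2 : ℝ) * (y5 : ℝ) + ((10 : ℝ) * (y6 : ℝ) + ((2 : ℝ) * (y7 : ℝ) + ((-2 : ℝ) * (y8 : ℝ) + ((-2 : ℝ) * (y9 : ℝ) + ((10 : ℝ) * (y10 : ℝ) + ((2 : ℝ) * (y11 : ℝ) + ((-2 : ℝ) * (y12 : ℝ) + ((10 : ℝ) * (y13 : ℝ) + 0))))))))))))) := by exact_mod_cast h2;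
  have H3 : (0 : ℝ) ≤ (10 : ℝ) * (y0 : ℝ) + ((10 : ℝ) * (y1 : ℝ) + ((-2 : ℝ) * (y2 : ℝ) + ((10 : ℝ) * (y3 : ℝ) + ((-2 : ℝ) * (y4 : ℝ) + ((-2 : ℝ) * (y5 : ℝ) + ((10 : ℝ) * (y6 : ℝ) + ((-2 : ℝ) * (y7 : ℝ) + ((-2 : ℝ) * (y8 : ℝ) + ((2 : ℝ) * (y9 : ℝ) + ((10 : ℝ) * (y10 : ℝ) + ((-2 : ℝ) * (y11 : ℝ) + ((-2 : ℝ) * (y12 : ℝ) + ((10 : ℝ) * (y13 : ℝ) + 0))))))))))))) := by exact_mod_cast h3;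
  have H4 : (0 : ℝ) ≤ (5 : ℝ) * (y0 : ℝ) + ((5 : ℝ) * (y1 : ℝ) + ((-3 : ℝ) * (y2 : ℝ) + ((5 : ℝ) * (y3 : ℝ) + ((-3 : ℝ) * (y4 : ℝ) + ((1 : ℝ) * (y5 : ℝ) + ((5 : ℝ) * (y6 : ℝ) + ((-3 : ℝ) * (y7 : ℝ) + ((1 : ℝ) * (y8 : ℝ) + ((1 : ℝ) * (y9 : ℝ) + ((5 : ℝ) * (y10 : ℝ) + ((-3 : ℝ) * (y11 : ℝ) + ((1 : ℝ) * (y12 : ℝ) + ((5 : ℝ) * (y13 : ℝ) + 0))))))))))))) := by exact_mod_cast h4;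
  have H5 : (0 : ℝ) ≤ (1 : ℝ) * (y0 : ℝ) + ((1 : ℝ) * (y1 : ℝ) + ((-1 : ℝ) * (y2 : ℝ) + ((1 : ℝ) * (y3 : ℝ) + ((-1 : ℝ) * (y4 : ℝ) + ((1 : ℝ) * (y5 : ℝ) + ((1 : ℝ) * (y6 : ℝ) + ((-1 : ℝ) * (y7 : ℝ) + ((1 : ℝ) * (y8 : ℝ) + ((-1 : ℝ) * (y9 : ℝ) + ((1 : ℝ) * (y10 : ℝ) + ((-1 : ℝ) * (y11 : ℝ) + ((1 : ℝ) * (y12 : ℝ) + ((1 : ℝ) * (y13 : ℝ) + 0))))))))))))) := by exact_mod_cast h5;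
  have H6 : (0 : ℝ) ≤ (5 : ℝ) * (y0 : ℝ) + ((4 : ℝ) * (y1 : ℝ) + ((4 : ℝ) * (y2 : ℝ) + ((3 : ℝ) * (y3 : ℝ) + ((3 : ℝ) * (y4 : ℝ) + ((3 : ℝ) * (y5 : ℝ) + ((2 : ℝ) * (y6 : ℝ) + ((2 : ℝ) * (y7 : ℝ) + ((2 : ℝ) * (y8 : ℝ) + ((2 : ℝ) * (y9 : ℝ) + ((1 : ℝ) * (y10 : ℝ) + ((1 : ℝ) * (y11 : ℝ) + ((1 : ℝ) * (y12 : ℝ) + ((0 : ℝ) * (y13 : ℝ) + 0))))))))))))) := by exact_mod_cast h6;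
  have H7 : (0 : ℝ) ≤ (20 : ℝ) * (y0 : ℝ) + ((16 : ℝ) * (y1 : ℝ) + ((8 : ℝ) * (y2 : ℝ) + ((12 : ℝ) * (y3 : ℝ) + ((6 : ℝ) * (y4 : ℝ) + ((0 : ℝ) * (y5 : ℝ) + ((8 : ℝ) * (y6 : ℝ) + ((4 : ℝ) * (y7 : ℝ) + ((0 : ℝ) * (y8 : ℝ) + ((-4 : ℝ) * (y9 : ℝ) + ((4 : ℝ) * (y10 : ℝ) + ((2 : ℝ) * (y11 : ℝ) + ((0 : ℝ) * (y12 : ℝ) + ((0 : ℝ) * (y13 : ℝ) + 0))))))))))))) := by exact_mod_cast h7;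
  have H8 : (0 : ℝ) ≤ (30 : ℝ) * (y0 : ℝ) + ((24 : ℝ) * (y1 : ℝ) + ((0 : ℝ) * (y2 : ℝ) + ((18 : ℝ) * (y3 : ℝ) + ((0 : ℝ) * (y4 : ℝ) + ((-6 : ℝ) * (y5 : ℝ) + ((12 : ℝ) * (y6 : ℝ) + ((0 : ℝ) * (y7 : ℝ) + ((-4 : ℝ) * (y8 : ℝ) + ((0 : ℝ) * (y9 : ℝ) + ((6 : ℝ) * (y10 : ℝ) + ((0 : ℝ) * (y11 : ℝ) + ((-2 : ℝ) * (y12 : ℝ) + ((0 : ℝ) * (y13 : ℝ) + 0))))))))))))) := by exact_mod_cast h8;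
  have H9 : (0 : ℝ) ≤ (20 : ℝ) * (y0 : ℝ) + ((16 : ℝ) * (y1 : ℝ) + ((-8 : ℝ) * (y2 : ℝ) + ((12 : ℝ) * (y3 : ℝ) + ((-6 : ℝ) * (y4 : ℝ) + ((0 : ℝ) * (y5 : ℝ) + ((8 : ℝ) * (y6 : ℝ) + ((-4 : ℝ) * (y7 : ℝ) + ((0 : ℝ) * (y8 : ℝ) + ((4 : ℝ) * (y9 : ℝ) + ((4 : ℝ) * (y10 : ℝ) + ((-2 : ℝ) * (y11 : ℝ) + ((0 : ℝ) * (y12 : ℝ) + ((0 : ℝ) * (y13 : ℝ) + 0))))))))))))) := by exact_mod_cast h9;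
  have H10 : (0 : ℝ) ≤ (5 : ℝ) * (y0 : ℝ) + ((4 : ℝ) * (y1 : ℝ) + ((-4 : ℝ) * (y2 : ℝ) + ((3 : ℝ) * (y3 : ℝ) + ((-3 : ℝ) * (y4 : ℝ) + ((3 : ℝ) * (y5 : ℝ) + ((2 : ℝ) * (y6 : ℝ) + ((-2 : ℝ) * (y7 : ℝ) + ((2 : ℝ) * (y8 : ℝ) + ((-2 : ℝ) * (y9 : ℝ) + ((1 : ℝ) * (y10 : ℝ) + ((-1 : ℝ) * (y11 : ℝ) + ((1 : ℝ) * (y12 : ℝ) + ((0 : ℝ) * (y13 : ℝ) + 0))))))))))))) := by exact_mod_cast h10;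
  have H11 : (0 : ℝ) ≤ (10 : ℝ) * (y0 : ℝ) + ((6 : ℝ) * (y1 : ℝ) + ((6 : ℝ) * (y2 : ℝ) + ((3 : ℝ) * (y3 : ℝ) + ((3 : ℝ) * (y4 : ℝ) + ((3 : ℝ) * (y5 : ℝ) + ((1 : ℝ) * (y6 : ℝ) + ((1 : ℝ) * (y7 : ℝ) + ((1 : ℝ) * (y8 : ℝ) + ((1 : ℝ) * (y9 : ℝ) + ((0 : ℝ) * (y10 : ℝ) + ((0 : ℝ) * (y11 : ℝ) + ((0 : ℝ) * (y12 : ℝ) + ((0 : ℝ) * (y13 : ℝ) + 0))))))))))))) := by exact_mod_cast h11;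
  have H12 : (0 : ℝ) ≤ (30 : ℝ) * (y0 : ℝ) + ((18 : ℝ) * (y1 : ℝ) + ((6 : ℝ) * (y2 : ℝ) + ((9 : ℝ) * (y3 : ℝ) + ((3 : ℝ) * (y4 : ℝ) + ((-3 : ℝ) * (y5 : ℝ) + ((3 : ℝ) * (y6 : ℝ) + ((1 : ℝ) * (y7 : ℝ) + ((-1 : ℝ) * (y8 : ℝ) + ((-3 : ℝ) * (y9 : ℝ) + ((0 : ℝ) * (y10 : ℝ) + ((0 : ℝ) * (y11 : ℝ) + ((0 : ℝ) * (y12 : ℝ) + ((0 : ℝ) * (y13 : ℝ) + 0))))))))))))) := by exact_mod_cast h12;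
  have H13 : (0 : ℝ) ≤ (30 : ℝ) * (y0 : ℝ) + ((18 : ℝ) * (y1 : ℝ) + ((-6 : ℝ) * (y2 : ℝ) + ((9 : ℝ) * (y3 : ℝ) + ((-3 : ℝ) * (y4 : ℝ) + ((-3 : ℝ) * (y5 : ℝ) + ((3 : ℝ) * (y6 : ℝ) + ((-1 : ℝ) * (y7 : ℝ) + ((-1 : ℝ) * (y8 : ℝ) + ((3 : ℝ) * (y9 : ℝ) + ((0 : ℝ) * (y10 : ℝ) + ((0 : ℝ) * (y11 : ℝ) + ((0 : ℝ) * (y12 : ℝ) + ((0 : ℝ) * (y13 : ℝ) + 0))))))))))))) := by exact_mod_cast h13;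
  have H14 : (0 : ℝ) ≤ (10 : ℝ) * (y0 : ℝ) + ((6 : ℝ) * (y1 : ℝ) + ((-6 : ℝ) * (y2 : ℝ) + ((3 : ℝ) * (y3 : ℝ) + ((-3 : ℝ) * (y4 : ℝ) + ((3 : ℝ) * (y5 : ℝ) + ((1 : ℝ) * (y6 : ℝ) + ((-1 : ℝ) * (y7 : ℝ) + ((1 : ℝ) * (y8 : ℝ) + ((-1 : ℝ) * (y9 : ℝ) + ((0 : ℝ) * (y10 : ℝ) + ((0 : ℝ) * (y11 : ℝ) + ((0 : ℝ) * (y12 : ℝ) + ((0 : ℝ) * (y13 : ℝ) + 0))))))))))))) := by exact_mod_cast h14;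
  have H15 : (0 : ℝ) ≤ (10 : ℝ) * (y0 : ℝ) + ((4 : ℝ) * (y1 : ℝ) + ((4 : ℝ) * (y2 : ℝ) + ((1 : ℝ) * (y3 : ℝ) + ((1 : ℝ) * (y4 : ℝ) + ((1 : ℝ) * (y5 : ℝ) + ((0 : ℝ) * (y6 : ℝ) + ((0 : ℝ) * (y7 : ℝ) + ((0 : ℝ) * (y8 : ℝ) + ((0 : ℝ) * (y9 : ℝ) + ((0 : ℝ) * (y10 : ℝ) + ((0 : ℝ) * (y11 : ℝ) + ((0 : ℝ) * (y12 : ℝ) + ((0 : ℝ) * (y13 : ℝ) + 0))))))))))))) := by exact_mod_cast h15;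
  have H16 : (0 : ℝ) ≤ (20 : ℝ) * (y0 : ℝ) + ((8 : ℝ) * (y1 : ℝ) + ((0 : ℝ) * (y2 : ℝ) + ((2 : ℝ) * (y3 : ℝ) + ((0 : ℝ) * (y4 : ℝ) + ((-2 : ℝ) * (y5 : ℝ) + ((0 : ℝ) * (y6 : ℝ) + ((0 : ℝ) * (y7 : ℝ) + ((0 : ℝ) * (y8 : ℝ) + ((0 : ℝ) * (y9 : ℝ) + ((0 : ℝ) * (y10 : ℝ) + ((0 : ℝ) * (y11 : ℝ) + ((0 : ℝ) * (y12 : ℝ) + ((0 : ℝ) * (y13 : ℝ) + 0))))))))))))) := by exact_mod_cast h16;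
  have H17 : (0 : ℝ) ≤ (10 : ℝ) * (y0 : ℝ) + ((4 : ℝ) * (y1 : ℝ) + ((-4 : ℝ) * (y2 : ℝ) + ((1 : ℝ) * (y3 : ℝ) + ((-1 : ℝ) * (y4 : ℝ) + ((1 : ℝ) * (y5 : ℝ) + ((0 : ℝ) * (y6 : ℝ) + ((0 : ℝ) * (y7 : ℝ) + ((0 : ℝ) * (y8 : ℝ) + ((0 : ℝ) * (y9 : ℝ) + ((0 : ℝ) * (y10 : ℝ) + ((0 : ℝ) * (y11 : ℝ) + ((0 : ℝ) * (y12 : ℝ) + ((0 : ℝ) * (y13 : ℝ) + 0))))))))))))) := by exact_mod_cast h17;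
  have H18 : (0 : ℝ) ≤ (5 : ℝ) * (y0 : ℝ) + ((1 : ℝ) * (y1 : ℝ) + ((1 : ℝ) * (y2 : ℝ) + ((0 : ℝ) * (y3 : ℝ) + ((0 : ℝ) * (y4 : ℝ) + ((0 : ℝ) * (y5 : ℝ) + ((0 : ℝ) * (y6 : ℝ) + ((0 : ℝ) * (y7 : ℝ) + ((0 : ℝ) * (y8 : ℝ) + ((0 : ℝ) * (y9 : ℝ) + ((0 : ℝ) * (y10 : ℝ) + ((0 : ℝ) * (y11 : ℝ) + ((0 : ℝ) * (y12 : ℝ) + ((0 : ℝ) * (y13 : ℝ) + 0))))))))))))) := by exact_mod_cast h18;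
  have H19 : (0 : ℝ) ≤ (5 : ℝ) * (y0 : ℝ) + ((1 : ℝ) * (y1 : ℝ) + ((-1 : ℝ) * (y2 : ℝ) + ((0 : ℝ) * (y3 : ℝ) + ((0 : ℝ) * (y4 : ℝ) + ((0 : ℝ) * (y5 : ℝ) + ((0 : ℝ) * (y6 : ℝ) + ((0 : ℝ) * (y7 : ℝ) + ((0 : ℝ) * (y8 : ℝ) + ((0 : ℝ) * (y9 : ℝ) + ((0 : ℝ) * (y10 : ℝ) + ((0 : ℝ) * (y11 : ℝ) + ((0 : ℝ) * (y12 : ℝ) + ((0 : ℝ) * (y13 : ℝ) + 0))))))))))))) := by exact_mod_cast h19;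
  have H20 : (0 : ℝ) ≤ (1 : ℝ) * (y0 : ℝ) + ((0 : ℝ) * (y1 : ℝ) + ((0 : ℝ) * (y2 : ℝ) + ((0 : ℝ) * (y3 : ℝ) + ((0 : ℝ) * (y4 : ℝ) + ((0 : ℝ) * (y5 : ℝ) + ((0 : ℝ) * (y6 : ℝ) + ((0 : ℝ) * (y7 : ℝ) + ((0 : ℝ) * (y8 : ℝ) + ((0 : ℝ) * (y9 : ℝ) + ((0 : ℝ) * (y10 : ℝ) + ((0 : ℝ) * (y11 : ℝ) + ((0 : ℝ) * (y12 : ℝ) + ((0 : ℝ) * (y13 : ℝ) + 0))))))))))))) := by exact_mod_cast h20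
  have key : evalRow y0 y1 y2 y3 y4 y5 y6 y7 y8 y9 y10 y11 y12 y13 (l1 * (0) + l2 * (1) + l3 * (1)) (l1 * (0) + l2 * (-1) + l3 * (1)) = (l1 ^ 0 * l2 ^ 0 * l3 ^ 5) * ((1 : ℝ) * (y0 : ℝ) + ((1 : ℝ) * (y1 : ℝ) + ((1 : ℝ) * (y2 : ℝ) + ((1 : ℝ) * (y3 : ℝ) + ((1 : ℝ) * (y4 : ℝ) + ((1 : ℝ) * (y5 : ℝ) + ((1 : ℝ) * (y6 : ℝ) + ((1 : ℝ) * (y7 : ℝ) + ((1 : ℝ) * (y8 : ℝ) + ((1 : ℝ) * (y9 : ℝ) + ((1 : ℝ) * (y10 : ℝ) + ((1 : ℝ) * (y11 : ℝ) + ((1 : ℝ) * (y12 : ℝ) + ((1 : ℝ) * (y13 : ℝ) + 0)))))))))))))) + (l1 ^ 0 * l2 ^ 1 * l3 ^ 4) * ((5 : ℝ) * (y0 : ℝ) + ((5 : ℝ) * (y1 : ℝ) + ((3 : ℝ) * (y2 : ℝ) + ((5 : ℝ) * (y3 : ℝ) + ((3 : ℝ) * (y4 : ℝ) + ((1 : ℝ) * (y5 : ℝ) + ((5 : ℝ) * (y6 : ℝ) + ((3 : ℝ) * (y7 : ℝ) + ((1 : ℝ) * (y8 : ℝ) +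 ((-1 : ℝ) * (y9 : ℝ) + ((5 : ℝ) * (y10 : ℝ) + ((3 : ℝ) * (y11 : ℝ) + ((1 : ℝ) * (y12 : ℝ) + ((5 : ℝ) * (y13 : ℝ) + 0)))))))))))))) + (l1 ^ 0 * l2 ^ 2 * l3 ^ 3) * ((10 : ℝ) * (y0 : ℝ) + ((10 : ℝ) * (y1 : ℝ) + ((2 : ℝ) * (y2 : ℝ) + ((10 : ℝ) * (y3 : ℝ) + ((2 : ℝ) * (y4 : ℝ) + ((-2 : ℝ) * (y5 : ℝ) + ((10 : ℝ) * (y6 : ℝ) + ((2 : ℝ) * (y7 : ℝ) + ((-2 : ℝ) * (y8 : ℝ) + ((-2 : ℝ) * (y9 : ℝ) + ((10 : ℝ) * (y10 : ℝ) + ((2 : ℝ) * (y11 : ℝ) + ((-2 : ℝ) * (y12 : ℝ) + ((10 : ℝ) * (y13 : ℝ) + 0)))))))))))))) + (l1 ^ 0 * l2 ^ 3 * l3 ^ 2) * ((10 : ℝ) * (y0 : ℝ) + ((10 : ℝ) * (y1 : ℝ) + ((-2 : ℝ) * (y2 : ℝ) + ((10 : ℝ) * (y3 : ℝ) + ((-2 : ℝ) * (y4 : ℝ) + ((-2 : ℝ) * (y5 : ℝ) + ((10 : ℝ) * (y6 : ℝ) + ((-2 : ℝ) * (y7 : ℝ) + ((-2 :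 ℝ) * (y8 : ℝ) + ((2 : ℝ) * (y9 : ℝ) + ((10 : ℝ) * (y10 : ℝ) + ((-2 : ℝ) * (y11 : ℝ) + ((-2 : ℝ) * (y12 : ℝ) + ((10 : ℝ) * (y13 : ℝ) + 0)))))))))))))) + (l1 ^ 0 * l2 ^ 4 * l3 ^ 1) * ((5 : ℝ) * (y0 : ℝ) + ((5 : ℝ) * (y1 : ℝ) + ((-3 : ℝ) * (y2 : ℝ) + ((5 : ℝ) * (y3 : ℝ) + ((-3 : ℝ) * (y4 : ℝ) + ((1 : ℝ) * (y5 : ℝ) + ((5 : ℝ) * (y6 : ℝ) + ((-3 : ℝ) * (y7 : ℝ) + ((1 : ℝ) * (y8 : ℝ) + ((1 : ℝ) * (y9 : ℝ) + ((5 : ℝ) * (y10 : ℝ) + ((-3 : ℝ) * (y11 : ℝ) + ((1 : ℝ) * (y12 : ℝ) + ((5 : ℝ) * (y13 : ℝ) + 0)))))))))))))) + (l1 ^ 0 * l2 ^ 5 * l3 ^ 0) * ((1 : ℝ) * (y0 : ℝ) + ((1 : ℝ) * (y1 : ℝ) + ((-1 : ℝ) * (y2 : ℝ) + ((1 : ℝ) * (y3 : ℝ) + ((-1 : ℝ) * (y4 : ℝ) + ((1 : ℝ) * (y5 : ℝ) + ((1 : ℝ) * (y6 : ℝ) + ((-1 : ℝ) * (y7 : ℝ)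 + ((1 : ℝ) * (y8 : ℝ) + ((-1 : ℝ) * (y9 : ℝ) + ((1 : ℝ) * (y10 : ℝ) + ((-1 : ℝ) * (y11 : ℝ) + ((1 : ℝ) * (y12 : ℝ) + ((1 : ℝ) * (y13 : ℝ) + 0)))))))))))))) + (l1 ^ 1 * l2 ^ 0 * l3 ^ 4) * ((5 : ℝ) * (y0 : ℝ) + ((4 : ℝ) * (y1 : ℝ) + ((4 : ℝ) * (y2 : ℝ) + ((3 : ℝ) * (y3 : ℝ) + ((3 : ℝ) * (y4 : ℝ) + ((3 : ℝ) * (y5 : ℝ) + ((2 : ℝ) * (y6 : ℝ) + ((2 : ℝ) * (y7 : ℝ) + ((2 : ℝ) * (y8 : ℝ) + ((2 : ℝ) * (y9 : ℝ) + ((1 : ℝ) * (y10 : ℝ) + ((1 : ℝ) * (y11 : ℝ) + ((1 : ℝ) * (y12 : ℝ) + ((0 : ℝ) * (y13 : ℝ) + 0)))))))))))))) + (l1 ^ 1 * l2 ^ 1 * l3 ^ 3) * ((20 : ℝ) * (y0 : ℝ) + ((16 : ℝ) * (y1 : ℝ) + ((8 : ℝ) * (y2 : ℝ) + ((12 : ℝ) * (y3 : ℝ) + ((6 : ℝ) * (y4 : ℝ) + ((0 : ℝ) * (y5 : ℝ) + ((8 : ℝ) * (y6 : ℝ) + ((4 : ℝ) * (y7 : ℝ)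 + ((0 : ℝ) * (y8 : ℝ) + ((-4 : ℝ) * (y9 : ℝ) + ((4 : ℝ) * (y10 : ℝ) + ((2 : ℝ) * (y11 : ℝ) + ((0 : ℝ) * (y12 : ℝ) + ((0 : ℝ) * (y13 : ℝ) + 0)))))))))))))) + (l1 ^ 1 * l2 ^ 2 * l3 ^ 2) * ((30 : ℝ) * (y0 : ℝ) + ((24 : ℝ) * (y1 : ℝ) + ((0 : ℝ) * (y2 : ℝ) + ((18 : ℝ) * (y3 : ℝ) + ((0 : ℝ) * (y4 : ℝ) + ((-6 : ℝ) * (y5 : ℝ) + ((12 : ℝ) * (y6 : ℝ) + ((0 : ℝ) * (y7 : ℝ) + ((-4 : ℝ) * (y8 : ℝ) + ((0 : ℝ) * (y9 : ℝ) + ((6 : ℝ) * (y10 : ℝ) + ((0 : ℝ) * (y11 : ℝ) + ((-2 : ℝ) * (y12 : ℝ) + ((0 : ℝ) * (y13 : ℝ) + 0)))))))))))))) + (l1 ^ 1 * l2 ^ 3 * l3 ^ 1) * ((20 : ℝ) * (y0 : ℝ) + ((16 : ℝ) * (y1 : ℝ) + ((-8 : ℝ) * (y2 : ℝ) + ((12 : ℝ) * (y3 : ℝ) + ((-6 : ℝ) * (y4 : ℝ) + ((0 : ℝ) * (y5 : ℝ) + ((8 : ℝ) * (y6 : ℝ) + ((-4 : ℝ)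 * (y7 : ℝ) + ((0 : ℝ) * (y8 : ℝ) + ((4 : ℝ) * (y9 : ℝ) + ((4 : ℝ) * (y10 : ℝ) + ((-2 : ℝ) * (y11 : ℝ) + ((0 : ℝ) * (y12 : ℝ) + ((0 : ℝ) * (y13 : ℝ) + 0)))))))))))))) + (l1 ^ 1 * l2 ^ 4 * l3 ^ 0) * ((5 : ℝ) * (y0 : ℝ) + ((4 : ℝ) * (y1 : ℝ) + ((-4 : ℝ) * (y2 : ℝ) + ((3 : ℝ) * (y3 : ℝ) + ((-3 : ℝ) * (y4 : ℝ) + ((3 : ℝ) * (y5 : ℝ) + ((2 : ℝ) * (y6 : ℝ) + ((-2 : ℝ) * (y7 : ℝ) + ((2 : ℝ) * (y8 : ℝ) + ((-2 : ℝ) * (y9 : ℝ) + ((1 : ℝ) * (y10 : ℝ) + ((-1 : ℝ) * (y11 : ℝ) + ((1 : ℝ) * (y12 : ℝ) + ((0 : ℝ) * (y13 : ℝ) + 0)))))))))))))) + (l1 ^ 2 * l2 ^ 0 * l3 ^ 3) * ((10 : ℝ) * (y0 : ℝ) + ((6 : ℝ) * (y1 : ℝ) + ((6 : ℝ) * (y2 : ℝ) + ((3 : ℝ) * (y3 : ℝ) + ((3 : ℝ) * (y4 : ℝ) + ((3 : ℝ) * (y5 : ℝ) + ((1 : ℝ) * (y6 : ℝ) + ((1 :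 ℝ) * (y7 : ℝ) + ((1 : ℝ) * (y8 : ℝ) + ((1 : ℝ) * (y9 : ℝ) + ((0 : ℝ) * (y10 : ℝ) + ((0 : ℝ) * (y11 : ℝ) + ((0 : ℝ) * (y12 : ℝ) + ((0 : ℝ) * (y13 : ℝ) + 0)))))))))))))) + (l1 ^ 2 * l2 ^ 1 * l3 ^ 2) * ((30 : ℝ) * (y0 : ℝ) + ((18 : ℝ) * (y1 : ℝ) + ((6 : ℝ) * (y2 : ℝ) + ((9 : ℝ) * (y3 : ℝ) + ((3 : ℝ) * (y4 : ℝ) + ((-3 : ℝ) * (y5 : ℝ) + ((3 : ℝ) * (y6 : ℝ) + ((1 : ℝ) * (y7 : ℝ) + ((-1 : ℝ) * (y8 : ℝ) + ((-3 : ℝ) * (y9 : ℝ) + ((0 : ℝ) * (y10 : ℝ) + ((0 : ℝ) * (y11 : ℝ) + ((0 : ℝ) * (y12 : ℝ) + ((0 : ℝ) * (y13 : ℝ) + 0)))))))))))))) + (l1 ^ 2 * l2 ^ 2 * l3 ^ 1) * ((30 : ℝ) * (y0 : ℝ) + ((18 : ℝ) * (y1 : ℝ) + ((-6 : ℝ) * (y2 : ℝ) + ((9 : ℝ) * (y3 : ℝ) + ((-3 : ℝ) * (y4 : ℝ) + ((-3 : ℝ) * (y5 : ℝ) + ((3 : ℝ) * (y6 : ℝ) +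 ((-1 : ℝ) * (y7 : ℝ) + ((-1 : ℝ) * (y8 : ℝ) + ((3 : ℝ) * (y9 : ℝ) + ((0 : ℝ) * (y10 : ℝ) + ((0 : ℝ) * (y11 : ℝ) + ((0 : ℝ) * (y12 : ℝ) + ((0 : ℝ) * (y13 : ℝ) + 0)))))))))))))) + (l1 ^ 2 * l2 ^ 3 * l3 ^ 0) * ((10 : ℝ) * (y0 : ℝ) + ((6 : ℝ) * (y1 : ℝ) + ((-6 : ℝ) * (y2 : ℝ) + ((3 : ℝ) * (y3 : ℝ) + ((-3 : ℝ) * (y4 : ℝ) + ((3 : ℝ) * (y5 : ℝ) + ((1 : ℝ) * (y6 : ℝ) + ((-1 : ℝ) * (y7 : ℝ) + ((1 : ℝ) * (y8 : ℝ) + ((-1 : ℝ) * (y9 : ℝ) + ((0 : ℝ) * (y10 : ℝ) + ((0 : ℝ) * (y11 : ℝ) + ((0 : ℝ) * (y12 : ℝ) + ((0 : ℝ) * (y13 : ℝ) + 0)))))))))))))) + (l1 ^ 3 * l2 ^ 0 * l3 ^ 2) * ((10 : ℝ) * (y0 : ℝ) + ((4 : ℝ) * (y1 : ℝ) + ((4 : ℝ) * (y2 : ℝ) + ((1 : ℝ) * (y3 : ℝ) + ((1 : ℝ) * (y4 : ℝ) + ((1 : ℝ) * (y5 : ℝ) + ((0 : ℝ) * (y6 :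 ℝ) + ((0 : ℝ) * (y7 : ℝ) + ((0 : ℝ) * (y8 : ℝ) + ((0 : ℝ) * (y9 : ℝ) + ((0 : ℝ) * (y10 : ℝ) + ((0 : ℝ) * (y11 : ℝ) + ((0 : ℝ) * (y12 : ℝ) + ((0 : ℝ) * (y13 : ℝ) + 0)))))))))))))) + (l1 ^ 3 * l2 ^ 1 * l3 ^ 1) * ((20 : ℝ) * (y0 : ℝ) + ((8 : ℝ) * (y1 : ℝ) + ((0 : ℝ) * (y2 : ℝ) + ((2 : ℝ) * (y3 : ℝ) + ((0 : ℝ) * (y4 : ℝ) + ((-2 : ℝ) * (y5 : ℝ) + ((0 : ℝ) * (y6 : ℝ) + ((0 : ℝ) * (y7 : ℝ) + ((0 : ℝ) * (y8 : ℝ) + ((0 : ℝ) * (y9 : ℝ) + ((0 : ℝ) * (y10 : ℝ) + ((0 : ℝ) * (y11 : ℝ) + ((0 : ℝ) * (y12 : ℝ) + ((0 : ℝ) * (y13 : ℝ) + 0)))))))))))))) + (l1 ^ 3 * l2 ^ 2 * l3 ^ 0) * ((10 : ℝ) * (y0 : ℝ) + ((4 : ℝ) * (y1 : ℝ) + ((-4 : ℝ) * (y2 : ℝ) + ((1 : ℝ) * (y3 : ℝ) + ((-1 : ℝ) * (y4 : ℝ) + ((1 : ℝ) * (y5 : ℝ) + ((0 : ℝ) * (y6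 : ℝ) + ((0 : ℝ) * (y7 : ℝ) + ((0 : ℝ) * (y8 : ℝ) + ((0 : ℝ) * (y9 : ℝ) + ((0 : ℝ) * (y10 : ℝ) + ((0 : ℝ) * (y11 : ℝ) + ((0 : ℝ) * (y12 : ℝ) + ((0 : ℝ) * (y13 : ℝ) + 0)))))))))))))) + (l1 ^ 4 * l2 ^ 0 * l3 ^ 1) * ((5 : ℝ) * (y0 : ℝ) + ((1 : ℝ) * (y1 : ℝ) + ((1 : ℝ) * (y2 : ℝ) + ((0 : ℝ) * (y3 : ℝ) + ((0 : ℝ) * (y4 : ℝ) + ((0 : ℝ) * (y5 : ℝ) + ((0 : ℝ) * (y6 : ℝ) + ((0 : ℝ) * (y7 : ℝ) + ((0 : ℝ) * (y8 : ℝ) + ((0 : ℝ) * (y9 : ℝ) + ((0 : ℝ) * (y10 : ℝ) + ((0 : ℝ) * (y11 : ℝ) + ((0 : ℝ) * (y12 : ℝ) + ((0 : ℝ) * (y13 : ℝ) + 0)))))))))))))) + (l1 ^ 4 * l2 ^ 1 * l3 ^ 0) * ((5 : ℝ) * (y0 : ℝ) + ((1 : ℝ) * (y1 : ℝ) + ((-1 : ℝ) * (y2 : ℝ) + ((0 : ℝ) * (y3 : ℝ) + ((0 : ℝ) * (y4 : ℝ) + ((0 : ℝ) * (y5 : ℝ) + ((0 : ℝ) * (y6 :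 ℝ) + ((0 : ℝ) * (y7 : ℝ) + ((0 : ℝ) * (y8 : ℝ) + ((0 : ℝ) * (y9 : ℝ) + ((0 : ℝ) * (y10 : ℝ) + ((0 : ℝ) * (y11 : ℝ) + ((0 : ℝ) * (y12 : ℝ) + ((0 : ℝ) * (y13 : ℝ) + 0)))))))))))))) + (l1 ^ 5 * l2 ^ 0 * l3 ^ 0) * ((1 : ℝ) * (y0 : ℝ) + ((0 : ℝ) * (y1 : ℝ) + ((0 : ℝ) * (y2 : ℝ) + ((0 : ℝ) * (y3 : ℝ) + ((0 : ℝ) * (y4 : ℝ) + ((0 : ℝ) * (y5 : ℝ) + ((0 : ℝ) * (y6 : ℝ) + ((0 : ℝ) * (y7 : ℝ) + ((0 : ℝ) * (y8 : ℝ) + ((0 : ℝ) * (y9 : ℝ) + ((0 : ℝ) * (y10 : ℝ) + ((0 : ℝ) * (y11 : ℝ) + ((0 : ℝ) * (y12 : ℝ) + ((0 : ℝ) * (y13 : ℝ) + 0)))))))))))))) := by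
    have hl3 : l3 = 1 - l1 - l2 := by linarith
    subst hl3
    unfold evalRow
    ring
  rw [key]
  exact add_nonneg (add_nonneg (add_nonneg (add_nonneg (add_nonneg (add_nonneg (add_nonneg (add_nonneg (add_nonneg (add_nonneg (add_nonneg (add_nonneg (add_nonneg (add_nonneg (add_nonneg (add_nonneg (add_nonneg (add_nonneg (add_nonneg (add_nonneg (mul_nonneg (by positivity) H0) (mul_nonneg (by positivity) H1)) (mul_nonneg (by positivity) H2)) (mul_nonneg (by positivity) H3)) (mul_nonneg (by positivity) H4)) (mul_nonneg (by positivity) H5)) (mul_nonneg (by positivity) H6)) (mul_nonneg (by positivity) H7)) (mul_nonneg (by positivity) H8)) (mul_nonneg (by positivity) H9)) (mul_nonneg (by positivity) H10)) (mul_nonneg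 (by positivity) H11)) (mul_nonneg (by positivity) H12)) (mul_nonneg (by positivity) H13)) (mul_nonneg (by positivity) H14)) (mul_nonneg (by positivity) H15)) (mul_nonneg (by positivity) H16)) (mul_nonneg (by positivity) H17)) (mul_nonneg (by positivity) H18)) (mul_nonneg (by positivity) H19)) (mul_nonneg (by positivity) H20)

set_option maxHeartbeats 8000000 in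
theorem tri1 (y0 y1 y2 y3 y4 y5 y6 y7 y8 y9 y10 y11 y12 y13 : ℤ) (h : (BT1.all fun r => decide (0 ≤ dotI r [y0, y1, y2, y3, y4, y5, y6, y7, y8, y9, y10, y11, y12, y13])) = true)
    (l1 l2 l3 : ℝ) (h1 : 0 ≤ l1) (h2 : 0 ≤ l2) (h3 : 0 ≤ l3) (hs : l1 + l2 + l3 = 1) :
    0 ≤ evalRow y0 y1 y2 y3 y4 y5 y6 y7 y8 y9 y10 y11 y12 y13 (l1 * (1) + l2 * (4) + l3 * (4)) (l1 * (-1) + l2 * (-8) + l3 * (8)) := by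
  simp only [BT1, List.all_cons, List.all_nil, Bool.and_true, Bool.and_eq_true, decide_eq_true_eq, dotI] at h
  obtain ⟨h0, h1, h2, h3, h4, h5, h6, h7, h8, h9, h10, h11, h12, h13, h14, h15, h16, h17, h18, h19, h20⟩ := h
  have H0 : (0 : ℝ) ≤ (1 : ℝ) * (y0 : ℝ) + ((4 : ℝ) * (y1 : ℝ) + ((8 : ℝ) * (y2 : ℝ) + ((16 : ℝ) * (y3 : ℝ) + ((32 : ℝ) * (y4 : ℝ) + ((64 : ℝ) * (y5 : ℝ) + ((64 : ℝ) * (y6 : ℝ) + ((128 : ℝ) * (y7 : ℝ) + ((256 : ℝ) * (y8 : ℝ) + ((512 : ℝ) * (y9 : ℝ) + ((256 : ℝ) * (y10 : ℝ) + ((512 : ℝ) * (y11 : ℝ) + ((1024 : ℝ) * (y12 : ℝ) + ((1024 : ℝ) * (y13 : ℝ) + 0))))))))))))) := by exact_mod_cast h0;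
  have H1 : (0 : ℝ) ≤ (5 : ℝ) * (y0 : ℝ) + ((20 : ℝ) * (y1 : ℝ) + ((24 : ℝ) * (y2 : ℝ) + ((80 : ℝ) * (y3 : ℝ) + ((96 : ℝ) * (y4 : ℝ) + ((64 : ℝ) * (y5 : ℝ) + ((320 : ℝ) * (y6 : ℝ) + ((384 : ℝ) * (y7 : ℝ) + ((256 : ℝ) * (y8 : ℝ) + ((-512 : ℝ) * (y9 : ℝ) + ((1280 : ℝ) * (y10 : ℝ) + ((1536 : ℝ) * (y11 : ℝ) + ((1024 : ℝ) * (y12 : ℝ) + ((5120 : ℝ) * (y13 : ℝ) + 0))))))))))))) := by exact_mod_cast h1;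
  have H2 : (0 : ℝ) ≤ (10 : ℝ) * (y0 : ℝ) + ((40 : ℝ) * (y1 : ℝ) + ((16 : ℝ) * (y2 : ℝ) + ((160 : ℝ) * (y3 : ℝ) + ((64 : ℝ) * (y4 : ℝ) + ((-128 : ℝ) * (y5 : ℝ) + ((640 : ℝ) * (y6 : ℝ) + ((256 : ℝ) * (y7 : ℝ) + ((-512 : ℝ) * (y8 : ℝ) + ((-1024 : ℝ) * (y9 : ℝ) + ((2560 : ℝ) * (y10 : ℝ) + ((1024 : ℝ) * (y11 : ℝ) + ((-2048 : ℝ) * (y12 : ℝ) + ((10240 : ℝ) * (y13 : ℝ) + 0))))))))))))) := by exact_mod_cast h2;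
  have H3 : (0 : ℝ) ≤ (10 : ℝ) * (y0 : ℝ) + ((40 : ℝ) * (y1 : ℝ) + ((-16 : ℝ) * (y2 : ℝ) + ((160 : ℝ) * (y3 : ℝ) + ((-64 : ℝ) * (y4 : ℝ) + ((-128 : ℝ) * (y5 : ℝ) + ((640 : ℝ) * (y6 : ℝ) + ((-256 : ℝ) * (y7 : ℝ) + ((-512 : ℝ) * (y8 : ℝ) + ((1024 : ℝ) * (y9 : ℝ) + ((2560 : ℝ) * (y10 : ℝ) + ((-1024 : ℝ) * (y11 : ℝ) + ((-2048 : ℝ) * (y12 : ℝ) + ((10240 : ℝ) * (y13 : ℝ) + 0))))))))))))) := by exact_mod_cast h3;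
  have H4 : (0 : ℝ) ≤ (5 : ℝ) * (y0 : ℝ) + ((20 : ℝ) * (y1 : ℝ) + ((-24 : ℝ) * (y2 : ℝ) + ((80 : ℝ) * (y3 : ℝ) + ((-96 : ℝ) * (y4 : ℝ) + ((64 : ℝ) * (y5 : ℝ) + ((320 : ℝ) * (y6 : ℝ) + ((-384 : ℝ) * (y7 : ℝ) + ((256 : ℝ) * (y8 : ℝ) + ((512 : ℝ) * (y9 : ℝ) + ((1280 : ℝ) * (y10 : ℝ) + ((-1536 : ℝ) * (y11 : ℝ) + ((1024 : ℝ) * (y12 : ℝ) + ((5120 : ℝ) * (y13 : ℝ) + 0))))))))))))) := by exact_mod_cast h4;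
  have H5 : (0 : ℝ) ≤ (1 : ℝ) * (y0 : ℝ) + ((4 : ℝ) * (y1 : ℝ) + ((-8 : ℝ) * (y2 : ℝ) + ((16 : ℝ) * (y3 : ℝ) + ((-32 : ℝ) * (y4 : ℝ) + ((64 : ℝ) * (y5 : ℝ) + ((64 : ℝ) * (y6 : ℝ) + ((-128 : ℝ) * (y7 : ℝ) + ((256 : ℝ) * (y8 : ℝ) + ((-512 : ℝ) * (y9 : ℝ) + ((256 : ℝ) * (y10 : ℝ) + ((-512 : ℝ) * (y11 : ℝ) + ((1024 : ℝ) * (y12 : ℝ) + ((1024 : ℝ) * (y13 : ℝ) + 0))))))))))))) := by exact_mod_cast h5;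
  have H6 : (0 : ℝ) ≤ (5 : ℝ) * (y0 : ℝ) + ((17 : ℝ) * (y1 : ℝ) + ((31 : ℝ) * (y2 : ℝ) + ((56 : ℝ) * (y3 : ℝ) + ((100 : ℝ) * (y4 : ℝ) + ((176 : ℝ) * (y5 : ℝ) + ((176 : ℝ) * (y6 : ℝ) + ((304 : ℝ) * (y7 : ℝ) + ((512 : ℝ) * (y8 : ℝ) + ((832 : ℝ) * (y9 : ℝ) + ((512 : ℝ) * (y10 : ℝ) + ((832 : ℝ) * (y11 : ℝ) + ((1280 : ℝ) * (y12 : ℝ) + ((1280 : ℝ) * (y13 : ℝ) + 0))))))))))))) := by exact_mod_cast h6;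
  have H7 : (0 : ℝ) ≤ (20 : ℝ) * (y0 : ℝ) + ((68 : ℝ) * (y1 : ℝ) + ((60 : ℝ) * (y2 : ℝ) + ((224 : ℝ) * (y3 : ℝ) + ((192 : ℝ) * (y4 : ℝ) + ((-32 : ℝ) * (y5 : ℝ) + ((704 : ℝ) * (y6 : ℝ) + ((576 : ℝ) * (y7 : ℝ) + ((-128 : ℝ) * (y8 : ℝ) + ((-2048 : ℝ) * (y9 : ℝ) + ((2048 : ℝ) * (y10 : ℝ) + ((1536 : ℝ) * (y11 : ℝ) + ((-512 : ℝ) * (y12 : ℝ) + ((5120 : ℝ) * (y13 : ℝ) + 0))))))))))))) := by exact_mod_cast h7;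
  have H8 : (0 : ℝ) ≤ (30 : ℝ) * (y0 : ℝ) + ((102 : ℝ) * (y1 : ℝ) + ((-6 : ℝ) * (y2 : ℝ) + ((336 : ℝ) * (y3 : ℝ) + ((-24 : ℝ) * (y4 : ℝ) + ((-384 : ℝ) * (y5 : ℝ) + ((1056 : ℝ) * (y6 : ℝ) + ((-96 : ℝ) * (y7 : ℝ) + ((-1152 : ℝ) * (y8 : ℝ) + ((384 : ℝ) * (y9 : ℝ) + ((3072 : ℝ) * (y10 : ℝ) + ((-384 : ℝ) * (y11 : ℝ) + ((-3072 : ℝ) * (y12 : ℝ) + ((7680 : ℝ) * (y13 : ℝ) + 0))))))))))))) := by exact_mod_cast h8;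
  have H9 : (0 : ℝ) ≤ (20 : ℝ) * (y0 : ℝ) + ((68 : ℝ) * (y1 : ℝ) + ((-68 : ℝ) * (y2 : ℝ) + ((224 : ℝ) * (y3 : ℝ) + ((-224 : ℝ) * (y4 : ℝ) + ((32 : ℝ) * (y5 : ℝ) + ((704 : ℝ) * (y6 : ℝ) + ((-704 : ℝ) * (y7 : ℝ) + ((128 : ℝ) * (y8 : ℝ) + ((2048 : ℝ) * (y9 : ℝ) + ((2048 : ℝ) * (y10 : ℝ) + ((-2048 : ℝ) * (y11 : ℝ) + ((512 : ℝ) * (y12 : ℝ) + ((5120 : ℝ) * (y13 : ℝ) + 0))))))))))))) := by exact_mod_cast h9;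
  have H10 : (0 : ℝ) ≤ (5 : ℝ) * (y0 : ℝ) + ((17 : ℝ) * (y1 : ℝ) + ((-33 : ℝ) * (y2 : ℝ) + ((56 : ℝ) * (y3 : ℝ) + ((-108 : ℝ) * (y4 : ℝ) + ((208 : ℝ) * (y5 : ℝ) + ((176 : ℝ) * (y6 : ℝ) + ((-336 : ℝ) * (y7 : ℝ) + ((640 : ℝ) * (y8 : ℝ) + ((-1216 : ℝ) * (y9 : ℝ) + ((512 : ℝ) * (y10 : ℝ) + ((-960 : ℝ) * (y11 : ℝ) + ((1792 : ℝ) * (y12 : ℝ) + ((1280 : ℝ) * (y13 : ℝ) + 0))))))))))))) := by exact_mod_cast h10;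
  have H11 : (0 : ℝ) ≤ (10 : ℝ) * (y0 : ℝ) + ((28 : ℝ) * (y1 : ℝ) + ((44 : ℝ) * (y2 : ℝ) + ((73 : ℝ) * (y3 : ℝ) + ((107 : ℝ) * (y4 : ℝ) + ((145 : ℝ) * (y5 : ℝ) + ((172 : ℝ) * (y6 : ℝ) + ((224 : ℝ) * (y7 : ℝ) + ((244 : ℝ) * (y8 : ℝ) + ((152 : ℝ) * (y9 : ℝ) + ((352 : ℝ) * (y10 : ℝ) + ((368 : ℝ) * (y11 : ℝ) + ((208 : ℝ) * (y12 : ℝ) + ((640 : ℝ) * (y13 : ℝ) + 0))))))))))))) := by exact_mod_cast h11;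
  have H12 : (0 : ℝ) ≤ (30 : ℝ) * (y0 : ℝ) + ((84 : ℝ) * (y1 : ℝ) + ((36 : ℝ) * (y2 : ℝ) + ((219 : ℝ) * (y3 : ℝ) + ((81 : ℝ) * (y4 : ℝ) + ((-237 : ℝ) * (y5 : ℝ) + ((516 : ℝ) * (y6 : ℝ) + ((144 : ℝ) * (y7 : ℝ) + ((-516 : ℝ) * (y8 : ℝ) + ((-1128 : ℝ) * (y9 : ℝ) + ((1056 : ℝ) * (y10 : ℝ) + ((144 : ℝ) * (y11 : ℝ) + ((-912 : ℝ) * (y12 : ℝ) + ((1920 : ℝ) * (y13 : ℝ) + 0))))))))))))) := by exact_mod_cast h12;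
  have H13 : (0 : ℝ) ≤ (30 : ℝ) * (y0 : ℝ) + ((84 : ℝ) * (y1 : ℝ) + ((-60 : ℝ) * (y2 : ℝ) + ((219 : ℝ) * (y3 : ℝ) + ((-159 : ℝ) * (y4 : ℝ) + ((-141 : ℝ) * (y5 : ℝ) + ((516 : ℝ) * (y6 : ℝ) + ((-384 : ℝ) * (y7 : ℝ) + ((-228 : ℝ) * (y8 : ℝ) + ((1896 : ℝ) * (y9 : ℝ) + ((1056 : ℝ) * (y10 : ℝ) + ((-816 : ℝ) * (y11 : ℝ) + ((-144 : ℝ) * (y12 : ℝ) + ((1920 : ℝ) * (y13 : ℝ) + 0))))))))))))) := by exact_mod_cast h13;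
  have H14 : (0 : ℝ) ≤ (10 : ℝ) * (y0 : ℝ) + ((28 : ℝ) * (y1 : ℝ) + ((-52 : ℝ) * (y2 : ℝ) + ((73 : ℝ) * (y3 : ℝ) + ((-133 : ℝ) * (y4 : ℝ) + ((241 : ℝ) * (y5 : ℝ) + ((172 : ℝ) * (y6 : ℝ) + ((-304 : ℝ) * (y7 : ℝ) + ((532 : ℝ) * (y8 : ℝ) + ((-920 : ℝ) * (y9 : ℝ) + ((352 : ℝ) * (y10 : ℝ) + ((-592 : ℝ) * (y11 : ℝ) + ((976 : ℝ) * (y12 : ℝ) + ((640 : ℝ) * (y13 : ℝ) + 0))))))))))))) := by exact_mod_cast h14;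
  have H15 : (0 : ℝ) ≤ (10 : ℝ) * (y0 : ℝ) + ((22 : ℝ) * (y1 : ℝ) + ((26 : ℝ) * (y2 : ℝ) + ((43 : ℝ) * (y3 : ℝ) + ((41 : ℝ) * (y4 : ℝ) + ((19 : ℝ) * (y5 : ℝ) + ((73 : ℝ) * (y6 : ℝ) + ((47 : ℝ) * (y7 : ℝ) + ((-23 : ℝ) * (y8 : ℝ) + ((-145 : ℝ) * (y9 : ℝ) + ((112 : ℝ) * (y10 : ℝ) + ((44 : ℝ) * (y11 : ℝ) + ((-56 : ℝ) * (y12 : ℝ) + ((160 : ℝ) * (y13 : ℝ) + 0))))))))))))) := by exact_mod_cast h15;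
  have H16 : (0 : ℝ) ≤ (20 : ℝ) * (y0 : ℝ) + ((44 : ℝ) * (y1 : ℝ) + ((-12 : ℝ) * (y2 : ℝ) + ((86 : ℝ) * (y3 : ℝ) + ((-30 : ℝ) * (y4 : ℝ) + ((-122 : ℝ) * (y5 : ℝ) + ((146 : ℝ) * (y6 : ℝ) + ((-66 : ℝ) * (y7 : ℝ) + ((-110 : ℝ) * (y8 : ℝ) + ((382 : ℝ) * (y9 : ℝ) + ((224 : ℝ) * (y10 : ℝ) + ((-120 : ℝ) * (y11 : ℝ) + ((-80 : ℝ) * (y12 : ℝ) + ((320 : ℝ) * (y13 : ℝ) + 0))))))))))))) := by exact_mod_cast h16;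
  have H17 : (0 : ℝ) ≤ (10 : ℝ) * (y0 : ℝ) + ((22 : ℝ) * (y1 : ℝ) + ((-38 : ℝ) * (y2 : ℝ) + ((43 : ℝ) * (y3 : ℝ) + ((-71 : ℝ) * (y4 : ℝ) + ((115 : ℝ) * (y5 : ℝ) + ((73 : ℝ) * (y6 : ℝ) + ((-113 : ℝ) * (y7 : ℝ) + ((169 : ℝ) * (y8 : ℝ) + ((-241 : ℝ) * (y9 : ℝ) + ((112 : ℝ) * (y10 : ℝ) + ((-164 : ℝ) * (y11 : ℝ) + ((232 : ℝ) * (y12 : ℝ) + ((160 : ℝ) * (y13 : ℝ) + 0))))))))))))) := by exact_mod_cast h17;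
  have H18 : (0 : ℝ) ≤ (5 : ℝ) * (y0 : ℝ) + ((8 : ℝ) * (y1 : ℝ) + ((4 : ℝ) * (y2 : ℝ) + ((11 : ℝ) * (y3 : ℝ) + ((1 : ℝ) * (y4 : ℝ) + ((-13 : ℝ) * (y5 : ℝ) + ((14 : ℝ) * (y6 : ℝ) + ((-2 : ℝ) * (y7 : ℝ) + ((-10 : ℝ) * (y8 : ℝ) + ((22 : ℝ) * (y9 : ℝ) + ((17 : ℝ) * (y10 : ℝ) + ((-5 : ℝ) * (y11 : ℝ) + ((-7 : ℝ) * (y12 : ℝ) + ((20 : ℝ) * (y13 : ℝ) + 0))))))))))))) := by exact_mod_cast h18;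
  have H19 : (0 : ℝ) ≤ (5 : ℝ) * (y0 : ℝ) + ((8 : ℝ) * (y1 : ℝ) + ((-12 : ℝ) * (y2 : ℝ) + ((11 : ℝ) * (y3 : ℝ) + ((-15 : ℝ) * (y4 : ℝ) + ((19 : ℝ) * (y5 : ℝ) + ((14 : ℝ) * (y6 : ℝ) + ((-18 : ℝ) * (y7 : ℝ) + ((22 : ℝ) * (y8 : ℝ) + ((-26 : ℝ) * (y9 : ℝ) + ((17 : ℝ) * (y10 : ℝ) + ((-21 : ℝ) * (y11 : ℝ) + ((25 : ℝ) * (y12 : ℝ) + ((20 : ℝ) * (y13 : ℝ) + 0))))))))))))) := by exact_mod_cast h19;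
  have H20 : (0 : ℝ) ≤ (1 : ℝ) * (y0 : ℝ) + ((1 : ℝ) * (y1 : ℝ) + ((-1 : ℝ) * (y2 : ℝ) + ((1 : ℝ) * (y3 : ℝ) + ((-1 : ℝ) * (y4 : ℝ) + ((1 : ℝ) * (y5 : ℝ) + ((1 : ℝ) * (y6 : ℝ) + ((-1 : ℝ) * (y7 : ℝ) + ((1 : ℝ) * (y8 : ℝ) + ((-1 : ℝ) * (y9 : ℝ) + ((1 : ℝ) * (y10 : ℝ) + ((-1 : ℝ) * (y11 : ℝ) + ((1 : ℝ) * (y12 : ℝ) + ((1 : ℝ) * (y13 : ℝ) + 0))))))))))))) := by exact_mod_cast h20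
  have key : evalRow y0 y1 y2 y3 y4 y5 y6 y7 y8 y9 y10 y11 y12 y13 (l1 * (1) + l2 * (4) + l3 * (4)) (l1 * (-1) + l2 * (-8) + l3 * (8)) = (l1 ^ 0 * l2 ^ 0 * l3 ^ 5) * ((1 : ℝ) * (y0 : ℝ) + ((4 : ℝ) * (y1 : ℝ) + ((8 : ℝ) * (y2 : ℝ) + ((16 : ℝ) * (y3 : ℝ) + ((32 : ℝ) * (y4 : ℝ) + ((64 : ℝ) * (y5 : ℝ) + ((64 : ℝ) * (y6 : ℝ) + ((128 : ℝ) * (y7 : ℝ) + ((256 : ℝ) * (y8 : ℝ) + ((512 : ℝ) * (y9 : ℝ) + ((256 : ℝ) * (y10 : ℝ) + ((512 : ℝ) * (y11 : ℝ) + ((1024 : ℝ) * (y12 : ℝ) + ((1024 : ℝ) * (y13 : ℝ) + 0)))))))))))))) + (l1 ^ 0 * l2 ^ 1 * l3 ^ 4) * ((5 : ℝ) * (y0 : ℝ) + ((20 : ℝ) * (y1 : ℝ) + ((24 : ℝ) * (y2 : ℝ) + ((80 : ℝ) * (y3 : ℝ) + ((96 : ℝ) * (y4 : ℝ) + ((64 : ℝ) * (y5 : ℝ) + ((320 : ℝ) * (y6 : ℝ) + ((384 : ℝ) * (y7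 : ℝ) + ((256 : ℝ) * (y8 : ℝ) + ((-512 : ℝ) * (y9 : ℝ) + ((1280 : ℝ) * (y10 : ℝ) + ((1536 : ℝ) * (y11 : ℝ) + ((1024 : ℝ) * (y12 : ℝ) + ((5120 : ℝ) * (y13 : ℝ) + 0)))))))))))))) + (l1 ^ 0 * l2 ^ 2 * l3 ^ 3) * ((10 : ℝ) * (y0 : ℝ) + ((40 : ℝ) * (y1 : ℝ) + ((16 : ℝ) * (y2 : ℝ) + ((160 : ℝ) * (y3 : ℝ) + ((64 : ℝ) * (y4 : ℝ) + ((-128 : ℝ) * (y5 : ℝ) + ((640 : ℝ) * (y6 : ℝ) + ((256 : ℝ) * (y7 : ℝ) + ((-512 : ℝ) * (y8 : ℝ) + ((-1024 : ℝ) * (y9 : ℝ) + ((2560 : ℝ) * (y10 : ℝ) + ((1024 : ℝ) * (y11 : ℝ) + ((-2048 : ℝ) * (y12 : ℝ) + ((10240 : ℝ) * (y13 : ℝ) + 0)))))))))))))) + (l1 ^ 0 * l2 ^ 3 * l3 ^ 2) * ((10 : ℝ) * (y0 : ℝ) + ((40 : ℝ) * (y1 : ℝ) + ((-16 : ℝ) * (y2 : ℝ) + ((160 : ℝ) * (y3 : ℝ) + ((-64 : ℝ) * (y4 : ℝ) + ((-128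 : ℝ) * (y5 : ℝ) + ((640 : ℝ) * (y6 : ℝ) + ((-256 : ℝ) * (y7 : ℝ) + ((-512 : ℝ) * (y8 : ℝ) + ((1024 : ℝ) * (y9 : ℝ) + ((2560 : ℝ) * (y10 : ℝ) + ((-1024 : ℝ) * (y11 : ℝ) + ((-2048 : ℝ) * (y12 : ℝ) + ((10240 : ℝ) * (y13 : ℝ) + 0)))))))))))))) + (l1 ^ 0 * l2 ^ 4 * l3 ^ 1) * ((5 : ℝ) * (y0 : ℝ) + ((20 : ℝ) * (y1 : ℝ) + ((-24 : ℝ) * (y2 : ℝ) + ((80 : ℝ) * (y3 : ℝ) + ((-96 : ℝ) * (y4 : ℝ) + ((64 : ℝ) * (y5 : ℝ) + ((320 : ℝ) * (y6 : ℝ) + ((-384 : ℝ) * (y7 : ℝ) + ((256 : ℝ) * (y8 : ℝ) + ((512 : ℝ) * (y9 : ℝ) + ((1280 : ℝ) * (y10 : ℝ) + ((-1536 : ℝ) * (y11 : ℝ) + ((1024 : ℝ) * (y12 : ℝ) + ((5120 : ℝ) * (y13 : ℝ) + 0)))))))))))))) + (l1 ^ 0 * l2 ^ 5 * l3 ^ 0) * ((1 : ℝ) * (y0 : ℝ) + ((4 : ℝ) * (y1 : ℝ) + ((-8 : ℝ) * (y2 :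 ℝ) + ((16 : ℝ) * (y3 : ℝ) + ((-32 : ℝ) * (y4 : ℝ) + ((64 : ℝ) * (y5 : ℝ) + ((64 : ℝ) * (y6 : ℝ) + ((-128 : ℝ) * (y7 : ℝ) + ((256 : ℝ) * (y8 : ℝ) + ((-512 : ℝ) * (y9 : ℝ) + ((256 : ℝ) * (y10 : ℝ) + ((-512 : ℝ) * (y11 : ℝ) + ((1024 : ℝ) * (y12 : ℝ) + ((1024 : ℝ) * (y13 : ℝ) + 0)))))))))))))) + (l1 ^ 1 * l2 ^ 0 * l3 ^ 4) * ((5 : ℝ) * (y0 : ℝ) + ((17 : ℝ) * (y1 : ℝ) + ((31 : ℝ) * (y2 : ℝ) + ((56 : ℝ) * (y3 : ℝ) + ((100 : ℝ) * (y4 : ℝ) + ((176 : ℝ) * (y5 : ℝ) + ((176 : ℝ) * (y6 : ℝ) + ((304 : ℝ) * (y7 : ℝ) + ((512 : ℝ) * (y8 : ℝ) + ((832 : ℝ) * (y9 : ℝ) + ((512 : ℝ) * (y10 : ℝ) + ((832 : ℝ) * (y11 : ℝ) + ((1280 : ℝ) * (y12 : ℝ) + ((1280 : ℝ) * (y13 : ℝ) + 0)))))))))))))) + (l1 ^ 1 * l2 ^ 1 * l3 ^ 3) * ((20 : ℝ) * (y0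 : ℝ) + ((68 : ℝ) * (y1 : ℝ) + ((60 : ℝ) * (y2 : ℝ) + ((224 : ℝ) * (y3 : ℝ) + ((192 : ℝ) * (y4 : ℝ) + ((-32 : ℝ) * (y5 : ℝ) + ((704 : ℝ) * (y6 : ℝ) + ((576 : ℝ) * (y7 : ℝ) + ((-128 : ℝ) * (y8 : ℝ) + ((-2048 : ℝ) * (y9 : ℝ) + ((2048 : ℝ) * (y10 : ℝ) + ((1536 : ℝ) * (y11 : ℝ) + ((-512 : ℝ) * (y12 : ℝ) + ((5120 : ℝ) * (y13 : ℝ) + 0)))))))))))))) + (l1 ^ 1 * l2 ^ 2 * l3 ^ 2) * ((30 : ℝ) * (y0 : ℝ) + ((102 : ℝ) * (y1 : ℝ) + ((-6 : ℝ) * (y2 : ℝ) + ((336 : ℝ) * (y3 : ℝ) + ((-24 : ℝ) * (y4 : ℝ) + ((-384 : ℝ) * (y5 : ℝ) + ((1056 : ℝ) * (y6 : ℝ) + ((-96 : ℝ) * (y7 : ℝ) + ((-1152 : ℝ) * (y8 : ℝ) + ((384 : ℝ) * (y9 : ℝ) + ((3072 : ℝ) * (y10 : ℝ) + ((-384 : ℝ) * (y11 : ℝ) + ((-3072 : ℝ) * (y12 : ℝ) + ((7680 : ℝ) * (y13 : ℝ) +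 0)))))))))))))) + (l1 ^ 1 * l2 ^ 3 * l3 ^ 1) * ((20 : ℝ) * (y0 : ℝ) + ((68 : ℝ) * (y1 : ℝ) + ((-68 : ℝ) * (y2 : ℝ) + ((224 : ℝ) * (y3 : ℝ) + ((-224 : ℝ) * (y4 : ℝ) + ((32 : ℝ) * (y5 : ℝ) + ((704 : ℝ) * (y6 : ℝ) + ((-704 : ℝ) * (y7 : ℝ) + ((128 : ℝ) * (y8 : ℝ) + ((2048 : ℝ) * (y9 : ℝ) + ((2048 : ℝ) * (y10 : ℝ) + ((-2048 : ℝ) * (y11 : ℝ) + ((512 : ℝ) * (y12 : ℝ) + ((5120 : ℝ) * (y13 : ℝ) + 0)))))))))))))) + (l1 ^ 1 * l2 ^ 4 * l3 ^ 0) * ((5 : ℝ) * (y0 : ℝ) + ((17 : ℝ) * (y1 : ℝ) + ((-33 : ℝ) * (y2 : ℝ) + ((56 : ℝ) * (y3 : ℝ) + ((-108 : ℝ) * (y4 : ℝ) + ((208 : ℝ) * (y5 : ℝ) + ((176 : ℝ) * (y6 : ℝ) + ((-336 : ℝ) * (y7 : ℝ) + ((640 : ℝ) * (y8 : ℝ) + ((-1216 : ℝ) * (y9 : ℝ) + ((512 : ℝ) * (y10 : ℝ) + ((-960 : ℝ) * (y11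 : ℝ) + ((1792 : ℝ) * (y12 : ℝ) + ((1280 : ℝ) * (y13 : ℝ) + 0)))))))))))))) + (l1 ^ 2 * l2 ^ 0 * l3 ^ 3) * ((10 : ℝ) * (y0 : ℝ) + ((28 : ℝ) * (y1 : ℝ) + ((44 : ℝ) * (y2 : ℝ) + ((73 : ℝ) * (y3 : ℝ) + ((107 : ℝ) * (y4 : ℝ) + ((145 : ℝ) * (y5 : ℝ) + ((172 : ℝ) * (y6 : ℝ) + ((224 : ℝ) * (y7 : ℝ) + ((244 : ℝ) * (y8 : ℝ) + ((152 : ℝ) * (y9 : ℝ) + ((352 : ℝ) * (y10 : ℝ) + ((368 : ℝ) * (y11 : ℝ) + ((208 : ℝ) * (y12 : ℝ) + ((640 : ℝ) * (y13 : ℝ) + 0)))))))))))))) + (l1 ^ 2 * l2 ^ 1 * l3 ^ 2) * ((30 : ℝ) * (y0 : ℝ) + ((84 : ℝ) * (y1 : ℝ) + ((36 : ℝ) * (y2 : ℝ) + ((219 : ℝ) * (y3 : ℝ) + ((81 : ℝ) * (y4 : ℝ) + ((-237 : ℝ) * (y5 : ℝ) + ((516 : ℝ) * (y6 : ℝ) + ((144 : ℝ) * (y7 : ℝ) + ((-516 : ℝ) * (y8 : ℝ) + ((-1128 : ℝ) * (y9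 : ℝ) + ((1056 : ℝ) * (y10 : ℝ) + ((144 : ℝ) * (y11 : ℝ) + ((-912 : ℝ) * (y12 : ℝ) + ((1920 : ℝ) * (y13 : ℝ) + 0)))))))))))))) + (l1 ^ 2 * l2 ^ 2 * l3 ^ 1) * ((30 : ℝ) * (y0 : ℝ) + ((84 : ℝ) * (y1 : ℝ) + ((-60 : ℝ) * (y2 : ℝ) + ((219 : ℝ) * (y3 : ℝ) + ((-159 : ℝ) * (y4 : ℝ) + ((-141 : ℝ) * (y5 : ℝ) + ((516 : ℝ) * (y6 : ℝ) + ((-384 : ℝ) * (y7 : ℝ) + ((-228 : ℝ) * (y8 : ℝ) + ((1896 : ℝ) * (y9 : ℝ) + ((1056 : ℝ) * (y10 : ℝ) + ((-816 : ℝ) * (y11 : ℝ) + ((-144 : ℝ) * (y12 : ℝ) + ((1920 : ℝ) * (y13 : ℝ) + 0)))))))))))))) + (l1 ^ 2 * l2 ^ 3 * l3 ^ 0) * ((10 : ℝ) * (y0 : ℝ) + ((28 : ℝ) * (y1 : ℝ) + ((-52 : ℝ) * (y2 : ℝ) + ((73 : ℝ) * (y3 : ℝ) + ((-133 : ℝ) * (y4 : ℝ) + ((241 : ℝ) * (y5 : ℝ) + ((172 : ℝ) * (y6 : ℝ) + ((-304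 : ℝ) * (y7 : ℝ) + ((532 : ℝ) * (y8 : ℝ) + ((-920 : ℝ) * (y9 : ℝ) + ((352 : ℝ) * (y10 : ℝ) + ((-592 : ℝ) * (y11 : ℝ) + ((976 : ℝ) * (y12 : ℝ) + ((640 : ℝ) * (y13 : ℝ) + 0)))))))))))))) + (l1 ^ 3 * l2 ^ 0 * l3 ^ 2) * ((10 : ℝ) * (y0 : ℝ) + ((22 : ℝ) * (y1 : ℝ) + ((26 : ℝ) * (y2 : ℝ) + ((43 : ℝ) * (y3 : ℝ) + ((41 : ℝ) * (y4 : ℝ) + ((19 : ℝ) * (y5 : ℝ) + ((73 : ℝ) * (y6 : ℝ) + ((47 : ℝ) * (y7 : ℝ) + ((-23 : ℝ) * (y8 : ℝ) + ((-145 : ℝ) * (y9 : ℝ) + ((112 : ℝ) * (y10 : ℝ) + ((44 : ℝ) * (y11 : ℝ) + ((-56 : ℝ) * (y12 : ℝ) + ((160 : ℝ) * (y13 : ℝ) + 0)))))))))))))) + (l1 ^ 3 * l2 ^ 1 * l3 ^ 1) * ((20 : ℝ) * (y0 : ℝ) + ((44 : ℝ) * (y1 : ℝ) + ((-12 : ℝ) * (y2 : ℝ) + ((86 : ℝ) * (y3 : ℝ) + ((-30 : ℝ) * (y4 : ℝ) + ((-122 : ℝ)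 * (y5 : ℝ) + ((146 : ℝ) * (y6 : ℝ) + ((-66 : ℝ) * (y7 : ℝ) + ((-110 : ℝ) * (y8 : ℝ) + ((382 : ℝ) * (y9 : ℝ) + ((224 : ℝ) * (y10 : ℝ) + ((-120 : ℝ) * (y11 : ℝ) + ((-80 : ℝ) * (y12 : ℝ) + ((320 : ℝ) * (y13 : ℝ) + 0)))))))))))))) + (l1 ^ 3 * l2 ^ 2 * l3 ^ 0) * ((10 : ℝ) * (y0 : ℝ) + ((22 : ℝ) * (y1 : ℝ) + ((-38 : ℝ) * (y2 : ℝ) + ((43 : ℝ) * (y3 : ℝ) + ((-71 : ℝ) * (y4 : ℝ) + ((115 : ℝ) * (y5 : ℝ) + ((73 : ℝ) * (y6 : ℝ) + ((-113 : ℝ) * (y7 : ℝ) + ((169 : ℝ) * (y8 : ℝ) + ((-241 : ℝ) * (y9 : ℝ) + ((112 : ℝ) * (y10 : ℝ) + ((-164 : ℝ) * (y11 : ℝ) + ((232 : ℝ) * (y12 : ℝ) + ((160 : ℝ) * (y13 : ℝ) + 0)))))))))))))) + (l1 ^ 4 * l2 ^ 0 * l3 ^ 1) * ((5 : ℝ) * (y0 : ℝ) + ((8 : ℝ) * (y1 : ℝ) + ((4 : ℝ) * (y2 : ℝ) + ((11 : ℝ) *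 (y3 : ℝ) + ((1 : ℝ) * (y4 : ℝ) + ((-13 : ℝ) * (y5 : ℝ) + ((14 : ℝ) * (y6 : ℝ) + ((-2 : ℝ) * (y7 : ℝ) + ((-10 : ℝ) * (y8 : ℝ) + ((22 : ℝ) * (y9 : ℝ) + ((17 : ℝ) * (y10 : ℝ) + ((-5 : ℝ) * (y11 : ℝ) + ((-7 : ℝ) * (y12 : ℝ) + ((20 : ℝ) * (y13 : ℝ) + 0)))))))))))))) + (l1 ^ 4 * l2 ^ 1 * l3 ^ 0) * ((5 : ℝ) * (y0 : ℝ) + ((8 : ℝ) * (y1 : ℝ) + ((-12 : ℝ) * (y2 : ℝ) + ((11 : ℝ) * (y3 : ℝ) + ((-15 : ℝ) * (y4 : ℝ) + ((19 : ℝ) * (y5 : ℝ) + ((14 : ℝ) * (y6 : ℝ) + ((-18 : ℝ) * (y7 : ℝ) + ((22 : ℝ) * (y8 : ℝ) + ((-26 : ℝ) * (y9 : ℝ) + ((17 : ℝ) * (y10 : ℝ) + ((-21 : ℝ) * (y11 : ℝ) + ((25 : ℝ) * (y12 : ℝ) + ((20 : ℝ) * (y13 : ℝ) + 0)))))))))))))) + (l1 ^ 5 * l2 ^ 0 * l3 ^ 0) * ((1 : ℝ) * (y0 : ℝ) + ((1 : ℝ) * (y1 : ℝ) + ((-1 : ℝ)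 * (y2 : ℝ) + ((1 : ℝ) * (y3 : ℝ) + ((-1 : ℝ) * (y4 : ℝ) + ((1 : ℝ) * (y5 : ℝ) + ((1 : ℝ) * (y6 : ℝ) + ((-1 : ℝ) * (y7 : ℝ) + ((1 : ℝ) * (y8 : ℝ) + ((-1 : ℝ) * (y9 : ℝ) + ((1 : ℝ) * (y10 : ℝ) + ((-1 : ℝ) * (y11 : ℝ) + ((1 : ℝ) * (y12 : ℝ) + ((1 : ℝ) * (y13 : ℝ) + 0)))))))))))))) := by
    have hl3 : l3 = 1 - l1 - l2 := by linarith
    subst hl3
    unfold evalRow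
    ring
  rw [key]
  exact add_nonneg (add_nonneg (add_nonneg (add_nonneg (add_nonneg (add_nonneg (add_nonneg (add_nonneg (add_nonneg (add_nonneg (add_nonneg (add_nonneg (add_nonneg (add_nonneg (add_nonneg (add_nonneg (add_nonneg (add_nonneg (add_nonneg (add_nonneg (mul_nonneg (by positivity) H0) (mul_nonneg (by positivity) H1)) (mul_nonneg (by positivity) H2)) (mul_nonneg (by positivity) H3)) (mul_nonneg (by positivity) H4)) (mul_nonneg (by positivity) H5)) (mul_nonneg (by positivity) H6)) (mul_nonneg (by positivity) H7)) (mul_nonneg (by positivity) H8)) (mul_nonneg (by positivity) H9)) (mul_nonneg (by positivity) H10)) (mul_nonneg (by positivity) H11)) (mul_nonneg (by positivity) H12)) (mul_nonneg (by positivity)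 H13)) (mul_nonneg (by positivity) H14)) (mul_nonneg (by positivity) H15)) (mul_nonneg (by positivity) H16)) (mul_nonneg (by positivity) H17)) (mul_nonneg (by positivity) H18)) (mul_nonneg (by positivity) H19)) (mul_nonneg (by positivity) H20)

set_option maxHeartbeats 8000000 in
theorem tri2 (y0 y1 y2 y3 y4 y5 y6 y7 y8 y9 y10 y11 y12 y13 : ℤ) (h : (BT2.all fun r => decide (0 ≤ dotI r [y0, y1, y2, y3, y4, y5, y6, y7, y8, y9, y10, y11, y12, y13])) = true)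
    (l1 l2 l3 : ℝ) (h1 : 0 ≤ l1) (h2 : 0 ≤ l2) (h3 : 0 ≤ l3) (hs : l1 + l2 + l3 = 1) :
    0 ≤ evalRow y0 y1 y2 y3 y4 y5 y6 y7 y8 y9 y10 y11 y12 y13 (l1 * (1) + l2 * (4) + l3 * (1)) (l1 * (-1) + l2 * (8) + l3 * (1)) := by
  simp only [BT2, List.all_cons, List.all_nil, Bool.and_true, Bool.and_eq_true, decide_eq_true_eq, dotI] at h
  obtain ⟨h0, h1, h2, h3, h4, h5, h6, h7, h8, h9, h10, h11, h12, h13, h14, h15, h16, h17, h18, h19, h20⟩ := h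
  have H0 : (0 : ℝ) ≤ (1 : ℝ) * (y0 : ℝ) + ((1 : ℝ) * (y1 : ℝ) + ((1 : ℝ) * (y2 : ℝ) + ((1 : ℝ) * (y3 : ℝ) + ((1 : ℝ) * (y4 : ℝ) + ((1 : ℝ) * (y5 : ℝ) + ((1 : ℝ) * (y6 : ℝ) + ((1 : ℝ) * (y7 : ℝ) + ((1 : ℝ) * (y8 : ℝ) + ((1 : ℝ) * (y9 : ℝ) + ((1 : ℝ) * (y10 : ℝ) + ((1 : ℝ) * (y11 : ℝ) + ((1 : ℝ) * (y12 : ℝ) + ((1 : ℝ) * (y13 : ℝ) + 0))))))))))))) := by exact_mod_cast h0;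
  have H1 : (0 : ℝ) ≤ (5 : ℝ) * (y0 : ℝ) + ((8 : ℝ) * (y1 : ℝ) + ((12 : ℝ) * (y2 : ℝ) + ((11 : ℝ) * (y3 : ℝ) + ((15 : ℝ) * (y4 : ℝ) + ((19 : ℝ) * (y5 : ℝ) + ((14 : ℝ) * (y6 : ℝ) + ((18 : ℝ) * (y7 : ℝ) + ((22 : ℝ) * (y8 : ℝ) + ((26 : ℝ) * (y9 : ℝ) + ((17 : ℝ) * (y10 : ℝ) + ((21 : ℝ) * (y11 : ℝ) + ((25 : ℝ) * (y12 : ℝ) + ((20 : ℝ) * (y13 : ℝ) + 0))))))))))))) := by exact_mod_cast h1;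
  have H2 : (0 : ℝ) ≤ (10 : ℝ) * (y0 : ℝ) + ((22 : ℝ) * (y1 : ℝ) + ((38 : ℝ) * (y2 : ℝ) + ((43 : ℝ) * (y3 : ℝ) + ((71 : ℝ) * (y4 : ℝ) + ((115 : ℝ) * (y5 : ℝ) + ((73 : ℝ) * (y6 : ℝ) + ((113 : ℝ) * (y7 : ℝ) + ((169 : ℝ) * (y8 : ℝ) + ((241 : ℝ) * (y9 : ℝ) + ((112 : ℝ) * (y10 : ℝ) + ((164 : ℝ) * (y11 : ℝ) + ((232 : ℝ) * (y12 : ℝ) + ((160 : ℝ) * (y13 : ℝ) + 0))))))))))))) := by exact_mod_cast h2;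
  have H3 : (0 : ℝ) ≤ (10 : ℝ) * (y0 : ℝ) + ((28 : ℝ) * (y1 : ℝ) + ((52 : ℝ) * (y2 : ℝ) + ((73 : ℝ) * (y3 : ℝ) + ((133 : ℝ) * (y4 : ℝ) + ((241 : ℝ) * (y5 : ℝ) + ((172 : ℝ) * (y6 : ℝ) + ((304 : ℝ) * (y7 : ℝ) + ((532 : ℝ) * (y8 : ℝ) + ((920 : ℝ) * (y9 : ℝ) + ((352 : ℝ) * (y10 : ℝ) + ((592 : ℝ) * (y11 : ℝ) + ((976 : ℝ) * (y12 : ℝ) + ((640 : ℝ) * (y13 : ℝ) + 0))))))))))))) := by exact_mod_cast h3;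
  have H4 : (0 : ℝ) ≤ (5 : ℝ) * (y0 : ℝ) + ((17 : ℝ) * (y1 : ℝ) + ((33 : ℝ) * (y2 : ℝ) + ((56 : ℝ) * (y3 : ℝ) + ((108 : ℝ) * (y4 : ℝ) + ((208 : ℝ) * (y5 : ℝ) + ((176 : ℝ) * (y6 : ℝ) + ((336 : ℝ) * (y7 : ℝ) + ((640 : ℝ) * (y8 : ℝ) + ((1216 : ℝ) * (y9 : ℝ) + ((512 : ℝ) * (y10 : ℝ) + ((960 : ℝ) * (y11 : ℝ) + ((1792 : ℝ) * (y12 : ℝ) + ((1280 : ℝ) * (y13 : ℝ) + 0))))))))))))) := by exact_mod_cast h4;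
  have H5 : (0 : ℝ) ≤ (1 : ℝ) * (y0 : ℝ) + ((4 : ℝ) * (y1 : ℝ) + ((8 : ℝ) * (y2 : ℝ) + ((16 : ℝ) * (y3 : ℝ) + ((32 : ℝ) * (y4 : ℝ) + ((64 : ℝ) * (y5 : ℝ) + ((64 : ℝ) * (y6 : ℝ) + ((128 : ℝ) * (y7 : ℝ) + ((256 : ℝ) * (y8 : ℝ) + ((512 : ℝ) * (y9 : ℝ) + ((256 : ℝ) * (y10 : ℝ) + ((512 : ℝ) * (y11 : ℝ) + ((1024 : ℝ) * (y12 : ℝ) + ((1024 : ℝ) * (y13 : ℝ) + 0))))))))))))) := by exact_mod_cast h5;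
  have H6 : (0 : ℝ) ≤ (5 : ℝ) * (y0 : ℝ) + ((5 : ℝ) * (y1 : ℝ) + ((3 : ℝ) * (y2 : ℝ) + ((5 : ℝ) * (y3 : ℝ) + ((3 : ℝ) * (y4 : ℝ) + ((1 : ℝ) * (y5 : ℝ) + ((5 : ℝ) * (y6 : ℝ) + ((3 : ℝ) * (y7 : ℝ) + ((1 : ℝ) * (y8 : ℝ) + ((-1 : ℝ) * (y9 : ℝ) + ((5 : ℝ) * (y10 : ℝ) + ((3 : ℝ) * (y11 : ℝ) + ((1 : ℝ) * (y12 : ℝ) + ((5 : ℝ) * (y13 : ℝ) + 0))))))))))))) := by exact_mod_cast h6;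
  have H7 : (0 : ℝ) ≤ (20 : ℝ) * (y0 : ℝ) + ((32 : ℝ) * (y1 : ℝ) + ((40 : ℝ) * (y2 : ℝ) + ((44 : ℝ) * (y3 : ℝ) + ((46 : ℝ) * (y4 : ℝ) + ((32 : ℝ) * (y5 : ℝ) + ((56 : ℝ) * (y6 : ℝ) + ((52 : ℝ) * (y7 : ℝ) + ((32 : ℝ) * (y8 : ℝ) + ((-4 : ℝ) * (y9 : ℝ) + ((68 : ℝ) * (y10 : ℝ) + ((58 : ℝ) * (y11 : ℝ) + ((32 : ℝ) * (y12 : ℝ) + ((80 : ℝ) * (y13 : ℝ) + 0))))))))))))) := by exact_mod_cast h7;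
  have H8 : (0 : ℝ) ≤ (30 : ℝ) * (y0 : ℝ) + ((66 : ℝ) * (y1 : ℝ) + ((102 : ℝ) * (y2 : ℝ) + ((129 : ℝ) * (y3 : ℝ) + ((183 : ℝ) * (y4 : ℝ) + ((237 : ℝ) * (y5 : ℝ) + ((219 : ℝ) * (y6 : ℝ) + ((273 : ℝ) * (y7 : ℝ) + ((279 : ℝ) * (y8 : ℝ) + ((141 : ℝ) * (y9 : ℝ) + ((336 : ℝ) * (y10 : ℝ) + ((372 : ℝ) * (y11 : ℝ) + ((312 : ℝ) * (y12 : ℝ) + ((480 : ℝ) * (y13 : ℝ) + 0))))))))))))) := by exact_mod_cast h8;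
  have H9 : (0 : ℝ) ≤ (20 : ℝ) * (y0 : ℝ) + ((56 : ℝ) * (y1 : ℝ) + ((96 : ℝ) * (y2 : ℝ) + ((146 : ℝ) * (y3 : ℝ) + ((240 : ℝ) * (y4 : ℝ) + ((382 : ℝ) * (y5 : ℝ) + ((344 : ℝ) * (y6 : ℝ) + ((528 : ℝ) * (y7 : ℝ) + ((760 : ℝ) * (y8 : ℝ) + ((976 : ℝ) * (y9 : ℝ) + ((704 : ℝ) * (y10 : ℝ) + ((960 : ℝ) * (y11 : ℝ) + ((1120 : ℝ) * (y12 : ℝ) + ((1280 : ℝ) * (y13 : ℝ) + 0))))))))))))) := by exact_mod_cast h9;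
  have H10 : (0 : ℝ) ≤ (5 : ℝ) * (y0 : ℝ) + ((17 : ℝ) * (y1 : ℝ) + ((31 : ℝ) * (y2 : ℝ) + ((56 : ℝ) * (y3 : ℝ) + ((100 : ℝ) * (y4 : ℝ) + ((176 : ℝ) * (y5 : ℝ) + ((176 : ℝ) * (y6 : ℝ) + ((304 : ℝ) * (y7 : ℝ) + ((512 : ℝ) * (y8 : ℝ) + ((832 : ℝ) * (y9 : ℝ) + ((512 : ℝ) * (y10 : ℝ) + ((832 : ℝ) * (y11 : ℝ) + ((1280 : ℝ) * (y12 : ℝ) + ((1280 : ℝ) * (y13 : ℝ) + 0))))))))))))) := by exact_mod_cast h10;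
  have H11 : (0 : ℝ) ≤ (10 : ℝ) * (y0 : ℝ) + ((10 : ℝ) * (y1 : ℝ) + ((2 : ℝ) * (y2 : ℝ) + ((10 : ℝ) * (y3 : ℝ) + ((2 : ℝ) * (y4 : ℝ) + ((-2 : ℝ) * (y5 : ℝ) + ((10 : ℝ) * (y6 : ℝ) + ((2 : ℝ) * (y7 : ℝ) + ((-2 : ℝ) * (y8 : ℝ) + ((-2 : ℝ) * (y9 : ℝ) + ((10 : ℝ) * (y10 : ℝ) + ((2 : ℝ) * (y11 : ℝ) + ((-2 : ℝ) * (y12 : ℝ) + ((10 : ℝ) * (y13 : ℝ) + 0))))))))))))) := by exact_mod_cast h11;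
  have H12 : (0 : ℝ) ≤ (30 : ℝ) * (y0 : ℝ) + ((48 : ℝ) * (y1 : ℝ) + ((48 : ℝ) * (y2 : ℝ) + ((66 : ℝ) * (y3 : ℝ) + ((48 : ℝ) * (y4 : ℝ) + ((-6 : ℝ) * (y5 : ℝ) + ((84 : ℝ) * (y6 : ℝ) + ((48 : ℝ) * (y7 : ℝ) + ((-12 : ℝ) * (y8 : ℝ) + ((-48 : ℝ) * (y9 : ℝ) + ((102 : ℝ) * (y10 : ℝ) + ((48 : ℝ) * (y11 : ℝ) + ((-18 : ℝ) * (y12 : ℝ) + ((120 : ℝ) * (y13 : ℝ) + 0))))))))))))) := by exact_mod_cast h12;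
  have H13 : (0 : ℝ) ≤ (30 : ℝ) * (y0 : ℝ) + ((66 : ℝ) * (y1 : ℝ) + ((90 : ℝ) * (y2 : ℝ) + ((129 : ℝ) * (y3 : ℝ) + ((153 : ℝ) * (y4 : ℝ) + ((141 : ℝ) * (y5 : ℝ) + ((219 : ℝ) * (y6 : ℝ) + ((207 : ℝ) * (y7 : ℝ) + ((87 : ℝ) * (y8 : ℝ) + ((-237 : ℝ) * (y9 : ℝ) + ((336 : ℝ) * (y10 : ℝ) + ((252 : ℝ) * (y11 : ℝ) + ((24 : ℝ) * (y12 : ℝ) + ((480 : ℝ) * (y13 : ℝ) + 0))))))))))))) := by exact_mod_cast h13;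
  have H14 : (0 : ℝ) ≤ (10 : ℝ) * (y0 : ℝ) + ((28 : ℝ) * (y1 : ℝ) + ((44 : ℝ) * (y2 : ℝ) + ((73 : ℝ) * (y3 : ℝ) + ((107 : ℝ) * (y4 : ℝ) + ((145 : ℝ) * (y5 : ℝ) + ((172 : ℝ) * (y6 : ℝ) + ((224 : ℝ) * (y7 : ℝ) + ((244 : ℝ) * (y8 : ℝ) + ((152 : ℝ) * (y9 : ℝ) + ((352 : ℝ) * (y10 : ℝ) + ((368 : ℝ) * (y11 : ℝ) + ((208 : ℝ) * (y12 : ℝ) + ((640 : ℝ) * (y13 : ℝ) + 0))))))))))))) := by exact_mod_cast h14;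
  have H15 : (0 : ℝ) ≤ (10 : ℝ) * (y0 : ℝ) + ((10 : ℝ) * (y1 : ℝ) + ((-2 : ℝ) * (y2 : ℝ) + ((10 : ℝ) * (y3 : ℝ) + ((-2 : ℝ) * (y4 : ℝ) + ((-2 : ℝ) * (y5 : ℝ) + ((10 : ℝ) * (y6 : ℝ) + ((-2 : ℝ) * (y7 : ℝ) + ((-2 : ℝ) * (y8 : ℝ) + ((2 : ℝ) * (y9 : ℝ) + ((10 : ℝ) * (y10 : ℝ) + ((-2 : ℝ) * (y11 : ℝ) + ((-2 : ℝ) * (y12 : ℝ) + ((10 : ℝ) * (y13 : ℝ) + 0))))))))))))) := by exact_mod_cast h15;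
  have H16 : (0 : ℝ) ≤ (20 : ℝ) * (y0 : ℝ) + ((32 : ℝ) * (y1 : ℝ) + ((24 : ℝ) * (y2 : ℝ) + ((44 : ℝ) * (y3 : ℝ) + ((18 : ℝ) * (y4 : ℝ) + ((-32 : ℝ) * (y5 : ℝ) + ((56 : ℝ) * (y6 : ℝ) + ((12 : ℝ) * (y7 : ℝ) + ((-32 : ℝ) * (y8 : ℝ) + ((4 : ℝ) * (y9 : ℝ) + ((68 : ℝ) * (y10 : ℝ) + ((6 : ℝ) * (y11 : ℝ) + ((-32 : ℝ) * (y12 : ℝ) + ((80 : ℝ) * (y13 : ℝ) + 0))))))))))))) := by exact_mod_cast h16;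
  have H17 : (0 : ℝ) ≤ (10 : ℝ) * (y0 : ℝ) + ((22 : ℝ) * (y1 : ℝ) + ((26 : ℝ) * (y2 : ℝ) + ((43 : ℝ) * (y3 : ℝ) + ((41 : ℝ) * (y4 : ℝ) + ((19 : ℝ) * (y5 : ℝ) + ((73 : ℝ) * (y6 : ℝ) + ((47 : ℝ) * (y7 : ℝ) + ((-23 : ℝ) * (y8 : ℝ) + ((-145 : ℝ) * (y9 : ℝ) + ((112 : ℝ) * (y10 : ℝ) + ((44 : ℝ) * (y11 : ℝ) + ((-56 : ℝ) * (y12 : ℝ) + ((160 : ℝ) * (y13 : ℝ) + 0))))))))))))) := by exact_mod_cast h17;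
  have H18 : (0 : ℝ) ≤ (5 : ℝ) * (y0 : ℝ) + ((5 : ℝ) * (y1 : ℝ) + ((-3 : ℝ) * (y2 : ℝ) + ((5 : ℝ) * (y3 : ℝ) + ((-3 : ℝ) * (y4 : ℝ) + ((1 : ℝ) * (y5 : ℝ) + ((5 : ℝ) * (y6 : ℝ) + ((-3 : ℝ) * (y7 : ℝ) + ((1 : ℝ) * (y8 : ℝ) + ((1 : ℝ) * (y9 : ℝ) + ((5 : ℝ) * (y10 : ℝ) + ((-3 : ℝ) * (y11 : ℝ) + ((1 : ℝ) * (y12 : ℝ) + ((5 : ℝ) * (y13 : ℝ) + 0))))))))))))) := by exact_mod_cast h18;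
  have H19 : (0 : ℝ) ≤ (5 : ℝ) * (y0 : ℝ) + ((8 : ℝ) * (y1 : ℝ) + ((4 : ℝ) * (y2 : ℝ) + ((11 : ℝ) * (y3 : ℝ) + ((1 : ℝ) * (y4 : ℝ) + ((-13 : ℝ) * (y5 : ℝ) + ((14 : ℝ) * (y6 : ℝ) + ((-2 : ℝ) * (y7 : ℝ) + ((-10 : ℝ) * (y8 : ℝ) + ((22 : ℝ) * (y9 : ℝ) + ((17 : ℝ) * (y10 : ℝ) + ((-5 : ℝ) * (y11 : ℝ) + ((-7 : ℝ) * (y12 : ℝ) + ((20 : ℝ) * (y13 : ℝ) + 0))))))))))))) := by exact_mod_cast h19;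
  have H20 : (0 : ℝ) ≤ (1 : ℝ) * (y0 : ℝ) + ((1 : ℝ) * (y1 : ℝ) + ((-1 : ℝ) * (y2 : ℝ) + ((1 : ℝ) * (y3 : ℝ) + ((-1 : ℝ) * (y4 : ℝ) + ((1 : ℝ) * (y5 : ℝ) + ((1 : ℝ) * (y6 : ℝ) + ((-1 : ℝ) * (y7 : ℝ) + ((1 : ℝ) * (y8 : ℝ) + ((-1 : ℝ) * (y9 : ℝ) + ((1 : ℝ) * (y10 : ℝ) + ((-1 : ℝ) * (y11 : ℝ) + ((1 : ℝ) * (y12 : ℝ) + ((1 : ℝ) * (y13 : ℝ) + 0))))))))))))) := by exact_mod_cast h20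
  have key : evalRow y0 y1 y2 y3 y4 y5 y6 y7 y8 y9 y10 y11 y12 y13 (l1 * (1) + l2 * (4) + l3 * (1)) (l1 * (-1) + l2 * (8) + l3 * (1)) = (l1 ^ 0 * l2 ^ 0 * l3 ^ 5) * ((1 : ℝ) * (y0 : ℝ) + ((1 : ℝ) * (y1 : ℝ) + ((1 : ℝ) * (y2 : ℝ) + ((1 : ℝ) * (y3 : ℝ) + ((1 : ℝ) * (y4 : ℝ) + ((1 : ℝ) * (y5 : ℝ) + ((1 : ℝ) * (y6 : ℝ) + ((1 : ℝ) * (y7 : ℝ) + ((1 : ℝ) * (y8 : ℝ) + ((1 : ℝ) * (y9 : ℝ) + ((1 : ℝ) * (y10 : ℝ) + ((1 : ℝ) * (y11 : ℝ) + ((1 : ℝ) * (y12 : ℝ) + ((1 : ℝ) * (y13 : ℝ) + 0)))))))))))))) + (l1 ^ 0 * l2 ^ 1 * l3 ^ 4) * ((5 : ℝ) * (y0 : ℝ) + ((8 : ℝ) * (y1 : ℝ) + ((12 : ℝ) * (y2 : ℝ) + ((11 : ℝ) * (y3 : ℝ) + ((15 : ℝ) * (y4 : ℝ) + ((19 : ℝ) * (y5 : ℝ) + ((14 : ℝ) * (y6 : ℝ) + ((18 : ℝ) * (y7 : ℝ) + ((22 : ℝ) * (y8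 : ℝ) + ((26 : ℝ) * (y9 : ℝ) + ((17 : ℝ) * (y10 : ℝ) + ((21 : ℝ) * (y11 : ℝ) + ((25 : ℝ) * (y12 : ℝ) + ((20 : ℝ) * (y13 : ℝ) + 0)))))))))))))) + (l1 ^ 0 * l2 ^ 2 * l3 ^ 3) * ((10 : ℝ) * (y0 : ℝ) + ((22 : ℝ) * (y1 : ℝ) + ((38 : ℝ) * (y2 : ℝ) + ((43 : ℝ) * (y3 : ℝ) + ((71 : ℝ) * (y4 : ℝ) + ((115 : ℝ) * (y5 : ℝ) + ((73 : ℝ) * (y6 : ℝ) + ((113 : ℝ) * (y7 : ℝ) + ((169 : ℝ) * (y8 : ℝ) + ((241 : ℝ) * (y9 : ℝ) + ((112 : ℝ) * (y10 : ℝ) + ((164 : ℝ) * (y11 : ℝ) + ((232 : ℝ) * (y12 : ℝ) + ((160 : ℝ) * (y13 : ℝ) + 0)))))))))))))) + (l1 ^ 0 * l2 ^ 3 * l3 ^ 2) * ((10 : ℝ) * (y0 : ℝ) + ((28 : ℝ) * (y1 : ℝ) + ((52 : ℝ) * (y2 : ℝ) + ((73 : ℝ) * (y3 : ℝ) + ((133 : ℝ) * (y4 : ℝ) + ((241 : ℝ) * (y5 : ℝ) + ((172 : ℝ) * (y6 : ℝ) + ((304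 : ℝ) * (y7 : ℝ) + ((532 : ℝ) * (y8 : ℝ) + ((920 : ℝ) * (y9 : ℝ) + ((352 : ℝ) * (y10 : ℝ) + ((592 : ℝ) * (y11 : ℝ) + ((976 : ℝ) * (y12 : ℝ) + ((640 : ℝ) * (y13 : ℝ) + 0)))))))))))))) + (l1 ^ 0 * l2 ^ 4 * l3 ^ 1) * ((5 : ℝ) * (y0 : ℝ) + ((17 : ℝ) * (y1 : ℝ) + ((33 : ℝ) * (y2 : ℝ) + ((56 : ℝ) * (y3 : ℝ) + ((108 : ℝ) * (y4 : ℝ) + ((208 : ℝ) * (y5 : ℝ) + ((176 : ℝ) * (y6 : ℝ) + ((336 : ℝ) * (y7 : ℝ) + ((640 : ℝ) * (y8 : ℝ) + ((1216 : ℝ) * (y9 : ℝ) + ((512 : ℝ) * (y10 : ℝ) + ((960 : ℝ) * (y11 : ℝ) + ((1792 : ℝ) * (y12 : ℝ) + ((1280 : ℝ) * (y13 : ℝ) + 0)))))))))))))) + (l1 ^ 0 * l2 ^ 5 * l3 ^ 0) * ((1 : ℝ) * (y0 : ℝ) + ((4 : ℝ) * (y1 : ℝ) + ((8 : ℝ) * (y2 : ℝ) + ((16 : ℝ) * (y3 : ℝ) + ((32 : ℝ) * (y4 : ℝ) + ((64 : ℝ) *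 (y5 : ℝ) + ((64 : ℝ) * (y6 : ℝ) + ((128 : ℝ) * (y7 : ℝ) + ((256 : ℝ) * (y8 : ℝ) + ((512 : ℝ) * (y9 : ℝ) + ((256 : ℝ) * (y10 : ℝ) + ((512 : ℝ) * (y11 : ℝ) + ((1024 : ℝ) * (y12 : ℝ) + ((1024 : ℝ) * (y13 : ℝ) + 0)))))))))))))) + (l1 ^ 1 * l2 ^ 0 * l3 ^ 4) * ((5 : ℝ) * (y0 : ℝ) + ((5 : ℝ) * (y1 : ℝ) + ((3 : ℝ) * (y2 : ℝ) + ((5 : ℝ) * (y3 : ℝ) + ((3 : ℝ) * (y4 : ℝ) + ((1 : ℝ) * (y5 : ℝ) + ((5 : ℝ) * (y6 : ℝ) + ((3 : ℝ) * (y7 : ℝ) + ((1 : ℝ) * (y8 : ℝ) + ((-1 : ℝ) * (y9 : ℝ) + ((5 : ℝ) * (y10 : ℝ) + ((3 : ℝ) * (y11 : ℝ) + ((1 : ℝ) * (y12 : ℝ) + ((5 : ℝ) * (y13 : ℝ) + 0)))))))))))))) + (l1 ^ 1 * l2 ^ 1 * l3 ^ 3) * ((20 : ℝ) * (y0 : ℝ) + ((32 : ℝ) * (y1 : ℝ) + ((40 : ℝ) * (y2 : ℝ) + ((44 : ℝ) * (y3 : ℝ) + ((46 : ℝ) * (y4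 : ℝ) + ((32 : ℝ) * (y5 : ℝ) + ((56 : ℝ) * (y6 : ℝ) + ((52 : ℝ) * (y7 : ℝ) + ((32 : ℝ) * (y8 : ℝ) + ((-4 : ℝ) * (y9 : ℝ) + ((68 : ℝ) * (y10 : ℝ) + ((58 : ℝ) * (y11 : ℝ) + ((32 : ℝ) * (y12 : ℝ) + ((80 : ℝ) * (y13 : ℝ) + 0)))))))))))))) + (l1 ^ 1 * l2 ^ 2 * l3 ^ 2) * ((30 : ℝ) * (y0 : ℝ) + ((66 : ℝ) * (y1 : ℝ) + ((102 : ℝ) * (y2 : ℝ) + ((129 : ℝ) * (y3 : ℝ) + ((183 : ℝ) * (y4 : ℝ) + ((237 : ℝ) * (y5 : ℝ) + ((219 : ℝ) * (y6 : ℝ) + ((273 : ℝ) * (y7 : ℝ) + ((279 : ℝ) * (y8 : ℝ) + ((141 : ℝ) * (y9 : ℝ) + ((336 : ℝ) * (y10 : ℝ) + ((372 : ℝ) * (y11 : ℝ) + ((312 : ℝ) * (y12 : ℝ) + ((480 : ℝ) * (y13 : ℝ) + 0)))))))))))))) + (l1 ^ 1 * l2 ^ 3 * l3 ^ 1) * ((20 : ℝ) * (y0 : ℝ) + ((56 : ℝ) * (y1 : ℝ) + ((96 : ℝ) * (y2 : ℝ) + ((146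 : ℝ) * (y3 : ℝ) + ((240 : ℝ) * (y4 : ℝ) + ((382 : ℝ) * (y5 : ℝ) + ((344 : ℝ) * (y6 : ℝ) + ((528 : ℝ) * (y7 : ℝ) + ((760 : ℝ) * (y8 : ℝ) + ((976 : ℝ) * (y9 : ℝ) + ((704 : ℝ) * (y10 : ℝ) + ((960 : ℝ) * (y11 : ℝ) + ((1120 : ℝ) * (y12 : ℝ) + ((1280 : ℝ) * (y13 : ℝ) + 0)))))))))))))) + (l1 ^ 1 * l2 ^ 4 * l3 ^ 0) * ((5 : ℝ) * (y0 : ℝ) + ((17 : ℝ) * (y1 : ℝ) + ((31 : ℝ) * (y2 : ℝ) + ((56 : ℝ) * (y3 : ℝ) + ((100 : ℝ) * (y4 : ℝ) + ((176 : ℝ) * (y5 : ℝ) + ((176 : ℝ) * (y6 : ℝ) + ((304 : ℝ) * (y7 : ℝ) + ((512 : ℝ) * (y8 : ℝ) + ((832 : ℝ) * (y9 : ℝ) + ((512 : ℝ) * (y10 : ℝ) + ((832 : ℝ) * (y11 : ℝ) + ((1280 : ℝ) * (y12 : ℝ) + ((1280 : ℝ) * (y13 : ℝ) + 0)))))))))))))) + (l1 ^ 2 * l2 ^ 0 * l3 ^ 3) * ((10 : ℝ) * (y0 : ℝ) + ((10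 : ℝ) * (y1 : ℝ) + ((2 : ℝ) * (y2 : ℝ) + ((10 : ℝ) * (y3 : ℝ) + ((2 : ℝ) * (y4 : ℝ) + ((-2 : ℝ) * (y5 : ℝ) + ((10 : ℝ) * (y6 : ℝ) + ((2 : ℝ) * (y7 : ℝ) + ((-2 : ℝ) * (y8 : ℝ) + ((-2 : ℝ) * (y9 : ℝ) + ((10 : ℝ) * (y10 : ℝ) + ((2 : ℝ) * (y11 : ℝ) + ((-2 : ℝ) * (y12 : ℝ) + ((10 : ℝ) * (y13 : ℝ) + 0)))))))))))))) + (l1 ^ 2 * l2 ^ 1 * l3 ^ 2) * ((30 : ℝ) * (y0 : ℝ) + ((48 : ℝ) * (y1 : ℝ) + ((48 : ℝ) * (y2 : ℝ) + ((66 : ℝ) * (y3 : ℝ) + ((48 : ℝ) * (y4 : ℝ) + ((-6 : ℝ) * (y5 : ℝ) + ((84 : ℝ) * (y6 : ℝ) + ((48 : ℝ) * (y7 : ℝ) + ((-12 : ℝ) * (y8 : ℝ) + ((-48 : ℝ) * (y9 : ℝ) + ((102 : ℝ) * (y10 : ℝ) + ((48 : ℝ) * (y11 : ℝ) + ((-18 : ℝ) * (y12 : ℝ) + ((120 : ℝ) * (y13 : ℝ) + 0)))))))))))))) + (l1 ^ 2 * l2 ^ 2 * l3 ^ 1) * ((30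 : ℝ) * (y0 : ℝ) + ((66 : ℝ) * (y1 : ℝ) + ((90 : ℝ) * (y2 : ℝ) + ((129 : ℝ) * (y3 : ℝ) + ((153 : ℝ) * (y4 : ℝ) + ((141 : ℝ) * (y5 : ℝ) + ((219 : ℝ) * (y6 : ℝ) + ((207 : ℝ) * (y7 : ℝ) + ((87 : ℝ) * (y8 : ℝ) + ((-237 : ℝ) * (y9 : ℝ) + ((336 : ℝ) * (y10 : ℝ) + ((252 : ℝ) * (y11 : ℝ) + ((24 : ℝ) * (y12 : ℝ) + ((480 : ℝ) * (y13 : ℝ) + 0)))))))))))))) + (l1 ^ 2 * l2 ^ 3 * l3 ^ 0) * ((10 : ℝ) * (y0 : ℝ) + ((28 : ℝ) * (y1 : ℝ) + ((44 : ℝ) * (y2 : ℝ) + ((73 : ℝ) * (y3 : ℝ) + ((107 : ℝ) * (y4 : ℝ) + ((145 : ℝ) * (y5 : ℝ) + ((172 : ℝ) * (y6 : ℝ) + ((224 : ℝ) * (y7 : ℝ) + ((244 : ℝ) * (y8 : ℝ) + ((152 : ℝ) * (y9 : ℝ) + ((352 : ℝ) * (y10 : ℝ) + ((368 : ℝ) * (y11 : ℝ) + ((208 : ℝ) * (y12 : ℝ) + ((640 : ℝ) * (y13 : ℝ) + 0))))))))))))))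 + (l1 ^ 3 * l2 ^ 0 * l3 ^ 2) * ((10 : ℝ) * (y0 : ℝ) + ((10 : ℝ) * (y1 : ℝ) + ((-2 : ℝ) * (y2 : ℝ) + ((10 : ℝ) * (y3 : ℝ) + ((-2 : ℝ) * (y4 : ℝ) + ((-2 : ℝ) * (y5 : ℝ) + ((10 : ℝ) * (y6 : ℝ) + ((-2 : ℝ) * (y7 : ℝ) + ((-2 : ℝ) * (y8 : ℝ) + ((2 : ℝ) * (y9 : ℝ) + ((10 : ℝ) * (y10 : ℝ) + ((-2 : ℝ) * (y11 : ℝ) + ((-2 : ℝ) * (y12 : ℝ) + ((10 : ℝ) * (y13 : ℝ) + 0)))))))))))))) + (l1 ^ 3 * l2 ^ 1 * l3 ^ 1) * ((20 : ℝ) * (y0 : ℝ) + ((32 : ℝ) * (y1 : ℝ) + ((24 : ℝ) * (y2 : ℝ) + ((44 : ℝ) * (y3 : ℝ) + ((18 : ℝ) * (y4 : ℝ) + ((-32 : ℝ) * (y5 : ℝ) + ((56 : ℝ) * (y6 : ℝ) + ((12 : ℝ) * (y7 : ℝ) + ((-32 : ℝ) * (y8 : ℝ) + ((4 : ℝ) * (y9 : ℝ) + ((68 : ℝ) * (y10 : ℝ) + ((6 : ℝ) * (y11 : ℝ) + ((-32 : ℝ) * (y12 : ℝ) + ((80 : ℝ) * (y13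 : ℝ) + 0)))))))))))))) + (l1 ^ 3 * l2 ^ 2 * l3 ^ 0) * ((10 : ℝ) * (y0 : ℝ) + ((22 : ℝ) * (y1 : ℝ) + ((26 : ℝ) * (y2 : ℝ) + ((43 : ℝ) * (y3 : ℝ) + ((41 : ℝ) * (y4 : ℝ) + ((19 : ℝ) * (y5 : ℝ) + ((73 : ℝ) * (y6 : ℝ) + ((47 : ℝ) * (y7 : ℝ) + ((-23 : ℝ) * (y8 : ℝ) + ((-145 : ℝ) * (y9 : ℝ) + ((112 : ℝ) * (y10 : ℝ) + ((44 : ℝ) * (y11 : ℝ) + ((-56 : ℝ) * (y12 : ℝ) + ((160 : ℝ) * (y13 : ℝ) + 0)))))))))))))) + (l1 ^ 4 * l2 ^ 0 * l3 ^ 1) * ((5 : ℝ) * (y0 : ℝ) + ((5 : ℝ) * (y1 : ℝ) + ((-3 : ℝ) * (y2 : ℝ) + ((5 : ℝ) * (y3 : ℝ) + ((-3 : ℝ) * (y4 : ℝ) + ((1 : ℝ) * (y5 : ℝ) + ((5 : ℝ) * (y6 : ℝ) + ((-3 : ℝ) * (y7 : ℝ) + ((1 : ℝ) * (y8 : ℝ) + ((1 : ℝ) * (y9 : ℝ) + ((5 : ℝ) * (y10 : ℝ) + ((-3 : ℝ) * (y11 : ℝ) + ((1 : ℝ) * (y12 :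 ℝ) + ((5 : ℝ) * (y13 : ℝ) + 0)))))))))))))) + (l1 ^ 4 * l2 ^ 1 * l3 ^ 0) * ((5 : ℝ) * (y0 : ℝ) + ((8 : ℝ) * (y1 : ℝ) + ((4 : ℝ) * (y2 : ℝ) + ((11 : ℝ) * (y3 : ℝ) + ((1 : ℝ) * (y4 : ℝ) + ((-13 : ℝ) * (y5 : ℝ) + ((14 : ℝ) * (y6 : ℝ) + ((-2 : ℝ) * (y7 : ℝ) + ((-10 : ℝ) * (y8 : ℝ) + ((22 : ℝ) * (y9 : ℝ) + ((17 : ℝ) * (y10 : ℝ) + ((-5 : ℝ) * (y11 : ℝ) + ((-7 : ℝ) * (y12 : ℝ) + ((20 : ℝ) * (y13 : ℝ) + 0)))))))))))))) + (l1 ^ 5 * l2 ^ 0 * l3 ^ 0) * ((1 : ℝ) * (y0 : ℝ) + ((1 : ℝ) * (y1 : ℝ) + ((-1 : ℝ) * (y2 : ℝ) + ((1 : ℝ) * (y3 : ℝ) + ((-1 : ℝ) * (y4 : ℝ) + ((1 : ℝ) * (y5 : ℝ) + ((1 : ℝ) * (y6 : ℝ) + ((-1 : ℝ) * (y7 : ℝ) + ((1 : ℝ) * (y8 : ℝ) + ((-1 : ℝ) * (y9 : ℝ) + ((1 : ℝ) * (y10 : ℝ) + ((-1 : ℝ) * (y11 : ℝ) + ((1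 : ℝ) * (y12 : ℝ) + ((1 : ℝ) * (y13 : ℝ) + 0)))))))))))))) := by
    have hl3 : l3 = 1 - l1 - l2 := by linarith
    subst hl3
    unfold evalRow
    ring
  rw [key]
  exact add_nonneg (add_nonneg (add_nonneg (add_nonneg (add_nonneg (add_nonneg (add_nonneg (add_nonneg (add_nonneg (add_nonneg (add_nonneg (add_nonneg (add_nonneg (add_nonneg (add_nonneg (add_nonneg (add_nonneg (add_nonneg (add_nonneg (add_nonneg (mul_nonneg (by positivity) H0) (mul_nonneg (by positivity) H1)) (mul_nonneg (by positivity) H2)) (mul_nonneg (by positivity) H3)) (mul_nonneg (by positivity) H4)) (mul_nonneg (by positivity) H5)) (mul_nonneg (by positivity) H6)) (mul_nonneg (by positivity) H7)) (mul_nonneg (by positivity) H8)) (mul_nonneg (by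 positivity) H9)) (mul_nonneg (by positivity) H10)) (mul_nonneg (by positivity) H11)) (mul_nonneg (by positivity) H12)) (mul_nonneg (by positivity) H13)) (mul_nonneg (by positivity) H14)) (mul_nonneg (by positivity) H15)) (mul_nonneg (by positivity) H16)) (mul_nonneg (by positivity) H17)) (mul_nonneg (by positivity) H18)) (mul_nonneg (by positivity) H19)) (mul_nonneg (by positivity) H20)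

set_option maxHeartbeats 8000000 in
theorem tri3 (y0 y1 y2 y3 y4 y5 y6 y7 y8 y9 y10 y11 y12 y13 : ℤ) (h : (BT3.all fun r => decide (0 ≤ dotI r [y0, y1, y2, y3, y4, y5, y6, y7, y8, y9, y10, y11, y12, y13])) = true)
    (l1 l2 l3 : ℝ) (h1 : 0 ≤ l1) (h2 : 0 ≤ l2) (h3 : 0 ≤ l3) (hs : l1 + l2 + l3 = 1) :
    0 ≤ evalRow y0 y1 y2 y3 y4 y5 y6 y7 y8 y9 y10 y11 y12 y13 (l1 * (4) + l2 * (9) + l3 * (9)) (l1 * (-8) + l2 * (-27) + l3 * (27)) := by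
  simp only [BT3, List.all_cons, List.all_nil, Bool.and_true, Bool.and_eq_true, decide_eq_true_eq, dotI] at h
  obtain ⟨h0, h1, h2, h3, h4, h5, h6, h7, h8, h9, h10, h11, h12, h13, h14, h15, h16, h17, h18, h19, h20⟩ := h
  have H0 : (0 : ℝ) ≤ (1 : ℝ) * (y0 : ℝ) + ((9 : ℝ) * (y1 : ℝ) + ((27 : ℝ) * (y2 : ℝ) + ((81 : ℝ) * (y3 : ℝ) + ((243 : ℝ) * (y4 : ℝ) + ((729 : ℝ) * (y5 : ℝ) + ((729 : ℝ) * (y6 : ℝ) + ((2187 : ℝ) * (y7 : ℝ) + ((6561 : ℝ) * (y8 : ℝ) + ((19683 : ℝ) * (y9 : ℝ) + ((6561 : ℝ) * (y10 : ℝ) + ((19683 : ℝ) * (y11 : ℝ) + ((59049 : ℝ) * (y12 : ℝ) + ((59049 : ℝ) * (y13 : ℝ) + 0))))))))))))) := by exact_mod_cast h0;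
  have H1 : (0 : ℝ) ≤ (5 : ℝ) * (y0 : ℝ) + ((45 : ℝ) * (y1 : ℝ) + ((81 : ℝ) * (y2 : ℝ) + ((405 : ℝ) * (y3 : ℝ) + ((729 : ℝ) * (y4 : ℝ) + ((729 : ℝ) * (y5 : ℝ) + ((3645 : ℝ) * (y6 : ℝ) + ((6561 : ℝ) * (y7 : ℝ) + ((6561 : ℝ) * (y8 : ℝ) + ((-19683 : ℝ) * (y9 : ℝ) + ((32805 : ℝ) * (y10 : ℝ) + ((59049 : ℝ) * (y11 : ℝ) + ((59049 : ℝ) * (y12 : ℝ) + ((295245 : ℝ) * (y13 : ℝ) + 0))))))))))))) := by exact_mod_cast h1;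
  have H2 : (0 : ℝ) ≤ (10 : ℝ) * (y0 : ℝ) + ((90 : ℝ) * (y1 : ℝ) + ((54 : ℝ) * (y2 : ℝ) + ((810 : ℝ) * (y3 : ℝ) + ((486 : ℝ) * (y4 : ℝ) + ((-1458 : ℝ) * (y5 : ℝ) + ((7290 : ℝ) * (y6 : ℝ) + ((4374 : ℝ) * (y7 : ℝ) + ((-13122 : ℝ) * (y8 : ℝ) + ((-39366 : ℝ) * (y9 : ℝ) + ((65610 : ℝ) * (y10 : ℝ) + ((39366 : ℝ) * (y11 : ℝ) + ((-118098 : ℝ) * (y12 : ℝ) + ((590490 : ℝ) * (y13 : ℝ) + 0))))))))))))) := by exact_mod_cast h2;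
  have H3 : (0 : ℝ) ≤ (10 : ℝ) * (y0 : ℝ) + ((90 : ℝ) * (y1 : ℝ) + ((-54 : ℝ) * (y2 : ℝ) + ((810 : ℝ) * (y3 : ℝ) + ((-486 : ℝ) * (y4 : ℝ) + ((-1458 : ℝ) * (y5 : ℝ) + ((7290 : ℝ) * (y6 : ℝ) + ((-4374 : ℝ) * (y7 : ℝ) + ((-13122 : ℝ) * (y8 : ℝ) + ((39366 : ℝ) * (y9 : ℝ) + ((65610 : ℝ) * (y10 : ℝ) + ((-39366 : ℝ) * (y11 : ℝ) + ((-118098 : ℝ) * (y12 : ℝ) + ((590490 : ℝ) * (y13 : ℝ) + 0))))))))))))) := by exact_mod_cast h3;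
  have H4 : (0 : ℝ) ≤ (5 : ℝ) * (y0 : ℝ) + ((45 : ℝ) * (y1 : ℝ) + ((-81 : ℝ) * (y2 : ℝ) + ((405 : ℝ) * (y3 : ℝ) + ((-729 : ℝ) * (y4 : ℝ) + ((729 : ℝ) * (y5 : ℝ) + ((3645 : ℝ) * (y6 : ℝ) + ((-6561 : ℝ) * (y7 : ℝ) + ((6561 : ℝ) * (y8 : ℝ) + ((19683 : ℝ) * (y9 : ℝ) + ((32805 : ℝ) * (y10 : ℝ) + ((-59049 : ℝ) * (y11 : ℝ) + ((59049 : ℝ) * (y12 : ℝ) + ((295245 : ℝ) * (y13 : ℝ) + 0))))))))))))) := by exact_mod_cast h4;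
  have H5 : (0 : ℝ) ≤ (1 : ℝ) * (y0 : ℝ) + ((9 : ℝ) * (y1 : ℝ) + ((-27 : ℝ) * (y2 : ℝ) + ((81 : ℝ) * (y3 : ℝ) + ((-243 : ℝ) * (y4 : ℝ) + ((729 : ℝ) * (y5 : ℝ) + ((729 : ℝ) * (y6 : ℝ) + ((-2187 : ℝ) * (y7 : ℝ) + ((6561 : ℝ) * (y8 : ℝ) + ((-19683 : ℝ) * (y9 : ℝ) + ((6561 : ℝ) * (y10 : ℝ) + ((-19683 : ℝ) * (y11 : ℝ) + ((59049 : ℝ) * (y12 : ℝ) + ((59049 : ℝ) * (y13 : ℝ) + 0))))))))))))) := by exact_mod_cast h5;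
  have H6 : (0 : ℝ) ≤ (5 : ℝ) * (y0 : ℝ) + ((40 : ℝ) * (y1 : ℝ) + ((100 : ℝ) * (y2 : ℝ) + ((315 : ℝ) * (y3 : ℝ) + ((765 : ℝ) * (y4 : ℝ) + ((1755 : ℝ) * (y5 : ℝ) + ((2430 : ℝ) * (y6 : ℝ) + ((5670 : ℝ) * (y7 : ℝ) + ((12150 : ℝ) * (y8 : ℝ) + ((21870 : ℝ) * (y9 : ℝ) + ((18225 : ℝ) * (y10 : ℝ) + ((40095 : ℝ) * (y11 : ℝ) + ((76545 : ℝ) * (y12 : ℝ) + ((131220 : ℝ) * (y13 : ℝ) + 0))))))))))))) := by exact_mod_cast h6;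
  have H7 : (0 : ℝ) ≤ (20 : ℝ) * (y0 : ℝ) + ((160 : ℝ) * (y1 : ℝ) + ((184 : ℝ) * (y2 : ℝ) + ((1260 : ℝ) * (y3 : ℝ) + ((1386 : ℝ) * (y4 : ℝ) + ((-864 : ℝ) * (y5 : ℝ) + ((9720 : ℝ) * (y6 : ℝ) + ((10044 : ℝ) * (y7 : ℝ) + ((-7776 : ℝ) * (y8 : ℝ) + ((-78732 : ℝ) * (y9 : ℝ) + ((72900 : ℝ) * (y10 : ℝ) + ((68526 : ℝ) * (y11 : ℝ) + ((-69984 : ℝ) * (y12 : ℝ) + ((524880 : ℝ) * (y13 : ℝ) + 0))))))))))))) := by exact_mod_cast h7;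
  have H8 : (0 : ℝ) ≤ (30 : ℝ) * (y0 : ℝ) + ((240 : ℝ) * (y1 : ℝ) + ((-48 : ℝ) * (y2 : ℝ) + ((1890 : ℝ) * (y3 : ℝ) + ((-432 : ℝ) * (y4 : ℝ) + ((-4374 : ℝ) * (y5 : ℝ) + ((14580 : ℝ) * (y6 : ℝ) + ((-3888 : ℝ) * (y7 : ℝ) + ((-32076 : ℝ) * (y8 : ℝ) + ((34992 : ℝ) * (y9 : ℝ) + ((109350 : ℝ) * (y10 : ℝ) + ((-34992 : ℝ) * (y11 : ℝ) + ((-223074 : ℝ) * (y12 : ℝ) + ((787320 : ℝ) * (y13 : ℝ) + 0))))))))))))) := by exact_mod_cast h8;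
  have H9 : (0 : ℝ) ≤ (20 : ℝ) * (y0 : ℝ) + ((160 : ℝ) * (y1 : ℝ) + ((-248 : ℝ) * (y2 : ℝ) + ((1260 : ℝ) * (y3 : ℝ) + ((-1962 : ℝ) * (y4 : ℝ) + ((864 : ℝ) * (y5 : ℝ) + ((9720 : ℝ) * (y6 : ℝ) + ((-15228 : ℝ) * (y7 : ℝ) + ((7776 : ℝ) * (y8 : ℝ) + ((78732 : ℝ) * (y9 : ℝ) + ((72900 : ℝ) * (y10 : ℝ) + ((-115182 : ℝ) * (y11 : ℝ) + ((69984 : ℝ) * (y12 : ℝ) + ((524880 : ℝ) * (y13 : ℝ) + 0))))))))))))) := by exact_mod_cast h9;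
  have H10 : (0 : ℝ) ≤ (5 : ℝ) * (y0 : ℝ) + ((40 : ℝ) * (y1 : ℝ) + ((-116 : ℝ) * (y2 : ℝ) + ((315 : ℝ) * (y3 : ℝ) + ((-909 : ℝ) * (y4 : ℝ) + ((2619 : ℝ) * (y5 : ℝ) + ((2430 : ℝ) * (y6 : ℝ) + ((-6966 : ℝ) * (y7 : ℝ) + ((19926 : ℝ) * (y8 : ℝ) + ((-56862 : ℝ) * (y9 : ℝ) + ((18225 : ℝ) * (y10 : ℝ) + ((-51759 : ℝ) * (y11 : ℝ) + ((146529 : ℝ) * (y12 : ℝ) + ((131220 : ℝ) * (y13 : ℝ) + 0))))))))))))) := by exact_mod_cast h10;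
  have H11 : (0 : ℝ) ≤ (10 : ℝ) * (y0 : ℝ) + ((70 : ℝ) * (y1 : ℝ) + ((130 : ℝ) * (y2 : ℝ) + ((475 : ℝ) * (y3 : ℝ) + ((805 : ℝ) * (y4 : ℝ) + ((955 : ℝ) * (y5 : ℝ) + ((3105 : ℝ) * (y6 : ℝ) + ((4635 : ℝ) * (y7 : ℝ) + ((3465 : ℝ) * (y8 : ℝ) + ((-10125 : ℝ) * (y9 : ℝ) + ((19440 : ℝ) * (y10 : ℝ) + ((24300 : ℝ) * (y11 : ℝ) + ((3240 : ℝ) * (y12 : ℝ) + ((116640 : ℝ) * (y13 : ℝ) + 0))))))))))))) := by exact_mod_cast h11;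
  have H12 : (0 : ℝ) ≤ (30 : ℝ) * (y0 : ℝ) + ((210 : ℝ) * (y1 : ℝ) + ((66 : ℝ) * (y2 : ℝ) + ((1425 : ℝ) * (y3 : ℝ) + ((309 : ℝ) * (y4 : ℝ) + ((-3291 : ℝ) * (y5 : ℝ) + ((9315 : ℝ) * (y6 : ℝ) + ((891 : ℝ) * (y7 : ℝ) + ((-20169 : ℝ) * (y8 : ℝ) + ((-18873 : ℝ) * (y9 : ℝ) + ((58320 : ℝ) * (y10 : ℝ) + ((-2916 : ℝ) * (y11 : ℝ) + ((-114696 : ℝ) * (y12 : ℝ) + ((349920 : ℝ) * (y13 : ℝ) + 0))))))))))))) := by exact_mod_cast h12;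
  have H13 : (0 : ℝ) ≤ (30 : ℝ) * (y0 : ℝ) + ((210 : ℝ) * (y1 : ℝ) + ((-258 : ℝ) * (y2 : ℝ) + ((1425 : ℝ) * (y3 : ℝ) + ((-1797 : ℝ) * (y4 : ℝ) + ((-699 : ℝ) * (y5 : ℝ) + ((9315 : ℝ) * (y6 : ℝ) + ((-12123 : ℝ) * (y7 : ℝ) + ((-1161 : ℝ) * (y8 : ℝ) + ((88857 : ℝ) * (y9 : ℝ) + ((58320 : ℝ) * (y10 : ℝ) + ((-78732 : ℝ) * (y11 : ℝ) + ((17496 : ℝ) * (y12 : ℝ) + ((349920 : ℝ) * (y13 : ℝ) + 0))))))))))))) := by exact_mod_cast h13;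
  have H14 : (0 : ℝ) ≤ (10 : ℝ) * (y0 : ℝ) + ((70 : ℝ) * (y1 : ℝ) + ((-194 : ℝ) * (y2 : ℝ) + ((475 : ℝ) * (y3 : ℝ) + ((-1301 : ℝ) * (y4 : ℝ) + ((3547 : ℝ) * (y5 : ℝ) + ((3105 : ℝ) * (y6 : ℝ) + ((-8379 : ℝ) * (y7 : ℝ) + ((22473 : ℝ) * (y8 : ℝ) + ((-59859 : ℝ) * (y9 : ℝ) + ((19440 : ℝ) * (y10 : ℝ) + ((-51516 : ℝ) * (y11 : ℝ) + ((135432 : ℝ) * (y12 : ℝ) + ((116640 : ℝ) * (y13 : ℝ) + 0))))))))))))) := by exact_mod_cast h14;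
  have H15 : (0 : ℝ) ≤ (10 : ℝ) * (y0 : ℝ) + ((60 : ℝ) * (y1 : ℝ) + ((60 : ℝ) * (y2 : ℝ) + ((345 : ℝ) * (y3 : ℝ) + ((255 : ℝ) * (y4 : ℝ) + ((-375 : ℝ) * (y5 : ℝ) + ((1900 : ℝ) * (y6 : ℝ) + ((880 : ℝ) * (y7 : ℝ) + ((-3020 : ℝ) * (y8 : ℝ) + ((-7640 : ℝ) * (y9 : ℝ) + ((10080 : ℝ) * (y10 : ℝ) + ((2160 : ℝ) * (y11 : ℝ) + ((-16560 : ℝ) * (y12 : ℝ) + ((51840 : ℝ) * (y13 : ℝ) + 0))))))))))))) := by exact_mod_cast h15;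
  have H16 : (0 : ℝ) ≤ (20 : ℝ) * (y0 : ℝ) + ((120 : ℝ) * (y1 : ℝ) + ((-96 : ℝ) * (y2 : ℝ) + ((690 : ℝ) * (y3 : ℝ) + ((-624 : ℝ) * (y4 : ℝ) + ((-1074 : ℝ) * (y5 : ℝ) + ((3800 : ℝ) * (y6 : ℝ) + ((-3856 : ℝ) * (y7 : ℝ) + ((-3016 : ℝ) * (y8 : ℝ) + ((33968 : ℝ) * (y9 : ℝ) + ((20160 : ℝ) * (y10 : ℝ) + ((-22464 : ℝ) * (y11 : ℝ) + ((-3744 : ℝ) * (y12 : ℝ) + ((103680 : ℝ) * (y13 : ℝ) + 0))))))))))))) := by exact_mod_cast h16;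
  have H17 : (0 : ℝ) ≤ (10 : ℝ) * (y0 : ℝ) + ((60 : ℝ) * (y1 : ℝ) + ((-156 : ℝ) * (y2 : ℝ) + ((345 : ℝ) * (y3 : ℝ) + ((-879 : ℝ) * (y4 : ℝ) + ((2217 : ℝ) * (y5 : ℝ) + ((1900 : ℝ) * (y6 : ℝ) + ((-4736 : ℝ) * (y7 : ℝ) + ((11668 : ℝ) * (y8 : ℝ) + ((-28376 : ℝ) * (y9 : ℝ) + ((10080 : ℝ) * (y10 : ℝ) + ((-24624 : ℝ) * (y11 : ℝ) + ((59472 : ℝ) * (y12 : ℝ) + ((51840 : ℝ) * (y13 : ℝ) + 0))))))))))))) := by exact_mod_cast h17;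
  have H18 : (0 : ℝ) ≤ (5 : ℝ) * (y0 : ℝ) + ((25 : ℝ) * (y1 : ℝ) + ((-5 : ℝ) * (y2 : ℝ) + ((120 : ℝ) * (y3 : ℝ) + ((-60 : ℝ) * (y4 : ℝ) + ((-240 : ℝ) * (y5 : ℝ) + ((560 : ℝ) * (y6 : ℝ) + ((-400 : ℝ) * (y7 : ℝ) + ((-640 : ℝ) * (y8 : ℝ) + ((4160 : ℝ) * (y9 : ℝ) + ((2560 : ℝ) * (y10 : ℝ) + ((-2240 : ℝ) * (y11 : ℝ) + ((-1280 : ℝ) * (y12 : ℝ) + ((11520 : ℝ) * (y13 : ℝ) + 0))))))))))))) := by exact_mod_cast h18;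
  have H19 : (0 : ℝ) ≤ (5 : ℝ) * (y0 : ℝ) + ((25 : ℝ) * (y1 : ℝ) + ((-59 : ℝ) * (y2 : ℝ) + ((120 : ℝ) * (y3 : ℝ) + ((-276 : ℝ) * (y4 : ℝ) + ((624 : ℝ) * (y5 : ℝ) + ((560 : ℝ) * (y6 : ℝ) + ((-1264 : ℝ) * (y7 : ℝ) + ((2816 : ℝ) * (y8 : ℝ) + ((-6208 : ℝ) * (y9 : ℝ) + ((2560 : ℝ) * (y10 : ℝ) + ((-5696 : ℝ) * (y11 : ℝ) + ((12544 : ℝ) * (y12 : ℝ) + ((11520 : ℝ) * (y13 : ℝ) + 0))))))))))))) := by exact_mod_cast h19;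
  have H20 : (0 : ℝ) ≤ (1 : ℝ) * (y0 : ℝ) + ((4 : ℝ) * (y1 : ℝ) + ((-8 : ℝ) * (y2 : ℝ) + ((16 : ℝ) * (y3 : ℝ) + ((-32 : ℝ) * (y4 : ℝ) + ((64 : ℝ) * (y5 : ℝ) + ((64 : ℝ) * (y6 : ℝ) + ((-128 : ℝ) * (y7 : ℝ) + ((256 : ℝ) * (y8 : ℝ) + ((-512 : ℝ) * (y9 : ℝ) + ((256 : ℝ) * (y10 : ℝ) + ((-512 : ℝ) * (y11 : ℝ) + ((1024 : ℝ) * (y12 : ℝ) + ((1024 : ℝ) * (y13 : ℝ) + 0))))))))))))) := by exact_mod_cast h20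
  have key : evalRow y0 y1 y2 y3 y4 y5 y6 y7 y8 y9 y10 y11 y12 y13 (l1 * (4) + l2 * (9) + l3 * (9)) (l1 * (-8) + l2 * (-27) + l3 * (27)) = (l1 ^ 0 * l2 ^ 0 * l3 ^ 5) * ((1 : ℝ) * (y0 : ℝ) + ((9 : ℝ) * (y1 : ℝ) + ((27 : ℝ) * (y2 : ℝ) + ((81 : ℝ) * (y3 : ℝ) + ((243 : ℝ) * (y4 : ℝ) + ((729 : ℝ) * (y5 : ℝ) + ((729 : ℝ) * (y6 : ℝ) + ((2187 : ℝ) * (y7 : ℝ) + ((6561 : ℝ) * (y8 : ℝ) + ((19683 : ℝ) * (y9 : ℝ) + ((6561 : ℝ) * (y10 : ℝ) + ((19683 : ℝ) * (y11 : ℝ) + ((59049 : ℝ) * (y12 : ℝ) + ((59049 : ℝ) * (y13 : ℝ) + 0)))))))))))))) + (l1 ^ 0 * l2 ^ 1 * l3 ^ 4) * ((5 : ℝ) * (y0 : ℝ) + ((45 : ℝ) * (y1 : ℝ) + ((81 : ℝ) * (y2 : ℝ) + ((405 : ℝ) * (y3 : ℝ) + ((729 : ℝ) * (y4 : ℝ) + ((729 : ℝ) * (y5 : ℝ) + ((3645 : ℝ) * (y6 : ℝ)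 + ((6561 : ℝ) * (y7 : ℝ) + ((6561 : ℝ) * (y8 : ℝ) + ((-19683 : ℝ) * (y9 : ℝ) + ((32805 : ℝ) * (y10 : ℝ) + ((59049 : ℝ) * (y11 : ℝ) + ((59049 : ℝ) * (y12 : ℝ) + ((295245 : ℝ) * (y13 : ℝ) + 0)))))))))))))) + (l1 ^ 0 * l2 ^ 2 * l3 ^ 3) * ((10 : ℝ) * (y0 : ℝ) + ((90 : ℝ) * (y1 : ℝ) + ((54 : ℝ) * (y2 : ℝ) + ((810 : ℝ) * (y3 : ℝ) + ((486 : ℝ) * (y4 : ℝ) + ((-1458 : ℝ) * (y5 : ℝ) + ((7290 : ℝ) * (y6 : ℝ) + ((4374 : ℝ) * (y7 : ℝ) + ((-13122 : ℝ) * (y8 : ℝ) + ((-39366 : ℝ) * (y9 : ℝ) + ((65610 : ℝ) * (y10 : ℝ) + ((39366 : ℝ) * (y11 : ℝ) + ((-118098 : ℝ) * (y12 : ℝ) + ((590490 : ℝ) * (y13 : ℝ) + 0)))))))))))))) + (l1 ^ 0 * l2 ^ 3 * l3 ^ 2) * ((10 : ℝ) * (y0 : ℝ) + ((90 : ℝ) * (y1 : ℝ) + ((-54 : ℝ) * (y2 : ℝ) + ((810 : ℝ)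 * (y3 : ℝ) + ((-486 : ℝ) * (y4 : ℝ) + ((-1458 : ℝ) * (y5 : ℝ) + ((7290 : ℝ) * (y6 : ℝ) + ((-4374 : ℝ) * (y7 : ℝ) + ((-13122 : ℝ) * (y8 : ℝ) + ((39366 : ℝ) * (y9 : ℝ) + ((65610 : ℝ) * (y10 : ℝ) + ((-39366 : ℝ) * (y11 : ℝ) + ((-118098 : ℝ) * (y12 : ℝ) + ((590490 : ℝ) * (y13 : ℝ) + 0)))))))))))))) + (l1 ^ 0 * l2 ^ 4 * l3 ^ 1) * ((5 : ℝ) * (y0 : ℝ) + ((45 : ℝ) * (y1 : ℝ) + ((-81 : ℝ) * (y2 : ℝ) + ((405 : ℝ) * (y3 : ℝ) + ((-729 : ℝ) * (y4 : ℝ) + ((729 : ℝ) * (y5 : ℝ) + ((3645 : ℝ) * (y6 : ℝ) + ((-6561 : ℝ) * (y7 : ℝ) + ((6561 : ℝ) * (y8 : ℝ) + ((19683 : ℝ) * (y9 : ℝ) + ((32805 : ℝ) * (y10 : ℝ) + ((-59049 : ℝ) * (y11 : ℝ) + ((59049 : ℝ) * (y12 : ℝ) + ((295245 : ℝ) * (y13 : ℝ) + 0)))))))))))))) + (l1 ^ 0 * l2 ^ 5 * l3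 ^ 0) * ((1 : ℝ) * (y0 : ℝ) + ((9 : ℝ) * (y1 : ℝ) + ((-27 : ℝ) * (y2 : ℝ) + ((81 : ℝ) * (y3 : ℝ) + ((-243 : ℝ) * (y4 : ℝ) + ((729 : ℝ) * (y5 : ℝ) + ((729 : ℝ) * (y6 : ℝ) + ((-2187 : ℝ) * (y7 : ℝ) + ((6561 : ℝ) * (y8 : ℝ) + ((-19683 : ℝ) * (y9 : ℝ) + ((6561 : ℝ) * (y10 : ℝ) + ((-19683 : ℝ) * (y11 : ℝ) + ((59049 : ℝ) * (y12 : ℝ) + ((59049 : ℝ) * (y13 : ℝ) + 0)))))))))))))) + (l1 ^ 1 * l2 ^ 0 * l3 ^ 4) * ((5 : ℝ) * (y0 : ℝ) + ((40 : ℝ) * (y1 : ℝ) + ((100 : ℝ) * (y2 : ℝ) + ((315 : ℝ) * (y3 : ℝ) + ((765 : ℝ) * (y4 : ℝ) + ((1755 : ℝ) * (y5 : ℝ) + ((2430 : ℝ) * (y6 : ℝ) + ((5670 : ℝ) * (y7 : ℝ) + ((12150 : ℝ) * (y8 : ℝ) + ((21870 : ℝ) * (y9 : ℝ) + ((18225 : ℝ) * (y10 : ℝ) + ((40095 : ℝ) * (y11 : ℝ) + ((76545 : ℝ) * (y12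 : ℝ) + ((131220 : ℝ) * (y13 : ℝ) + 0)))))))))))))) + (l1 ^ 1 * l2 ^ 1 * l3 ^ 3) * ((20 : ℝ) * (y0 : ℝ) + ((160 : ℝ) * (y1 : ℝ) + ((184 : ℝ) * (y2 : ℝ) + ((1260 : ℝ) * (y3 : ℝ) + ((1386 : ℝ) * (y4 : ℝ) + ((-864 : ℝ) * (y5 : ℝ) + ((9720 : ℝ) * (y6 : ℝ) + ((10044 : ℝ) * (y7 : ℝ) + ((-7776 : ℝ) * (y8 : ℝ) + ((-78732 : ℝ) * (y9 : ℝ) + ((72900 : ℝ) * (y10 : ℝ) + ((68526 : ℝ) * (y11 : ℝ) + ((-69984 : ℝ) * (y12 : ℝ) + ((524880 : ℝ) * (y13 : ℝ) + 0)))))))))))))) + (l1 ^ 1 * l2 ^ 2 * l3 ^ 2) * ((30 : ℝ) * (y0 : ℝ) + ((240 : ℝ) * (y1 : ℝ) + ((-48 : ℝ) * (y2 : ℝ) + ((1890 : ℝ) * (y3 : ℝ) + ((-432 : ℝ) * (y4 : ℝ) + ((-4374 : ℝ) * (y5 : ℝ) + ((14580 : ℝ) * (y6 : ℝ) + ((-3888 : ℝ) * (y7 : ℝ) + ((-32076 : ℝ) * (y8 : ℝ) + ((34992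 : ℝ) * (y9 : ℝ) + ((109350 : ℝ) * (y10 : ℝ) + ((-34992 : ℝ) * (y11 : ℝ) + ((-223074 : ℝ) * (y12 : ℝ) + ((787320 : ℝ) * (y13 : ℝ) + 0)))))))))))))) + (l1 ^ 1 * l2 ^ 3 * l3 ^ 1) * ((20 : ℝ) * (y0 : ℝ) + ((160 : ℝ) * (y1 : ℝ) + ((-248 : ℝ) * (y2 : ℝ) + ((1260 : ℝ) * (y3 : ℝ) + ((-1962 : ℝ) * (y4 : ℝ) + ((864 : ℝ) * (y5 : ℝ) + ((9720 : ℝ) * (y6 : ℝ) + ((-15228 : ℝ) * (y7 : ℝ) + ((7776 : ℝ) * (y8 : ℝ) + ((78732 : ℝ) * (y9 : ℝ) + ((72900 : ℝ) * (y10 : ℝ) + ((-115182 : ℝ) * (y11 : ℝ) + ((69984 : ℝ) * (y12 : ℝ) + ((524880 : ℝ) * (y13 : ℝ) + 0)))))))))))))) + (l1 ^ 1 * l2 ^ 4 * l3 ^ 0) * ((5 : ℝ) * (y0 : ℝ) + ((40 : ℝ) * (y1 : ℝ) + ((-116 : ℝ) * (y2 : ℝ) + ((315 : ℝ) * (y3 : ℝ) + ((-909 : ℝ) * (y4 : ℝ) + ((2619 : ℝ) * (y5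 : ℝ) + ((2430 : ℝ) * (y6 : ℝ) + ((-6966 : ℝ) * (y7 : ℝ) + ((19926 : ℝ) * (y8 : ℝ) + ((-56862 : ℝ) * (y9 : ℝ) + ((18225 : ℝ) * (y10 : ℝ) + ((-51759 : ℝ) * (y11 : ℝ) + ((146529 : ℝ) * (y12 : ℝ) + ((131220 : ℝ) * (y13 : ℝ) + 0)))))))))))))) + (l1 ^ 2 * l2 ^ 0 * l3 ^ 3) * ((10 : ℝ) * (y0 : ℝ) + ((70 : ℝ) * (y1 : ℝ) + ((130 : ℝ) * (y2 : ℝ) + ((475 : ℝ) * (y3 : ℝ) + ((805 : ℝ) * (y4 : ℝ) + ((955 : ℝ) * (y5 : ℝ) + ((3105 : ℝ) * (y6 : ℝ) + ((4635 : ℝ) * (y7 : ℝ) + ((3465 : ℝ) * (y8 : ℝ) + ((-10125 : ℝ) * (y9 : ℝ) + ((19440 : ℝ) * (y10 : ℝ) + ((24300 : ℝ) * (y11 : ℝ) + ((3240 : ℝ) * (y12 : ℝ) + ((116640 : ℝ) * (y13 : ℝ) + 0)))))))))))))) + (l1 ^ 2 * l2 ^ 1 * l3 ^ 2) * ((30 : ℝ) * (y0 : ℝ) + ((210 : ℝ) * (y1 : ℝ) + ((66 :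 ℝ) * (y2 : ℝ) + ((1425 : ℝ) * (y3 : ℝ) + ((309 : ℝ) * (y4 : ℝ) + ((-3291 : ℝ) * (y5 : ℝ) + ((9315 : ℝ) * (y6 : ℝ) + ((891 : ℝ) * (y7 : ℝ) + ((-20169 : ℝ) * (y8 : ℝ) + ((-18873 : ℝ) * (y9 : ℝ) + ((58320 : ℝ) * (y10 : ℝ) + ((-2916 : ℝ) * (y11 : ℝ) + ((-114696 : ℝ) * (y12 : ℝ) + ((349920 : ℝ) * (y13 : ℝ) + 0)))))))))))))) + (l1 ^ 2 * l2 ^ 2 * l3 ^ 1) * ((30 : ℝ) * (y0 : ℝ) + ((210 : ℝ) * (y1 : ℝ) + ((-258 : ℝ) * (y2 : ℝ) + ((1425 : ℝ) * (y3 : ℝ) + ((-1797 : ℝ) * (y4 : ℝ) + ((-699 : ℝ) * (y5 : ℝ) + ((9315 : ℝ) * (y6 : ℝ) + ((-12123 : ℝ) * (y7 : ℝ) + ((-1161 : ℝ) * (y8 : ℝ) + ((88857 : ℝ) * (y9 : ℝ) + ((58320 : ℝ) * (y10 : ℝ) + ((-78732 : ℝ) * (y11 : ℝ) + ((17496 : ℝ) * (y12 : ℝ) + ((349920 : ℝ) * (y13 : ℝ) + 0))))))))))))))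 + (l1 ^ 2 * l2 ^ 3 * l3 ^ 0) * ((10 : ℝ) * (y0 : ℝ) + ((70 : ℝ) * (y1 : ℝ) + ((-194 : ℝ) * (y2 : ℝ) + ((475 : ℝ) * (y3 : ℝ) + ((-1301 : ℝ) * (y4 : ℝ) + ((3547 : ℝ) * (y5 : ℝ) + ((3105 : ℝ) * (y6 : ℝ) + ((-8379 : ℝ) * (y7 : ℝ) + ((22473 : ℝ) * (y8 : ℝ) + ((-59859 : ℝ) * (y9 : ℝ) + ((19440 : ℝ) * (y10 : ℝ) + ((-51516 : ℝ) * (y11 : ℝ) + ((135432 : ℝ) * (y12 : ℝ) + ((116640 : ℝ) * (y13 : ℝ) + 0)))))))))))))) + (l1 ^ 3 * l2 ^ 0 * l3 ^ 2) * ((10 : ℝ) * (y0 : ℝ) + ((60 : ℝ) * (y1 : ℝ) + ((60 : ℝ) * (y2 : ℝ) + ((345 : ℝ) * (y3 : ℝ) + ((255 : ℝ) * (y4 : ℝ) + ((-375 : ℝ) * (y5 : ℝ) + ((1900 : ℝ) * (y6 : ℝ) + ((880 : ℝ) * (y7 : ℝ) + ((-3020 : ℝ) * (y8 : ℝ) + ((-7640 : ℝ) * (y9 : ℝ) + ((10080 : ℝ) * (y10 : ℝ) + ((2160 : ℝ)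 * (y11 : ℝ) + ((-16560 : ℝ) * (y12 : ℝ) + ((51840 : ℝ) * (y13 : ℝ) + 0)))))))))))))) + (l1 ^ 3 * l2 ^ 1 * l3 ^ 1) * ((20 : ℝ) * (y0 : ℝ) + ((120 : ℝ) * (y1 : ℝ) + ((-96 : ℝ) * (y2 : ℝ) + ((690 : ℝ) * (y3 : ℝ) + ((-624 : ℝ) * (y4 : ℝ) + ((-1074 : ℝ) * (y5 : ℝ) + ((3800 : ℝ) * (y6 : ℝ) + ((-3856 : ℝ) * (y7 : ℝ) + ((-3016 : ℝ) * (y8 : ℝ) + ((33968 : ℝ) * (y9 : ℝ) + ((20160 : ℝ) * (y10 : ℝ) + ((-22464 : ℝ) * (y11 : ℝ) + ((-3744 : ℝ) * (y12 : ℝ) + ((103680 : ℝ) * (y13 : ℝ) + 0)))))))))))))) + (l1 ^ 3 * l2 ^ 2 * l3 ^ 0) * ((10 : ℝ) * (y0 : ℝ) + ((60 : ℝ) * (y1 : ℝ) + ((-156 : ℝ) * (y2 : ℝ) + ((345 : ℝ) * (y3 : ℝ) + ((-879 : ℝ) * (y4 : ℝ) + ((2217 : ℝ) * (y5 : ℝ) + ((1900 : ℝ) * (y6 : ℝ) + ((-4736 : ℝ) * (y7 : ℝ) + ((11668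 : ℝ) * (y8 : ℝ) + ((-28376 : ℝ) * (y9 : ℝ) + ((10080 : ℝ) * (y10 : ℝ) + ((-24624 : ℝ) * (y11 : ℝ) + ((59472 : ℝ) * (y12 : ℝ) + ((51840 : ℝ) * (y13 : ℝ) + 0)))))))))))))) + (l1 ^ 4 * l2 ^ 0 * l3 ^ 1) * ((5 : ℝ) * (y0 : ℝ) + ((25 : ℝ) * (y1 : ℝ) + ((-5 : ℝ) * (y2 : ℝ) + ((120 : ℝ) * (y3 : ℝ) + ((-60 : ℝ) * (y4 : ℝ) + ((-240 : ℝ) * (y5 : ℝ) + ((560 : ℝ) * (y6 : ℝ) + ((-400 : ℝ) * (y7 : ℝ) + ((-640 : ℝ) * (y8 : ℝ) + ((4160 : ℝ) * (y9 : ℝ) + ((2560 : ℝ) * (y10 : ℝ) + ((-2240 : ℝ) * (y11 : ℝ) + ((-1280 : ℝ) * (y12 : ℝ) + ((11520 : ℝ) * (y13 : ℝ) + 0)))))))))))))) + (l1 ^ 4 * l2 ^ 1 * l3 ^ 0) * ((5 : ℝ) * (y0 : ℝ) + ((25 : ℝ) * (y1 : ℝ) + ((-59 : ℝ) * (y2 : ℝ) + ((120 : ℝ) * (y3 : ℝ) + ((-276 : ℝ) * (y4 : ℝ) + ((624 :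 ℝ) * (y5 : ℝ) + ((560 : ℝ) * (y6 : ℝ) + ((-1264 : ℝ) * (y7 : ℝ) + ((2816 : ℝ) * (y8 : ℝ) + ((-6208 : ℝ) * (y9 : ℝ) + ((2560 : ℝ) * (y10 : ℝ) + ((-5696 : ℝ) * (y11 : ℝ) + ((12544 : ℝ) * (y12 : ℝ) + ((11520 : ℝ) * (y13 : ℝ) + 0)))))))))))))) + (l1 ^ 5 * l2 ^ 0 * l3 ^ 0) * ((1 : ℝ) * (y0 : ℝ) + ((4 : ℝ) * (y1 : ℝ) + ((-8 : ℝ) * (y2 : ℝ) + ((16 : ℝ) * (y3 : ℝ) + ((-32 : ℝ) * (y4 : ℝ) + ((64 : ℝ) * (y5 : ℝ) + ((64 : ℝ) * (y6 : ℝ) + ((-128 : ℝ) * (y7 : ℝ) + ((256 : ℝ) * (y8 : ℝ) + ((-512 : ℝ) * (y9 : ℝ) + ((256 : ℝ) * (y10 : ℝ) + ((-512 : ℝ) * (y11 : ℝ) + ((1024 : ℝ) * (y12 : ℝ) + ((1024 : ℝ) * (y13 : ℝ) + 0)))))))))))))) := by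
    have hl3 : l3 = 1 - l1 - l2 := by linarith
    subst hl3
    unfold evalRow
    ring
  rw [key]
  exact add_nonneg (add_nonneg (add_nonneg (add_nonneg (add_nonneg (add_nonneg (add_nonneg (add_nonneg (add_nonneg (add_nonneg (add_nonneg (add_nonneg (add_nonneg (add_nonneg (add_nonneg (add_nonneg (add_nonneg (add_nonneg (add_nonneg (add_nonneg (mul_nonneg (by positivity) H0) (mul_nonneg (by positivity) H1)) (mul_nonneg (by positivity) H2)) (mul_nonneg (by positivity) H3)) (mul_nonneg (by positivity) H4)) (mul_nonneg (by positivity) H5)) (mul_nonneg (by positivity) H6)) (mul_nonneg (by positivity) H7)) (mul_nonneg (by positivity) H8)) (mul_nonneg (by positivity) H9)) (mul_nonneg (by positivity) H10)) (mul_nonneg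 (by positivity) H11)) (mul_nonneg (by positivity) H12)) (mul_nonneg (by positivity) H13)) (mul_nonneg (by positivity) H14)) (mul_nonneg (by positivity) H15)) (mul_nonneg (by positivity) H16)) (mul_nonneg (by positivity) H17)) (mul_nonneg (by positivity) H18)) (mul_nonneg (by positivity) H19)) (mul_nonneg (by positivity) H20)

set_option maxHeartbeats 8000000 in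
theorem tri4 (y0 y1 y2 y3 y4 y5 y6 y7 y8 y9 y10 y11 y12 y13 : ℤ) (h : (BT4.all fun r => decide (0 ≤ dotI r [y0, y1, y2, y3, y4, y5, y6, y7, y8, y9, y10, y11, y12, y13])) = true)
    (l1 l2 l3 : ℝ) (h1 : 0 ≤ l1) (h2 : 0 ≤ l2) (h3 : 0 ≤ l3) (hs : l1 + l2 + l3 = 1) :
    0 ≤ evalRow y0 y1 y2 y3 y4 y5 y6 y7 y8 y9 y10 y11 y12 y13 (l1 * (4) + l2 * (9) + l3 * (4)) (l1 * (-8) + l2 * (27) + l3 * (8)) := by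
  simp only [BT4, List.all_cons, List.all_nil, Bool.and_true, Bool.and_eq_true, decide_eq_true_eq, dotI] at h
  obtain ⟨h0, h1, h2, h3, h4, h5, h6, h7, h8, h9, h10, h11, h12, h13, h14, h15, h16, h17, h18, h19, h20⟩ := h
  have H0 : (0 : ℝ) ≤ (1 : ℝ) * (y0 : ℝ) + ((4 : ℝ) * (y1 : ℝ) + ((8 : ℝ) * (y2 : ℝ) + ((16 : ℝ) * (y3 : ℝ) + ((32 : ℝ) * (y4 : ℝ) + ((64 : ℝ) * (y5 : ℝ) + ((64 : ℝ) * (y6 : ℝ) + ((128 : ℝ) * (y7 : ℝ) + ((256 : ℝ) * (y8 : ℝ) + ((512 : ℝ) * (y9 : ℝ) + ((256 : ℝ) * (y10 : ℝ) + ((512 : ℝ) * (y11 : ℝ) + ((1024 : ℝ) * (y12 : ℝ) + ((1024 : ℝ) * (y13 : ℝ) + 0))))))))))))) := by exact_mod_cast h0;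
  have H1 : (0 : ℝ) ≤ (5 : ℝ) * (y0 : ℝ) + ((25 : ℝ) * (y1 : ℝ) + ((59 : ℝ) * (y2 : ℝ) + ((120 : ℝ) * (y3 : ℝ) + ((276 : ℝ) * (y4 : ℝ) + ((624 : ℝ) * (y5 : ℝ) + ((560 : ℝ) * (y6 : ℝ) + ((1264 : ℝ) * (y7 : ℝ) + ((2816 : ℝ) * (y8 : ℝ) + ((6208 : ℝ) * (y9 : ℝ) + ((2560 : ℝ) * (y10 : ℝ) + ((5696 : ℝ) * (y11 : ℝ) + ((12544 : ℝ) * (y12 : ℝ) + ((11520 : ℝ) * (y13 : ℝ) + 0))))))))))))) := by exact_mod_cast h1;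
  have H2 : (0 : ℝ) ≤ (10 : ℝ) * (y0 : ℝ) + ((60 : ℝ) * (y1 : ℝ) + ((156 : ℝ) * (y2 : ℝ) + ((345 : ℝ) * (y3 : ℝ) + ((879 : ℝ) * (y4 : ℝ) + ((2217 : ℝ) * (y5 : ℝ) + ((1900 : ℝ) * (y6 : ℝ) + ((4736 : ℝ) * (y7 : ℝ) + ((11668 : ℝ) * (y8 : ℝ) + ((28376 : ℝ) * (y9 : ℝ) + ((10080 : ℝ) * (y10 : ℝ) + ((24624 : ℝ) * (y11 : ℝ) + ((59472 : ℝ) * (y12 : ℝ) + ((51840 : ℝ) * (y13 : ℝ) + 0))))))))))))) := by exact_mod_cast h2;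
  have H3 : (0 : ℝ) ≤ (10 : ℝ) * (y0 : ℝ) + ((70 : ℝ) * (y1 : ℝ) + ((194 : ℝ) * (y2 : ℝ) + ((475 : ℝ) * (y3 : ℝ) + ((1301 : ℝ) * (y4 : ℝ) + ((3547 : ℝ) * (y5 : ℝ) + ((3105 : ℝ) * (y6 : ℝ) + ((8379 : ℝ) * (y7 : ℝ) + ((22473 : ℝ) * (y8 : ℝ) + ((59859 : ℝ) * (y9 : ℝ) + ((19440 : ℝ) * (y10 : ℝ) + ((51516 : ℝ) * (y11 : ℝ) + ((135432 : ℝ) * (y12 : ℝ) + ((116640 : ℝ) * (y13 : ℝ) + 0))))))))))))) := by exact_mod_cast h3;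
  have H4 : (0 : ℝ) ≤ (5 : ℝ) * (y0 : ℝ) + ((40 : ℝ) * (y1 : ℝ) + ((116 : ℝ) * (y2 : ℝ) + ((315 : ℝ) * (y3 : ℝ) + ((909 : ℝ) * (y4 : ℝ) + ((2619 : ℝ) * (y5 : ℝ) + ((2430 : ℝ) * (y6 : ℝ) + ((6966 : ℝ) * (y7 : ℝ) + ((19926 : ℝ) * (y8 : ℝ) + ((56862 : ℝ) * (y9 : ℝ) + ((18225 : ℝ) * (y10 : ℝ) + ((51759 : ℝ) * (y11 : ℝ) + ((146529 : ℝ) * (y12 : ℝ) + ((131220 : ℝ) * (y13 : ℝ) + 0))))))))))))) := by exact_mod_cast h4;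
  have H5 : (0 : ℝ) ≤ (1 : ℝ) * (y0 : ℝ) + ((9 : ℝ) * (y1 : ℝ) + ((27 : ℝ) * (y2 : ℝ) + ((81 : ℝ) * (y3 : ℝ) + ((243 : ℝ) * (y4 : ℝ) + ((729 : ℝ) * (y5 : ℝ) + ((729 : ℝ) * (y6 : ℝ) + ((2187 : ℝ) * (y7 : ℝ) + ((6561 : ℝ) * (y8 : ℝ) + ((19683 : ℝ) * (y9 : ℝ) + ((6561 : ℝ) * (y10 : ℝ) + ((19683 : ℝ) * (y11 : ℝ) + ((59049 : ℝ) * (y12 : ℝ) + ((59049 : ℝ) * (y13 : ℝ) + 0))))))))))))) := by exact_mod_cast h5;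
  have H6 : (0 : ℝ) ≤ (5 : ℝ) * (y0 : ℝ) + ((20 : ℝ) * (y1 : ℝ) + ((24 : ℝ) * (y2 : ℝ) + ((80 : ℝ) * (y3 : ℝ) + ((96 : ℝ) * (y4 : ℝ) + ((64 : ℝ) * (y5 : ℝ) + ((320 : ℝ) * (y6 : ℝ) + ((384 : ℝ) * (y7 : ℝ) + ((256 : ℝ) * (y8 : ℝ) + ((-512 : ℝ) * (y9 : ℝ) + ((1280 : ℝ) * (y10 : ℝ) + ((1536 : ℝ) * (y11 : ℝ) + ((1024 : ℝ) * (y12 : ℝ) + ((5120 : ℝ) * (y13 : ℝ) + 0))))))))))))) := by exact_mod_cast h6;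
  have H7 : (0 : ℝ) ≤ (20 : ℝ) * (y0 : ℝ) + ((100 : ℝ) * (y1 : ℝ) + ((172 : ℝ) * (y2 : ℝ) + ((480 : ℝ) * (y3 : ℝ) + ((768 : ℝ) * (y4 : ℝ) + ((864 : ℝ) * (y5 : ℝ) + ((2240 : ℝ) * (y6 : ℝ) + ((3392 : ℝ) * (y7 : ℝ) + ((3456 : ℝ) * (y8 : ℝ) + ((-2048 : ℝ) * (y9 : ℝ) + ((10240 : ℝ) * (y10 : ℝ) + ((14848 : ℝ) * (y11 : ℝ) + ((13824 : ℝ) * (y12 : ℝ) + ((46080 : ℝ) * (y13 : ℝ) + 0))))))))))))) := by exact_mod_cast h7;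
  have H8 : (0 : ℝ) ≤ (30 : ℝ) * (y0 : ℝ) + ((180 : ℝ) * (y1 : ℝ) + ((372 : ℝ) * (y2 : ℝ) + ((1035 : ℝ) * (y3 : ℝ) + ((2013 : ℝ) * (y4 : ℝ) + ((3291 : ℝ) * (y5 : ℝ) + ((5700 : ℝ) * (y6 : ℝ) + ((10352 : ℝ) * (y7 : ℝ) + ((14684 : ℝ) * (y8 : ℝ) + ((5592 : ℝ) * (y9 : ℝ) + ((30240 : ℝ) * (y10 : ℝ) + ((51408 : ℝ) * (y11 : ℝ) + ((63216 : ℝ) * (y12 : ℝ) + ((155520 : ℝ) * (y13 : ℝ) + 0))))))))))))) := by exact_mod_cast h8;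
  have H9 : (0 : ℝ) ≤ (20 : ℝ) * (y0 : ℝ) + ((140 : ℝ) * (y1 : ℝ) + ((324 : ℝ) * (y2 : ℝ) + ((950 : ℝ) * (y3 : ℝ) + ((2106 : ℝ) * (y4 : ℝ) + ((4246 : ℝ) * (y5 : ℝ) + ((6210 : ℝ) * (y6 : ℝ) + ((13014 : ℝ) * (y7 : ℝ) + ((23634 : ℝ) * (y8 : ℝ) + ((28998 : ℝ) * (y9 : ℝ) + ((38880 : ℝ) * (y10 : ℝ) + ((75816 : ℝ) * (y11 : ℝ) + ((117936 : ℝ) * (y12 : ℝ) + ((233280 : ℝ) * (y13 : ℝ) + 0))))))))))))) := by exact_mod_cast h9;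
  have H10 : (0 : ℝ) ≤ (5 : ℝ) * (y0 : ℝ) + ((40 : ℝ) * (y1 : ℝ) + ((100 : ℝ) * (y2 : ℝ) + ((315 : ℝ) * (y3 : ℝ) + ((765 : ℝ) * (y4 : ℝ) + ((1755 : ℝ) * (y5 : ℝ) + ((2430 : ℝ) * (y6 : ℝ) + ((5670 : ℝ) * (y7 : ℝ) + ((12150 : ℝ) * (y8 : ℝ) + ((21870 : ℝ) * (y9 : ℝ) + ((18225 : ℝ) * (y10 : ℝ) + ((40095 : ℝ) * (y11 : ℝ) + ((76545 : ℝ) * (y12 : ℝ) + ((131220 : ℝ) * (y13 : ℝ) + 0))))))))))))) := by exact_mod_cast h10;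
  have H11 : (0 : ℝ) ≤ (10 : ℝ) * (y0 : ℝ) + ((40 : ℝ) * (y1 : ℝ) + ((16 : ℝ) * (y2 : ℝ) + ((160 : ℝ) * (y3 : ℝ) + ((64 : ℝ) * (y4 : ℝ) + ((-128 : ℝ) * (y5 : ℝ) + ((640 : ℝ) * (y6 : ℝ) + ((256 : ℝ) * (y7 : ℝ) + ((-512 : ℝ) * (y8 : ℝ) + ((-1024 : ℝ) * (y9 : ℝ) + ((2560 : ℝ) * (y10 : ℝ) + ((1024 : ℝ) * (y11 : ℝ) + ((-2048 : ℝ) * (y12 : ℝ) + ((10240 : ℝ) * (y13 : ℝ) + 0))))))))))))) := by exact_mod_cast h11;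
  have H12 : (0 : ℝ) ≤ (30 : ℝ) * (y0 : ℝ) + ((150 : ℝ) * (y1 : ℝ) + ((162 : ℝ) * (y2 : ℝ) + ((720 : ℝ) * (y3 : ℝ) + ((648 : ℝ) * (y4 : ℝ) + ((-384 : ℝ) * (y5 : ℝ) + ((3360 : ℝ) * (y6 : ℝ) + ((2592 : ℝ) * (y7 : ℝ) + ((-2176 : ℝ) * (y8 : ℝ) + ((-10368 : ℝ) * (y9 : ℝ) + ((15360 : ℝ) * (y10 : ℝ) + ((10368 : ℝ) * (y11 : ℝ) + ((-11264 : ℝ) * (y12 : ℝ) + ((69120 : ℝ) * (y13 : ℝ) + 0))))))))))))) := by exact_mod_cast h12;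
  have H13 : (0 : ℝ) ≤ (30 : ℝ) * (y0 : ℝ) + ((180 : ℝ) * (y1 : ℝ) + ((276 : ℝ) * (y2 : ℝ) + ((1035 : ℝ) * (y3 : ℝ) + ((1389 : ℝ) * (y4 : ℝ) + ((699 : ℝ) * (y5 : ℝ) + ((5700 : ℝ) * (y6 : ℝ) + ((6496 : ℝ) * (y7 : ℝ) + ((-4 : ℝ) * (y8 : ℝ) + ((-26328 : ℝ) * (y9 : ℝ) + ((30240 : ℝ) * (y10 : ℝ) + ((28944 : ℝ) * (y11 : ℝ) + ((-12816 : ℝ) * (y12 : ℝ) + ((155520 : ℝ) * (y13 : ℝ) + 0))))))))))))) := by exact_mod_cast h13;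
  have H14 : (0 : ℝ) ≤ (10 : ℝ) * (y0 : ℝ) + ((70 : ℝ) * (y1 : ℝ) + ((130 : ℝ) * (y2 : ℝ) + ((475 : ℝ) * (y3 : ℝ) + ((805 : ℝ) * (y4 : ℝ) + ((955 : ℝ) * (y5 : ℝ) + ((3105 : ℝ) * (y6 : ℝ) + ((4635 : ℝ) * (y7 : ℝ) + ((3465 : ℝ) * (y8 : ℝ) + ((-10125 : ℝ) * (y9 : ℝ) + ((19440 : ℝ) * (y10 : ℝ) + ((24300 : ℝ) * (y11 : ℝ) + ((3240 : ℝ) * (y12 : ℝ) + ((116640 : ℝ) * (y13 : ℝ) + 0))))))))))))) := by exact_mod_cast h14;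
  have H15 : (0 : ℝ) ≤ (10 : ℝ) * (y0 : ℝ) + ((40 : ℝ) * (y1 : ℝ) + ((-16 : ℝ) * (y2 : ℝ) + ((160 : ℝ) * (y3 : ℝ) + ((-64 : ℝ) * (y4 : ℝ) + ((-128 : ℝ) * (y5 : ℝ) + ((640 : ℝ) * (y6 : ℝ) + ((-256 : ℝ) * (y7 : ℝ) + ((-512 : ℝ) * (y8 : ℝ) + ((1024 : ℝ) * (y9 : ℝ) + ((2560 : ℝ) * (y10 : ℝ) + ((-1024 : ℝ) * (y11 : ℝ) + ((-2048 : ℝ) * (y12 : ℝ) + ((10240 : ℝ) * (y13 : ℝ) + 0))))))))))))) := by exact_mod_cast h15;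
  have H16 : (0 : ℝ) ≤ (20 : ℝ) * (y0 : ℝ) + ((100 : ℝ) * (y1 : ℝ) + ((44 : ℝ) * (y2 : ℝ) + ((480 : ℝ) * (y3 : ℝ) + ((96 : ℝ) * (y4 : ℝ) + ((-864 : ℝ) * (y5 : ℝ) + ((2240 : ℝ) * (y6 : ℝ) + ((64 : ℝ) * (y7 : ℝ) + ((-3456 : ℝ) * (y8 : ℝ) + ((2048 : ℝ) * (y9 : ℝ) + ((10240 : ℝ) * (y10 : ℝ) + ((-1024 : ℝ) * (y11 : ℝ) + ((-13824 : ℝ) * (y12 : ℝ) + ((46080 : ℝ) * (y13 : ℝ) + 0))))))))))))) := by exact_mod_cast h16;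
  have H17 : (0 : ℝ) ≤ (10 : ℝ) * (y0 : ℝ) + ((60 : ℝ) * (y1 : ℝ) + ((60 : ℝ) * (y2 : ℝ) + ((345 : ℝ) * (y3 : ℝ) + ((255 : ℝ) * (y4 : ℝ) + ((-375 : ℝ) * (y5 : ℝ) + ((1900 : ℝ) * (y6 : ℝ) + ((880 : ℝ) * (y7 : ℝ) + ((-3020 : ℝ) * (y8 : ℝ) + ((-7640 : ℝ) * (y9 : ℝ) + ((10080 : ℝ) * (y10 : ℝ) + ((2160 : ℝ) * (y11 : ℝ) + ((-16560 : ℝ) * (y12 : ℝ) + ((51840 : ℝ) * (y13 : ℝ) + 0))))))))))))) := by exact_mod_cast h17;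
  have H18 : (0 : ℝ) ≤ (5 : ℝ) * (y0 : ℝ) + ((20 : ℝ) * (y1 : ℝ) + ((-24 : ℝ) * (y2 : ℝ) + ((80 : ℝ) * (y3 : ℝ) + ((-96 : ℝ) * (y4 : ℝ) + ((64 : ℝ) * (y5 : ℝ) + ((320 : ℝ) * (y6 : ℝ) + ((-384 : ℝ) * (y7 : ℝ) + ((256 : ℝ) * (y8 : ℝ) + ((512 : ℝ) * (y9 : ℝ) + ((1280 : ℝ) * (y10 : ℝ) + ((-1536 : ℝ) * (y11 : ℝ) + ((1024 : ℝ) * (y12 : ℝ) + ((5120 : ℝ) * (y13 : ℝ) + 0))))))))))))) := by exact_mod_cast h18;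
  have H19 : (0 : ℝ) ≤ (5 : ℝ) * (y0 : ℝ) + ((25 : ℝ) * (y1 : ℝ) + ((-5 : ℝ) * (y2 : ℝ) + ((120 : ℝ) * (y3 : ℝ) + ((-60 : ℝ) * (y4 : ℝ) + ((-240 : ℝ) * (y5 : ℝ) + ((560 : ℝ) * (y6 : ℝ) + ((-400 : ℝ) * (y7 : ℝ) + ((-640 : ℝ) * (y8 : ℝ) + ((4160 : ℝ) * (y9 : ℝ) + ((2560 : ℝ) * (y10 : ℝ) + ((-2240 : ℝ) * (y11 : ℝ) + ((-1280 : ℝ) * (y12 : ℝ) + ((11520 : ℝ) * (y13 : ℝ) + 0))))))))))))) := by exact_mod_cast h19;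
  have H20 : (0 : ℝ) ≤ (1 : ℝ) * (y0 : ℝ) + ((4 : ℝ) * (y1 : ℝ) + ((-8 : ℝ) * (y2 : ℝ) + ((16 : ℝ) * (y3 : ℝ) + ((-32 : ℝ) * (y4 : ℝ) + ((64 : ℝ) * (y5 : ℝ) + ((64 : ℝ) * (y6 : ℝ) + ((-128 : ℝ) * (y7 : ℝ) + ((256 : ℝ) * (y8 : ℝ) + ((-512 : ℝ) * (y9 : ℝ) + ((256 : ℝ) * (y10 : ℝ) + ((-512 : ℝ) * (y11 : ℝ) + ((1024 : ℝ) * (y12 : ℝ) + ((1024 : ℝ) * (y13 : ℝ) + 0))))))))))))) := by exact_mod_cast h20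
  have key : evalRow y0 y1 y2 y3 y4 y5 y6 y7 y8 y9 y10 y11 y12 y13 (l1 * (4) + l2 * (9) + l3 * (4)) (l1 * (-8) + l2 * (27) + l3 * (8)) = (l1 ^ 0 * l2 ^ 0 * l3 ^ 5) * ((1 : ℝ) * (y0 : ℝ) + ((4 : ℝ) * (y1 : ℝ) + ((8 : ℝ) * (y2 : ℝ) + ((16 : ℝ) * (y3 : ℝ) + ((32 : ℝ) * (y4 : ℝ) + ((64 : ℝ) * (y5 : ℝ) + ((64 : ℝ) * (y6 : ℝ) + ((128 : ℝ) * (y7 : ℝ) + ((256 : ℝ) * (y8 : ℝ) + ((512 : ℝ) * (y9 : ℝ) + ((256 : ℝ) * (y10 : ℝ) + ((512 : ℝ) * (y11 : ℝ) + ((1024 : ℝ) * (y12 : ℝ) + ((1024 : ℝ) * (y13 : ℝ) + 0)))))))))))))) + (l1 ^ 0 * l2 ^ 1 * l3 ^ 4) * ((5 : ℝ) * (y0 : ℝ) + ((25 : ℝ) * (y1 : ℝ) + ((59 : ℝ) * (y2 : ℝ) + ((120 : ℝ) * (y3 : ℝ) + ((276 : ℝ) * (y4 : ℝ) + ((624 : ℝ) * (y5 : ℝ) + ((560 : ℝ) * (y6 : ℝ) + ((1264 : ℝ)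 * (y7 : ℝ) + ((2816 : ℝ) * (y8 : ℝ) + ((6208 : ℝ) * (y9 : ℝ) + ((2560 : ℝ) * (y10 : ℝ) + ((5696 : ℝ) * (y11 : ℝ) + ((12544 : ℝ) * (y12 : ℝ) + ((11520 : ℝ) * (y13 : ℝ) + 0)))))))))))))) + (l1 ^ 0 * l2 ^ 2 * l3 ^ 3) * ((10 : ℝ) * (y0 : ℝ) + ((60 : ℝ) * (y1 : ℝ) + ((156 : ℝ) * (y2 : ℝ) + ((345 : ℝ) * (y3 : ℝ) + ((879 : ℝ) * (y4 : ℝ) + ((2217 : ℝ) * (y5 : ℝ) + ((1900 : ℝ) * (y6 : ℝ) + ((4736 : ℝ) * (y7 : ℝ) + ((11668 : ℝ) * (y8 : ℝ) + ((28376 : ℝ) * (y9 : ℝ) + ((10080 : ℝ) * (y10 : ℝ) + ((24624 : ℝ) * (y11 : ℝ) + ((59472 : ℝ) * (y12 : ℝ) + ((51840 : ℝ) * (y13 : ℝ) + 0)))))))))))))) + (l1 ^ 0 * l2 ^ 3 * l3 ^ 2) * ((10 : ℝ) * (y0 : ℝ) + ((70 : ℝ) * (y1 : ℝ) + ((194 : ℝ) * (y2 : ℝ) + ((475 : ℝ) * (y3 : ℝ) + ((1301 : ℝ)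 * (y4 : ℝ) + ((3547 : ℝ) * (y5 : ℝ) + ((3105 : ℝ) * (y6 : ℝ) + ((8379 : ℝ) * (y7 : ℝ) + ((22473 : ℝ) * (y8 : ℝ) + ((59859 : ℝ) * (y9 : ℝ) + ((19440 : ℝ) * (y10 : ℝ) + ((51516 : ℝ) * (y11 : ℝ) + ((135432 : ℝ) * (y12 : ℝ) + ((116640 : ℝ) * (y13 : ℝ) + 0)))))))))))))) + (l1 ^ 0 * l2 ^ 4 * l3 ^ 1) * ((5 : ℝ) * (y0 : ℝ) + ((40 : ℝ) * (y1 : ℝ) + ((116 : ℝ) * (y2 : ℝ) + ((315 : ℝ) * (y3 : ℝ) + ((909 : ℝ) * (y4 : ℝ) + ((2619 : ℝ) * (y5 : ℝ) + ((2430 : ℝ) * (y6 : ℝ) + ((6966 : ℝ) * (y7 : ℝ) + ((19926 : ℝ) * (y8 : ℝ) + ((56862 : ℝ) * (y9 : ℝ) + ((18225 : ℝ) * (y10 : ℝ) + ((51759 : ℝ) * (y11 : ℝ) + ((146529 : ℝ) * (y12 : ℝ) + ((131220 : ℝ) * (y13 : ℝ) + 0)))))))))))))) + (l1 ^ 0 * l2 ^ 5 * l3 ^ 0) * ((1 : ℝ) * (y0 : ℝ) + ((9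 : ℝ) * (y1 : ℝ) + ((27 : ℝ) * (y2 : ℝ) + ((81 : ℝ) * (y3 : ℝ) + ((243 : ℝ) * (y4 : ℝ) + ((729 : ℝ) * (y5 : ℝ) + ((729 : ℝ) * (y6 : ℝ) + ((2187 : ℝ) * (y7 : ℝ) + ((6561 : ℝ) * (y8 : ℝ) + ((19683 : ℝ) * (y9 : ℝ) + ((6561 : ℝ) * (y10 : ℝ) + ((19683 : ℝ) * (y11 : ℝ) + ((59049 : ℝ) * (y12 : ℝ) + ((59049 : ℝ) * (y13 : ℝ) + 0)))))))))))))) + (l1 ^ 1 * l2 ^ 0 * l3 ^ 4) * ((5 : ℝ) * (y0 : ℝ) + ((20 : ℝ) * (y1 : ℝ) + ((24 : ℝ) * (y2 : ℝ) + ((80 : ℝ) * (y3 : ℝ) + ((96 : ℝ) * (y4 : ℝ) + ((64 : ℝ) * (y5 : ℝ) + ((320 : ℝ) * (y6 : ℝ) + ((384 : ℝ) * (y7 : ℝ) + ((256 : ℝ) * (y8 : ℝ) + ((-512 : ℝ) * (y9 : ℝ) + ((1280 : ℝ) * (y10 : ℝ) + ((1536 : ℝ) * (y11 : ℝ) + ((1024 : ℝ) * (y12 : ℝ) + ((5120 : ℝ) * (y13 : ℝ) + 0)))))))))))))) +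 (l1 ^ 1 * l2 ^ 1 * l3 ^ 3) * ((20 : ℝ) * (y0 : ℝ) + ((100 : ℝ) * (y1 : ℝ) + ((172 : ℝ) * (y2 : ℝ) + ((480 : ℝ) * (y3 : ℝ) + ((768 : ℝ) * (y4 : ℝ) + ((864 : ℝ) * (y5 : ℝ) + ((2240 : ℝ) * (y6 : ℝ) + ((3392 : ℝ) * (y7 : ℝ) + ((3456 : ℝ) * (y8 : ℝ) + ((-2048 : ℝ) * (y9 : ℝ) + ((10240 : ℝ) * (y10 : ℝ) + ((14848 : ℝ) * (y11 : ℝ) + ((13824 : ℝ) * (y12 : ℝ) + ((46080 : ℝ) * (y13 : ℝ) + 0)))))))))))))) + (l1 ^ 1 * l2 ^ 2 * l3 ^ 2) * ((30 : ℝ) * (y0 : ℝ) + ((180 : ℝ) * (y1 : ℝ) + ((372 : ℝ) * (y2 : ℝ) + ((1035 : ℝ) * (y3 : ℝ) + ((2013 : ℝ) * (y4 : ℝ) + ((3291 : ℝ) * (y5 : ℝ) + ((5700 : ℝ) * (y6 : ℝ) + ((10352 : ℝ) * (y7 : ℝ) + ((14684 : ℝ) * (y8 : ℝ) + ((5592 : ℝ) * (y9 : ℝ) + ((30240 : ℝ) * (y10 : ℝ) + ((51408 : ℝ) * (y11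 : ℝ) + ((63216 : ℝ) * (y12 : ℝ) + ((155520 : ℝ) * (y13 : ℝ) + 0)))))))))))))) + (l1 ^ 1 * l2 ^ 3 * l3 ^ 1) * ((20 : ℝ) * (y0 : ℝ) + ((140 : ℝ) * (y1 : ℝ) + ((324 : ℝ) * (y2 : ℝ) + ((950 : ℝ) * (y3 : ℝ) + ((2106 : ℝ) * (y4 : ℝ) + ((4246 : ℝ) * (y5 : ℝ) + ((6210 : ℝ) * (y6 : ℝ) + ((13014 : ℝ) * (y7 : ℝ) + ((23634 : ℝ) * (y8 : ℝ) + ((28998 : ℝ) * (y9 : ℝ) + ((38880 : ℝ) * (y10 : ℝ) + ((75816 : ℝ) * (y11 : ℝ) + ((117936 : ℝ) * (y12 : ℝ) + ((233280 : ℝ) * (y13 : ℝ) + 0)))))))))))))) + (l1 ^ 1 * l2 ^ 4 * l3 ^ 0) * ((5 : ℝ) * (y0 : ℝ) + ((40 : ℝ) * (y1 : ℝ) + ((100 : ℝ) * (y2 : ℝ) + ((315 : ℝ) * (y3 : ℝ) + ((765 : ℝ) * (y4 : ℝ) + ((1755 : ℝ) * (y5 : ℝ) + ((2430 : ℝ) * (y6 : ℝ) + ((5670 : ℝ) * (y7 : ℝ) + ((12150 : ℝ) *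 (y8 : ℝ) + ((21870 : ℝ) * (y9 : ℝ) + ((18225 : ℝ) * (y10 : ℝ) + ((40095 : ℝ) * (y11 : ℝ) + ((76545 : ℝ) * (y12 : ℝ) + ((131220 : ℝ) * (y13 : ℝ) + 0)))))))))))))) + (l1 ^ 2 * l2 ^ 0 * l3 ^ 3) * ((10 : ℝ) * (y0 : ℝ) + ((40 : ℝ) * (y1 : ℝ) + ((16 : ℝ) * (y2 : ℝ) + ((160 : ℝ) * (y3 : ℝ) + ((64 : ℝ) * (y4 : ℝ) + ((-128 : ℝ) * (y5 : ℝ) + ((640 : ℝ) * (y6 : ℝ) + ((256 : ℝ) * (y7 : ℝ) + ((-512 : ℝ) * (y8 : ℝ) + ((-1024 : ℝ) * (y9 : ℝ) + ((2560 : ℝ) * (y10 : ℝ) + ((1024 : ℝ) * (y11 : ℝ) + ((-2048 : ℝ) * (y12 : ℝ) + ((10240 : ℝ) * (y13 : ℝ) + 0)))))))))))))) + (l1 ^ 2 * l2 ^ 1 * l3 ^ 2) * ((30 : ℝ) * (y0 : ℝ) + ((150 : ℝ) * (y1 : ℝ) + ((162 : ℝ) * (y2 : ℝ) + ((720 : ℝ) * (y3 : ℝ) + ((648 : ℝ) * (y4 : ℝ) + ((-384 : ℝ) * (y5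 : ℝ) + ((3360 : ℝ) * (y6 : ℝ) + ((2592 : ℝ) * (y7 : ℝ) + ((-2176 : ℝ) * (y8 : ℝ) + ((-10368 : ℝ) * (y9 : ℝ) + ((15360 : ℝ) * (y10 : ℝ) + ((10368 : ℝ) * (y11 : ℝ) + ((-11264 : ℝ) * (y12 : ℝ) + ((69120 : ℝ) * (y13 : ℝ) + 0)))))))))))))) + (l1 ^ 2 * l2 ^ 2 * l3 ^ 1) * ((30 : ℝ) * (y0 : ℝ) + ((180 : ℝ) * (y1 : ℝ) + ((276 : ℝ) * (y2 : ℝ) + ((1035 : ℝ) * (y3 : ℝ) + ((1389 : ℝ) * (y4 : ℝ) + ((699 : ℝ) * (y5 : ℝ) + ((5700 : ℝ) * (y6 : ℝ) + ((6496 : ℝ) * (y7 : ℝ) + ((-4 : ℝ) * (y8 : ℝ) + ((-26328 : ℝ) * (y9 : ℝ) + ((30240 : ℝ) * (y10 : ℝ) + ((28944 : ℝ) * (y11 : ℝ) + ((-12816 : ℝ) * (y12 : ℝ) + ((155520 : ℝ) * (y13 : ℝ) + 0)))))))))))))) + (l1 ^ 2 * l2 ^ 3 * l3 ^ 0) * ((10 : ℝ) * (y0 : ℝ) + ((70 : ℝ) * (y1 : ℝ) + ((130 :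 ℝ) * (y2 : ℝ) + ((475 : ℝ) * (y3 : ℝ) + ((805 : ℝ) * (y4 : ℝ) + ((955 : ℝ) * (y5 : ℝ) + ((3105 : ℝ) * (y6 : ℝ) + ((4635 : ℝ) * (y7 : ℝ) + ((3465 : ℝ) * (y8 : ℝ) + ((-10125 : ℝ) * (y9 : ℝ) + ((19440 : ℝ) * (y10 : ℝ) + ((24300 : ℝ) * (y11 : ℝ) + ((3240 : ℝ) * (y12 : ℝ) + ((116640 : ℝ) * (y13 : ℝ) + 0)))))))))))))) + (l1 ^ 3 * l2 ^ 0 * l3 ^ 2) * ((10 : ℝ) * (y0 : ℝ) + ((40 : ℝ) * (y1 : ℝ) + ((-16 : ℝ) * (y2 : ℝ) + ((160 : ℝ) * (y3 : ℝ) + ((-64 : ℝ) * (y4 : ℝ) + ((-128 : ℝ) * (y5 : ℝ) + ((640 : ℝ) * (y6 : ℝ) + ((-256 : ℝ) * (y7 : ℝ) + ((-512 : ℝ) * (y8 : ℝ) + ((1024 : ℝ) * (y9 : ℝ) + ((2560 : ℝ) * (y10 : ℝ) + ((-1024 : ℝ) * (y11 : ℝ) + ((-2048 : ℝ) * (y12 : ℝ) + ((10240 : ℝ) * (y13 : ℝ) + 0)))))))))))))) + (l1 ^ 3 *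 l2 ^ 1 * l3 ^ 1) * ((20 : ℝ) * (y0 : ℝ) + ((100 : ℝ) * (y1 : ℝ) + ((44 : ℝ) * (y2 : ℝ) + ((480 : ℝ) * (y3 : ℝ) + ((96 : ℝ) * (y4 : ℝ) + ((-864 : ℝ) * (y5 : ℝ) + ((2240 : ℝ) * (y6 : ℝ) + ((64 : ℝ) * (y7 : ℝ) + ((-3456 : ℝ) * (y8 : ℝ) + ((2048 : ℝ) * (y9 : ℝ) + ((10240 : ℝ) * (y10 : ℝ) + ((-1024 : ℝ) * (y11 : ℝ) + ((-13824 : ℝ) * (y12 : ℝ) + ((46080 : ℝ) * (y13 : ℝ) + 0)))))))))))))) + (l1 ^ 3 * l2 ^ 2 * l3 ^ 0) * ((10 : ℝ) * (y0 : ℝ) + ((60 : ℝ) * (y1 : ℝ) + ((60 : ℝ) * (y2 : ℝ) + ((345 : ℝ) * (y3 : ℝ) + ((255 : ℝ) * (y4 : ℝ) + ((-375 : ℝ) * (y5 : ℝ) + ((1900 : ℝ) * (y6 : ℝ) + ((880 : ℝ) * (y7 : ℝ) + ((-3020 : ℝ) * (y8 : ℝ) + ((-7640 : ℝ) * (y9 : ℝ) + ((10080 : ℝ) * (y10 : ℝ) + ((2160 : ℝ) * (y11 : ℝ) + ((-16560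 : ℝ) * (y12 : ℝ) + ((51840 : ℝ) * (y13 : ℝ) + 0)))))))))))))) + (l1 ^ 4 * l2 ^ 0 * l3 ^ 1) * ((5 : ℝ) * (y0 : ℝ) + ((20 : ℝ) * (y1 : ℝ) + ((-24 : ℝ) * (y2 : ℝ) + ((80 : ℝ) * (y3 : ℝ) + ((-96 : ℝ) * (y4 : ℝ) + ((64 : ℝ) * (y5 : ℝ) + ((320 : ℝ) * (y6 : ℝ) + ((-384 : ℝ) * (y7 : ℝ) + ((256 : ℝ) * (y8 : ℝ) + ((512 : ℝ) * (y9 : ℝ) + ((1280 : ℝ) * (y10 : ℝ) + ((-1536 : ℝ) * (y11 : ℝ) + ((1024 : ℝ) * (y12 : ℝ) + ((5120 : ℝ) * (y13 : ℝ) + 0)))))))))))))) + (l1 ^ 4 * l2 ^ 1 * l3 ^ 0) * ((5 : ℝ) * (y0 : ℝ) + ((25 : ℝ) * (y1 : ℝ) + ((-5 : ℝ) * (y2 : ℝ) + ((120 : ℝ) * (y3 : ℝ) + ((-60 : ℝ) * (y4 : ℝ) + ((-240 : ℝ) * (y5 : ℝ) + ((560 : ℝ) * (y6 : ℝ) + ((-400 : ℝ) * (y7 : ℝ) + ((-640 : ℝ) * (y8 : ℝ) + ((4160 : ℝ) * (y9 : ℝ) +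 ((2560 : ℝ) * (y10 : ℝ) + ((-2240 : ℝ) * (y11 : ℝ) + ((-1280 : ℝ) * (y12 : ℝ) + ((11520 : ℝ) * (y13 : ℝ) + 0)))))))))))))) + (l1 ^ 5 * l2 ^ 0 * l3 ^ 0) * ((1 : ℝ) * (y0 : ℝ) + ((4 : ℝ) * (y1 : ℝ) + ((-8 : ℝ) * (y2 : ℝ) + ((16 : ℝ) * (y3 : ℝ) + ((-32 : ℝ) * (y4 : ℝ) + ((64 : ℝ) * (y5 : ℝ) + ((64 : ℝ) * (y6 : ℝ) + ((-128 : ℝ) * (y7 : ℝ) + ((256 : ℝ) * (y8 : ℝ) + ((-512 : ℝ) * (y9 : ℝ) + ((256 : ℝ) * (y10 : ℝ) + ((-512 : ℝ) * (y11 : ℝ) + ((1024 : ℝ) * (y12 : ℝ) + ((1024 : ℝ) * (y13 : ℝ) + 0)))))))))))))) := by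
    have hl3 : l3 = 1 - l1 - l2 := by linarith
    subst hl3
    unfold evalRow
    ring
  rw [key]
  exact add_nonneg (add_nonneg (add_nonneg (add_nonneg (add_nonneg (add_nonneg (add_nonneg (add_nonneg (add_nonneg (add_nonneg (add_nonneg (add_nonneg (add_nonneg (add_nonneg (add_nonneg (add_nonneg (add_nonneg (add_nonneg (add_nonneg (add_nonneg (mul_nonneg (by positivity) H0) (mul_nonneg (by positivity) H1)) (mul_nonneg (by positivity) H2)) (mul_nonneg (by positivity) H3)) (mul_nonneg (by positivity) H4)) (mul_nonneg (by positivity) H5)) (mul_nonneg (by positivity) H6)) (mul_nonneg (by positivity) H7)) (mul_nonneg (by positivity) H8)) (mul_nonneg (by positivity) H9)) (mul_nonneg (by positivity) H10)) (mul_nonneg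 (by positivity) H11)) (mul_nonneg (by positivity) H12)) (mul_nonneg (by positivity) H13)) (mul_nonneg (by positivity) H14)) (mul_nonneg (by positivity) H15)) (mul_nonneg (by positivity) H16)) (mul_nonneg (by positivity) H17)) (mul_nonneg (by positivity) H18)) (mul_nonneg (by positivity) H19)) (mul_nonneg (by positivity) H20)

set_option maxHeartbeats 8000000 in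
theorem tri5 (y0 y1 y2 y3 y4 y5 y6 y7 y8 y9 y10 y11 y12 y13 : ℤ) (h : (BT5.all fun r => decide (0 ≤ dotI r [y0, y1, y2, y3, y4, y5, y6, y7, y8, y9, y10, y11, y12, y13])) = true)
    (l1 l2 l3 : ℝ) (h1 : 0 ≤ l1) (h2 : 0 ≤ l2) (h3 : 0 ≤ l3) (hs : l1 + l2 + l3 = 1) :
    0 ≤ evalRow y0 y1 y2 y3 y4 y5 y6 y7 y8 y9 y10 y11 y12 y13 (l1 * (9) + l2 * (16) + l3 * (16)) (l1 * (-27) + l2 * (36) + l3 * (64)) := by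
  simp only [BT5, List.all_cons, List.all_nil, Bool.and_true, Bool.and_eq_true, decide_eq_true_eq, dotI] at h
  obtain ⟨h0, h1, h2, h3, h4, h5, h6, h7, h8, h9, h10, h11, h12, h13, h14, h15, h16, h17, h18, h19, h20⟩ := h
  have H0 : (0 : ℝ) ≤ (1 : ℝ) * (y0 : ℝ) + ((16 : ℝ) * (y1 : ℝ) + ((64 : ℝ) * (y2 : ℝ) + ((256 : ℝ) * (y3 : ℝ) + ((1024 : ℝ) * (y4 : ℝ) + ((4096 : ℝ) * (y5 : ℝ) + ((4096 : ℝ) * (y6 : ℝ) + ((16384 : ℝ) * (y7 : ℝ) + ((65536 : ℝ) * (y8 : ℝ) + ((262144 : ℝ) * (y9 : ℝ) + ((65536 : ℝ) * (y10 : ℝ) + ((262144 : ℝ) * (y11 : ℝ) + ((1048576 : ℝ) * (y12 : ℝ) + ((1048576 : ℝ) * (y13 : ℝ) + 0))))))))))))) := by exact_mod_cast h0;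
  have H1 : (0 : ℝ) ≤ (5 : ℝ) * (y0 : ℝ) + ((80 : ℝ) * (y1 : ℝ) + ((292 : ℝ) * (y2 : ℝ) + ((1280 : ℝ) * (y3 : ℝ) + ((4672 : ℝ) * (y4 : ℝ) + ((16896 : ℝ) * (y5 : ℝ) + ((20480 : ℝ) * (y6 : ℝ) + ((74752 : ℝ) * (y7 : ℝ) + ((270336 : ℝ) * (y8 : ℝ) + ((966656 : ℝ) * (y9 : ℝ) + ((327680 : ℝ) * (y10 : ℝ) + ((1196032 : ℝ) * (y11 : ℝ) + ((4325376 : ℝ) * (y12 : ℝ) + ((5242880 : ℝ) * (y13 : ℝ) + 0))))))))))))) := by exact_mod_cast h1;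
  have H2 : (0 : ℝ) ≤ (10 : ℝ) * (y0 : ℝ) + ((160 : ℝ) * (y1 : ℝ) + ((528 : ℝ) * (y2 : ℝ) + ((2560 : ℝ) * (y3 : ℝ) + ((8448 : ℝ) * (y4 : ℝ) + ((27408 : ℝ) * (y5 : ℝ) + ((40960 : ℝ) * (y6 : ℝ) + ((135168 : ℝ) * (y7 : ℝ) + ((438528 : ℝ) * (y8 : ℝ) + ((1395712 : ℝ) * (y9 : ℝ) + ((655360 : ℝ) * (y10 : ℝ) + ((2162688 : ℝ) * (y11 : ℝ) + ((7016448 : ℝ) * (y12 : ℝ) + ((10485760 : ℝ) * (y13 : ℝ) + 0))))))))))))) := by exact_mod_cast h2;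
  have H3 : (0 : ℝ) ≤ (10 : ℝ) * (y0 : ℝ) + ((160 : ℝ) * (y1 : ℝ) + ((472 : ℝ) * (y2 : ℝ) + ((2560 : ℝ) * (y3 : ℝ) + ((7552 : ℝ) * (y4 : ℝ) + ((21808 : ℝ) * (y5 : ℝ) + ((40960 : ℝ) * (y6 : ℝ) + ((120832 : ℝ) * (y7 : ℝ) + ((348928 : ℝ) * (y8 : ℝ) + ((986688 : ℝ) * (y9 : ℝ) + ((655360 : ℝ) * (y10 : ℝ) + ((1933312 : ℝ) * (y11 : ℝ) + ((5582848 : ℝ) * (y12 : ℝ) + ((10485760 : ℝ) * (y13 : ℝ) + 0))))))))))))) := by exact_mod_cast h3;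
  have H4 : (0 : ℝ) ≤ (5 : ℝ) * (y0 : ℝ) + ((80 : ℝ) * (y1 : ℝ) + ((208 : ℝ) * (y2 : ℝ) + ((1280 : ℝ) * (y3 : ℝ) + ((3328 : ℝ) * (y4 : ℝ) + ((8496 : ℝ) * (y5 : ℝ) + ((20480 : ℝ) * (y6 : ℝ) + ((53248 : ℝ) * (y7 : ℝ) + ((135936 : ℝ) * (y8 : ℝ) + ((342144 : ℝ) * (y9 : ℝ) + ((327680 : ℝ) * (y10 : ℝ) + ((851968 : ℝ) * (y11 : ℝ) + ((2174976 : ℝ) * (y12 : ℝ) + ((5242880 : ℝ) * (y13 : ℝ) + 0))))))))))))) := by exact_mod_cast h4;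
  have H5 : (0 : ℝ) ≤ (1 : ℝ) * (y0 : ℝ) + ((16 : ℝ) * (y1 : ℝ) + ((36 : ℝ) * (y2 : ℝ) + ((256 : ℝ) * (y3 : ℝ) + ((576 : ℝ) * (y4 : ℝ) + ((1296 : ℝ) * (y5 : ℝ) + ((4096 : ℝ) * (y6 : ℝ) + ((9216 : ℝ) * (y7 : ℝ) + ((20736 : ℝ) * (y8 : ℝ) + ((46656 : ℝ) * (y9 : ℝ) + ((65536 : ℝ) * (y10 : ℝ) + ((147456 : ℝ) * (y11 : ℝ) + ((331776 : ℝ) * (y12 : ℝ) + ((1048576 : ℝ) * (y13 : ℝ) + 0))))))))))))) := by exact_mod_cast h5;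
  have H6 : (0 : ℝ) ≤ (5 : ℝ) * (y0 : ℝ) + ((73 : ℝ) * (y1 : ℝ) + ((229 : ℝ) * (y2 : ℝ) + ((1056 : ℝ) * (y3 : ℝ) + ((3216 : ℝ) * (y4 : ℝ) + ((8832 : ℝ) * (y5 : ℝ) + ((15104 : ℝ) * (y6 : ℝ) + ((44288 : ℝ) * (y7 : ℝ) + ((112640 : ℝ) * (y8 : ℝ) + ((192512 : ℝ) * (y9 : ℝ) + ((212992 : ℝ) * (y10 : ℝ) + ((593920 : ℝ) * (y11 : ℝ) + ((1343488 : ℝ) * (y12 : ℝ) + ((2949120 : ℝ) * (y13 : ℝ) + 0))))))))))))) := by exact_mod_cast h6;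
  have H7 : (0 : ℝ) ≤ (20 : ℝ) * (y0 : ℝ) + ((292 : ℝ) * (y1 : ℝ) + ((804 : ℝ) * (y2 : ℝ) + ((4224 : ℝ) * (y3 : ℝ) + ((11268 : ℝ) * (y4 : ℝ) + ((26088 : ℝ) * (y5 : ℝ) + ((60416 : ℝ) * (y6 : ℝ) + ((154752 : ℝ) * (y7 : ℝ) + ((327808 : ℝ) * (y8 : ℝ) + ((372224 : ℝ) * (y9 : ℝ) + ((851968 : ℝ) * (y10 : ℝ) + ((2067456 : ℝ) * (y11 : ℝ) + ((3811328 : ℝ) * (y12 : ℝ) + ((11796480 : ℝ) * (y13 : ℝ) + 0))))))))))))) := by exact_mod_cast h7;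
  have H8 : (0 : ℝ) ≤ (30 : ℝ) * (y0 : ℝ) + ((438 : ℝ) * (y1 : ℝ) + ((1038 : ℝ) * (y2 : ℝ) + ((6336 : ℝ) * (y3 : ℝ) + ((14508 : ℝ) * (y4 : ℝ) + ((27624 : ℝ) * (y5 : ℝ) + ((90624 : ℝ) * (y6 : ℝ) + ((198528 : ℝ) * (y7 : ℝ) + ((339728 : ℝ) * (y8 : ℝ) + ((199152 : ℝ) * (y9 : ℝ) + ((1277952 : ℝ) * (y10 : ℝ) + ((2638848 : ℝ) * (y11 : ℝ) + ((3799552 : ℝ) * (y12 : ℝ) + ((17694720 : ℝ) * (y13 : ℝ) + 0))))))))))))) := by exact_mod_cast h8;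
  have H9 : (0 : ℝ) ≤ (20 : ℝ) * (y0 : ℝ) + ((292 : ℝ) * (y1 : ℝ) + ((580 : ℝ) * (y2 : ℝ) + ((4224 : ℝ) * (y3 : ℝ) + ((8076 : ℝ) * (y4 : ℝ) + ((12312 : ℝ) * (y5 : ℝ) + ((60416 : ℝ) * (y6 : ℝ) + ((109952 : ℝ) * (y7 : ℝ) + ((146592 : ℝ) * (y8 : ℝ) + ((7776 : ℝ) * (y9 : ℝ) + ((851968 : ℝ) * (y10 : ℝ) + ((1451008 : ℝ) * (y11 : ℝ) + ((1539072 : ℝ) * (y12 : ℝ) + ((11796480 : ℝ) * (y13 : ℝ) + 0))))))))))))) := by exact_mod_cast h9;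
  have H10 : (0 : ℝ) ≤ (5 : ℝ) * (y0 : ℝ) + ((73 : ℝ) * (y1 : ℝ) + ((117 : ℝ) * (y2 : ℝ) + ((1056 : ℝ) * (y3 : ℝ) + ((1620 : ℝ) * (y4 : ℝ) + ((1944 : ℝ) * (y5 : ℝ) + ((15104 : ℝ) * (y6 : ℝ) + ((21888 : ℝ) * (y7 : ℝ) + ((22032 : ℝ) * (y8 : ℝ) + ((-11664 : ℝ) * (y9 : ℝ) + ((212992 : ℝ) * (y10 : ℝ) + ((285696 : ℝ) * (y11 : ℝ) + ((207360 : ℝ) * (y12 : ℝ) + ((2949120 : ℝ) * (y13 : ℝ) + 0))))))))))))) := by exact_mod_cast h10;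
  have H11 : (0 : ℝ) ≤ (10 : ℝ) * (y0 : ℝ) + ((132 : ℝ) * (y1 : ℝ) + ((276 : ℝ) * (y2 : ℝ) + ((1713 : ℝ) * (y3 : ℝ) + ((3261 : ℝ) * (y4 : ℝ) + ((2649 : ℝ) * (y5 : ℝ) + ((21808 : ℝ) * (y6 : ℝ) + ((36832 : ℝ) * (y7 : ℝ) + ((9232 : ℝ) * (y8 : ℝ) + ((-261440 : ℝ) * (y9 : ℝ) + ((271872 : ℝ) * (y10 : ℝ) + ((393984 : ℝ) * (y11 : ℝ) + ((-182016 : ℝ) * (y12 : ℝ) + ((3317760 : ℝ) * (y13 : ℝ) + 0))))))))))))) := by exact_mod_cast h11;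
  have H12 : (0 : ℝ) ≤ (30 : ℝ) * (y0 : ℝ) + ((396 : ℝ) * (y1 : ℝ) + ((660 : ℝ) * (y2 : ℝ) + ((5139 : ℝ) * (y3 : ℝ) + ((7683 : ℝ) * (y4 : ℝ) + ((1731 : ℝ) * (y5 : ℝ) + ((65424 : ℝ) * (y6 : ℝ) + ((84932 : ℝ) * (y7 : ℝ) + ((-32168 : ℝ) * (y8 : ℝ) + ((-609012 : ℝ) * (y9 : ℝ) + ((815616 : ℝ) * (y10 : ℝ) + ((879552 : ℝ) * (y11 : ℝ) + ((-1046016 : ℝ) * (y12 : ℝ) + ((9953280 : ℝ) * (y13 : ℝ) + 0))))))))))))) := by exact_mod_cast h12;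
  have H13 : (0 : ℝ) ≤ (30 : ℝ) * (y0 : ℝ) + ((396 : ℝ) * (y1 : ℝ) + ((492 : ℝ) * (y2 : ℝ) + ((5139 : ℝ) * (y3 : ℝ) + ((5583 : ℝ) * (y4 : ℝ) + ((-2133 : ℝ) * (y5 : ℝ) + ((65424 : ℝ) * (y6 : ℝ) + ((59368 : ℝ) * (y7 : ℝ) + ((-65376 : ℝ) * (y8 : ℝ) + ((-410184 : ℝ) * (y9 : ℝ) + ((815616 : ℝ) * (y10 : ℝ) + ((577152 : ℝ) * (y11 : ℝ) + ((-1256688 : ℝ) * (y12 : ℝ) + ((9953280 : ℝ) * (y13 : ℝ) + 0))))))))))))) := by exact_mod_cast h13;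
  have H14 : (0 : ℝ) ≤ (10 : ℝ) * (y0 : ℝ) + ((132 : ℝ) * (y1 : ℝ) + ((108 : ℝ) * (y2 : ℝ) + ((1713 : ℝ) * (y3 : ℝ) + ((1161 : ℝ) * (y4 : ℝ) + ((-1215 : ℝ) * (y5 : ℝ) + ((21808 : ℝ) * (y6 : ℝ) + ((11268 : ℝ) * (y7 : ℝ) + ((-23976 : ℝ) * (y8 : ℝ) + ((-84564 : ℝ) * (y9 : ℝ) + ((271872 : ℝ) * (y10 : ℝ) + ((91584 : ℝ) * (y11 : ℝ) + ((-392688 : ℝ) * (y12 : ℝ) + ((3317760 : ℝ) * (y13 : ℝ) + 0))))))))))))) := by exact_mod_cast h14;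
  have H15 : (0 : ℝ) ≤ (10 : ℝ) * (y0 : ℝ) + ((118 : ℝ) * (y1 : ℝ) + ((94 : ℝ) * (y2 : ℝ) + ((1363 : ℝ) * (y3 : ℝ) + ((727 : ℝ) * (y4 : ℝ) + ((-4085 : ℝ) * (y5 : ℝ) + ((15417 : ℝ) * (y6 : ℝ) + ((4149 : ℝ) * (y7 : ℝ) + ((-50751 : ℝ) * (y8 : ℝ) + ((-71523 : ℝ) * (y9 : ℝ) + ((171072 : ℝ) * (y10 : ℝ) + ((3888 : ℝ) * (y11 : ℝ) + ((-546912 : ℝ) * (y12 : ℝ) + ((1866240 : ℝ) * (y13 : ℝ) + 0))))))))))))) := by exact_mod_cast h15;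
  have H16 : (0 : ℝ) ≤ (20 : ℝ) * (y0 : ℝ) + ((236 : ℝ) * (y1 : ℝ) + ((76 : ℝ) * (y2 : ℝ) + ((2726 : ℝ) * (y3 : ℝ) + ((250 : ℝ) * (y4 : ℝ) + ((-7218 : ℝ) * (y5 : ℝ) + ((30834 : ℝ) * (y6 : ℝ) + ((-4302 : ℝ) * (y7 : ℝ) + ((-82350 : ℝ) * (y8 : ℝ) + ((24786 : ℝ) * (y9 : ℝ) + ((342144 : ℝ) * (y10 : ℝ) + ((-121500 : ℝ) * (y11 : ℝ) + ((-826200 : ℝ) * (y12 : ℝ) + ((3732480 : ℝ) * (y13 : ℝ) + 0))))))))))))) := by exact_mod_cast h16;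
  have H17 : (0 : ℝ) ≤ (10 : ℝ) * (y0 : ℝ) + ((118 : ℝ) * (y1 : ℝ) + ((-18 : ℝ) * (y2 : ℝ) + ((1363 : ℝ) * (y3 : ℝ) + ((-477 : ℝ) * (y4 : ℝ) + ((-2349 : ℝ) * (y5 : ℝ) + ((15417 : ℝ) * (y6 : ℝ) + ((-8451 : ℝ) * (y7 : ℝ) + ((-24543 : ℝ) * (y8 : ℝ) + ((32805 : ℝ) * (y9 : ℝ) + ((171072 : ℝ) * (y10 : ℝ) + ((-125388 : ℝ) * (y11 : ℝ) + ((-215784 : ℝ) * (y12 : ℝ) + ((1866240 : ℝ) * (y13 : ℝ) + 0))))))))))))) := by exact_mod_cast h17;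
  have H18 : (0 : ℝ) ≤ (5 : ℝ) * (y0 : ℝ) + ((52 : ℝ) * (y1 : ℝ) + ((-44 : ℝ) * (y2 : ℝ) + ((531 : ℝ) * (y3 : ℝ) + ((-585 : ℝ) * (y4 : ℝ) + ((-1269 : ℝ) * (y5 : ℝ) + ((5346 : ℝ) * (y6 : ℝ) + ((-6966 : ℝ) * (y7 : ℝ) + ((-6318 : ℝ) * (y8 : ℝ) + ((100602 : ℝ) * (y9 : ℝ) + ((53217 : ℝ) * (y10 : ℝ) + ((-78003 : ℝ) * (y11 : ℝ) + ((-10935 : ℝ) * (y12 : ℝ) + ((524880 : ℝ) * (y13 : ℝ) + 0))))))))))))) := by exact_mod_cast h18;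
  have H19 : (0 : ℝ) ≤ (5 : ℝ) * (y0 : ℝ) + ((52 : ℝ) * (y1 : ℝ) + ((-72 : ℝ) * (y2 : ℝ) + ((531 : ℝ) * (y3 : ℝ) + ((-837 : ℝ) * (y4 : ℝ) + ((243 : ℝ) * (y5 : ℝ) + ((5346 : ℝ) * (y6 : ℝ) + ((-9234 : ℝ) * (y7 : ℝ) + ((7290 : ℝ) * (y8 : ℝ) + ((39366 : ℝ) * (y9 : ℝ) + ((53217 : ℝ) * (y10 : ℝ) + ((-98415 : ℝ) * (y11 : ℝ) + ((111537 : ℝ) * (y12 : ℝ) + ((524880 : ℝ) * (y13 : ℝ) + 0))))))))))))) := by exact_mod_cast h19;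
  have H20 : (0 : ℝ) ≤ (1 : ℝ) * (y0 : ℝ) + ((9 : ℝ) * (y1 : ℝ) + ((-27 : ℝ) * (y2 : ℝ) + ((81 : ℝ) * (y3 : ℝ) + ((-243 : ℝ) * (y4 : ℝ) + ((729 : ℝ) * (y5 : ℝ) + ((729 : ℝ) * (y6 : ℝ) + ((-2187 : ℝ) * (y7 : ℝ) + ((6561 : ℝ) * (y8 : ℝ) + ((-19683 : ℝ) * (y9 : ℝ) + ((6561 : ℝ) * (y10 : ℝ) + ((-19683 : ℝ) * (y11 : ℝ) + ((59049 : ℝ) * (y12 : ℝ) + ((59049 : ℝ) * (y13 : ℝ) + 0))))))))))))) := by exact_mod_cast h20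
  have key : evalRow y0 y1 y2 y3 y4 y5 y6 y7 y8 y9 y10 y11 y12 y13 (l1 * (9) + l2 * (16) + l3 * (16)) (l1 * (-27) + l2 * (36) + l3 * (64)) = (l1 ^ 0 * l2 ^ 0 * l3 ^ 5) * ((1 : ℝ) * (y0 : ℝ) + ((16 : ℝ) * (y1 : ℝ) + ((64 : ℝ) * (y2 : ℝ) + ((256 : ℝ) * (y3 : ℝ) + ((1024 : ℝ) * (y4 : ℝ) + ((4096 : ℝ) * (y5 : ℝ) + ((4096 : ℝ) * (y6 : ℝ) + ((16384 : ℝ) * (y7 : ℝ) + ((65536 : ℝ) * (y8 : ℝ) + ((262144 : ℝ) * (y9 : ℝ) + ((65536 : ℝ) * (y10 : ℝ) + ((262144 : ℝ) * (y11 : ℝ) + ((1048576 : ℝ) * (y12 : ℝ) + ((1048576 : ℝ) * (y13 : ℝ) + 0)))))))))))))) + (l1 ^ 0 * l2 ^ 1 * l3 ^ 4) * ((5 : ℝ) * (y0 : ℝ) + ((80 : ℝ) * (y1 : ℝ) + ((292 : ℝ) * (y2 : ℝ) + ((1280 : ℝ) * (y3 : ℝ) + ((4672 : ℝ) * (y4 : ℝ) + ((16896 : ℝ) * (y5 : ℝ) +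 ((20480 : ℝ) * (y6 : ℝ) + ((74752 : ℝ) * (y7 : ℝ) + ((270336 : ℝ) * (y8 : ℝ) + ((966656 : ℝ) * (y9 : ℝ) + ((327680 : ℝ) * (y10 : ℝ) + ((1196032 : ℝ) * (y11 : ℝ) + ((4325376 : ℝ) * (y12 : ℝ) + ((5242880 : ℝ) * (y13 : ℝ) + 0)))))))))))))) + (l1 ^ 0 * l2 ^ 2 * l3 ^ 3) * ((10 : ℝ) * (y0 : ℝ) + ((160 : ℝ) * (y1 : ℝ) + ((528 : ℝ) * (y2 : ℝ) + ((2560 : ℝ) * (y3 : ℝ) + ((8448 : ℝ) * (y4 : ℝ) + ((27408 : ℝ) * (y5 : ℝ) + ((40960 : ℝ) * (y6 : ℝ) + ((135168 : ℝ) * (y7 : ℝ) + ((438528 : ℝ) * (y8 : ℝ) + ((1395712 : ℝ) * (y9 : ℝ) + ((655360 : ℝ) * (y10 : ℝ) + ((2162688 : ℝ) * (y11 : ℝ) + ((7016448 : ℝ) * (y12 : ℝ) + ((10485760 : ℝ) * (y13 : ℝ) + 0)))))))))))))) + (l1 ^ 0 * l2 ^ 3 * l3 ^ 2) * ((10 : ℝ) * (y0 : ℝ) + ((160 : ℝ) *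 (y1 : ℝ) + ((472 : ℝ) * (y2 : ℝ) + ((2560 : ℝ) * (y3 : ℝ) + ((7552 : ℝ) * (y4 : ℝ) + ((21808 : ℝ) * (y5 : ℝ) + ((40960 : ℝ) * (y6 : ℝ) + ((120832 : ℝ) * (y7 : ℝ) + ((348928 : ℝ) * (y8 : ℝ) + ((986688 : ℝ) * (y9 : ℝ) + ((655360 : ℝ) * (y10 : ℝ) + ((1933312 : ℝ) * (y11 : ℝ) + ((5582848 : ℝ) * (y12 : ℝ) + ((10485760 : ℝ) * (y13 : ℝ) + 0)))))))))))))) + (l1 ^ 0 * l2 ^ 4 * l3 ^ 1) * ((5 : ℝ) * (y0 : ℝ) + ((80 : ℝ) * (y1 : ℝ) + ((208 : ℝ) * (y2 : ℝ) + ((1280 : ℝ) * (y3 : ℝ) + ((3328 : ℝ) * (y4 : ℝ) + ((8496 : ℝ) * (y5 : ℝ) + ((20480 : ℝ) * (y6 : ℝ) + ((53248 : ℝ) * (y7 : ℝ) + ((135936 : ℝ) * (y8 : ℝ) + ((342144 : ℝ) * (y9 : ℝ) + ((327680 : ℝ) * (y10 : ℝ) + ((851968 : ℝ) * (y11 : ℝ) + ((2174976 : ℝ) * (y12 : ℝ) + ((5242880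 : ℝ) * (y13 : ℝ) + 0)))))))))))))) + (l1 ^ 0 * l2 ^ 5 * l3 ^ 0) * ((1 : ℝ) * (y0 : ℝ) + ((16 : ℝ) * (y1 : ℝ) + ((36 : ℝ) * (y2 : ℝ) + ((256 : ℝ) * (y3 : ℝ) + ((576 : ℝ) * (y4 : ℝ) + ((1296 : ℝ) * (y5 : ℝ) + ((4096 : ℝ) * (y6 : ℝ) + ((9216 : ℝ) * (y7 : ℝ) + ((20736 : ℝ) * (y8 : ℝ) + ((46656 : ℝ) * (y9 : ℝ) + ((65536 : ℝ) * (y10 : ℝ) + ((147456 : ℝ) * (y11 : ℝ) + ((331776 : ℝ) * (y12 : ℝ) + ((1048576 : ℝ) * (y13 : ℝ) + 0)))))))))))))) + (l1 ^ 1 * l2 ^ 0 * l3 ^ 4) * ((5 : ℝ) * (y0 : ℝ) + ((73 : ℝ) * (y1 : ℝ) + ((229 : ℝ) * (y2 : ℝ) + ((1056 : ℝ) * (y3 : ℝ) + ((3216 : ℝ) * (y4 : ℝ) + ((8832 : ℝ) * (y5 : ℝ) + ((15104 : ℝ) * (y6 : ℝ) + ((44288 : ℝ) * (y7 : ℝ) + ((112640 : ℝ) * (y8 : ℝ) + ((192512 : ℝ) * (y9 : ℝ) + ((212992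 : ℝ) * (y10 : ℝ) + ((593920 : ℝ) * (y11 : ℝ) + ((1343488 : ℝ) * (y12 : ℝ) + ((2949120 : ℝ) * (y13 : ℝ) + 0)))))))))))))) + (l1 ^ 1 * l2 ^ 1 * l3 ^ 3) * ((20 : ℝ) * (y0 : ℝ) + ((292 : ℝ) * (y1 : ℝ) + ((804 : ℝ) * (y2 : ℝ) + ((4224 : ℝ) * (y3 : ℝ) + ((11268 : ℝ) * (y4 : ℝ) + ((26088 : ℝ) * (y5 : ℝ) + ((60416 : ℝ) * (y6 : ℝ) + ((154752 : ℝ) * (y7 : ℝ) + ((327808 : ℝ) * (y8 : ℝ) + ((372224 : ℝ) * (y9 : ℝ) + ((851968 : ℝ) * (y10 : ℝ) + ((2067456 : ℝ) * (y11 : ℝ) + ((3811328 : ℝ) * (y12 : ℝ) + ((11796480 : ℝ) * (y13 : ℝ) + 0)))))))))))))) + (l1 ^ 1 * l2 ^ 2 * l3 ^ 2) * ((30 : ℝ) * (y0 : ℝ) + ((438 : ℝ) * (y1 : ℝ) + ((1038 : ℝ) * (y2 : ℝ) + ((6336 : ℝ) * (y3 : ℝ) + ((14508 : ℝ) * (y4 : ℝ) + ((27624 : ℝ) * (y5 : ℝ) + ((90624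 : ℝ) * (y6 : ℝ) + ((198528 : ℝ) * (y7 : ℝ) + ((339728 : ℝ) * (y8 : ℝ) + ((199152 : ℝ) * (y9 : ℝ) + ((1277952 : ℝ) * (y10 : ℝ) + ((2638848 : ℝ) * (y11 : ℝ) + ((3799552 : ℝ) * (y12 : ℝ) + ((17694720 : ℝ) * (y13 : ℝ) + 0)))))))))))))) + (l1 ^ 1 * l2 ^ 3 * l3 ^ 1) * ((20 : ℝ) * (y0 : ℝ) + ((292 : ℝ) * (y1 : ℝ) + ((580 : ℝ) * (y2 : ℝ) + ((4224 : ℝ) * (y3 : ℝ) + ((8076 : ℝ) * (y4 : ℝ) + ((12312 : ℝ) * (y5 : ℝ) + ((60416 : ℝ) * (y6 : ℝ) + ((109952 : ℝ) * (y7 : ℝ) + ((146592 : ℝ) * (y8 : ℝ) + ((7776 : ℝ) * (y9 : ℝ) + ((851968 : ℝ) * (y10 : ℝ) + ((1451008 : ℝ) * (y11 : ℝ) + ((1539072 : ℝ) * (y12 : ℝ) + ((11796480 : ℝ) * (y13 : ℝ) + 0)))))))))))))) + (l1 ^ 1 * l2 ^ 4 * l3 ^ 0) * ((5 : ℝ) * (y0 : ℝ) + ((73 : ℝ) * (y1 : ℝ)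 + ((117 : ℝ) * (y2 : ℝ) + ((1056 : ℝ) * (y3 : ℝ) + ((1620 : ℝ) * (y4 : ℝ) + ((1944 : ℝ) * (y5 : ℝ) + ((15104 : ℝ) * (y6 : ℝ) + ((21888 : ℝ) * (y7 : ℝ) + ((22032 : ℝ) * (y8 : ℝ) + ((-11664 : ℝ) * (y9 : ℝ) + ((212992 : ℝ) * (y10 : ℝ) + ((285696 : ℝ) * (y11 : ℝ) + ((207360 : ℝ) * (y12 : ℝ) + ((2949120 : ℝ) * (y13 : ℝ) + 0)))))))))))))) + (l1 ^ 2 * l2 ^ 0 * l3 ^ 3) * ((10 : ℝ) * (y0 : ℝ) + ((132 : ℝ) * (y1 : ℝ) + ((276 : ℝ) * (y2 : ℝ) + ((1713 : ℝ) * (y3 : ℝ) + ((3261 : ℝ) * (y4 : ℝ) + ((2649 : ℝ) * (y5 : ℝ) + ((21808 : ℝ) * (y6 : ℝ) + ((36832 : ℝ) * (y7 : ℝ) + ((9232 : ℝ) * (y8 : ℝ) + ((-261440 : ℝ) * (y9 : ℝ) + ((271872 : ℝ) * (y10 : ℝ) + ((393984 : ℝ) * (y11 : ℝ) + ((-182016 : ℝ) * (y12 : ℝ) + ((3317760 : ℝ) * (y13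 : ℝ) + 0)))))))))))))) + (l1 ^ 2 * l2 ^ 1 * l3 ^ 2) * ((30 : ℝ) * (y0 : ℝ) + ((396 : ℝ) * (y1 : ℝ) + ((660 : ℝ) * (y2 : ℝ) + ((5139 : ℝ) * (y3 : ℝ) + ((7683 : ℝ) * (y4 : ℝ) + ((1731 : ℝ) * (y5 : ℝ) + ((65424 : ℝ) * (y6 : ℝ) + ((84932 : ℝ) * (y7 : ℝ) + ((-32168 : ℝ) * (y8 : ℝ) + ((-609012 : ℝ) * (y9 : ℝ) + ((815616 : ℝ) * (y10 : ℝ) + ((879552 : ℝ) * (y11 : ℝ) + ((-1046016 : ℝ) * (y12 : ℝ) + ((9953280 : ℝ) * (y13 : ℝ) + 0)))))))))))))) + (l1 ^ 2 * l2 ^ 2 * l3 ^ 1) * ((30 : ℝ) * (y0 : ℝ) + ((396 : ℝ) * (y1 : ℝ) + ((492 : ℝ) * (y2 : ℝ) + ((5139 : ℝ) * (y3 : ℝ) + ((5583 : ℝ) * (y4 : ℝ) + ((-2133 : ℝ) * (y5 : ℝ) + ((65424 : ℝ) * (y6 : ℝ) + ((59368 : ℝ) * (y7 : ℝ) + ((-65376 : ℝ) * (y8 : ℝ) + ((-410184 : ℝ) * (y9 : ℝ)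 + ((815616 : ℝ) * (y10 : ℝ) + ((577152 : ℝ) * (y11 : ℝ) + ((-1256688 : ℝ) * (y12 : ℝ) + ((9953280 : ℝ) * (y13 : ℝ) + 0)))))))))))))) + (l1 ^ 2 * l2 ^ 3 * l3 ^ 0) * ((10 : ℝ) * (y0 : ℝ) + ((132 : ℝ) * (y1 : ℝ) + ((108 : ℝ) * (y2 : ℝ) + ((1713 : ℝ) * (y3 : ℝ) + ((1161 : ℝ) * (y4 : ℝ) + ((-1215 : ℝ) * (y5 : ℝ) + ((21808 : ℝ) * (y6 : ℝ) + ((11268 : ℝ) * (y7 : ℝ) + ((-23976 : ℝ) * (y8 : ℝ) + ((-84564 : ℝ) * (y9 : ℝ) + ((271872 : ℝ) * (y10 : ℝ) + ((91584 : ℝ) * (y11 : ℝ) + ((-392688 : ℝ) * (y12 : ℝ) + ((3317760 : ℝ) * (y13 : ℝ) + 0)))))))))))))) + (l1 ^ 3 * l2 ^ 0 * l3 ^ 2) * ((10 : ℝ) * (y0 : ℝ) + ((118 : ℝ) * (y1 : ℝ) + ((94 : ℝ) * (y2 : ℝ) + ((1363 : ℝ) * (y3 : ℝ) + ((727 : ℝ) * (y4 : ℝ) + ((-4085 : ℝ) * (y5 : ℝ) +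 ((15417 : ℝ) * (y6 : ℝ) + ((4149 : ℝ) * (y7 : ℝ) + ((-50751 : ℝ) * (y8 : ℝ) + ((-71523 : ℝ) * (y9 : ℝ) + ((171072 : ℝ) * (y10 : ℝ) + ((3888 : ℝ) * (y11 : ℝ) + ((-546912 : ℝ) * (y12 : ℝ) + ((1866240 : ℝ) * (y13 : ℝ) + 0)))))))))))))) + (l1 ^ 3 * l2 ^ 1 * l3 ^ 1) * ((20 : ℝ) * (y0 : ℝ) + ((236 : ℝ) * (y1 : ℝ) + ((76 : ℝ) * (y2 : ℝ) + ((2726 : ℝ) * (y3 : ℝ) + ((250 : ℝ) * (y4 : ℝ) + ((-7218 : ℝ) * (y5 : ℝ) + ((30834 : ℝ) * (y6 : ℝ) + ((-4302 : ℝ) * (y7 : ℝ) + ((-82350 : ℝ) * (y8 : ℝ) + ((24786 : ℝ) * (y9 : ℝ) + ((342144 : ℝ) * (y10 : ℝ) + ((-121500 : ℝ) * (y11 : ℝ) + ((-826200 : ℝ) * (y12 : ℝ) + ((3732480 : ℝ) * (y13 : ℝ) + 0)))))))))))))) + (l1 ^ 3 * l2 ^ 2 * l3 ^ 0) * ((10 : ℝ) * (y0 : ℝ) + ((118 : ℝ) * (y1 : ℝ)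 + ((-18 : ℝ) * (y2 : ℝ) + ((1363 : ℝ) * (y3 : ℝ) + ((-477 : ℝ) * (y4 : ℝ) + ((-2349 : ℝ) * (y5 : ℝ) + ((15417 : ℝ) * (y6 : ℝ) + ((-8451 : ℝ) * (y7 : ℝ) + ((-24543 : ℝ) * (y8 : ℝ) + ((32805 : ℝ) * (y9 : ℝ) + ((171072 : ℝ) * (y10 : ℝ) + ((-125388 : ℝ) * (y11 : ℝ) + ((-215784 : ℝ) * (y12 : ℝ) + ((1866240 : ℝ) * (y13 : ℝ) + 0)))))))))))))) + (l1 ^ 4 * l2 ^ 0 * l3 ^ 1) * ((5 : ℝ) * (y0 : ℝ) + ((52 : ℝ) * (y1 : ℝ) + ((-44 : ℝ) * (y2 : ℝ) + ((531 : ℝ) * (y3 : ℝ) + ((-585 : ℝ) * (y4 : ℝ) + ((-1269 : ℝ) * (y5 : ℝ) + ((5346 : ℝ) * (y6 : ℝ) + ((-6966 : ℝ) * (y7 : ℝ) + ((-6318 : ℝ) * (y8 : ℝ) + ((100602 : ℝ) * (y9 : ℝ) + ((53217 : ℝ) * (y10 : ℝ) + ((-78003 : ℝ) * (y11 : ℝ) + ((-10935 : ℝ) * (y12 : ℝ) + ((524880 : ℝ) * (y13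 : ℝ) + 0)))))))))))))) + (l1 ^ 4 * l2 ^ 1 * l3 ^ 0) * ((5 : ℝ) * (y0 : ℝ) + ((52 : ℝ) * (y1 : ℝ) + ((-72 : ℝ) * (y2 : ℝ) + ((531 : ℝ) * (y3 : ℝ) + ((-837 : ℝ) * (y4 : ℝ) + ((243 : ℝ) * (y5 : ℝ) + ((5346 : ℝ) * (y6 : ℝ) + ((-9234 : ℝ) * (y7 : ℝ) + ((7290 : ℝ) * (y8 : ℝ) + ((39366 : ℝ) * (y9 : ℝ) + ((53217 : ℝ) * (y10 : ℝ) + ((-98415 : ℝ) * (y11 : ℝ) + ((111537 : ℝ) * (y12 : ℝ) + ((524880 : ℝ) * (y13 : ℝ) + 0)))))))))))))) + (l1 ^ 5 * l2 ^ 0 * l3 ^ 0) * ((1 : ℝ) * (y0 : ℝ) + ((9 : ℝ) * (y1 : ℝ) + ((-27 : ℝ) * (y2 : ℝ) + ((81 : ℝ) * (y3 : ℝ) + ((-243 : ℝ) * (y4 : ℝ) + ((729 : ℝ) * (y5 : ℝ) + ((729 : ℝ) * (y6 : ℝ) + ((-2187 : ℝ) * (y7 : ℝ) + ((6561 : ℝ) * (y8 : ℝ) + ((-19683 : ℝ) * (y9 : ℝ) + ((6561 : ℝ) * (y10 : ℝ)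 + ((-19683 : ℝ) * (y11 : ℝ) + ((59049 : ℝ) * (y12 : ℝ) + ((59049 : ℝ) * (y13 : ℝ) + 0)))))))))))))) := by
    have hl3 : l3 = 1 - l1 - l2 := by linarith
    subst hl3
    unfold evalRow
    ring
  rw [key]
  exact add_nonneg (add_nonneg (add_nonneg (add_nonneg (add_nonneg (add_nonneg (add_nonneg (add_nonneg (add_nonneg (add_nonneg (add_nonneg (add_nonneg (add_nonneg (add_nonneg (add_nonneg (add_nonneg (add_nonneg (add_nonneg (add_nonneg (add_nonneg (mul_nonneg (by positivity) H0) (mul_nonneg (by positivity) H1)) (mul_nonneg (by positivity) H2)) (mul_nonneg (by positivity) H3)) (mul_nonneg (by positivity) H4)) (mul_nonneg (by positivity) H5)) (mul_nonneg (by positivity) H6)) (mul_nonneg (by positivity) H7)) (mul_nonneg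 (by positivity) H8)) (mul_nonneg (by positivity) H9)) (mul_nonneg (by positivity) H10)) (mul_nonneg (by positivity) H11)) (mul_nonneg (by positivity) H12)) (mul_nonneg (by positivity) H13)) (mul_nonneg (by positivity) H14)) (mul_nonneg (by positivity) H15)) (mul_nonneg (by positivity) H16)) (mul_nonneg (by positivity) H17)) (mul_nonneg (by positivity) H18)) (mul_nonneg (by positivity) H19)) (mul_nonneg (by positivity) H20)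

set_option maxHeartbeats 8000000 in
theorem tri6 (y0 y1 y2 y3 y4 y5 y6 y7 y8 y9 y10 y11 y12 y13 : ℤ) (h : (BT6.all fun r => decide (0 ≤ dotI r [y0, y1, y2, y3, y4, y5, y6, y7, y8, y9, y10, y11, y12, y13])) = true)
    (l1 l2 l3 : ℝ) (h1 : 0 ≤ l1) (h2 : 0 ≤ l2) (h3 : 0 ≤ l3) (hs : l1 + l2 + l3 = 1) :
    0 ≤ evalRow y0 y1 y2 y3 y4 y5 y6 y7 y8 y9 y10 y11 y12 y13 (l1 * (9) + l2 * (16) + l3 * (9)) (l1 * (-27) + l2 * (64) + l3 * (27)) := by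
  simp only [BT6, List.all_cons, List.all_nil, Bool.and_true, Bool.and_eq_true, decide_eq_true_eq, dotI] at h
  obtain ⟨h0, h1, h2, h3, h4, h5, h6, h7, h8, h9, h10, h11, h12, h13, h14, h15, h16, h17, h18, h19, h20⟩ := h
  have H0 : (0 : ℝ) ≤ (1 : ℝ) * (y0 : ℝ) + ((9 : ℝ) * (y1 : ℝ) + ((27 : ℝ) * (y2 : ℝ) + ((81 : ℝ) * (y3 : ℝ) + ((243 : ℝ) * (y4 : ℝ) + ((729 : ℝ) * (y5 : ℝ) + ((729 : ℝ) * (y6 : ℝ) + ((2187 : ℝ) * (y7 : ℝ) + ((6561 : ℝ) * (y8 : ℝ) + ((19683 : ℝ) * (y9 : ℝ) + ((6561 : ℝ) * (y10 : ℝ) + ((19683 : ℝ) * (y11 : ℝ) + ((59049 : ℝ) * (y12 : ℝ) + ((59049 : ℝ) * (y13 : ℝ) + 0))))))))))))) := by exact_mod_cast h0;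
  have H1 : (0 : ℝ) ≤ (5 : ℝ) * (y0 : ℝ) + ((52 : ℝ) * (y1 : ℝ) + ((172 : ℝ) * (y2 : ℝ) + ((531 : ℝ) * (y3 : ℝ) + ((1737 : ℝ) * (y4 : ℝ) + ((5643 : ℝ) * (y5 : ℝ) + ((5346 : ℝ) * (y6 : ℝ) + ((17334 : ℝ) * (y7 : ℝ) + ((55890 : ℝ) * (y8 : ℝ) + ((179334 : ℝ) * (y9 : ℝ) + ((53217 : ℝ) * (y10 : ℝ) + ((171315 : ℝ) * (y11 : ℝ) + ((548937 : ℝ) * (y12 : ℝ) + ((524880 : ℝ) * (y13 : ℝ) + 0))))))))))))) := by exact_mod_cast h1;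
  have H2 : (0 : ℝ) ≤ (10 : ℝ) * (y0 : ℝ) + ((118 : ℝ) * (y1 : ℝ) + ((418 : ℝ) * (y2 : ℝ) + ((1363 : ℝ) * (y3 : ℝ) + ((4777 : ℝ) * (y4 : ℝ) + ((16651 : ℝ) * (y5 : ℝ) + ((15417 : ℝ) * (y6 : ℝ) + ((53451 : ℝ) * (y7 : ℝ) + ((184257 : ℝ) * (y8 : ℝ) + ((631395 : ℝ) * (y9 : ℝ) + ((171072 : ℝ) * (y10 : ℝ) + ((587088 : ℝ) * (y11 : ℝ) + ((2003616 : ℝ) * (y12 : ℝ) + ((1866240 : ℝ) * (y13 : ℝ) + 0))))))))))))) := by exact_mod_cast h2;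
  have H3 : (0 : ℝ) ≤ (10 : ℝ) * (y0 : ℝ) + ((132 : ℝ) * (y1 : ℝ) + ((492 : ℝ) * (y2 : ℝ) + ((1713 : ℝ) * (y3 : ℝ) + ((6339 : ℝ) * (y4 : ℝ) + ((23385 : ℝ) * (y5 : ℝ) + ((21808 : ℝ) * (y6 : ℝ) + ((80032 : ℝ) * (y7 : ℝ) + ((292624 : ℝ) * (y8 : ℝ) + ((1065664 : ℝ) * (y9 : ℝ) + ((271872 : ℝ) * (y10 : ℝ) + ((988416 : ℝ) * (y11 : ℝ) + ((3578112 : ℝ) * (y12 : ℝ) + ((3317760 : ℝ) * (y13 : ℝ) + 0))))))))))))) := by exact_mod_cast h3;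
  have H4 : (0 : ℝ) ≤ (5 : ℝ) * (y0 : ℝ) + ((73 : ℝ) * (y1 : ℝ) + ((283 : ℝ) * (y2 : ℝ) + ((1056 : ℝ) * (y3 : ℝ) + ((4080 : ℝ) * (y4 : ℝ) + ((15744 : ℝ) * (y5 : ℝ) + ((15104 : ℝ) * (y6 : ℝ) + ((58112 : ℝ) * (y7 : ℝ) + ((223232 : ℝ) * (y8 : ℝ) + ((856064 : ℝ) * (y9 : ℝ) + ((212992 : ℝ) * (y10 : ℝ) + ((815104 : ℝ) * (y11 : ℝ) + ((3112960 : ℝ) * (y12 : ℝ) + ((2949120 : ℝ) * (y13 : ℝ) + 0))))))))))))) := by exact_mod_cast h4;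
  have H5 : (0 : ℝ) ≤ (1 : ℝ) * (y0 : ℝ) + ((16 : ℝ) * (y1 : ℝ) + ((64 : ℝ) * (y2 : ℝ) + ((256 : ℝ) * (y3 : ℝ) + ((1024 : ℝ) * (y4 : ℝ) + ((4096 : ℝ) * (y5 : ℝ) + ((4096 : ℝ) * (y6 : ℝ) + ((16384 : ℝ) * (y7 : ℝ) + ((65536 : ℝ) * (y8 : ℝ) + ((262144 : ℝ) * (y9 : ℝ) + ((65536 : ℝ) * (y10 : ℝ) + ((262144 : ℝ) * (y11 : ℝ) + ((1048576 : ℝ) * (y12 : ℝ) + ((1048576 : ℝ) * (y13 : ℝ) + 0))))))))))))) := by exact_mod_cast h5;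
  have H6 : (0 : ℝ) ≤ (5 : ℝ) * (y0 : ℝ) + ((45 : ℝ) * (y1 : ℝ) + ((81 : ℝ) * (y2 : ℝ) + ((405 : ℝ) * (y3 : ℝ) + ((729 : ℝ) * (y4 : ℝ) + ((729 : ℝ) * (y5 : ℝ) + ((3645 : ℝ) * (y6 : ℝ) + ((6561 : ℝ) * (y7 : ℝ) + ((6561 : ℝ) * (y8 : ℝ) + ((-19683 : ℝ) * (y9 : ℝ) + ((32805 : ℝ) * (y10 : ℝ) + ((59049 : ℝ) * (y11 : ℝ) + ((59049 : ℝ) * (y12 : ℝ) + ((295245 : ℝ) * (y13 : ℝ) + 0))))))))))))) := by exact_mod_cast h6;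
  have H7 : (0 : ℝ) ≤ (20 : ℝ) * (y0 : ℝ) + ((208 : ℝ) * (y1 : ℝ) + ((472 : ℝ) * (y2 : ℝ) + ((2124 : ℝ) * (y3 : ℝ) + ((4626 : ℝ) * (y4 : ℝ) + ((6912 : ℝ) * (y5 : ℝ) + ((21384 : ℝ) * (y6 : ℝ) + ((45036 : ℝ) * (y7 : ℝ) + ((62208 : ℝ) * (y8 : ℝ) + ((-78732 : ℝ) * (y9 : ℝ) + ((212868 : ℝ) * (y10 : ℝ) + ((435942 : ℝ) * (y11 : ℝ) + ((559872 : ℝ) * (y12 : ℝ) + ((2099520 : ℝ) * (y13 : ℝ) + 0))))))))))))) := by exact_mod_cast h7;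
  have H8 : (0 : ℝ) ≤ (30 : ℝ) * (y0 : ℝ) + ((354 : ℝ) * (y1 : ℝ) + ((930 : ℝ) * (y2 : ℝ) + ((4089 : ℝ) * (y3 : ℝ) + ((10281 : ℝ) * (y4 : ℝ) + ((20469 : ℝ) * (y5 : ℝ) + ((46251 : ℝ) * (y6 : ℝ) + ((111051 : ℝ) * (y7 : ℝ) + ((198207 : ℝ) * (y8 : ℝ) + ((-7209 : ℝ) * (y9 : ℝ) + ((513216 : ℝ) * (y10 : ℝ) + ((1178064 : ℝ) * (y11 : ℝ) + ((1874016 : ℝ) * (y12 : ℝ) + ((5598720 : ℝ) * (y13 : ℝ) + 0))))))))))))) := by exact_mod_cast h8;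
  have H9 : (0 : ℝ) ≤ (20 : ℝ) * (y0 : ℝ) + ((264 : ℝ) * (y1 : ℝ) + ((768 : ℝ) * (y2 : ℝ) + ((3426 : ℝ) * (y3 : ℝ) + ((9600 : ℝ) * (y4 : ℝ) + ((23118 : ℝ) * (y5 : ℝ) + ((43616 : ℝ) * (y6 : ℝ) + ((116864 : ℝ) * (y7 : ℝ) + ((255200 : ℝ) * (y8 : ℝ) + ((244352 : ℝ) * (y9 : ℝ) + ((543744 : ℝ) * (y10 : ℝ) + ((1382400 : ℝ) * (y11 : ℝ) + ((2649600 : ℝ) * (y12 : ℝ) + ((6635520 : ℝ) * (y13 : ℝ) + 0))))))))))))) := by exact_mod_cast h9;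
  have H10 : (0 : ℝ) ≤ (5 : ℝ) * (y0 : ℝ) + ((73 : ℝ) * (y1 : ℝ) + ((229 : ℝ) * (y2 : ℝ) + ((1056 : ℝ) * (y3 : ℝ) + ((3216 : ℝ) * (y4 : ℝ) + ((8832 : ℝ) * (y5 : ℝ) + ((15104 : ℝ) * (y6 : ℝ) + ((44288 : ℝ) * (y7 : ℝ) + ((112640 : ℝ) * (y8 : ℝ) + ((192512 : ℝ) * (y9 : ℝ) + ((212992 : ℝ) * (y10 : ℝ) + ((593920 : ℝ) * (y11 : ℝ) + ((1343488 : ℝ) * (y12 : ℝ) + ((2949120 : ℝ) * (y13 : ℝ) + 0))))))))))))) := by exact_mod_cast h10;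
  have H11 : (0 : ℝ) ≤ (10 : ℝ) * (y0 : ℝ) + ((90 : ℝ) * (y1 : ℝ) + ((54 : ℝ) * (y2 : ℝ) + ((810 : ℝ) * (y3 : ℝ) + ((486 : ℝ) * (y4 : ℝ) + ((-1458 : ℝ) * (y5 : ℝ) + ((7290 : ℝ) * (y6 : ℝ) + ((4374 : ℝ) * (y7 : ℝ) + ((-13122 : ℝ) * (y8 : ℝ) + ((-39366 : ℝ) * (y9 : ℝ) + ((65610 : ℝ) * (y10 : ℝ) + ((39366 : ℝ) * (y11 : ℝ) + ((-118098 : ℝ) * (y12 : ℝ) + ((590490 : ℝ) * (y13 : ℝ) + 0))))))))))))) := by exact_mod_cast h11;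
  have H12 : (0 : ℝ) ≤ (30 : ℝ) * (y0 : ℝ) + ((312 : ℝ) * (y1 : ℝ) + ((384 : ℝ) * (y2 : ℝ) + ((3186 : ℝ) * (y3 : ℝ) + ((3456 : ℝ) * (y4 : ℝ) + ((-4374 : ℝ) * (y5 : ℝ) + ((32076 : ℝ) * (y6 : ℝ) + ((31104 : ℝ) * (y7 : ℝ) + ((-49572 : ℝ) * (y8 : ℝ) + ((-279936 : ℝ) * (y9 : ℝ) + ((319302 : ℝ) * (y10 : ℝ) + ((279936 : ℝ) * (y11 : ℝ) + ((-538002 : ℝ) * (y12 : ℝ) + ((3149280 : ℝ) * (y13 : ℝ) + 0))))))))))))) := by exact_mod_cast h12;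
  have H13 : (0 : ℝ) ≤ (30 : ℝ) * (y0 : ℝ) + ((354 : ℝ) * (y1 : ℝ) + ((606 : ℝ) * (y2 : ℝ) + ((4089 : ℝ) * (y3 : ℝ) + ((6231 : ℝ) * (y4 : ℝ) + ((-267 : ℝ) * (y5 : ℝ) + ((46251 : ℝ) * (y6 : ℝ) + ((61749 : ℝ) * (y7 : ℝ) + ((-36801 : ℝ) * (y8 : ℝ) + ((-552663 : ℝ) * (y9 : ℝ) + ((513216 : ℝ) * (y10 : ℝ) + ((594864 : ℝ) * (y11 : ℝ) + ((-676512 : ℝ) * (y12 : ℝ) + ((5598720 : ℝ) * (y13 : ℝ) + 0))))))))))))) := by exact_mod_cast h13;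
  have H14 : (0 : ℝ) ≤ (10 : ℝ) * (y0 : ℝ) + ((132 : ℝ) * (y1 : ℝ) + ((276 : ℝ) * (y2 : ℝ) + ((1713 : ℝ) * (y3 : ℝ) + ((3261 : ℝ) * (y4 : ℝ) + ((2649 : ℝ) * (y5 : ℝ) + ((21808 : ℝ) * (y6 : ℝ) + ((36832 : ℝ) * (y7 : ℝ) + ((9232 : ℝ) * (y8 : ℝ) + ((-261440 : ℝ) * (y9 : ℝ) + ((271872 : ℝ) * (y10 : ℝ) + ((393984 : ℝ) * (y11 : ℝ) + ((-182016 : ℝ) * (y12 : ℝ) + ((3317760 : ℝ) * (y13 : ℝ) + 0))))))))))))) := by exact_mod_cast h14;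
  have H15 : (0 : ℝ) ≤ (10 : ℝ) * (y0 : ℝ) + ((90 : ℝ) * (y1 : ℝ) + ((-54 : ℝ) * (y2 : ℝ) + ((810 : ℝ) * (y3 : ℝ) + ((-486 : ℝ) * (y4 : ℝ) + ((-1458 : ℝ) * (y5 : ℝ) + ((7290 : ℝ) * (y6 : ℝ) + ((-4374 : ℝ) * (y7 : ℝ) + ((-13122 : ℝ) * (y8 : ℝ) + ((39366 : ℝ) * (y9 : ℝ) + ((65610 : ℝ) * (y10 : ℝ) + ((-39366 : ℝ) * (y11 : ℝ) + ((-118098 : ℝ) * (y12 : ℝ) + ((590490 : ℝ) * (y13 : ℝ) + 0))))))))))))) := by exact_mod_cast h15;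
  have H16 : (0 : ℝ) ≤ (20 : ℝ) * (y0 : ℝ) + ((208 : ℝ) * (y1 : ℝ) + ((40 : ℝ) * (y2 : ℝ) + ((2124 : ℝ) * (y3 : ℝ) + ((-18 : ℝ) * (y4 : ℝ) + ((-6912 : ℝ) * (y5 : ℝ) + ((21384 : ℝ) * (y6 : ℝ) + ((-3564 : ℝ) * (y7 : ℝ) + ((-62208 : ℝ) * (y8 : ℝ) + ((78732 : ℝ) * (y9 : ℝ) + ((212868 : ℝ) * (y10 : ℝ) + ((-62694 : ℝ) * (y11 : ℝ) + ((-559872 : ℝ) * (y12 : ℝ) + ((2099520 : ℝ) * (y13 : ℝ) + 0))))))))))))) := by exact_mod_cast h16;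
  have H17 : (0 : ℝ) ≤ (10 : ℝ) * (y0 : ℝ) + ((118 : ℝ) * (y1 : ℝ) + ((94 : ℝ) * (y2 : ℝ) + ((1363 : ℝ) * (y3 : ℝ) + ((727 : ℝ) * (y4 : ℝ) + ((-4085 : ℝ) * (y5 : ℝ) + ((15417 : ℝ) * (y6 : ℝ) + ((4149 : ℝ) * (y7 : ℝ) + ((-50751 : ℝ) * (y8 : ℝ) + ((-71523 : ℝ) * (y9 : ℝ) + ((171072 : ℝ) * (y10 : ℝ) + ((3888 : ℝ) * (y11 : ℝ) + ((-546912 : ℝ) * (y12 : ℝ) + ((1866240 : ℝ) * (y13 : ℝ) + 0))))))))))))) := by exact_mod_cast h17;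
  have H18 : (0 : ℝ) ≤ (5 : ℝ) * (y0 : ℝ) + ((45 : ℝ) * (y1 : ℝ) + ((-81 : ℝ) * (y2 : ℝ) + ((405 : ℝ) * (y3 : ℝ) + ((-729 : ℝ) * (y4 : ℝ) + ((729 : ℝ) * (y5 : ℝ) + ((3645 : ℝ) * (y6 : ℝ) + ((-6561 : ℝ) * (y7 : ℝ) + ((6561 : ℝ) * (y8 : ℝ) + ((19683 : ℝ) * (y9 : ℝ) + ((32805 : ℝ) * (y10 : ℝ) + ((-59049 : ℝ) * (y11 : ℝ) + ((59049 : ℝ) * (y12 : ℝ) + ((295245 : ℝ) * (y13 : ℝ) + 0))))))))))))) := by exact_mod_cast h18;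
  have H19 : (0 : ℝ) ≤ (5 : ℝ) * (y0 : ℝ) + ((52 : ℝ) * (y1 : ℝ) + ((-44 : ℝ) * (y2 : ℝ) + ((531 : ℝ) * (y3 : ℝ) + ((-585 : ℝ) * (y4 : ℝ) + ((-1269 : ℝ) * (y5 : ℝ) + ((5346 : ℝ) * (y6 : ℝ) + ((-6966 : ℝ) * (y7 : ℝ) + ((-6318 : ℝ) * (y8 : ℝ) + ((100602 : ℝ) * (y9 : ℝ) + ((53217 : ℝ) * (y10 : ℝ) + ((-78003 : ℝ) * (y11 : ℝ) + ((-10935 : ℝ) * (y12 : ℝ) + ((524880 : ℝ) * (y13 : ℝ) + 0))))))))))))) := by exact_mod_cast h19;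
  have H20 : (0 : ℝ) ≤ (1 : ℝ) * (y0 : ℝ) + ((9 : ℝ) * (y1 : ℝ) + ((-27 : ℝ) * (y2 : ℝ) + ((81 : ℝ) * (y3 : ℝ) + ((-243 : ℝ) * (y4 : ℝ) + ((729 : ℝ) * (y5 : ℝ) + ((729 : ℝ) * (y6 : ℝ) + ((-2187 : ℝ) * (y7 : ℝ) + ((6561 : ℝ) * (y8 : ℝ) + ((-19683 : ℝ) * (y9 : ℝ) + ((6561 : ℝ) * (y10 : ℝ) + ((-19683 : ℝ) * (y11 : ℝ) + ((59049 : ℝ) * (y12 : ℝ) + ((59049 : ℝ) * (y13 : ℝ) + 0))))))))))))) := by exact_mod_cast h20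
  have key : evalRow y0 y1 y2 y3 y4 y5 y6 y7 y8 y9 y10 y11 y12 y13 (l1 * (9) + l2 * (16) + l3 * (9)) (l1 * (-27) + l2 * (64) + l3 * (27)) = (l1 ^ 0 * l2 ^ 0 * l3 ^ 5) * ((1 : ℝ) * (y0 : ℝ) + ((9 : ℝ) * (y1 : ℝ) + ((27 : ℝ) * (y2 : ℝ) + ((81 : ℝ) * (y3 : ℝ) + ((243 : ℝ) * (y4 : ℝ) + ((729 : ℝ) * (y5 : ℝ) + ((729 : ℝ) * (y6 : ℝ) + ((2187 : ℝ) * (y7 : ℝ) + ((6561 : ℝ) * (y8 : ℝ) + ((19683 : ℝ) * (y9 : ℝ) + ((6561 : ℝ) * (y10 : ℝ) + ((19683 : ℝ) * (y11 : ℝ) + ((59049 : ℝ) * (y12 : ℝ) + ((59049 : ℝ) * (y13 : ℝ) + 0)))))))))))))) + (l1 ^ 0 * l2 ^ 1 * l3 ^ 4) * ((5 : ℝ) * (y0 : ℝ) + ((52 : ℝ) * (y1 : ℝ) + ((172 : ℝ) * (y2 : ℝ) + ((531 : ℝ) * (y3 : ℝ) + ((1737 : ℝ) * (y4 : ℝ) + ((5643 : ℝ) * (y5 : ℝ) + ((5346 : ℝ) * (y6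 : ℝ) + ((17334 : ℝ) * (y7 : ℝ) + ((55890 : ℝ) * (y8 : ℝ) + ((179334 : ℝ) * (y9 : ℝ) + ((53217 : ℝ) * (y10 : ℝ) + ((171315 : ℝ) * (y11 : ℝ) + ((548937 : ℝ) * (y12 : ℝ) + ((524880 : ℝ) * (y13 : ℝ) + 0)))))))))))))) + (l1 ^ 0 * l2 ^ 2 * l3 ^ 3) * ((10 : ℝ) * (y0 : ℝ) + ((118 : ℝ) * (y1 : ℝ) + ((418 : ℝ) * (y2 : ℝ) + ((1363 : ℝ) * (y3 : ℝ) + ((4777 : ℝ) * (y4 : ℝ) + ((16651 : ℝ) * (y5 : ℝ) + ((15417 : ℝ) * (y6 : ℝ) + ((53451 : ℝ) * (y7 : ℝ) + ((184257 : ℝ) * (y8 : ℝ) + ((631395 : ℝ) * (y9 : ℝ) + ((171072 : ℝ) * (y10 : ℝ) + ((587088 : ℝ) * (y11 : ℝ) + ((2003616 : ℝ) * (y12 : ℝ) + ((1866240 : ℝ) * (y13 : ℝ) + 0)))))))))))))) + (l1 ^ 0 * l2 ^ 3 * l3 ^ 2) * ((10 : ℝ) * (y0 : ℝ) + ((132 : ℝ) * (y1 : ℝ) + ((492 : ℝ) * (y2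 : ℝ) + ((1713 : ℝ) * (y3 : ℝ) + ((6339 : ℝ) * (y4 : ℝ) + ((23385 : ℝ) * (y5 : ℝ) + ((21808 : ℝ) * (y6 : ℝ) + ((80032 : ℝ) * (y7 : ℝ) + ((292624 : ℝ) * (y8 : ℝ) + ((1065664 : ℝ) * (y9 : ℝ) + ((271872 : ℝ) * (y10 : ℝ) + ((988416 : ℝ) * (y11 : ℝ) + ((3578112 : ℝ) * (y12 : ℝ) + ((3317760 : ℝ) * (y13 : ℝ) + 0)))))))))))))) + (l1 ^ 0 * l2 ^ 4 * l3 ^ 1) * ((5 : ℝ) * (y0 : ℝ) + ((73 : ℝ) * (y1 : ℝ) + ((283 : ℝ) * (y2 : ℝ) + ((1056 : ℝ) * (y3 : ℝ) + ((4080 : ℝ) * (y4 : ℝ) + ((15744 : ℝ) * (y5 : ℝ) + ((15104 : ℝ) * (y6 : ℝ) + ((58112 : ℝ) * (y7 : ℝ) + ((223232 : ℝ) * (y8 : ℝ) + ((856064 : ℝ) * (y9 : ℝ) + ((212992 : ℝ) * (y10 : ℝ) + ((815104 : ℝ) * (y11 : ℝ) + ((3112960 : ℝ) * (y12 : ℝ) + ((2949120 : ℝ) * (y13 : ℝ) + 0))))))))))))))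 + (l1 ^ 0 * l2 ^ 5 * l3 ^ 0) * ((1 : ℝ) * (y0 : ℝ) + ((16 : ℝ) * (y1 : ℝ) + ((64 : ℝ) * (y2 : ℝ) + ((256 : ℝ) * (y3 : ℝ) + ((1024 : ℝ) * (y4 : ℝ) + ((4096 : ℝ) * (y5 : ℝ) + ((4096 : ℝ) * (y6 : ℝ) + ((16384 : ℝ) * (y7 : ℝ) + ((65536 : ℝ) * (y8 : ℝ) + ((262144 : ℝ) * (y9 : ℝ) + ((65536 : ℝ) * (y10 : ℝ) + ((262144 : ℝ) * (y11 : ℝ) + ((1048576 : ℝ) * (y12 : ℝ) + ((1048576 : ℝ) * (y13 : ℝ) + 0)))))))))))))) + (l1 ^ 1 * l2 ^ 0 * l3 ^ 4) * ((5 : ℝ) * (y0 : ℝ) + ((45 : ℝ) * (y1 : ℝ) + ((81 : ℝ) * (y2 : ℝ) + ((405 : ℝ) * (y3 : ℝ) + ((729 : ℝ) * (y4 : ℝ) + ((729 : ℝ) * (y5 : ℝ) + ((3645 : ℝ) * (y6 : ℝ) + ((6561 : ℝ) * (y7 : ℝ) + ((6561 : ℝ) * (y8 : ℝ) + ((-19683 : ℝ) * (y9 : ℝ) + ((32805 : ℝ) * (y10 : ℝ) + ((59049 : ℝ) *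 (y11 : ℝ) + ((59049 : ℝ) * (y12 : ℝ) + ((295245 : ℝ) * (y13 : ℝ) + 0)))))))))))))) + (l1 ^ 1 * l2 ^ 1 * l3 ^ 3) * ((20 : ℝ) * (y0 : ℝ) + ((208 : ℝ) * (y1 : ℝ) + ((472 : ℝ) * (y2 : ℝ) + ((2124 : ℝ) * (y3 : ℝ) + ((4626 : ℝ) * (y4 : ℝ) + ((6912 : ℝ) * (y5 : ℝ) + ((21384 : ℝ) * (y6 : ℝ) + ((45036 : ℝ) * (y7 : ℝ) + ((62208 : ℝ) * (y8 : ℝ) + ((-78732 : ℝ) * (y9 : ℝ) + ((212868 : ℝ) * (y10 : ℝ) + ((435942 : ℝ) * (y11 : ℝ) + ((559872 : ℝ) * (y12 : ℝ) + ((2099520 : ℝ) * (y13 : ℝ) + 0)))))))))))))) + (l1 ^ 1 * l2 ^ 2 * l3 ^ 2) * ((30 : ℝ) * (y0 : ℝ) + ((354 : ℝ) * (y1 : ℝ) + ((930 : ℝ) * (y2 : ℝ) + ((4089 : ℝ) * (y3 : ℝ) + ((10281 : ℝ) * (y4 : ℝ) + ((20469 : ℝ) * (y5 : ℝ) + ((46251 : ℝ) * (y6 : ℝ) + ((111051 : ℝ) * (y7 :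 ℝ) + ((198207 : ℝ) * (y8 : ℝ) + ((-7209 : ℝ) * (y9 : ℝ) + ((513216 : ℝ) * (y10 : ℝ) + ((1178064 : ℝ) * (y11 : ℝ) + ((1874016 : ℝ) * (y12 : ℝ) + ((5598720 : ℝ) * (y13 : ℝ) + 0)))))))))))))) + (l1 ^ 1 * l2 ^ 3 * l3 ^ 1) * ((20 : ℝ) * (y0 : ℝ) + ((264 : ℝ) * (y1 : ℝ) + ((768 : ℝ) * (y2 : ℝ) + ((3426 : ℝ) * (y3 : ℝ) + ((9600 : ℝ) * (y4 : ℝ) + ((23118 : ℝ) * (y5 : ℝ) + ((43616 : ℝ) * (y6 : ℝ) + ((116864 : ℝ) * (y7 : ℝ) + ((255200 : ℝ) * (y8 : ℝ) + ((244352 : ℝ) * (y9 : ℝ) + ((543744 : ℝ) * (y10 : ℝ) + ((1382400 : ℝ) * (y11 : ℝ) + ((2649600 : ℝ) * (y12 : ℝ) + ((6635520 : ℝ) * (y13 : ℝ) + 0)))))))))))))) + (l1 ^ 1 * l2 ^ 4 * l3 ^ 0) * ((5 : ℝ) * (y0 : ℝ) + ((73 : ℝ) * (y1 : ℝ) + ((229 : ℝ) * (y2 : ℝ) + ((1056 : ℝ) * (y3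 : ℝ) + ((3216 : ℝ) * (y4 : ℝ) + ((8832 : ℝ) * (y5 : ℝ) + ((15104 : ℝ) * (y6 : ℝ) + ((44288 : ℝ) * (y7 : ℝ) + ((112640 : ℝ) * (y8 : ℝ) + ((192512 : ℝ) * (y9 : ℝ) + ((212992 : ℝ) * (y10 : ℝ) + ((593920 : ℝ) * (y11 : ℝ) + ((1343488 : ℝ) * (y12 : ℝ) + ((2949120 : ℝ) * (y13 : ℝ) + 0)))))))))))))) + (l1 ^ 2 * l2 ^ 0 * l3 ^ 3) * ((10 : ℝ) * (y0 : ℝ) + ((90 : ℝ) * (y1 : ℝ) + ((54 : ℝ) * (y2 : ℝ) + ((810 : ℝ) * (y3 : ℝ) + ((486 : ℝ) * (y4 : ℝ) + ((-1458 : ℝ) * (y5 : ℝ) + ((7290 : ℝ) * (y6 : ℝ) + ((4374 : ℝ) * (y7 : ℝ) + ((-13122 : ℝ) * (y8 : ℝ) + ((-39366 : ℝ) * (y9 : ℝ) + ((65610 : ℝ) * (y10 : ℝ) + ((39366 : ℝ) * (y11 : ℝ) + ((-118098 : ℝ) * (y12 : ℝ) + ((590490 : ℝ) * (y13 : ℝ) + 0)))))))))))))) + (l1 ^ 2 * l2 ^ 1 * l3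 ^ 2) * ((30 : ℝ) * (y0 : ℝ) + ((312 : ℝ) * (y1 : ℝ) + ((384 : ℝ) * (y2 : ℝ) + ((3186 : ℝ) * (y3 : ℝ) + ((3456 : ℝ) * (y4 : ℝ) + ((-4374 : ℝ) * (y5 : ℝ) + ((32076 : ℝ) * (y6 : ℝ) + ((31104 : ℝ) * (y7 : ℝ) + ((-49572 : ℝ) * (y8 : ℝ) + ((-279936 : ℝ) * (y9 : ℝ) + ((319302 : ℝ) * (y10 : ℝ) + ((279936 : ℝ) * (y11 : ℝ) + ((-538002 : ℝ) * (y12 : ℝ) + ((3149280 : ℝ) * (y13 : ℝ) + 0)))))))))))))) + (l1 ^ 2 * l2 ^ 2 * l3 ^ 1) * ((30 : ℝ) * (y0 : ℝ) + ((354 : ℝ) * (y1 : ℝ) + ((606 : ℝ) * (y2 : ℝ) + ((4089 : ℝ) * (y3 : ℝ) + ((6231 : ℝ) * (y4 : ℝ) + ((-267 : ℝ) * (y5 : ℝ) + ((46251 : ℝ) * (y6 : ℝ) + ((61749 : ℝ) * (y7 : ℝ) + ((-36801 : ℝ) * (y8 : ℝ) + ((-552663 : ℝ) * (y9 : ℝ) + ((513216 : ℝ) * (y10 : ℝ) + ((594864 : ℝ) * (y11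 : ℝ) + ((-676512 : ℝ) * (y12 : ℝ) + ((5598720 : ℝ) * (y13 : ℝ) + 0)))))))))))))) + (l1 ^ 2 * l2 ^ 3 * l3 ^ 0) * ((10 : ℝ) * (y0 : ℝ) + ((132 : ℝ) * (y1 : ℝ) + ((276 : ℝ) * (y2 : ℝ) + ((1713 : ℝ) * (y3 : ℝ) + ((3261 : ℝ) * (y4 : ℝ) + ((2649 : ℝ) * (y5 : ℝ) + ((21808 : ℝ) * (y6 : ℝ) + ((36832 : ℝ) * (y7 : ℝ) + ((9232 : ℝ) * (y8 : ℝ) + ((-261440 : ℝ) * (y9 : ℝ) + ((271872 : ℝ) * (y10 : ℝ) + ((393984 : ℝ) * (y11 : ℝ) + ((-182016 : ℝ) * (y12 : ℝ) + ((3317760 : ℝ) * (y13 : ℝ) + 0)))))))))))))) + (l1 ^ 3 * l2 ^ 0 * l3 ^ 2) * ((10 : ℝ) * (y0 : ℝ) + ((90 : ℝ) * (y1 : ℝ) + ((-54 : ℝ) * (y2 : ℝ) + ((810 : ℝ) * (y3 : ℝ) + ((-486 : ℝ) * (y4 : ℝ) + ((-1458 : ℝ) * (y5 : ℝ) + ((7290 : ℝ) * (y6 : ℝ) + ((-4374 : ℝ) * (y7 : ℝ) + ((-13122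 : ℝ) * (y8 : ℝ) + ((39366 : ℝ) * (y9 : ℝ) + ((65610 : ℝ) * (y10 : ℝ) + ((-39366 : ℝ) * (y11 : ℝ) + ((-118098 : ℝ) * (y12 : ℝ) + ((590490 : ℝ) * (y13 : ℝ) + 0)))))))))))))) + (l1 ^ 3 * l2 ^ 1 * l3 ^ 1) * ((20 : ℝ) * (y0 : ℝ) + ((208 : ℝ) * (y1 : ℝ) + ((40 : ℝ) * (y2 : ℝ) + ((2124 : ℝ) * (y3 : ℝ) + ((-18 : ℝ) * (y4 : ℝ) + ((-6912 : ℝ) * (y5 : ℝ) + ((21384 : ℝ) * (y6 : ℝ) + ((-3564 : ℝ) * (y7 : ℝ) + ((-62208 : ℝ) * (y8 : ℝ) + ((78732 : ℝ) * (y9 : ℝ) + ((212868 : ℝ) * (y10 : ℝ) + ((-62694 : ℝ) * (y11 : ℝ) + ((-559872 : ℝ) * (y12 : ℝ) + ((2099520 : ℝ) * (y13 : ℝ) + 0)))))))))))))) + (l1 ^ 3 * l2 ^ 2 * l3 ^ 0) * ((10 : ℝ) * (y0 : ℝ) + ((118 : ℝ) * (y1 : ℝ) + ((94 : ℝ) * (y2 : ℝ) + ((1363 : ℝ) * (y3 : ℝ) + ((727 : ℝ) *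 (y4 : ℝ) + ((-4085 : ℝ) * (y5 : ℝ) + ((15417 : ℝ) * (y6 : ℝ) + ((4149 : ℝ) * (y7 : ℝ) + ((-50751 : ℝ) * (y8 : ℝ) + ((-71523 : ℝ) * (y9 : ℝ) + ((171072 : ℝ) * (y10 : ℝ) + ((3888 : ℝ) * (y11 : ℝ) + ((-546912 : ℝ) * (y12 : ℝ) + ((1866240 : ℝ) * (y13 : ℝ) + 0)))))))))))))) + (l1 ^ 4 * l2 ^ 0 * l3 ^ 1) * ((5 : ℝ) * (y0 : ℝ) + ((45 : ℝ) * (y1 : ℝ) + ((-81 : ℝ) * (y2 : ℝ) + ((405 : ℝ) * (y3 : ℝ) + ((-729 : ℝ) * (y4 : ℝ) + ((729 : ℝ) * (y5 : ℝ) + ((3645 : ℝ) * (y6 : ℝ) + ((-6561 : ℝ) * (y7 : ℝ) + ((6561 : ℝ) * (y8 : ℝ) + ((19683 : ℝ) * (y9 : ℝ) + ((32805 : ℝ) * (y10 : ℝ) + ((-59049 : ℝ) * (y11 : ℝ) + ((59049 : ℝ) * (y12 : ℝ) + ((295245 : ℝ) * (y13 : ℝ) + 0)))))))))))))) + (l1 ^ 4 * l2 ^ 1 * l3 ^ 0) * ((5 : ℝ) * (y0 : ℝ)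 + ((52 : ℝ) * (y1 : ℝ) + ((-44 : ℝ) * (y2 : ℝ) + ((531 : ℝ) * (y3 : ℝ) + ((-585 : ℝ) * (y4 : ℝ) + ((-1269 : ℝ) * (y5 : ℝ) + ((5346 : ℝ) * (y6 : ℝ) + ((-6966 : ℝ) * (y7 : ℝ) + ((-6318 : ℝ) * (y8 : ℝ) + ((100602 : ℝ) * (y9 : ℝ) + ((53217 : ℝ) * (y10 : ℝ) + ((-78003 : ℝ) * (y11 : ℝ) + ((-10935 : ℝ) * (y12 : ℝ) + ((524880 : ℝ) * (y13 : ℝ) + 0)))))))))))))) + (l1 ^ 5 * l2 ^ 0 * l3 ^ 0) * ((1 : ℝ) * (y0 : ℝ) + ((9 : ℝ) * (y1 : ℝ) + ((-27 : ℝ) * (y2 : ℝ) + ((81 : ℝ) * (y3 : ℝ) + ((-243 : ℝ) * (y4 : ℝ) + ((729 : ℝ) * (y5 : ℝ) + ((729 : ℝ) * (y6 : ℝ) + ((-2187 : ℝ) * (y7 : ℝ) + ((6561 : ℝ) * (y8 : ℝ) + ((-19683 : ℝ) * (y9 : ℝ) + ((6561 : ℝ) * (y10 : ℝ) + ((-19683 : ℝ) * (y11 : ℝ) + ((59049 : ℝ) * (y12 : ℝ) + ((59049 : ℝ)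 * (y13 : ℝ) + 0)))))))))))))) := by
    have hl3 : l3 = 1 - l1 - l2 := by linarith
    subst hl3
    unfold evalRow
    ring
  rw [key]
  exact add_nonneg (add_nonneg (add_nonneg (add_nonneg (add_nonneg (add_nonneg (add_nonneg (add_nonneg (add_nonneg (add_nonneg (add_nonneg (add_nonneg (add_nonneg (add_nonneg (add_nonneg (add_nonneg (add_nonneg (add_nonneg (add_nonneg (add_nonneg (mul_nonneg (by positivity) H0) (mul_nonneg (by positivity) H1)) (mul_nonneg (by positivity) H2)) (mul_nonneg (by positivity) H3)) (mul_nonneg (by positivity) H4)) (mul_nonneg (by positivity) H5)) (mul_nonneg (by positivity) H6)) (mul_nonneg (by positivity) H7)) (mul_nonneg (by positivity) H8)) (mul_nonneg (by positivity) H9)) (mul_nonneg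 (by positivity) H10)) (mul_nonneg (by positivity) H11)) (mul_nonneg (by positivity) H12)) (mul_nonneg (by positivity) H13)) (mul_nonneg (by positivity) H14)) (mul_nonneg (by positivity) H15)) (mul_nonneg (by positivity) H16)) (mul_nonneg (by positivity) H17)) (mul_nonneg (by positivity) H18)) (mul_nonneg (by positivity) H19)) (mul_nonneg (by positivity) H20)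

set_option maxHeartbeats 8000000 in
theorem tri7 (y0 y1 y2 y3 y4 y5 y6 y7 y8 y9 y10 y11 y12 y13 : ℤ) (h : (BT7.all fun r => decide (0 ≤ dotI r [y0, y1, y2, y3, y4, y5, y6, y7, y8, y9, y10, y11, y12, y13])) = true)
    (l1 l2 l3 : ℝ) (h1 : 0 ≤ l1) (h2 : 0 ≤ l2) (h3 : 0 ≤ l3) (hs : l1 + l2 + l3 = 1) :
    0 ≤ evalRow y0 y1 y2 y3 y4 y5 y6 y7 y8 y9 y10 y11 y12 y13 (l1 * (16) + l2 * (25) + l3 * (25)) (l1 * (36) + l2 * (117) + l3 * (125)) := by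
  simp only [BT7, List.all_cons, List.all_nil, Bool.and_true, Bool.and_eq_true, decide_eq_true_eq, dotI] at h
  obtain ⟨h0, h1, h2, h3, h4, h5, h6, h7, h8, h9, h10, h11, h12, h13, h14, h15, h16, h17, h18, h19, h20⟩ := h
  have H0 : (0 : ℝ) ≤ (1 : ℝ) * (y0 : ℝ) + ((25 : ℝ) * (y1 : ℝ) + ((125 : ℝ) * (y2 : ℝ) + ((625 : ℝ) * (y3 : ℝ) + ((3125 : ℝ) * (y4 : ℝ) + ((15625 : ℝ) * (y5 : ℝ) + ((15625 : ℝ) * (y6 : ℝ) + ((78125 : ℝ) * (y7 : ℝ) + ((390625 : ℝ) * (y8 : ℝ) + ((1953125 : ℝ) * (y9 : ℝ) + ((390625 : ℝ) * (y10 : ℝ) + ((1953125 : ℝ) * (y11 : ℝ) + ((9765625 : ℝ) * (y12 : ℝ) + ((9765625 : ℝ) * (y13 : ℝ) + 0))))))))))))) := by exact_mod_cast h0;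
  have H1 : (0 : ℝ) ≤ (5 : ℝ) * (y0 : ℝ) + ((125 : ℝ) * (y1 : ℝ) + ((617 : ℝ) * (y2 : ℝ) + ((3125 : ℝ) * (y3 : ℝ) + ((15425 : ℝ) * (y4 : ℝ) + ((76125 : ℝ) * (y5 : ℝ) + ((78125 : ℝ) * (y6 : ℝ) + ((385625 : ℝ) * (y7 : ℝ) + ((1903125 : ℝ) * (y8 : ℝ) + ((9390625 : ℝ) * (y9 : ℝ) + ((1953125 : ℝ) * (y10 : ℝ) + ((9640625 : ℝ) * (y11 : ℝ) + ((47578125 : ℝ) * (y12 : ℝ) + ((48828125 : ℝ) * (y13 : ℝ) + 0))))))))))))) := by exact_mod_cast h1;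
  have H2 : (0 : ℝ) ≤ (10 : ℝ) * (y0 : ℝ) + ((250 : ℝ) * (y1 : ℝ) + ((1218 : ℝ) * (y2 : ℝ) + ((6250 : ℝ) * (y3 : ℝ) + ((30450 : ℝ) * (y4 : ℝ) + ((148314 : ℝ) * (y5 : ℝ) + ((156250 : ℝ) * (y6 : ℝ) + ((761250 : ℝ) * (y7 : ℝ) + ((3707850 : ℝ) * (y8 : ℝ) + ((18055250 : ℝ) * (y9 : ℝ) + ((3906250 : ℝ) * (y10 : ℝ) + ((19031250 : ℝ) * (y11 : ℝ) + ((92696250 : ℝ) * (y12 : ℝ) + ((97656250 : ℝ) * (y13 : ℝ) + 0))))))))))))) := by exact_mod_cast h2;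
  have H3 : (0 : ℝ) ≤ (10 : ℝ) * (y0 : ℝ) + ((250 : ℝ) * (y1 : ℝ) + ((1202 : ℝ) * (y2 : ℝ) + ((6250 : ℝ) * (y3 : ℝ) + ((30050 : ℝ) * (y4 : ℝ) + ((144442 : ℝ) * (y5 : ℝ) + ((156250 : ℝ) * (y6 : ℝ) + ((751250 : ℝ) * (y7 : ℝ) + ((3611050 : ℝ) * (y8 : ℝ) + ((17352738 : ℝ) * (y9 : ℝ) + ((3906250 : ℝ) * (y10 : ℝ) + ((18781250 : ℝ) * (y11 : ℝ) + ((90276250 : ℝ) * (y12 : ℝ) + ((97656250 : ℝ) * (y13 : ℝ) + 0))))))))))))) := by exact_mod_cast h3;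
  have H4 : (0 : ℝ) ≤ (5 : ℝ) * (y0 : ℝ) + ((125 : ℝ) * (y1 : ℝ) + ((593 : ℝ) * (y2 : ℝ) + ((3125 : ℝ) * (y3 : ℝ) + ((14825 : ℝ) * (y4 : ℝ) + ((70317 : ℝ) * (y5 : ℝ) + ((78125 : ℝ) * (y6 : ℝ) + ((370625 : ℝ) * (y7 : ℝ) + ((1757925 : ℝ) * (y8 : ℝ) + ((8336601 : ℝ) * (y9 : ℝ) + ((1953125 : ℝ) * (y10 : ℝ) + ((9265625 : ℝ) * (y11 : ℝ) + ((43948125 : ℝ) * (y12 : ℝ) + ((48828125 : ℝ) * (y13 : ℝ) + 0))))))))))))) := by exact_mod_cast h4;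
  have H5 : (0 : ℝ) ≤ (1 : ℝ) * (y0 : ℝ) + ((25 : ℝ) * (y1 : ℝ) + ((117 : ℝ) * (y2 : ℝ) + ((625 : ℝ) * (y3 : ℝ) + ((2925 : ℝ) * (y4 : ℝ) + ((13689 : ℝ) * (y5 : ℝ) + ((15625 : ℝ) * (y6 : ℝ) + ((73125 : ℝ) * (y7 : ℝ) + ((342225 : ℝ) * (y8 : ℝ) + ((1601613 : ℝ) * (y9 : ℝ) + ((390625 : ℝ) * (y10 : ℝ) + ((1828125 : ℝ) * (y11 : ℝ) + ((8555625 : ℝ) * (y12 : ℝ) + ((9765625 : ℝ) * (y13 : ℝ) + 0))))))))))))) := by exact_mod_cast h5;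
  have H6 : (0 : ℝ) ≤ (5 : ℝ) * (y0 : ℝ) + ((116 : ℝ) * (y1 : ℝ) + ((536 : ℝ) * (y2 : ℝ) + ((2675 : ℝ) * (y3 : ℝ) + ((12275 : ℝ) * (y4 : ℝ) + ((55875 : ℝ) * (y5 : ℝ) + ((61250 : ℝ) * (y6 : ℝ) + ((278750 : ℝ) * (y7 : ℝ) + ((1256250 : ℝ) * (y8 : ℝ) + ((5593750 : ℝ) * (y9 : ℝ) + ((1390625 : ℝ) * (y10 : ℝ) + ((6265625 : ℝ) * (y11 : ℝ) + ((27890625 : ℝ) * (y12 : ℝ) + ((31250000 : ℝ) * (y13 : ℝ) + 0))))))))))))) := by exact_mod_cast h6;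
  have H7 : (0 : ℝ) ≤ (20 : ℝ) * (y0 : ℝ) + ((464 : ℝ) * (y1 : ℝ) + ((2112 : ℝ) * (y2 : ℝ) + ((10700 : ℝ) * (y3 : ℝ) + ((48372 : ℝ) * (y4 : ℝ) + ((216924 : ℝ) * (y5 : ℝ) + ((245000 : ℝ) * (y6 : ℝ) + ((1098600 : ℝ) * (y7 : ℝ) + ((4878600 : ℝ) * (y8 : ℝ) + ((21409000 : ℝ) * (y9 : ℝ) + ((5562500 : ℝ) * (y10 : ℝ) + ((24697500 : ℝ) * (y11 : ℝ) + ((108352500 : ℝ) * (y12 : ℝ) + ((125000000 : ℝ) * (y13 : ℝ) + 0))))))))))))) := by exact_mod_cast h7;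
  have H8 : (0 : ℝ) ≤ (30 : ℝ) * (y0 : ℝ) + ((696 : ℝ) * (y1 : ℝ) + ((3120 : ℝ) * (y2 : ℝ) + ((16050 : ℝ) * (y3 : ℝ) + ((71466 : ℝ) * (y4 : ℝ) + ((315714 : ℝ) * (y5 : ℝ) + ((367500 : ℝ) * (y6 : ℝ) + ((1623300 : ℝ) * (y7 : ℝ) + ((7102524 : ℝ) * (y8 : ℝ) + ((30719412 : ℝ) * (y9 : ℝ) + ((8343750 : ℝ) * (y10 : ℝ) + ((36498750 : ℝ) * (y11 : ℝ) + ((157804950 : ℝ) * (y12 : ℝ) + ((187500000 : ℝ) * (y13 : ℝ) + 0))))))))))))) := by exact_mod_cast h8;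
  have H9 : (0 : ℝ) ≤ (20 : ℝ) * (y0 : ℝ) + ((464 : ℝ) * (y1 : ℝ) + ((2048 : ℝ) * (y2 : ℝ) + ((10700 : ℝ) * (y3 : ℝ) + ((46916 : ℝ) * (y4 : ℝ) + ((204156 : ℝ) * (y5 : ℝ) + ((245000 : ℝ) * (y6 : ℝ) + ((1065800 : ℝ) * (y7 : ℝ) + ((4594248 : ℝ) * (y8 : ℝ) + ((19585800 : ℝ) * (y9 : ℝ) + ((5562500 : ℝ) * (y10 : ℝ) + ((23967500 : ℝ) * (y11 : ℝ) + ((102114900 : ℝ) * (y12 : ℝ) + ((125000000 : ℝ) * (y13 : ℝ) + 0))))))))))))) := by exact_mod_cast h9;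
  have H10 : (0 : ℝ) ≤ (5 : ℝ) * (y0 : ℝ) + ((116 : ℝ) * (y1 : ℝ) + ((504 : ℝ) * (y2 : ℝ) + ((2675 : ℝ) * (y3 : ℝ) + ((11547 : ℝ) * (y4 : ℝ) + ((49491 : ℝ) * (y5 : ℝ) + ((61250 : ℝ) * (y6 : ℝ) + ((262350 : ℝ) * (y7 : ℝ) + ((1114074 : ℝ) * (y8 : ℝ) + ((4681638 : ℝ) * (y9 : ℝ) + ((1390625 : ℝ) * (y10 : ℝ) + ((5900625 : ℝ) * (y11 : ℝ) + ((24771825 : ℝ) * (y12 : ℝ) + ((31250000 : ℝ) * (y13 : ℝ) + 0))))))))))))) := by exact_mod_cast h10;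
  have H11 : (0 : ℝ) ≤ (10 : ℝ) * (y0 : ℝ) + ((214 : ℝ) * (y1 : ℝ) + ((894 : ℝ) * (y2 : ℝ) + ((4531 : ℝ) * (y3 : ℝ) + ((18651 : ℝ) * (y4 : ℝ) + ((75171 : ℝ) * (y5 : ℝ) + ((94825 : ℝ) * (y6 : ℝ) + ((383925 : ℝ) * (y7 : ℝ) + ((1517025 : ℝ) * (y8 : ℝ) + ((5814125 : ℝ) * (y9 : ℝ) + ((1960000 : ℝ) * (y10 : ℝ) + ((7792500 : ℝ) * (y11 : ℝ) + ((30135000 : ℝ) * (y12 : ℝ) + ((40000000 : ℝ) * (y13 : ℝ) + 0))))))))))))) := by exact_mod_cast h11;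
  have H12 : (0 : ℝ) ≤ (30 : ℝ) * (y0 : ℝ) + ((642 : ℝ) * (y1 : ℝ) + ((2634 : ℝ) * (y2 : ℝ) + ((13593 : ℝ) * (y3 : ℝ) + ((54969 : ℝ) * (y4 : ℝ) + ((217785 : ℝ) * (y5 : ℝ) + ((284475 : ℝ) * (y6 : ℝ) + ((1131927 : ℝ) * (y7 : ℝ) + ((4399059 : ℝ) * (y8 : ℝ) + ((16604271 : ℝ) * (y9 : ℝ) + ((5880000 : ℝ) * (y10 : ℝ) + ((22983900 : ℝ) * (y11 : ℝ) + ((87472200 : ℝ) * (y12 : ℝ) + ((120000000 : ℝ) * (y13 : ℝ) + 0))))))))))))) := by exact_mod_cast h12;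
  have H13 : (0 : ℝ) ≤ (30 : ℝ) * (y0 : ℝ) + ((642 : ℝ) * (y1 : ℝ) + ((2586 : ℝ) * (y2 : ℝ) + ((13593 : ℝ) * (y3 : ℝ) + ((53985 : ℝ) * (y4 : ℝ) + ((210249 : ℝ) * (y5 : ℝ) + ((284475 : ℝ) * (y6 : ℝ) + ((1112079 : ℝ) * (y7 : ℝ) + ((4250691 : ℝ) * (y8 : ℝ) + ((15803991 : ℝ) * (y9 : ℝ) + ((5880000 : ℝ) * (y10 : ℝ) + ((22590300 : ℝ) * (y11 : ℝ) + ((84606984 : ℝ) * (y12 : ℝ) + ((120000000 : ℝ) * (y13 : ℝ) + 0))))))))))))) := by exact_mod_cast h13;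
  have H14 : (0 : ℝ) ≤ (10 : ℝ) * (y0 : ℝ) + ((214 : ℝ) * (y1 : ℝ) + ((846 : ℝ) * (y2 : ℝ) + ((4531 : ℝ) * (y3 : ℝ) + ((17667 : ℝ) * (y4 : ℝ) + ((67635 : ℝ) * (y5 : ℝ) + ((94825 : ℝ) * (y6 : ℝ) + ((364077 : ℝ) * (y7 : ℝ) + ((1368657 : ℝ) * (y8 : ℝ) + ((5013333 : ℝ) * (y9 : ℝ) + ((1960000 : ℝ) * (y10 : ℝ) + ((7398900 : ℝ) * (y11 : ℝ) + ((27269784 : ℝ) * (y12 : ℝ) + ((40000000 : ℝ) * (y13 : ℝ) + 0))))))))))))) := by exact_mod_cast h14;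
  have H15 : (0 : ℝ) ≤ (10 : ℝ) * (y0 : ℝ) + ((196 : ℝ) * (y1 : ℝ) + ((716 : ℝ) * (y2 : ℝ) + ((3793 : ℝ) * (y3 : ℝ) + ((13553 : ℝ) * (y4 : ℝ) + ((46513 : ℝ) * (y5 : ℝ) + ((72496 : ℝ) * (y6 : ℝ) + ((253316 : ℝ) * (y7 : ℝ) + ((848536 : ℝ) * (y8 : ℝ) + ((2706156 : ℝ) * (y9 : ℝ) + ((1369600 : ℝ) * (y10 : ℝ) + ((4683200 : ℝ) * (y11 : ℝ) + ((15350800 : ℝ) * (y12 : ℝ) + ((25600000 : ℝ) * (y13 : ℝ) + 0))))))))))))) := by exact_mod_cast h15;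
  have H16 : (0 : ℝ) ≤ (20 : ℝ) * (y0 : ℝ) + ((392 : ℝ) * (y1 : ℝ) + ((1400 : ℝ) * (y2 : ℝ) + ((7586 : ℝ) * (y3 : ℝ) + ((26522 : ℝ) * (y4 : ℝ) + ((89298 : ℝ) * (y5 : ℝ) + ((144992 : ℝ) * (y6 : ℝ) + ((496136 : ℝ) * (y7 : ℝ) + ((1632240 : ℝ) * (y8 : ℝ) + ((5134104 : ℝ) * (y9 : ℝ) + ((2739200 : ℝ) * (y10 : ℝ) + ((9180032 : ℝ) * (y11 : ℝ) + ((29581344 : ℝ) * (y12 : ℝ) + ((51200000 : ℝ) * (y13 : ℝ) + 0))))))))))))) := by exact_mod_cast h16;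
  have H17 : (0 : ℝ) ≤ (10 : ℝ) * (y0 : ℝ) + ((196 : ℝ) * (y1 : ℝ) + ((684 : ℝ) * (y2 : ℝ) + ((3793 : ℝ) * (y3 : ℝ) + ((12969 : ℝ) * (y4 : ℝ) + ((42849 : ℝ) * (y5 : ℝ) + ((72496 : ℝ) * (y6 : ℝ) + ((242820 : ℝ) * (y7 : ℝ) + ((784728 : ℝ) * (y8 : ℝ) + ((2434860 : ℝ) * (y9 : ℝ) + ((1369600 : ℝ) * (y10 : ℝ) + ((4496832 : ℝ) * (y11 : ℝ) + ((14246928 : ℝ) * (y12 : ℝ) + ((25600000 : ℝ) * (y13 : ℝ) + 0))))))))))))) := by exact_mod_cast h17;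
  have H18 : (0 : ℝ) ≤ (5 : ℝ) * (y0 : ℝ) + ((89 : ℝ) * (y1 : ℝ) + ((269 : ℝ) * (y2 : ℝ) + ((1568 : ℝ) * (y3 : ℝ) + ((4628 : ℝ) * (y4 : ℝ) + ((12888 : ℝ) * (y5 : ℝ) + ((27392 : ℝ) * (y6 : ℝ) + ((79232 : ℝ) * (y7 : ℝ) + ((217872 : ℝ) * (y8 : ℝ) + ((579312 : ℝ) * (y9 : ℝ) + ((475136 : ℝ) * (y10 : ℝ) + ((1350656 : ℝ) * (y11 : ℝ) + ((3672576 : ℝ) * (y12 : ℝ) + ((8192000 : ℝ) * (y13 : ℝ) + 0))))))))))))) := by exact_mod_cast h18;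
  have H19 : (0 : ℝ) ≤ (5 : ℝ) * (y0 : ℝ) + ((89 : ℝ) * (y1 : ℝ) + ((261 : ℝ) * (y2 : ℝ) + ((1568 : ℝ) * (y3 : ℝ) + ((4500 : ℝ) * (y4 : ℝ) + ((12312 : ℝ) * (y5 : ℝ) + ((27392 : ℝ) * (y6 : ℝ) + ((77184 : ℝ) * (y7 : ℝ) + ((208656 : ℝ) * (y8 : ℝ) + ((548208 : ℝ) * (y9 : ℝ) + ((475136 : ℝ) * (y10 : ℝ) + ((1317888 : ℝ) * (y11 : ℝ) + ((3525120 : ℝ) * (y12 : ℝ) + ((8192000 : ℝ) * (y13 : ℝ) + 0))))))))))))) := by exact_mod_cast h19;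
  have H20 : (0 : ℝ) ≤ (1 : ℝ) * (y0 : ℝ) + ((16 : ℝ) * (y1 : ℝ) + ((36 : ℝ) * (y2 : ℝ) + ((256 : ℝ) * (y3 : ℝ) + ((576 : ℝ) * (y4 : ℝ) + ((1296 : ℝ) * (y5 : ℝ) + ((4096 : ℝ) * (y6 : ℝ) + ((9216 : ℝ) * (y7 : ℝ) + ((20736 : ℝ) * (y8 : ℝ) + ((46656 : ℝ) * (y9 : ℝ) + ((65536 : ℝ) * (y10 : ℝ) + ((147456 : ℝ) * (y11 : ℝ) + ((331776 : ℝ) * (y12 : ℝ) + ((1048576 : ℝ) * (y13 : ℝ) + 0))))))))))))) := by exact_mod_cast h20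
  have key : evalRow y0 y1 y2 y3 y4 y5 y6 y7 y8 y9 y10 y11 y12 y13 (l1 * (16) + l2 * (25) + l3 * (25)) (l1 * (36) + l2 * (117) + l3 * (125)) = (l1 ^ 0 * l2 ^ 0 * l3 ^ 5) * ((1 : ℝ) * (y0 : ℝ) + ((25 : ℝ) * (y1 : ℝ) + ((125 : ℝ) * (y2 : ℝ) + ((625 : ℝ) * (y3 : ℝ) + ((3125 : ℝ) * (y4 : ℝ) + ((15625 : ℝ) * (y5 : ℝ) + ((15625 : ℝ) * (y6 : ℝ) + ((78125 : ℝ) * (y7 : ℝ) + ((390625 : ℝ) * (y8 : ℝ) + ((1953125 : ℝ) * (y9 : ℝ) + ((390625 : ℝ) * (y10 : ℝ) + ((1953125 : ℝ) * (y11 : ℝ) + ((9765625 : ℝ) * (y12 : ℝ) + ((9765625 : ℝ) * (y13 : ℝ) + 0)))))))))))))) + (l1 ^ 0 * l2 ^ 1 * l3 ^ 4) * ((5 : ℝ) * (y0 : ℝ) + ((125 : ℝ) * (y1 : ℝ) + ((617 : ℝ) * (y2 : ℝ) + ((3125 : ℝ) * (y3 : ℝ) + ((15425 : ℝ) * (y4 : ℝ) + ((76125 : ℝ) *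 (y5 : ℝ) + ((78125 : ℝ) * (y6 : ℝ) + ((385625 : ℝ) * (y7 : ℝ) + ((1903125 : ℝ) * (y8 : ℝ) + ((9390625 : ℝ) * (y9 : ℝ) + ((1953125 : ℝ) * (y10 : ℝ) + ((9640625 : ℝ) * (y11 : ℝ) + ((47578125 : ℝ) * (y12 : ℝ) + ((48828125 : ℝ) * (y13 : ℝ) + 0)))))))))))))) + (l1 ^ 0 * l2 ^ 2 * l3 ^ 3) * ((10 : ℝ) * (y0 : ℝ) + ((250 : ℝ) * (y1 : ℝ) + ((1218 : ℝ) * (y2 : ℝ) + ((6250 : ℝ) * (y3 : ℝ) + ((30450 : ℝ) * (y4 : ℝ) + ((148314 : ℝ) * (y5 : ℝ) + ((156250 : ℝ) * (y6 : ℝ) + ((761250 : ℝ) * (y7 : ℝ) + ((3707850 : ℝ) * (y8 : ℝ) + ((18055250 : ℝ) * (y9 : ℝ) + ((3906250 : ℝ) * (y10 : ℝ) + ((19031250 : ℝ) * (y11 : ℝ) + ((92696250 : ℝ) * (y12 : ℝ) + ((97656250 : ℝ) * (y13 : ℝ) + 0)))))))))))))) + (l1 ^ 0 * l2 ^ 3 * l3 ^ 2) * ((10 : ℝ)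 * (y0 : ℝ) + ((250 : ℝ) * (y1 : ℝ) + ((1202 : ℝ) * (y2 : ℝ) + ((6250 : ℝ) * (y3 : ℝ) + ((30050 : ℝ) * (y4 : ℝ) + ((144442 : ℝ) * (y5 : ℝ) + ((156250 : ℝ) * (y6 : ℝ) + ((751250 : ℝ) * (y7 : ℝ) + ((3611050 : ℝ) * (y8 : ℝ) + ((17352738 : ℝ) * (y9 : ℝ) + ((3906250 : ℝ) * (y10 : ℝ) + ((18781250 : ℝ) * (y11 : ℝ) + ((90276250 : ℝ) * (y12 : ℝ) + ((97656250 : ℝ) * (y13 : ℝ) + 0)))))))))))))) + (l1 ^ 0 * l2 ^ 4 * l3 ^ 1) * ((5 : ℝ) * (y0 : ℝ) + ((125 : ℝ) * (y1 : ℝ) + ((593 : ℝ) * (y2 : ℝ) + ((3125 : ℝ) * (y3 : ℝ) + ((14825 : ℝ) * (y4 : ℝ) + ((70317 : ℝ) * (y5 : ℝ) + ((78125 : ℝ) * (y6 : ℝ) + ((370625 : ℝ) * (y7 : ℝ) + ((1757925 : ℝ) * (y8 : ℝ) + ((8336601 : ℝ) * (y9 : ℝ) + ((1953125 : ℝ) * (y10 : ℝ) + ((9265625 : ℝ) * (y11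 : ℝ) + ((43948125 : ℝ) * (y12 : ℝ) + ((48828125 : ℝ) * (y13 : ℝ) + 0)))))))))))))) + (l1 ^ 0 * l2 ^ 5 * l3 ^ 0) * ((1 : ℝ) * (y0 : ℝ) + ((25 : ℝ) * (y1 : ℝ) + ((117 : ℝ) * (y2 : ℝ) + ((625 : ℝ) * (y3 : ℝ) + ((2925 : ℝ) * (y4 : ℝ) + ((13689 : ℝ) * (y5 : ℝ) + ((15625 : ℝ) * (y6 : ℝ) + ((73125 : ℝ) * (y7 : ℝ) + ((342225 : ℝ) * (y8 : ℝ) + ((1601613 : ℝ) * (y9 : ℝ) + ((390625 : ℝ) * (y10 : ℝ) + ((1828125 : ℝ) * (y11 : ℝ) + ((8555625 : ℝ) * (y12 : ℝ) + ((9765625 : ℝ) * (y13 : ℝ) + 0)))))))))))))) + (l1 ^ 1 * l2 ^ 0 * l3 ^ 4) * ((5 : ℝ) * (y0 : ℝ) + ((116 : ℝ) * (y1 : ℝ) + ((536 : ℝ) * (y2 : ℝ) + ((2675 : ℝ) * (y3 : ℝ) + ((12275 : ℝ) * (y4 : ℝ) + ((55875 : ℝ) * (y5 : ℝ) + ((61250 : ℝ) * (y6 : ℝ) + ((278750 : ℝ) * (y7 :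 ℝ) + ((1256250 : ℝ) * (y8 : ℝ) + ((5593750 : ℝ) * (y9 : ℝ) + ((1390625 : ℝ) * (y10 : ℝ) + ((6265625 : ℝ) * (y11 : ℝ) + ((27890625 : ℝ) * (y12 : ℝ) + ((31250000 : ℝ) * (y13 : ℝ) + 0)))))))))))))) + (l1 ^ 1 * l2 ^ 1 * l3 ^ 3) * ((20 : ℝ) * (y0 : ℝ) + ((464 : ℝ) * (y1 : ℝ) + ((2112 : ℝ) * (y2 : ℝ) + ((10700 : ℝ) * (y3 : ℝ) + ((48372 : ℝ) * (y4 : ℝ) + ((216924 : ℝ) * (y5 : ℝ) + ((245000 : ℝ) * (y6 : ℝ) + ((1098600 : ℝ) * (y7 : ℝ) + ((4878600 : ℝ) * (y8 : ℝ) + ((21409000 : ℝ) * (y9 : ℝ) + ((5562500 : ℝ) * (y10 : ℝ) + ((24697500 : ℝ) * (y11 : ℝ) + ((108352500 : ℝ) * (y12 : ℝ) + ((125000000 : ℝ) * (y13 : ℝ) + 0)))))))))))))) + (l1 ^ 1 * l2 ^ 2 * l3 ^ 2) * ((30 : ℝ) * (y0 : ℝ) + ((696 : ℝ) * (y1 : ℝ) + ((3120 : ℝ) * (y2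 : ℝ) + ((16050 : ℝ) * (y3 : ℝ) + ((71466 : ℝ) * (y4 : ℝ) + ((315714 : ℝ) * (y5 : ℝ) + ((367500 : ℝ) * (y6 : ℝ) + ((1623300 : ℝ) * (y7 : ℝ) + ((7102524 : ℝ) * (y8 : ℝ) + ((30719412 : ℝ) * (y9 : ℝ) + ((8343750 : ℝ) * (y10 : ℝ) + ((36498750 : ℝ) * (y11 : ℝ) + ((157804950 : ℝ) * (y12 : ℝ) + ((187500000 : ℝ) * (y13 : ℝ) + 0)))))))))))))) + (l1 ^ 1 * l2 ^ 3 * l3 ^ 1) * ((20 : ℝ) * (y0 : ℝ) + ((464 : ℝ) * (y1 : ℝ) + ((2048 : ℝ) * (y2 : ℝ) + ((10700 : ℝ) * (y3 : ℝ) + ((46916 : ℝ) * (y4 : ℝ) + ((204156 : ℝ) * (y5 : ℝ) + ((245000 : ℝ) * (y6 : ℝ) + ((1065800 : ℝ) * (y7 : ℝ) + ((4594248 : ℝ) * (y8 : ℝ) + ((19585800 : ℝ) * (y9 : ℝ) + ((5562500 : ℝ) * (y10 : ℝ) + ((23967500 : ℝ) * (y11 : ℝ) + ((102114900 : ℝ) * (y12 : ℝ) + ((125000000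 : ℝ) * (y13 : ℝ) + 0)))))))))))))) + (l1 ^ 1 * l2 ^ 4 * l3 ^ 0) * ((5 : ℝ) * (y0 : ℝ) + ((116 : ℝ) * (y1 : ℝ) + ((504 : ℝ) * (y2 : ℝ) + ((2675 : ℝ) * (y3 : ℝ) + ((11547 : ℝ) * (y4 : ℝ) + ((49491 : ℝ) * (y5 : ℝ) + ((61250 : ℝ) * (y6 : ℝ) + ((262350 : ℝ) * (y7 : ℝ) + ((1114074 : ℝ) * (y8 : ℝ) + ((4681638 : ℝ) * (y9 : ℝ) + ((1390625 : ℝ) * (y10 : ℝ) + ((5900625 : ℝ) * (y11 : ℝ) + ((24771825 : ℝ) * (y12 : ℝ) + ((31250000 : ℝ) * (y13 : ℝ) + 0)))))))))))))) + (l1 ^ 2 * l2 ^ 0 * l3 ^ 3) * ((10 : ℝ) * (y0 : ℝ) + ((214 : ℝ) * (y1 : ℝ) + ((894 : ℝ) * (y2 : ℝ) + ((4531 : ℝ) * (y3 : ℝ) + ((18651 : ℝ) * (y4 : ℝ) + ((75171 : ℝ) * (y5 : ℝ) + ((94825 : ℝ) * (y6 : ℝ) + ((383925 : ℝ) * (y7 : ℝ) + ((1517025 : ℝ) * (y8 : ℝ) + ((5814125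 : ℝ) * (y9 : ℝ) + ((1960000 : ℝ) * (y10 : ℝ) + ((7792500 : ℝ) * (y11 : ℝ) + ((30135000 : ℝ) * (y12 : ℝ) + ((40000000 : ℝ) * (y13 : ℝ) + 0)))))))))))))) + (l1 ^ 2 * l2 ^ 1 * l3 ^ 2) * ((30 : ℝ) * (y0 : ℝ) + ((642 : ℝ) * (y1 : ℝ) + ((2634 : ℝ) * (y2 : ℝ) + ((13593 : ℝ) * (y3 : ℝ) + ((54969 : ℝ) * (y4 : ℝ) + ((217785 : ℝ) * (y5 : ℝ) + ((284475 : ℝ) * (y6 : ℝ) + ((1131927 : ℝ) * (y7 : ℝ) + ((4399059 : ℝ) * (y8 : ℝ) + ((16604271 : ℝ) * (y9 : ℝ) + ((5880000 : ℝ) * (y10 : ℝ) + ((22983900 : ℝ) * (y11 : ℝ) + ((87472200 : ℝ) * (y12 : ℝ) + ((120000000 : ℝ) * (y13 : ℝ) + 0)))))))))))))) + (l1 ^ 2 * l2 ^ 2 * l3 ^ 1) * ((30 : ℝ) * (y0 : ℝ) + ((642 : ℝ) * (y1 : ℝ) + ((2586 : ℝ) * (y2 : ℝ) + ((13593 : ℝ) * (y3 : ℝ) + ((53985 :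 ℝ) * (y4 : ℝ) + ((210249 : ℝ) * (y5 : ℝ) + ((284475 : ℝ) * (y6 : ℝ) + ((1112079 : ℝ) * (y7 : ℝ) + ((4250691 : ℝ) * (y8 : ℝ) + ((15803991 : ℝ) * (y9 : ℝ) + ((5880000 : ℝ) * (y10 : ℝ) + ((22590300 : ℝ) * (y11 : ℝ) + ((84606984 : ℝ) * (y12 : ℝ) + ((120000000 : ℝ) * (y13 : ℝ) + 0)))))))))))))) + (l1 ^ 2 * l2 ^ 3 * l3 ^ 0) * ((10 : ℝ) * (y0 : ℝ) + ((214 : ℝ) * (y1 : ℝ) + ((846 : ℝ) * (y2 : ℝ) + ((4531 : ℝ) * (y3 : ℝ) + ((17667 : ℝ) * (y4 : ℝ) + ((67635 : ℝ) * (y5 : ℝ) + ((94825 : ℝ) * (y6 : ℝ) + ((364077 : ℝ) * (y7 : ℝ) + ((1368657 : ℝ) * (y8 : ℝ) + ((5013333 : ℝ) * (y9 : ℝ) + ((1960000 : ℝ) * (y10 : ℝ) + ((7398900 : ℝ) * (y11 : ℝ) + ((27269784 : ℝ) * (y12 : ℝ) + ((40000000 : ℝ) * (y13 : ℝ) + 0)))))))))))))) + (l1 ^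 3 * l2 ^ 0 * l3 ^ 2) * ((10 : ℝ) * (y0 : ℝ) + ((196 : ℝ) * (y1 : ℝ) + ((716 : ℝ) * (y2 : ℝ) + ((3793 : ℝ) * (y3 : ℝ) + ((13553 : ℝ) * (y4 : ℝ) + ((46513 : ℝ) * (y5 : ℝ) + ((72496 : ℝ) * (y6 : ℝ) + ((253316 : ℝ) * (y7 : ℝ) + ((848536 : ℝ) * (y8 : ℝ) + ((2706156 : ℝ) * (y9 : ℝ) + ((1369600 : ℝ) * (y10 : ℝ) + ((4683200 : ℝ) * (y11 : ℝ) + ((15350800 : ℝ) * (y12 : ℝ) + ((25600000 : ℝ) * (y13 : ℝ) + 0)))))))))))))) + (l1 ^ 3 * l2 ^ 1 * l3 ^ 1) * ((20 : ℝ) * (y0 : ℝ) + ((392 : ℝ) * (y1 : ℝ) + ((1400 : ℝ) * (y2 : ℝ) + ((7586 : ℝ) * (y3 : ℝ) + ((26522 : ℝ) * (y4 : ℝ) + ((89298 : ℝ) * (y5 : ℝ) + ((144992 : ℝ) * (y6 : ℝ) + ((496136 : ℝ) * (y7 : ℝ) + ((1632240 : ℝ) * (y8 : ℝ) + ((5134104 : ℝ) * (y9 : ℝ) + ((2739200 : ℝ) * (y10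 : ℝ) + ((9180032 : ℝ) * (y11 : ℝ) + ((29581344 : ℝ) * (y12 : ℝ) + ((51200000 : ℝ) * (y13 : ℝ) + 0)))))))))))))) + (l1 ^ 3 * l2 ^ 2 * l3 ^ 0) * ((10 : ℝ) * (y0 : ℝ) + ((196 : ℝ) * (y1 : ℝ) + ((684 : ℝ) * (y2 : ℝ) + ((3793 : ℝ) * (y3 : ℝ) + ((12969 : ℝ) * (y4 : ℝ) + ((42849 : ℝ) * (y5 : ℝ) + ((72496 : ℝ) * (y6 : ℝ) + ((242820 : ℝ) * (y7 : ℝ) + ((784728 : ℝ) * (y8 : ℝ) + ((2434860 : ℝ) * (y9 : ℝ) + ((1369600 : ℝ) * (y10 : ℝ) + ((4496832 : ℝ) * (y11 : ℝ) + ((14246928 : ℝ) * (y12 : ℝ) + ((25600000 : ℝ) * (y13 : ℝ) + 0)))))))))))))) + (l1 ^ 4 * l2 ^ 0 * l3 ^ 1) * ((5 : ℝ) * (y0 : ℝ) + ((89 : ℝ) * (y1 : ℝ) + ((269 : ℝ) * (y2 : ℝ) + ((1568 : ℝ) * (y3 : ℝ) + ((4628 : ℝ) * (y4 : ℝ) + ((12888 : ℝ) * (y5 : ℝ) + ((27392 : ℝ)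 * (y6 : ℝ) + ((79232 : ℝ) * (y7 : ℝ) + ((217872 : ℝ) * (y8 : ℝ) + ((579312 : ℝ) * (y9 : ℝ) + ((475136 : ℝ) * (y10 : ℝ) + ((1350656 : ℝ) * (y11 : ℝ) + ((3672576 : ℝ) * (y12 : ℝ) + ((8192000 : ℝ) * (y13 : ℝ) + 0)))))))))))))) + (l1 ^ 4 * l2 ^ 1 * l3 ^ 0) * ((5 : ℝ) * (y0 : ℝ) + ((89 : ℝ) * (y1 : ℝ) + ((261 : ℝ) * (y2 : ℝ) + ((1568 : ℝ) * (y3 : ℝ) + ((4500 : ℝ) * (y4 : ℝ) + ((12312 : ℝ) * (y5 : ℝ) + ((27392 : ℝ) * (y6 : ℝ) + ((77184 : ℝ) * (y7 : ℝ) + ((208656 : ℝ) * (y8 : ℝ) + ((548208 : ℝ) * (y9 : ℝ) + ((475136 : ℝ) * (y10 : ℝ) + ((1317888 : ℝ) * (y11 : ℝ) + ((3525120 : ℝ) * (y12 : ℝ) + ((8192000 : ℝ) * (y13 : ℝ) + 0)))))))))))))) + (l1 ^ 5 * l2 ^ 0 * l3 ^ 0) * ((1 : ℝ) * (y0 : ℝ) + ((16 : ℝ) * (y1 : ℝ) + ((36 : ℝ)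 * (y2 : ℝ) + ((256 : ℝ) * (y3 : ℝ) + ((576 : ℝ) * (y4 : ℝ) + ((1296 : ℝ) * (y5 : ℝ) + ((4096 : ℝ) * (y6 : ℝ) + ((9216 : ℝ) * (y7 : ℝ) + ((20736 : ℝ) * (y8 : ℝ) + ((46656 : ℝ) * (y9 : ℝ) + ((65536 : ℝ) * (y10 : ℝ) + ((147456 : ℝ) * (y11 : ℝ) + ((331776 : ℝ) * (y12 : ℝ) + ((1048576 : ℝ) * (y13 : ℝ) + 0)))))))))))))) := by
    have hl3 : l3 = 1 - l1 - l2 := by linarith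
    subst hl3
    unfold evalRow
    ring
  rw [key]
  exact add_nonneg (add_nonneg (add_nonneg (add_nonneg (add_nonneg (add_nonneg (add_nonneg (add_nonneg (add_nonneg (add_nonneg (add_nonneg (add_nonneg (add_nonneg (add_nonneg (add_nonneg (add_nonneg (add_nonneg (add_nonneg (add_nonneg (add_nonneg (mul_nonneg (by positivity) H0) (mul_nonneg (by positivity) H1)) (mul_nonneg (by positivity) H2)) (mul_nonneg (by positivity) H3)) (mul_nonneg (by positivity) H4)) (mul_nonneg (by positivity) H5)) (mul_nonneg (by positivity) H6)) (mul_nonneg (by positivity) H7)) (mul_nonneg (by positivity) H8)) (mul_nonneg (by positivity) H9)) (mul_nonneg (by positivity) H10)) (mul_nonneg (by positivity) H11)) (mul_nonneg (by positivity)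 H12)) (mul_nonneg (by positivity) H13)) (mul_nonneg (by positivity) H14)) (mul_nonneg (by positivity) H15)) (mul_nonneg (by positivity) H16)) (mul_nonneg (by positivity) H17)) (mul_nonneg (by positivity) H18)) (mul_nonneg (by positivity) H19)) (mul_nonneg (by positivity) H20)

set_option maxHeartbeats 8000000 in
theorem tri8 (y0 y1 y2 y3 y4 y5 y6 y7 y8 y9 y10 y11 y12 y13 : ℤ) (h : (BT8.all fun r => decide (0 ≤ dotI r [y0, y1, y2, y3, y4, y5, y6, y7, y8, y9, y10, y11, y12, y13])) = true)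
    (l1 l2 l3 : ℝ) (h1 : 0 ≤ l1) (h2 : 0 ≤ l2) (h3 : 0 ≤ l3) (hs : l1 + l2 + l3 = 1) :
    0 ≤ evalRow y0 y1 y2 y3 y4 y5 y6 y7 y8 y9 y10 y11 y12 y13 (l1 * (16) + l2 * (25) + l3 * (16)) (l1 * (36) + l2 * (125) + l3 * (64)) := by
  simp only [BT8, List.all_cons, List.all_nil, Bool.and_true, Bool.and_eq_true, decide_eq_true_eq, dotI] at h
  obtain ⟨h0, h1, h2, h3, h4, h5, h6, h7, h8, h9, h10, h11, h12, h13, h14, h15, h16, h17, h18, h19, h20⟩ := h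
  have H0 : (0 : ℝ) ≤ (1 : ℝ) * (y0 : ℝ) + ((16 : ℝ) * (y1 : ℝ) + ((64 : ℝ) * (y2 : ℝ) + ((256 : ℝ) * (y3 : ℝ) + ((1024 : ℝ) * (y4 : ℝ) + ((4096 : ℝ) * (y5 : ℝ) + ((4096 : ℝ) * (y6 : ℝ) + ((16384 : ℝ) * (y7 : ℝ) + ((65536 : ℝ) * (y8 : ℝ) + ((262144 : ℝ) * (y9 : ℝ) + ((65536 : ℝ) * (y10 : ℝ) + ((262144 : ℝ) * (y11 : ℝ) + ((1048576 : ℝ) * (y12 : ℝ) + ((1048576 : ℝ) * (y13 : ℝ) + 0))))))))))))) := by exact_mod_cast h0;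
  have H1 : (0 : ℝ) ≤ (5 : ℝ) * (y0 : ℝ) + ((89 : ℝ) * (y1 : ℝ) + ((381 : ℝ) * (y2 : ℝ) + ((1568 : ℝ) * (y3 : ℝ) + ((6672 : ℝ) * (y4 : ℝ) + ((28288 : ℝ) * (y5 : ℝ) + ((27392 : ℝ) * (y6 : ℝ) + ((115968 : ℝ) * (y7 : ℝ) + ((489472 : ℝ) * (y8 : ℝ) + ((2060288 : ℝ) * (y9 : ℝ) + ((475136 : ℝ) * (y10 : ℝ) + ((2002944 : ℝ) * (y11 : ℝ) + ((8421376 : ℝ) * (y12 : ℝ) + ((8192000 : ℝ) * (y13 : ℝ) + 0))))))))))))) := by exact_mod_cast h1;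
  have H2 : (0 : ℝ) ≤ (10 : ℝ) * (y0 : ℝ) + ((196 : ℝ) * (y1 : ℝ) + ((884 : ℝ) * (y2 : ℝ) + ((3793 : ℝ) * (y3 : ℝ) + ((16997 : ℝ) * (y4 : ℝ) + ((75913 : ℝ) * (y5 : ℝ) + ((72496 : ℝ) * (y6 : ℝ) + ((322784 : ℝ) * (y7 : ℝ) + ((1432336 : ℝ) * (y8 : ℝ) + ((6334144 : ℝ) * (y9 : ℝ) + ((1369600 : ℝ) * (y10 : ℝ) + ((6060800 : ℝ) * (y11 : ℝ) + ((26732800 : ℝ) * (y12 : ℝ) + ((25600000 : ℝ) * (y13 : ℝ) + 0))))))))))))) := by exact_mod_cast h2;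
  have H3 : (0 : ℝ) ≤ (10 : ℝ) * (y0 : ℝ) + ((214 : ℝ) * (y1 : ℝ) + ((1006 : ℝ) * (y2 : ℝ) + ((4531 : ℝ) * (y3 : ℝ) + ((21199 : ℝ) * (y4 : ℝ) + ((98971 : ℝ) * (y5 : ℝ) + ((94825 : ℝ) * (y6 : ℝ) + ((441325 : ℝ) * (y7 : ℝ) + ((2049025 : ℝ) * (y8 : ℝ) + ((9489125 : ℝ) * (y9 : ℝ) + ((1960000 : ℝ) * (y10 : ℝ) + ((9070000 : ℝ) * (y11 : ℝ) + ((41860000 : ℝ) * (y12 : ℝ) + ((40000000 : ℝ) * (y13 : ℝ) + 0))))))))))))) := by exact_mod_cast h3;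
  have H4 : (0 : ℝ) ≤ (5 : ℝ) * (y0 : ℝ) + ((116 : ℝ) * (y1 : ℝ) + ((564 : ℝ) * (y2 : ℝ) + ((2675 : ℝ) * (y3 : ℝ) + ((12975 : ℝ) * (y4 : ℝ) + ((62875 : ℝ) * (y5 : ℝ) + ((61250 : ℝ) * (y6 : ℝ) + ((296250 : ℝ) * (y7 : ℝ) + ((1431250 : ℝ) * (y8 : ℝ) + ((6906250 : ℝ) * (y9 : ℝ) + ((1390625 : ℝ) * (y10 : ℝ) + ((6703125 : ℝ) * (y11 : ℝ) + ((32265625 : ℝ) * (y12 : ℝ) + ((31250000 : ℝ) * (y13 : ℝ) + 0))))))))))))) := by exact_mod_cast h4;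
  have H5 : (0 : ℝ) ≤ (1 : ℝ) * (y0 : ℝ) + ((25 : ℝ) * (y1 : ℝ) + ((125 : ℝ) * (y2 : ℝ) + ((625 : ℝ) * (y3 : ℝ) + ((3125 : ℝ) * (y4 : ℝ) + ((15625 : ℝ) * (y5 : ℝ) + ((15625 : ℝ) * (y6 : ℝ) + ((78125 : ℝ) * (y7 : ℝ) + ((390625 : ℝ) * (y8 : ℝ) + ((1953125 : ℝ) * (y9 : ℝ) + ((390625 : ℝ) * (y10 : ℝ) + ((1953125 : ℝ) * (y11 : ℝ) + ((9765625 : ℝ) * (y12 : ℝ) + ((9765625 : ℝ) * (y13 : ℝ) + 0))))))))))))) := by exact_mod_cast h5;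
  have H6 : (0 : ℝ) ≤ (5 : ℝ) * (y0 : ℝ) + ((80 : ℝ) * (y1 : ℝ) + ((292 : ℝ) * (y2 : ℝ) + ((1280 : ℝ) * (y3 : ℝ) + ((4672 : ℝ) * (y4 : ℝ) + ((16896 : ℝ) * (y5 : ℝ) + ((20480 : ℝ) * (y6 : ℝ) + ((74752 : ℝ) * (y7 : ℝ) + ((270336 : ℝ) * (y8 : ℝ) + ((966656 : ℝ) * (y9 : ℝ) + ((327680 : ℝ) * (y10 : ℝ) + ((1196032 : ℝ) * (y11 : ℝ) + ((4325376 : ℝ) * (y12 : ℝ) + ((5242880 : ℝ) * (y13 : ℝ) + 0))))))))))))) := by exact_mod_cast h6;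
  have H7 : (0 : ℝ) ≤ (20 : ℝ) * (y0 : ℝ) + ((356 : ℝ) * (y1 : ℝ) + ((1412 : ℝ) * (y2 : ℝ) + ((6272 : ℝ) * (y3 : ℝ) + ((24644 : ℝ) * (y4 : ℝ) + ((95400 : ℝ) * (y5 : ℝ) + ((109568 : ℝ) * (y6 : ℝ) + ((427136 : ℝ) * (y7 : ℝ) + ((1641600 : ℝ) * (y8 : ℝ) + ((6209024 : ℝ) * (y9 : ℝ) + ((1900544 : ℝ) * (y10 : ℝ) + ((7359488 : ℝ) * (y11 : ℝ) + ((28108800 : ℝ) * (y12 : ℝ) + ((32768000 : ℝ) * (y13 : ℝ) + 0))))))))))))) := by exact_mod_cast h7;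
  have H8 : (0 : ℝ) ≤ (30 : ℝ) * (y0 : ℝ) + ((588 : ℝ) * (y1 : ℝ) + ((2484 : ℝ) * (y2 : ℝ) + ((11379 : ℝ) * (y3 : ℝ) + ((47547 : ℝ) * (y4 : ℝ) + ((195987 : ℝ) * (y5 : ℝ) + ((217488 : ℝ) * (y6 : ℝ) + ((898884 : ℝ) * (y7 : ℝ) + ((3661464 : ℝ) * (y8 : ℝ) + ((14657868 : ℝ) * (y9 : ℝ) + ((4108800 : ℝ) * (y10 : ℝ) + ((16804800 : ℝ) * (y11 : ℝ) + ((67699200 : ℝ) * (y12 : ℝ) + ((76800000 : ℝ) * (y13 : ℝ) + 0))))))))))))) := by exact_mod_cast h8;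
  have H9 : (0 : ℝ) ≤ (20 : ℝ) * (y0 : ℝ) + ((428 : ℝ) * (y1 : ℝ) + ((1900 : ℝ) * (y2 : ℝ) + ((9062 : ℝ) * (y3 : ℝ) + ((39850 : ℝ) * (y4 : ℝ) + ((173358 : ℝ) * (y5 : ℝ) + ((189650 : ℝ) * (y6 : ℝ) + ((825250 : ℝ) * (y7 : ℝ) + ((3546450 : ℝ) * (y8 : ℝ) + ((15009250 : ℝ) * (y9 : ℝ) + ((3920000 : ℝ) * (y10 : ℝ) + ((16862500 : ℝ) * (y11 : ℝ) + ((71505000 : ℝ) * (y12 : ℝ) + ((80000000 : ℝ) * (y13 : ℝ) + 0))))))))))))) := by exact_mod_cast h9;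
  have H10 : (0 : ℝ) ≤ (5 : ℝ) * (y0 : ℝ) + ((116 : ℝ) * (y1 : ℝ) + ((536 : ℝ) * (y2 : ℝ) + ((2675 : ℝ) * (y3 : ℝ) + ((12275 : ℝ) * (y4 : ℝ) + ((55875 : ℝ) * (y5 : ℝ) + ((61250 : ℝ) * (y6 : ℝ) + ((278750 : ℝ) * (y7 : ℝ) + ((1256250 : ℝ) * (y8 : ℝ) + ((5593750 : ℝ) * (y9 : ℝ) + ((1390625 : ℝ) * (y10 : ℝ) + ((6265625 : ℝ) * (y11 : ℝ) + ((27890625 : ℝ) * (y12 : ℝ) + ((31250000 : ℝ) * (y13 : ℝ) + 0))))))))))))) := by exact_mod_cast h10;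
  have H11 : (0 : ℝ) ≤ (10 : ℝ) * (y0 : ℝ) + ((160 : ℝ) * (y1 : ℝ) + ((528 : ℝ) * (y2 : ℝ) + ((2560 : ℝ) * (y3 : ℝ) + ((8448 : ℝ) * (y4 : ℝ) + ((27408 : ℝ) * (y5 : ℝ) + ((40960 : ℝ) * (y6 : ℝ) + ((135168 : ℝ) * (y7 : ℝ) + ((438528 : ℝ) * (y8 : ℝ) + ((1395712 : ℝ) * (y9 : ℝ) + ((655360 : ℝ) * (y10 : ℝ) + ((2162688 : ℝ) * (y11 : ℝ) + ((7016448 : ℝ) * (y12 : ℝ) + ((10485760 : ℝ) * (y13 : ℝ) + 0))))))))))))) := by exact_mod_cast h11;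
  have H12 : (0 : ℝ) ≤ (30 : ℝ) * (y0 : ℝ) + ((534 : ℝ) * (y1 : ℝ) + ((1950 : ℝ) * (y2 : ℝ) + ((9408 : ℝ) * (y3 : ℝ) + ((33900 : ℝ) * (y4 : ℝ) + ((118824 : ℝ) * (y5 : ℝ) + ((164352 : ℝ) * (y6 : ℝ) + ((585600 : ℝ) * (y7 : ℝ) + ((2032656 : ℝ) * (y8 : ℝ) + ((6860400 : ℝ) * (y9 : ℝ) + ((2850816 : ℝ) * (y10 : ℝ) + ((10060800 : ℝ) * (y11 : ℝ) + ((34626048 : ℝ) * (y12 : ℝ) + ((49152000 : ℝ) * (y13 : ℝ) + 0))))))))))))) := by exact_mod_cast h12;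
  have H13 : (0 : ℝ) ≤ (30 : ℝ) * (y0 : ℝ) + ((588 : ℝ) * (y1 : ℝ) + ((2316 : ℝ) * (y2 : ℝ) + ((11379 : ℝ) * (y3 : ℝ) + ((44103 : ℝ) * (y4 : ℝ) + ((166587 : ℝ) * (y5 : ℝ) + ((217488 : ℝ) * (y6 : ℝ) + ((829416 : ℝ) * (y7 : ℝ) + ((3077664 : ℝ) * (y8 : ℝ) + ((11051832 : ℝ) * (y9 : ℝ) + ((4108800 : ℝ) * (y10 : ℝ) + ((15427200 : ℝ) * (y11 : ℝ) + ((56317200 : ℝ) * (y12 : ℝ) + ((76800000 : ℝ) * (y13 : ℝ) + 0))))))))))))) := by exact_mod_cast h13;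
  have H14 : (0 : ℝ) ≤ (10 : ℝ) * (y0 : ℝ) + ((214 : ℝ) * (y1 : ℝ) + ((894 : ℝ) * (y2 : ℝ) + ((4531 : ℝ) * (y3 : ℝ) + ((18651 : ℝ) * (y4 : ℝ) + ((75171 : ℝ) * (y5 : ℝ) + ((94825 : ℝ) * (y6 : ℝ) + ((383925 : ℝ) * (y7 : ℝ) + ((1517025 : ℝ) * (y8 : ℝ) + ((5814125 : ℝ) * (y9 : ℝ) + ((1960000 : ℝ) * (y10 : ℝ) + ((7792500 : ℝ) * (y11 : ℝ) + ((30135000 : ℝ) * (y12 : ℝ) + ((40000000 : ℝ) * (y13 : ℝ) + 0))))))))))))) := by exact_mod_cast h14;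
  have H15 : (0 : ℝ) ≤ (10 : ℝ) * (y0 : ℝ) + ((160 : ℝ) * (y1 : ℝ) + ((472 : ℝ) * (y2 : ℝ) + ((2560 : ℝ) * (y3 : ℝ) + ((7552 : ℝ) * (y4 : ℝ) + ((21808 : ℝ) * (y5 : ℝ) + ((40960 : ℝ) * (y6 : ℝ) + ((120832 : ℝ) * (y7 : ℝ) + ((348928 : ℝ) * (y8 : ℝ) + ((986688 : ℝ) * (y9 : ℝ) + ((655360 : ℝ) * (y10 : ℝ) + ((1933312 : ℝ) * (y11 : ℝ) + ((5582848 : ℝ) * (y12 : ℝ) + ((10485760 : ℝ) * (y13 : ℝ) + 0))))))))))))) := by exact_mod_cast h15;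
  have H16 : (0 : ℝ) ≤ (20 : ℝ) * (y0 : ℝ) + ((356 : ℝ) * (y1 : ℝ) + ((1188 : ℝ) * (y2 : ℝ) + ((6272 : ℝ) * (y3 : ℝ) + ((20556 : ℝ) * (y4 : ℝ) + ((64600 : ℝ) * (y5 : ℝ) + ((109568 : ℝ) * (y6 : ℝ) + ((353664 : ℝ) * (y7 : ℝ) + ((1098400 : ℝ) * (y8 : ℝ) + ((3290976 : ℝ) * (y9 : ℝ) + ((1900544 : ℝ) * (y10 : ℝ) + ((6054912 : ℝ) * (y11 : ℝ) + ((18611200 : ℝ) * (y12 : ℝ) + ((32768000 : ℝ) * (y13 : ℝ) + 0))))))))))))) := by exact_mod_cast h16;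
  have H17 : (0 : ℝ) ≤ (10 : ℝ) * (y0 : ℝ) + ((196 : ℝ) * (y1 : ℝ) + ((716 : ℝ) * (y2 : ℝ) + ((3793 : ℝ) * (y3 : ℝ) + ((13553 : ℝ) * (y4 : ℝ) + ((46513 : ℝ) * (y5 : ℝ) + ((72496 : ℝ) * (y6 : ℝ) + ((253316 : ℝ) * (y7 : ℝ) + ((848536 : ℝ) * (y8 : ℝ) + ((2706156 : ℝ) * (y9 : ℝ) + ((1369600 : ℝ) * (y10 : ℝ) + ((4683200 : ℝ) * (y11 : ℝ) + ((15350800 : ℝ) * (y12 : ℝ) + ((25600000 : ℝ) * (y13 : ℝ) + 0))))))))))))) := by exact_mod_cast h17;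
  have H18 : (0 : ℝ) ≤ (5 : ℝ) * (y0 : ℝ) + ((80 : ℝ) * (y1 : ℝ) + ((208 : ℝ) * (y2 : ℝ) + ((1280 : ℝ) * (y3 : ℝ) + ((3328 : ℝ) * (y4 : ℝ) + ((8496 : ℝ) * (y5 : ℝ) + ((20480 : ℝ) * (y6 : ℝ) + ((53248 : ℝ) * (y7 : ℝ) + ((135936 : ℝ) * (y8 : ℝ) + ((342144 : ℝ) * (y9 : ℝ) + ((327680 : ℝ) * (y10 : ℝ) + ((851968 : ℝ) * (y11 : ℝ) + ((2174976 : ℝ) * (y12 : ℝ) + ((5242880 : ℝ) * (y13 : ℝ) + 0))))))))))))) := by exact_mod_cast h18;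
  have H19 : (0 : ℝ) ≤ (5 : ℝ) * (y0 : ℝ) + ((89 : ℝ) * (y1 : ℝ) + ((269 : ℝ) * (y2 : ℝ) + ((1568 : ℝ) * (y3 : ℝ) + ((4628 : ℝ) * (y4 : ℝ) + ((12888 : ℝ) * (y5 : ℝ) + ((27392 : ℝ) * (y6 : ℝ) + ((79232 : ℝ) * (y7 : ℝ) + ((217872 : ℝ) * (y8 : ℝ) + ((579312 : ℝ) * (y9 : ℝ) + ((475136 : ℝ) * (y10 : ℝ) + ((1350656 : ℝ) * (y11 : ℝ) + ((3672576 : ℝ) * (y12 : ℝ) + ((8192000 : ℝ) * (y13 : ℝ) + 0))))))))))))) := by exact_mod_cast h19;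
  have H20 : (0 : ℝ) ≤ (1 : ℝ) * (y0 : ℝ) + ((16 : ℝ) * (y1 : ℝ) + ((36 : ℝ) * (y2 : ℝ) + ((256 : ℝ) * (y3 : ℝ) + ((576 : ℝ) * (y4 : ℝ) + ((1296 : ℝ) * (y5 : ℝ) + ((4096 : ℝ) * (y6 : ℝ) + ((9216 : ℝ) * (y7 : ℝ) + ((20736 : ℝ) * (y8 : ℝ) + ((46656 : ℝ) * (y9 : ℝ) + ((65536 : ℝ) * (y10 : ℝ) + ((147456 : ℝ) * (y11 : ℝ) + ((331776 : ℝ) * (y12 : ℝ) + ((1048576 : ℝ) * (y13 : ℝ) + 0))))))))))))) := by exact_mod_cast h20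
  have key : evalRow y0 y1 y2 y3 y4 y5 y6 y7 y8 y9 y10 y11 y12 y13 (l1 * (16) + l2 * (25) + l3 * (16)) (l1 * (36) + l2 * (125) + l3 * (64)) = (l1 ^ 0 * l2 ^ 0 * l3 ^ 5) * ((1 : ℝ) * (y0 : ℝ) + ((16 : ℝ) * (y1 : ℝ) + ((64 : ℝ) * (y2 : ℝ) + ((256 : ℝ) * (y3 : ℝ) + ((1024 : ℝ) * (y4 : ℝ) + ((4096 : ℝ) * (y5 : ℝ) + ((4096 : ℝ) * (y6 : ℝ) + ((16384 : ℝ) * (y7 : ℝ) + ((65536 : ℝ) * (y8 : ℝ) + ((262144 : ℝ) * (y9 : ℝ) + ((65536 : ℝ) * (y10 : ℝ) + ((262144 : ℝ) * (y11 : ℝ) + ((1048576 : ℝ) * (y12 : ℝ) + ((1048576 : ℝ) * (y13 : ℝ) + 0)))))))))))))) + (l1 ^ 0 * l2 ^ 1 * l3 ^ 4) * ((5 : ℝ) * (y0 : ℝ) + ((89 : ℝ) * (y1 : ℝ) + ((381 : ℝ) * (y2 : ℝ) + ((1568 : ℝ) * (y3 : ℝ) + ((6672 : ℝ) * (y4 : ℝ) + ((28288 : ℝ) * (y5 : ℝ) +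 ((27392 : ℝ) * (y6 : ℝ) + ((115968 : ℝ) * (y7 : ℝ) + ((489472 : ℝ) * (y8 : ℝ) + ((2060288 : ℝ) * (y9 : ℝ) + ((475136 : ℝ) * (y10 : ℝ) + ((2002944 : ℝ) * (y11 : ℝ) + ((8421376 : ℝ) * (y12 : ℝ) + ((8192000 : ℝ) * (y13 : ℝ) + 0)))))))))))))) + (l1 ^ 0 * l2 ^ 2 * l3 ^ 3) * ((10 : ℝ) * (y0 : ℝ) + ((196 : ℝ) * (y1 : ℝ) + ((884 : ℝ) * (y2 : ℝ) + ((3793 : ℝ) * (y3 : ℝ) + ((16997 : ℝ) * (y4 : ℝ) + ((75913 : ℝ) * (y5 : ℝ) + ((72496 : ℝ) * (y6 : ℝ) + ((322784 : ℝ) * (y7 : ℝ) + ((1432336 : ℝ) * (y8 : ℝ) + ((6334144 : ℝ) * (y9 : ℝ) + ((1369600 : ℝ) * (y10 : ℝ) + ((6060800 : ℝ) * (y11 : ℝ) + ((26732800 : ℝ) * (y12 : ℝ) + ((25600000 : ℝ) * (y13 : ℝ) + 0)))))))))))))) + (l1 ^ 0 * l2 ^ 3 * l3 ^ 2) * ((10 : ℝ) * (y0 : ℝ) + ((214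 : ℝ) * (y1 : ℝ) + ((1006 : ℝ) * (y2 : ℝ) + ((4531 : ℝ) * (y3 : ℝ) + ((21199 : ℝ) * (y4 : ℝ) + ((98971 : ℝ) * (y5 : ℝ) + ((94825 : ℝ) * (y6 : ℝ) + ((441325 : ℝ) * (y7 : ℝ) + ((2049025 : ℝ) * (y8 : ℝ) + ((9489125 : ℝ) * (y9 : ℝ) + ((1960000 : ℝ) * (y10 : ℝ) + ((9070000 : ℝ) * (y11 : ℝ) + ((41860000 : ℝ) * (y12 : ℝ) + ((40000000 : ℝ) * (y13 : ℝ) + 0)))))))))))))) + (l1 ^ 0 * l2 ^ 4 * l3 ^ 1) * ((5 : ℝ) * (y0 : ℝ) + ((116 : ℝ) * (y1 : ℝ) + ((564 : ℝ) * (y2 : ℝ) + ((2675 : ℝ) * (y3 : ℝ) + ((12975 : ℝ) * (y4 : ℝ) + ((62875 : ℝ) * (y5 : ℝ) + ((61250 : ℝ) * (y6 : ℝ) + ((296250 : ℝ) * (y7 : ℝ) + ((1431250 : ℝ) * (y8 : ℝ) + ((6906250 : ℝ) * (y9 : ℝ) + ((1390625 : ℝ) * (y10 : ℝ) + ((6703125 : ℝ) * (y11 : ℝ) + ((32265625 :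 ℝ) * (y12 : ℝ) + ((31250000 : ℝ) * (y13 : ℝ) + 0)))))))))))))) + (l1 ^ 0 * l2 ^ 5 * l3 ^ 0) * ((1 : ℝ) * (y0 : ℝ) + ((25 : ℝ) * (y1 : ℝ) + ((125 : ℝ) * (y2 : ℝ) + ((625 : ℝ) * (y3 : ℝ) + ((3125 : ℝ) * (y4 : ℝ) + ((15625 : ℝ) * (y5 : ℝ) + ((15625 : ℝ) * (y6 : ℝ) + ((78125 : ℝ) * (y7 : ℝ) + ((390625 : ℝ) * (y8 : ℝ) + ((1953125 : ℝ) * (y9 : ℝ) + ((390625 : ℝ) * (y10 : ℝ) + ((1953125 : ℝ) * (y11 : ℝ) + ((9765625 : ℝ) * (y12 : ℝ) + ((9765625 : ℝ) * (y13 : ℝ) + 0)))))))))))))) + (l1 ^ 1 * l2 ^ 0 * l3 ^ 4) * ((5 : ℝ) * (y0 : ℝ) + ((80 : ℝ) * (y1 : ℝ) + ((292 : ℝ) * (y2 : ℝ) + ((1280 : ℝ) * (y3 : ℝ) + ((4672 : ℝ) * (y4 : ℝ) + ((16896 : ℝ) * (y5 : ℝ) + ((20480 : ℝ) * (y6 : ℝ) + ((74752 : ℝ) * (y7 : ℝ) + ((270336 : ℝ) * (y8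 : ℝ) + ((966656 : ℝ) * (y9 : ℝ) + ((327680 : ℝ) * (y10 : ℝ) + ((1196032 : ℝ) * (y11 : ℝ) + ((4325376 : ℝ) * (y12 : ℝ) + ((5242880 : ℝ) * (y13 : ℝ) + 0)))))))))))))) + (l1 ^ 1 * l2 ^ 1 * l3 ^ 3) * ((20 : ℝ) * (y0 : ℝ) + ((356 : ℝ) * (y1 : ℝ) + ((1412 : ℝ) * (y2 : ℝ) + ((6272 : ℝ) * (y3 : ℝ) + ((24644 : ℝ) * (y4 : ℝ) + ((95400 : ℝ) * (y5 : ℝ) + ((109568 : ℝ) * (y6 : ℝ) + ((427136 : ℝ) * (y7 : ℝ) + ((1641600 : ℝ) * (y8 : ℝ) + ((6209024 : ℝ) * (y9 : ℝ) + ((1900544 : ℝ) * (y10 : ℝ) + ((7359488 : ℝ) * (y11 : ℝ) + ((28108800 : ℝ) * (y12 : ℝ) + ((32768000 : ℝ) * (y13 : ℝ) + 0)))))))))))))) + (l1 ^ 1 * l2 ^ 2 * l3 ^ 2) * ((30 : ℝ) * (y0 : ℝ) + ((588 : ℝ) * (y1 : ℝ) + ((2484 : ℝ) * (y2 : ℝ) + ((11379 : ℝ) * (y3 : ℝ) + ((47547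 : ℝ) * (y4 : ℝ) + ((195987 : ℝ) * (y5 : ℝ) + ((217488 : ℝ) * (y6 : ℝ) + ((898884 : ℝ) * (y7 : ℝ) + ((3661464 : ℝ) * (y8 : ℝ) + ((14657868 : ℝ) * (y9 : ℝ) + ((4108800 : ℝ) * (y10 : ℝ) + ((16804800 : ℝ) * (y11 : ℝ) + ((67699200 : ℝ) * (y12 : ℝ) + ((76800000 : ℝ) * (y13 : ℝ) + 0)))))))))))))) + (l1 ^ 1 * l2 ^ 3 * l3 ^ 1) * ((20 : ℝ) * (y0 : ℝ) + ((428 : ℝ) * (y1 : ℝ) + ((1900 : ℝ) * (y2 : ℝ) + ((9062 : ℝ) * (y3 : ℝ) + ((39850 : ℝ) * (y4 : ℝ) + ((173358 : ℝ) * (y5 : ℝ) + ((189650 : ℝ) * (y6 : ℝ) + ((825250 : ℝ) * (y7 : ℝ) + ((3546450 : ℝ) * (y8 : ℝ) + ((15009250 : ℝ) * (y9 : ℝ) + ((3920000 : ℝ) * (y10 : ℝ) + ((16862500 : ℝ) * (y11 : ℝ) + ((71505000 : ℝ) * (y12 : ℝ) + ((80000000 : ℝ) * (y13 : ℝ) + 0)))))))))))))) + (l1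 ^ 1 * l2 ^ 4 * l3 ^ 0) * ((5 : ℝ) * (y0 : ℝ) + ((116 : ℝ) * (y1 : ℝ) + ((536 : ℝ) * (y2 : ℝ) + ((2675 : ℝ) * (y3 : ℝ) + ((12275 : ℝ) * (y4 : ℝ) + ((55875 : ℝ) * (y5 : ℝ) + ((61250 : ℝ) * (y6 : ℝ) + ((278750 : ℝ) * (y7 : ℝ) + ((1256250 : ℝ) * (y8 : ℝ) + ((5593750 : ℝ) * (y9 : ℝ) + ((1390625 : ℝ) * (y10 : ℝ) + ((6265625 : ℝ) * (y11 : ℝ) + ((27890625 : ℝ) * (y12 : ℝ) + ((31250000 : ℝ) * (y13 : ℝ) + 0)))))))))))))) + (l1 ^ 2 * l2 ^ 0 * l3 ^ 3) * ((10 : ℝ) * (y0 : ℝ) + ((160 : ℝ) * (y1 : ℝ) + ((528 : ℝ) * (y2 : ℝ) + ((2560 : ℝ) * (y3 : ℝ) + ((8448 : ℝ) * (y4 : ℝ) + ((27408 : ℝ) * (y5 : ℝ) + ((40960 : ℝ) * (y6 : ℝ) + ((135168 : ℝ) * (y7 : ℝ) + ((438528 : ℝ) * (y8 : ℝ) + ((1395712 : ℝ) * (y9 : ℝ) + ((655360 : ℝ) * (y10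 : ℝ) + ((2162688 : ℝ) * (y11 : ℝ) + ((7016448 : ℝ) * (y12 : ℝ) + ((10485760 : ℝ) * (y13 : ℝ) + 0)))))))))))))) + (l1 ^ 2 * l2 ^ 1 * l3 ^ 2) * ((30 : ℝ) * (y0 : ℝ) + ((534 : ℝ) * (y1 : ℝ) + ((1950 : ℝ) * (y2 : ℝ) + ((9408 : ℝ) * (y3 : ℝ) + ((33900 : ℝ) * (y4 : ℝ) + ((118824 : ℝ) * (y5 : ℝ) + ((164352 : ℝ) * (y6 : ℝ) + ((585600 : ℝ) * (y7 : ℝ) + ((2032656 : ℝ) * (y8 : ℝ) + ((6860400 : ℝ) * (y9 : ℝ) + ((2850816 : ℝ) * (y10 : ℝ) + ((10060800 : ℝ) * (y11 : ℝ) + ((34626048 : ℝ) * (y12 : ℝ) + ((49152000 : ℝ) * (y13 : ℝ) + 0)))))))))))))) + (l1 ^ 2 * l2 ^ 2 * l3 ^ 1) * ((30 : ℝ) * (y0 : ℝ) + ((588 : ℝ) * (y1 : ℝ) + ((2316 : ℝ) * (y2 : ℝ) + ((11379 : ℝ) * (y3 : ℝ) + ((44103 : ℝ) * (y4 : ℝ) + ((166587 : ℝ) * (y5 : ℝ) + ((217488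 : ℝ) * (y6 : ℝ) + ((829416 : ℝ) * (y7 : ℝ) + ((3077664 : ℝ) * (y8 : ℝ) + ((11051832 : ℝ) * (y9 : ℝ) + ((4108800 : ℝ) * (y10 : ℝ) + ((15427200 : ℝ) * (y11 : ℝ) + ((56317200 : ℝ) * (y12 : ℝ) + ((76800000 : ℝ) * (y13 : ℝ) + 0)))))))))))))) + (l1 ^ 2 * l2 ^ 3 * l3 ^ 0) * ((10 : ℝ) * (y0 : ℝ) + ((214 : ℝ) * (y1 : ℝ) + ((894 : ℝ) * (y2 : ℝ) + ((4531 : ℝ) * (y3 : ℝ) + ((18651 : ℝ) * (y4 : ℝ) + ((75171 : ℝ) * (y5 : ℝ) + ((94825 : ℝ) * (y6 : ℝ) + ((383925 : ℝ) * (y7 : ℝ) + ((1517025 : ℝ) * (y8 : ℝ) + ((5814125 : ℝ) * (y9 : ℝ) + ((1960000 : ℝ) * (y10 : ℝ) + ((7792500 : ℝ) * (y11 : ℝ) + ((30135000 : ℝ) * (y12 : ℝ) + ((40000000 : ℝ) * (y13 : ℝ) + 0)))))))))))))) + (l1 ^ 3 * l2 ^ 0 * l3 ^ 2) * ((10 : ℝ) * (y0 : ℝ) + ((160 :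 ℝ) * (y1 : ℝ) + ((472 : ℝ) * (y2 : ℝ) + ((2560 : ℝ) * (y3 : ℝ) + ((7552 : ℝ) * (y4 : ℝ) + ((21808 : ℝ) * (y5 : ℝ) + ((40960 : ℝ) * (y6 : ℝ) + ((120832 : ℝ) * (y7 : ℝ) + ((348928 : ℝ) * (y8 : ℝ) + ((986688 : ℝ) * (y9 : ℝ) + ((655360 : ℝ) * (y10 : ℝ) + ((1933312 : ℝ) * (y11 : ℝ) + ((5582848 : ℝ) * (y12 : ℝ) + ((10485760 : ℝ) * (y13 : ℝ) + 0)))))))))))))) + (l1 ^ 3 * l2 ^ 1 * l3 ^ 1) * ((20 : ℝ) * (y0 : ℝ) + ((356 : ℝ) * (y1 : ℝ) + ((1188 : ℝ) * (y2 : ℝ) + ((6272 : ℝ) * (y3 : ℝ) + ((20556 : ℝ) * (y4 : ℝ) + ((64600 : ℝ) * (y5 : ℝ) + ((109568 : ℝ) * (y6 : ℝ) + ((353664 : ℝ) * (y7 : ℝ) + ((1098400 : ℝ) * (y8 : ℝ) + ((3290976 : ℝ) * (y9 : ℝ) + ((1900544 : ℝ) * (y10 : ℝ) + ((6054912 : ℝ) * (y11 : ℝ) + ((18611200 : ℝ) *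 (y12 : ℝ) + ((32768000 : ℝ) * (y13 : ℝ) + 0)))))))))))))) + (l1 ^ 3 * l2 ^ 2 * l3 ^ 0) * ((10 : ℝ) * (y0 : ℝ) + ((196 : ℝ) * (y1 : ℝ) + ((716 : ℝ) * (y2 : ℝ) + ((3793 : ℝ) * (y3 : ℝ) + ((13553 : ℝ) * (y4 : ℝ) + ((46513 : ℝ) * (y5 : ℝ) + ((72496 : ℝ) * (y6 : ℝ) + ((253316 : ℝ) * (y7 : ℝ) + ((848536 : ℝ) * (y8 : ℝ) + ((2706156 : ℝ) * (y9 : ℝ) + ((1369600 : ℝ) * (y10 : ℝ) + ((4683200 : ℝ) * (y11 : ℝ) + ((15350800 : ℝ) * (y12 : ℝ) + ((25600000 : ℝ) * (y13 : ℝ) + 0)))))))))))))) + (l1 ^ 4 * l2 ^ 0 * l3 ^ 1) * ((5 : ℝ) * (y0 : ℝ) + ((80 : ℝ) * (y1 : ℝ) + ((208 : ℝ) * (y2 : ℝ) + ((1280 : ℝ) * (y3 : ℝ) + ((3328 : ℝ) * (y4 : ℝ) + ((8496 : ℝ) * (y5 : ℝ) + ((20480 : ℝ) * (y6 : ℝ) + ((53248 : ℝ) * (y7 : ℝ) + ((135936 : ℝ) *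 (y8 : ℝ) + ((342144 : ℝ) * (y9 : ℝ) + ((327680 : ℝ) * (y10 : ℝ) + ((851968 : ℝ) * (y11 : ℝ) + ((2174976 : ℝ) * (y12 : ℝ) + ((5242880 : ℝ) * (y13 : ℝ) + 0)))))))))))))) + (l1 ^ 4 * l2 ^ 1 * l3 ^ 0) * ((5 : ℝ) * (y0 : ℝ) + ((89 : ℝ) * (y1 : ℝ) + ((269 : ℝ) * (y2 : ℝ) + ((1568 : ℝ) * (y3 : ℝ) + ((4628 : ℝ) * (y4 : ℝ) + ((12888 : ℝ) * (y5 : ℝ) + ((27392 : ℝ) * (y6 : ℝ) + ((79232 : ℝ) * (y7 : ℝ) + ((217872 : ℝ) * (y8 : ℝ) + ((579312 : ℝ) * (y9 : ℝ) + ((475136 : ℝ) * (y10 : ℝ) + ((1350656 : ℝ) * (y11 : ℝ) + ((3672576 : ℝ) * (y12 : ℝ) + ((8192000 : ℝ) * (y13 : ℝ) + 0)))))))))))))) + (l1 ^ 5 * l2 ^ 0 * l3 ^ 0) * ((1 : ℝ) * (y0 : ℝ) + ((16 : ℝ) * (y1 : ℝ) + ((36 : ℝ) * (y2 : ℝ) + ((256 : ℝ) * (y3 : ℝ) + ((576 : ℝ) * (y4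 : ℝ) + ((1296 : ℝ) * (y5 : ℝ) + ((4096 : ℝ) * (y6 : ℝ) + ((9216 : ℝ) * (y7 : ℝ) + ((20736 : ℝ) * (y8 : ℝ) + ((46656 : ℝ) * (y9 : ℝ) + ((65536 : ℝ) * (y10 : ℝ) + ((147456 : ℝ) * (y11 : ℝ) + ((331776 : ℝ) * (y12 : ℝ) + ((1048576 : ℝ) * (y13 : ℝ) + 0)))))))))))))) := by
    have hl3 : l3 = 1 - l1 - l2 := by linarith
    subst hl3
    unfold evalRow
    ring
  rw [key]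
  exact add_nonneg (add_nonneg (add_nonneg (add_nonneg (add_nonneg (add_nonneg (add_nonneg (add_nonneg (add_nonneg (add_nonneg (add_nonneg (add_nonneg (add_nonneg (add_nonneg (add_nonneg (add_nonneg (add_nonneg (add_nonneg (add_nonneg (add_nonneg (mul_nonneg (by positivity) H0) (mul_nonneg (by positivity) H1)) (mul_nonneg (by positivity) H2)) (mul_nonneg (by positivity) H3)) (mul_nonneg (by positivity) H4)) (mul_nonneg (by positivity) H5)) (mul_nonneg (by positivity) H6)) (mul_nonneg (by positivity) H7)) (mul_nonneg (by positivity) H8)) (mul_nonneg (by positivity) H9)) (mul_nonneg (by positivity) H10)) (mul_nonneg (by positivity) H11)) (mul_nonneg (by positivity) H12)) (mul_nonneg (by positivity) H13)) (mul_nonneg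 (by positivity) H14)) (mul_nonneg (by positivity) H15)) (mul_nonneg (by positivity) H16)) (mul_nonneg (by positivity) H17)) (mul_nonneg (by positivity) H18)) (mul_nonneg (by positivity) H19)) (mul_nonneg (by positivity) H20)

set_option maxHeartbeats 8000000 in
theorem tri9 (y0 y1 y2 y3 y4 y5 y6 y7 y8 y9 y10 y11 y12 y13 : ℤ) (h : (BT9.all fun r => decide (0 ≤ dotI r [y0, y1, y2, y3, y4, y5, y6, y7, y8, y9, y10, y11, y12, y13])) = true)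
    (l1 l2 l3 : ℝ) (h1 : 0 ≤ l1) (h2 : 0 ≤ l2) (h3 : 0 ≤ l3) (hs : l1 + l2 + l3 = 1) :
    0 ≤ evalRow y0 y1 y2 y3 y4 y5 y6 y7 y8 y9 y10 y11 y12 y13 (l1 * (25) + l2 * (36) + l3 * (25)) (l1 * (117) + l2 * (216) + l3 * (125)) := by
  simp only [BT9, List.all_cons, List.all_nil, Bool.and_true, Bool.and_eq_true, decide_eq_true_eq, dotI] at h
  obtain ⟨h0, h1, h2, h3, h4, h5, h6, h7, h8, h9, h10, h11, h12, h13, h14, h15, h16, h17, h18, h19, h20⟩ := h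
  have H0 : (0 : ℝ) ≤ (1 : ℝ) * (y0 : ℝ) + ((25 : ℝ) * (y1 : ℝ) + ((125 : ℝ) * (y2 : ℝ) + ((625 : ℝ) * (y3 : ℝ) + ((3125 : ℝ) * (y4 : ℝ) + ((15625 : ℝ) * (y5 : ℝ) + ((15625 : ℝ) * (y6 : ℝ) + ((78125 : ℝ) * (y7 : ℝ) + ((390625 : ℝ) * (y8 : ℝ) + ((1953125 : ℝ) * (y9 : ℝ) + ((390625 : ℝ) * (y10 : ℝ) + ((1953125 : ℝ) * (y11 : ℝ) + ((9765625 : ℝ) * (y12 : ℝ) + ((9765625 : ℝ) * (y13 : ℝ) + 0))))))))))))) := by exact_mod_cast h0;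
  have H1 : (0 : ℝ) ≤ (5 : ℝ) * (y0 : ℝ) + ((136 : ℝ) * (y1 : ℝ) + ((716 : ℝ) * (y2 : ℝ) + ((3675 : ℝ) * (y3 : ℝ) + ((19275 : ℝ) * (y4 : ℝ) + ((100875 : ℝ) * (y5 : ℝ) + ((98750 : ℝ) * (y6 : ℝ) + ((516250 : ℝ) * (y7 : ℝ) + ((2693750 : ℝ) * (y8 : ℝ) + ((14031250 : ℝ) * (y9 : ℝ) + ((2640625 : ℝ) * (y10 : ℝ) + ((13765625 : ℝ) * (y11 : ℝ) + ((71640625 : ℝ) * (y12 : ℝ) + ((70312500 : ℝ) * (y13 : ℝ) + 0))))))))))))) := by exact_mod_cast h1;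
  have H2 : (0 : ℝ) ≤ (10 : ℝ) * (y0 : ℝ) + ((294 : ℝ) * (y1 : ℝ) + ((1614 : ℝ) * (y2 : ℝ) + ((8571 : ℝ) * (y3 : ℝ) + ((46851 : ℝ) * (y4 : ℝ) + ((255531 : ℝ) * (y5 : ℝ) + ((247825 : ℝ) * (y6 : ℝ) + ((1348925 : ℝ) * (y7 : ℝ) + ((7326025 : ℝ) * (y8 : ℝ) + ((39699125 : ℝ) * (y9 : ℝ) + ((7110000 : ℝ) * (y10 : ℝ) + ((38542500 : ℝ) * (y11 : ℝ) + ((208485000 : ℝ) * (y12 : ℝ) + ((202500000 : ℝ) * (y13 : ℝ) + 0))))))))))))) := by exact_mod_cast h2;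
  have H3 : (0 : ℝ) ≤ (10 : ℝ) * (y0 : ℝ) + ((316 : ℝ) * (y1 : ℝ) + ((1796 : ℝ) * (y2 : ℝ) + ((9913 : ℝ) * (y3 : ℝ) + ((56153 : ℝ) * (y4 : ℝ) + ((317593 : ℝ) * (y5 : ℝ) + ((308556 : ℝ) * (y6 : ℝ) + ((1741536 : ℝ) * (y7 : ℝ) + ((9812916 : ℝ) * (y8 : ℝ) + ((55194696 : ℝ) * (y9 : ℝ) + ((9525600 : ℝ) * (y10 : ℝ) + ((53557200 : ℝ) * (y11 : ℝ) + ((300574800 : ℝ) * (y12 : ℝ) + ((291600000 : ℝ) * (y13 : ℝ) + 0))))))))))))) := by exact_mod_cast h3;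
  have H4 : (0 : ℝ) ≤ (5 : ℝ) * (y0 : ℝ) + ((169 : ℝ) * (y1 : ℝ) + ((989 : ℝ) * (y2 : ℝ) + ((5688 : ℝ) * (y3 : ℝ) + ((33228 : ℝ) * (y4 : ℝ) + ((193968 : ℝ) * (y5 : ℝ) + ((190512 : ℝ) * (y6 : ℝ) + ((1110672 : ℝ) * (y7 : ℝ) + ((6469632 : ℝ) * (y8 : ℝ) + ((37651392 : ℝ) * (y9 : ℝ) + ((6345216 : ℝ) * (y10 : ℝ) + ((36904896 : ℝ) * (y11 : ℝ) + ((214430976 : ℝ) * (y12 : ℝ) + ((209952000 : ℝ) * (y13 : ℝ) + 0))))))))))))) := by exact_mod_cast h4;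
  have H5 : (0 : ℝ) ≤ (1 : ℝ) * (y0 : ℝ) + ((36 : ℝ) * (y1 : ℝ) + ((216 : ℝ) * (y2 : ℝ) + ((1296 : ℝ) * (y3 : ℝ) + ((7776 : ℝ) * (y4 : ℝ) + ((46656 : ℝ) * (y5 : ℝ) + ((46656 : ℝ) * (y6 : ℝ) + ((279936 : ℝ) * (y7 : ℝ) + ((1679616 : ℝ) * (y8 : ℝ) + ((10077696 : ℝ) * (y9 : ℝ) + ((1679616 : ℝ) * (y10 : ℝ) + ((10077696 : ℝ) * (y11 : ℝ) + ((60466176 : ℝ) * (y12 : ℝ) + ((60466176 : ℝ) * (y13 : ℝ) + 0))))))))))))) := by exact_mod_cast h5;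
  have H6 : (0 : ℝ) ≤ (5 : ℝ) * (y0 : ℝ) + ((125 : ℝ) * (y1 : ℝ) + ((617 : ℝ) * (y2 : ℝ) + ((3125 : ℝ) * (y3 : ℝ) + ((15425 : ℝ) * (y4 : ℝ) + ((76125 : ℝ) * (y5 : ℝ) + ((78125 : ℝ) * (y6 : ℝ) + ((385625 : ℝ) * (y7 : ℝ) + ((1903125 : ℝ) * (y8 : ℝ) + ((9390625 : ℝ) * (y9 : ℝ) + ((1953125 : ℝ) * (y10 : ℝ) + ((9640625 : ℝ) * (y11 : ℝ) + ((47578125 : ℝ) * (y12 : ℝ) + ((48828125 : ℝ) * (y13 : ℝ) + 0))))))))))))) := by exact_mod_cast h6;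
  have H7 : (0 : ℝ) ≤ (20 : ℝ) * (y0 : ℝ) + ((544 : ℝ) * (y1 : ℝ) + ((2832 : ℝ) * (y2 : ℝ) + ((14700 : ℝ) * (y3 : ℝ) + ((76212 : ℝ) * (y4 : ℝ) + ((394044 : ℝ) * (y5 : ℝ) + ((395000 : ℝ) * (y6 : ℝ) + ((2040600 : ℝ) * (y7 : ℝ) + ((10516600 : ℝ) * (y8 : ℝ) + ((54079000 : ℝ) * (y9 : ℝ) + ((10562500 : ℝ) * (y10 : ℝ) + ((54397500 : ℝ) * (y11 : ℝ) + ((279552500 : ℝ) * (y12 : ℝ) + ((281250000 : ℝ) * (y13 : ℝ) + 0))))))))))))) := by exact_mod_cast h7;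
  have H8 : (0 : ℝ) ≤ (30 : ℝ) * (y0 : ℝ) + ((882 : ℝ) * (y1 : ℝ) + ((4794 : ℝ) * (y2 : ℝ) + ((25713 : ℝ) * (y3 : ℝ) + ((139089 : ℝ) * (y4 : ℝ) + ((750225 : ℝ) * (y5 : ℝ) + ((743475 : ℝ) * (y6 : ℝ) + ((4002607 : ℝ) * (y7 : ℝ) + ((21486859 : ℝ) * (y8 : ℝ) + ((115010631 : ℝ) * (y9 : ℝ) + ((21330000 : ℝ) * (y10 : ℝ) + ((114309900 : ℝ) * (y11 : ℝ) + ((610882200 : ℝ) * (y12 : ℝ) + ((607500000 : ℝ) * (y13 : ℝ) + 0))))))))))))) := by exact_mod_cast h8;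
  have H9 : (0 : ℝ) ≤ (20 : ℝ) * (y0 : ℝ) + ((632 : ℝ) * (y1 : ℝ) + ((3560 : ℝ) * (y2 : ℝ) + ((19826 : ℝ) * (y3 : ℝ) + ((111242 : ℝ) * (y4 : ℝ) + ((622818 : ℝ) * (y5 : ℝ) + ((617112 : ℝ) * (y6 : ℝ) + ((3447936 : ℝ) * (y7 : ℝ) + ((19218600 : ℝ) * (y8 : ℝ) + ((106853904 : ℝ) * (y9 : ℝ) + ((19051200 : ℝ) * (y10 : ℝ) + ((105963552 : ℝ) * (y11 : ℝ) + ((587857824 : ℝ) * (y12 : ℝ) + ((583200000 : ℝ) * (y13 : ℝ) + 0))))))))))))) := by exact_mod_cast h9;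
  have H10 : (0 : ℝ) ≤ (5 : ℝ) * (y0 : ℝ) + ((169 : ℝ) * (y1 : ℝ) + ((981 : ℝ) * (y2 : ℝ) + ((5688 : ℝ) * (y3 : ℝ) + ((32940 : ℝ) * (y4 : ℝ) + ((190512 : ℝ) * (y5 : ℝ) + ((190512 : ℝ) * (y6 : ℝ) + ((1100304 : ℝ) * (y7 : ℝ) + ((6345216 : ℝ) * (y8 : ℝ) + ((36531648 : ℝ) * (y9 : ℝ) + ((6345216 : ℝ) * (y10 : ℝ) + ((36531648 : ℝ) * (y11 : ℝ) + ((209952000 : ℝ) * (y12 : ℝ) + ((209952000 : ℝ) * (y13 : ℝ) + 0))))))))))))) := by exact_mod_cast h10;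
  have H11 : (0 : ℝ) ≤ (10 : ℝ) * (y0 : ℝ) + ((250 : ℝ) * (y1 : ℝ) + ((1218 : ℝ) * (y2 : ℝ) + ((6250 : ℝ) * (y3 : ℝ) + ((30450 : ℝ) * (y4 : ℝ) + ((148314 : ℝ) * (y5 : ℝ) + ((156250 : ℝ) * (y6 : ℝ) + ((761250 : ℝ) * (y7 : ℝ) + ((3707850 : ℝ) * (y8 : ℝ) + ((18055250 : ℝ) * (y9 : ℝ) + ((3906250 : ℝ) * (y10 : ℝ) + ((19031250 : ℝ) * (y11 : ℝ) + ((92696250 : ℝ) * (y12 : ℝ) + ((97656250 : ℝ) * (y13 : ℝ) + 0))))))))))))) := by exact_mod_cast h11;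
  have H12 : (0 : ℝ) ≤ (30 : ℝ) * (y0 : ℝ) + ((816 : ℝ) * (y1 : ℝ) + ((4200 : ℝ) * (y2 : ℝ) + ((22050 : ℝ) * (y3 : ℝ) + ((112986 : ℝ) * (y4 : ℝ) + ((577074 : ℝ) * (y5 : ℝ) + ((592500 : ℝ) * (y6 : ℝ) + ((3024300 : ℝ) * (y7 : ℝ) + ((15392804 : ℝ) * (y8 : ℝ) + ((78138972 : ℝ) * (y9 : ℝ) + ((15843750 : ℝ) * (y10 : ℝ) + ((80598750 : ℝ) * (y11 : ℝ) + ((408968950 : ℝ) * (y12 : ℝ) + ((421875000 : ℝ) * (y13 : ℝ) + 0))))))))))))) := by exact_mod_cast h12;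
  have H13 : (0 : ℝ) ≤ (30 : ℝ) * (y0 : ℝ) + ((882 : ℝ) * (y1 : ℝ) + ((4746 : ℝ) * (y2 : ℝ) + ((25713 : ℝ) * (y3 : ℝ) + ((137625 : ℝ) * (y4 : ℝ) + ((734049 : ℝ) * (y5 : ℝ) + ((743475 : ℝ) * (y6 : ℝ) + ((3958439 : ℝ) * (y7 : ℝ) + ((21001851 : ℝ) * (y8 : ℝ) + ((111030831 : ℝ) * (y9 : ℝ) + ((21330000 : ℝ) * (y10 : ℝ) + ((112992300 : ℝ) * (y11 : ℝ) + ((596507544 : ℝ) * (y12 : ℝ) + ((607500000 : ℝ) * (y13 : ℝ) + 0))))))))))))) := by exact_mod_cast h13;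
  have H14 : (0 : ℝ) ≤ (10 : ℝ) * (y0 : ℝ) + ((316 : ℝ) * (y1 : ℝ) + ((1764 : ℝ) * (y2 : ℝ) + ((9913 : ℝ) * (y3 : ℝ) + ((55089 : ℝ) * (y4 : ℝ) + ((305289 : ℝ) * (y5 : ℝ) + ((308556 : ℝ) * (y6 : ℝ) + ((1706400 : ℝ) * (y7 : ℝ) + ((9407988 : ℝ) * (y8 : ℝ) + ((51700680 : ℝ) * (y9 : ℝ) + ((9525600 : ℝ) * (y10 : ℝ) + ((52406352 : ℝ) * (y11 : ℝ) + ((287365968 : ℝ) * (y12 : ℝ) + ((291600000 : ℝ) * (y13 : ℝ) + 0))))))))))))) := by exact_mod_cast h14;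
  have H15 : (0 : ℝ) ≤ (10 : ℝ) * (y0 : ℝ) + ((250 : ℝ) * (y1 : ℝ) + ((1202 : ℝ) * (y2 : ℝ) + ((6250 : ℝ) * (y3 : ℝ) + ((30050 : ℝ) * (y4 : ℝ) + ((144442 : ℝ) * (y5 : ℝ) + ((156250 : ℝ) * (y6 : ℝ) + ((751250 : ℝ) * (y7 : ℝ) + ((3611050 : ℝ) * (y8 : ℝ) + ((17352738 : ℝ) * (y9 : ℝ) + ((3906250 : ℝ) * (y10 : ℝ) + ((18781250 : ℝ) * (y11 : ℝ) + ((90276250 : ℝ) * (y12 : ℝ) + ((97656250 : ℝ) * (y13 : ℝ) + 0))))))))))))) := by exact_mod_cast h15;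
  have H16 : (0 : ℝ) ≤ (20 : ℝ) * (y0 : ℝ) + ((544 : ℝ) * (y1 : ℝ) + ((2768 : ℝ) * (y2 : ℝ) + ((14700 : ℝ) * (y3 : ℝ) + ((74436 : ℝ) * (y4 : ℝ) + ((375516 : ℝ) * (y5 : ℝ) + ((395000 : ℝ) * (y6 : ℝ) + ((1991800 : ℝ) * (y7 : ℝ) + ((10010808 : ℝ) * (y8 : ℝ) + ((50164920 : ℝ) * (y9 : ℝ) + ((10562500 : ℝ) * (y10 : ℝ) + ((53067500 : ℝ) * (y11 : ℝ) + ((265842900 : ℝ) * (y12 : ℝ) + ((281250000 : ℝ) * (y13 : ℝ) + 0))))))))))))) := by exact_mod_cast h16;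
  have H17 : (0 : ℝ) ≤ (10 : ℝ) * (y0 : ℝ) + ((294 : ℝ) * (y1 : ℝ) + ((1566 : ℝ) * (y2 : ℝ) + ((8571 : ℝ) * (y3 : ℝ) + ((45387 : ℝ) * (y4 : ℝ) + ((239355 : ℝ) * (y5 : ℝ) + ((247825 : ℝ) * (y6 : ℝ) + ((1304757 : ℝ) * (y7 : ℝ) + ((6841017 : ℝ) * (y8 : ℝ) + ((35718813 : ℝ) * (y9 : ℝ) + ((7110000 : ℝ) * (y10 : ℝ) + ((37224900 : ℝ) * (y11 : ℝ) + ((194110344 : ℝ) * (y12 : ℝ) + ((202500000 : ℝ) * (y13 : ℝ) + 0))))))))))))) := by exact_mod_cast h17;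
  have H18 : (0 : ℝ) ≤ (5 : ℝ) * (y0 : ℝ) + ((125 : ℝ) * (y1 : ℝ) + ((593 : ℝ) * (y2 : ℝ) + ((3125 : ℝ) * (y3 : ℝ) + ((14825 : ℝ) * (y4 : ℝ) + ((70317 : ℝ) * (y5 : ℝ) + ((78125 : ℝ) * (y6 : ℝ) + ((370625 : ℝ) * (y7 : ℝ) + ((1757925 : ℝ) * (y8 : ℝ) + ((8336601 : ℝ) * (y9 : ℝ) + ((1953125 : ℝ) * (y10 : ℝ) + ((9265625 : ℝ) * (y11 : ℝ) + ((43948125 : ℝ) * (y12 : ℝ) + ((48828125 : ℝ) * (y13 : ℝ) + 0))))))))))))) := by exact_mod_cast h18;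
  have H19 : (0 : ℝ) ≤ (5 : ℝ) * (y0 : ℝ) + ((136 : ℝ) * (y1 : ℝ) + ((684 : ℝ) * (y2 : ℝ) + ((3675 : ℝ) * (y3 : ℝ) + ((18387 : ℝ) * (y4 : ℝ) + ((91611 : ℝ) * (y5 : ℝ) + ((98750 : ℝ) * (y6 : ℝ) + ((491850 : ℝ) * (y7 : ℝ) + ((2440854 : ℝ) * (y8 : ℝ) + ((12073698 : ℝ) * (y9 : ℝ) + ((2640625 : ℝ) * (y10 : ℝ) + ((13100625 : ℝ) * (y11 : ℝ) + ((64785825 : ℝ) * (y12 : ℝ) + ((70312500 : ℝ) * (y13 : ℝ) + 0))))))))))))) := by exact_mod_cast h19;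
  have H20 : (0 : ℝ) ≤ (1 : ℝ) * (y0 : ℝ) + ((25 : ℝ) * (y1 : ℝ) + ((117 : ℝ) * (y2 : ℝ) + ((625 : ℝ) * (y3 : ℝ) + ((2925 : ℝ) * (y4 : ℝ) + ((13689 : ℝ) * (y5 : ℝ) + ((15625 : ℝ) * (y6 : ℝ) + ((73125 : ℝ) * (y7 : ℝ) + ((342225 : ℝ) * (y8 : ℝ) + ((1601613 : ℝ) * (y9 : ℝ) + ((390625 : ℝ) * (y10 : ℝ) + ((1828125 : ℝ) * (y11 : ℝ) + ((8555625 : ℝ) * (y12 : ℝ) + ((9765625 : ℝ) * (y13 : ℝ) + 0))))))))))))) := by exact_mod_cast h20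
  have key : evalRow y0 y1 y2 y3 y4 y5 y6 y7 y8 y9 y10 y11 y12 y13 (l1 * (25) + l2 * (36) + l3 * (25)) (l1 * (117) + l2 * (216) + l3 * (125)) = (l1 ^ 0 * l2 ^ 0 * l3 ^ 5) * ((1 : ℝ) * (y0 : ℝ) + ((25 : ℝ) * (y1 : ℝ) + ((125 : ℝ) * (y2 : ℝ) + ((625 : ℝ) * (y3 : ℝ) + ((3125 : ℝ) * (y4 : ℝ) + ((15625 : ℝ) * (y5 : ℝ) + ((15625 : ℝ) * (y6 : ℝ) + ((78125 : ℝ) * (y7 : ℝ) + ((390625 : ℝ) * (y8 : ℝ) + ((1953125 : ℝ) * (y9 : ℝ) + ((390625 : ℝ) * (y10 : ℝ) + ((1953125 : ℝ) * (y11 : ℝ) + ((9765625 : ℝ) * (y12 : ℝ) + ((9765625 : ℝ) * (y13 : ℝ) + 0)))))))))))))) + (l1 ^ 0 * l2 ^ 1 * l3 ^ 4) * ((5 : ℝ) * (y0 : ℝ) + ((136 : ℝ) * (y1 : ℝ) + ((716 : ℝ) * (y2 : ℝ) + ((3675 : ℝ) * (y3 : ℝ) + ((19275 : ℝ) * (y4 : ℝ) + ((100875 : ℝ)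 * (y5 : ℝ) + ((98750 : ℝ) * (y6 : ℝ) + ((516250 : ℝ) * (y7 : ℝ) + ((2693750 : ℝ) * (y8 : ℝ) + ((14031250 : ℝ) * (y9 : ℝ) + ((2640625 : ℝ) * (y10 : ℝ) + ((13765625 : ℝ) * (y11 : ℝ) + ((71640625 : ℝ) * (y12 : ℝ) + ((70312500 : ℝ) * (y13 : ℝ) + 0)))))))))))))) + (l1 ^ 0 * l2 ^ 2 * l3 ^ 3) * ((10 : ℝ) * (y0 : ℝ) + ((294 : ℝ) * (y1 : ℝ) + ((1614 : ℝ) * (y2 : ℝ) + ((8571 : ℝ) * (y3 : ℝ) + ((46851 : ℝ) * (y4 : ℝ) + ((255531 : ℝ) * (y5 : ℝ) + ((247825 : ℝ) * (y6 : ℝ) + ((1348925 : ℝ) * (y7 : ℝ) + ((7326025 : ℝ) * (y8 : ℝ) + ((39699125 : ℝ) * (y9 : ℝ) + ((7110000 : ℝ) * (y10 : ℝ) + ((38542500 : ℝ) * (y11 : ℝ) + ((208485000 : ℝ) * (y12 : ℝ) + ((202500000 : ℝ) * (y13 : ℝ) + 0)))))))))))))) + (l1 ^ 0 * l2 ^ 3 * l3 ^ 2) * ((10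 : ℝ) * (y0 : ℝ) + ((316 : ℝ) * (y1 : ℝ) + ((1796 : ℝ) * (y2 : ℝ) + ((9913 : ℝ) * (y3 : ℝ) + ((56153 : ℝ) * (y4 : ℝ) + ((317593 : ℝ) * (y5 : ℝ) + ((308556 : ℝ) * (y6 : ℝ) + ((1741536 : ℝ) * (y7 : ℝ) + ((9812916 : ℝ) * (y8 : ℝ) + ((55194696 : ℝ) * (y9 : ℝ) + ((9525600 : ℝ) * (y10 : ℝ) + ((53557200 : ℝ) * (y11 : ℝ) + ((300574800 : ℝ) * (y12 : ℝ) + ((291600000 : ℝ) * (y13 : ℝ) + 0)))))))))))))) + (l1 ^ 0 * l2 ^ 4 * l3 ^ 1) * ((5 : ℝ) * (y0 : ℝ) + ((169 : ℝ) * (y1 : ℝ) + ((989 : ℝ) * (y2 : ℝ) + ((5688 : ℝ) * (y3 : ℝ) + ((33228 : ℝ) * (y4 : ℝ) + ((193968 : ℝ) * (y5 : ℝ) + ((190512 : ℝ) * (y6 : ℝ) + ((1110672 : ℝ) * (y7 : ℝ) + ((6469632 : ℝ) * (y8 : ℝ) + ((37651392 : ℝ) * (y9 : ℝ) + ((6345216 : ℝ) * (y10 : ℝ) + ((36904896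 : ℝ) * (y11 : ℝ) + ((214430976 : ℝ) * (y12 : ℝ) + ((209952000 : ℝ) * (y13 : ℝ) + 0)))))))))))))) + (l1 ^ 0 * l2 ^ 5 * l3 ^ 0) * ((1 : ℝ) * (y0 : ℝ) + ((36 : ℝ) * (y1 : ℝ) + ((216 : ℝ) * (y2 : ℝ) + ((1296 : ℝ) * (y3 : ℝ) + ((7776 : ℝ) * (y4 : ℝ) + ((46656 : ℝ) * (y5 : ℝ) + ((46656 : ℝ) * (y6 : ℝ) + ((279936 : ℝ) * (y7 : ℝ) + ((1679616 : ℝ) * (y8 : ℝ) + ((10077696 : ℝ) * (y9 : ℝ) + ((1679616 : ℝ) * (y10 : ℝ) + ((10077696 : ℝ) * (y11 : ℝ) + ((60466176 : ℝ) * (y12 : ℝ) + ((60466176 : ℝ) * (y13 : ℝ) + 0)))))))))))))) + (l1 ^ 1 * l2 ^ 0 * l3 ^ 4) * ((5 : ℝ) * (y0 : ℝ) + ((125 : ℝ) * (y1 : ℝ) + ((617 : ℝ) * (y2 : ℝ) + ((3125 : ℝ) * (y3 : ℝ) + ((15425 : ℝ) * (y4 : ℝ) + ((76125 : ℝ) * (y5 : ℝ) + ((78125 : ℝ) * (y6 : ℝ) +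 ((385625 : ℝ) * (y7 : ℝ) + ((1903125 : ℝ) * (y8 : ℝ) + ((9390625 : ℝ) * (y9 : ℝ) + ((1953125 : ℝ) * (y10 : ℝ) + ((9640625 : ℝ) * (y11 : ℝ) + ((47578125 : ℝ) * (y12 : ℝ) + ((48828125 : ℝ) * (y13 : ℝ) + 0)))))))))))))) + (l1 ^ 1 * l2 ^ 1 * l3 ^ 3) * ((20 : ℝ) * (y0 : ℝ) + ((544 : ℝ) * (y1 : ℝ) + ((2832 : ℝ) * (y2 : ℝ) + ((14700 : ℝ) * (y3 : ℝ) + ((76212 : ℝ) * (y4 : ℝ) + ((394044 : ℝ) * (y5 : ℝ) + ((395000 : ℝ) * (y6 : ℝ) + ((2040600 : ℝ) * (y7 : ℝ) + ((10516600 : ℝ) * (y8 : ℝ) + ((54079000 : ℝ) * (y9 : ℝ) + ((10562500 : ℝ) * (y10 : ℝ) + ((54397500 : ℝ) * (y11 : ℝ) + ((279552500 : ℝ) * (y12 : ℝ) + ((281250000 : ℝ) * (y13 : ℝ) + 0)))))))))))))) + (l1 ^ 1 * l2 ^ 2 * l3 ^ 2) * ((30 : ℝ) * (y0 : ℝ) + ((882 : ℝ) * (y1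 : ℝ) + ((4794 : ℝ) * (y2 : ℝ) + ((25713 : ℝ) * (y3 : ℝ) + ((139089 : ℝ) * (y4 : ℝ) + ((750225 : ℝ) * (y5 : ℝ) + ((743475 : ℝ) * (y6 : ℝ) + ((4002607 : ℝ) * (y7 : ℝ) + ((21486859 : ℝ) * (y8 : ℝ) + ((115010631 : ℝ) * (y9 : ℝ) + ((21330000 : ℝ) * (y10 : ℝ) + ((114309900 : ℝ) * (y11 : ℝ) + ((610882200 : ℝ) * (y12 : ℝ) + ((607500000 : ℝ) * (y13 : ℝ) + 0)))))))))))))) + (l1 ^ 1 * l2 ^ 3 * l3 ^ 1) * ((20 : ℝ) * (y0 : ℝ) + ((632 : ℝ) * (y1 : ℝ) + ((3560 : ℝ) * (y2 : ℝ) + ((19826 : ℝ) * (y3 : ℝ) + ((111242 : ℝ) * (y4 : ℝ) + ((622818 : ℝ) * (y5 : ℝ) + ((617112 : ℝ) * (y6 : ℝ) + ((3447936 : ℝ) * (y7 : ℝ) + ((19218600 : ℝ) * (y8 : ℝ) + ((106853904 : ℝ) * (y9 : ℝ) + ((19051200 : ℝ) * (y10 : ℝ) + ((105963552 : ℝ) * (y11 : ℝ)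 + ((587857824 : ℝ) * (y12 : ℝ) + ((583200000 : ℝ) * (y13 : ℝ) + 0)))))))))))))) + (l1 ^ 1 * l2 ^ 4 * l3 ^ 0) * ((5 : ℝ) * (y0 : ℝ) + ((169 : ℝ) * (y1 : ℝ) + ((981 : ℝ) * (y2 : ℝ) + ((5688 : ℝ) * (y3 : ℝ) + ((32940 : ℝ) * (y4 : ℝ) + ((190512 : ℝ) * (y5 : ℝ) + ((190512 : ℝ) * (y6 : ℝ) + ((1100304 : ℝ) * (y7 : ℝ) + ((6345216 : ℝ) * (y8 : ℝ) + ((36531648 : ℝ) * (y9 : ℝ) + ((6345216 : ℝ) * (y10 : ℝ) + ((36531648 : ℝ) * (y11 : ℝ) + ((209952000 : ℝ) * (y12 : ℝ) + ((209952000 : ℝ) * (y13 : ℝ) + 0)))))))))))))) + (l1 ^ 2 * l2 ^ 0 * l3 ^ 3) * ((10 : ℝ) * (y0 : ℝ) + ((250 : ℝ) * (y1 : ℝ) + ((1218 : ℝ) * (y2 : ℝ) + ((6250 : ℝ) * (y3 : ℝ) + ((30450 : ℝ) * (y4 : ℝ) + ((148314 : ℝ) * (y5 : ℝ) + ((156250 : ℝ) * (y6 : ℝ) + ((761250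 : ℝ) * (y7 : ℝ) + ((3707850 : ℝ) * (y8 : ℝ) + ((18055250 : ℝ) * (y9 : ℝ) + ((3906250 : ℝ) * (y10 : ℝ) + ((19031250 : ℝ) * (y11 : ℝ) + ((92696250 : ℝ) * (y12 : ℝ) + ((97656250 : ℝ) * (y13 : ℝ) + 0)))))))))))))) + (l1 ^ 2 * l2 ^ 1 * l3 ^ 2) * ((30 : ℝ) * (y0 : ℝ) + ((816 : ℝ) * (y1 : ℝ) + ((4200 : ℝ) * (y2 : ℝ) + ((22050 : ℝ) * (y3 : ℝ) + ((112986 : ℝ) * (y4 : ℝ) + ((577074 : ℝ) * (y5 : ℝ) + ((592500 : ℝ) * (y6 : ℝ) + ((3024300 : ℝ) * (y7 : ℝ) + ((15392804 : ℝ) * (y8 : ℝ) + ((78138972 : ℝ) * (y9 : ℝ) + ((15843750 : ℝ) * (y10 : ℝ) + ((80598750 : ℝ) * (y11 : ℝ) + ((408968950 : ℝ) * (y12 : ℝ) + ((421875000 : ℝ) * (y13 : ℝ) + 0)))))))))))))) + (l1 ^ 2 * l2 ^ 2 * l3 ^ 1) * ((30 : ℝ) * (y0 : ℝ) + ((882 : ℝ) * (y1 : ℝ) +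 ((4746 : ℝ) * (y2 : ℝ) + ((25713 : ℝ) * (y3 : ℝ) + ((137625 : ℝ) * (y4 : ℝ) + ((734049 : ℝ) * (y5 : ℝ) + ((743475 : ℝ) * (y6 : ℝ) + ((3958439 : ℝ) * (y7 : ℝ) + ((21001851 : ℝ) * (y8 : ℝ) + ((111030831 : ℝ) * (y9 : ℝ) + ((21330000 : ℝ) * (y10 : ℝ) + ((112992300 : ℝ) * (y11 : ℝ) + ((596507544 : ℝ) * (y12 : ℝ) + ((607500000 : ℝ) * (y13 : ℝ) + 0)))))))))))))) + (l1 ^ 2 * l2 ^ 3 * l3 ^ 0) * ((10 : ℝ) * (y0 : ℝ) + ((316 : ℝ) * (y1 : ℝ) + ((1764 : ℝ) * (y2 : ℝ) + ((9913 : ℝ) * (y3 : ℝ) + ((55089 : ℝ) * (y4 : ℝ) + ((305289 : ℝ) * (y5 : ℝ) + ((308556 : ℝ) * (y6 : ℝ) + ((1706400 : ℝ) * (y7 : ℝ) + ((9407988 : ℝ) * (y8 : ℝ) + ((51700680 : ℝ) * (y9 : ℝ) + ((9525600 : ℝ) * (y10 : ℝ) + ((52406352 : ℝ) * (y11 : ℝ) + ((287365968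 : ℝ) * (y12 : ℝ) + ((291600000 : ℝ) * (y13 : ℝ) + 0)))))))))))))) + (l1 ^ 3 * l2 ^ 0 * l3 ^ 2) * ((10 : ℝ) * (y0 : ℝ) + ((250 : ℝ) * (y1 : ℝ) + ((1202 : ℝ) * (y2 : ℝ) + ((6250 : ℝ) * (y3 : ℝ) + ((30050 : ℝ) * (y4 : ℝ) + ((144442 : ℝ) * (y5 : ℝ) + ((156250 : ℝ) * (y6 : ℝ) + ((751250 : ℝ) * (y7 : ℝ) + ((3611050 : ℝ) * (y8 : ℝ) + ((17352738 : ℝ) * (y9 : ℝ) + ((3906250 : ℝ) * (y10 : ℝ) + ((18781250 : ℝ) * (y11 : ℝ) + ((90276250 : ℝ) * (y12 : ℝ) + ((97656250 : ℝ) * (y13 : ℝ) + 0)))))))))))))) + (l1 ^ 3 * l2 ^ 1 * l3 ^ 1) * ((20 : ℝ) * (y0 : ℝ) + ((544 : ℝ) * (y1 : ℝ) + ((2768 : ℝ) * (y2 : ℝ) + ((14700 : ℝ) * (y3 : ℝ) + ((74436 : ℝ) * (y4 : ℝ) + ((375516 : ℝ) * (y5 : ℝ) + ((395000 : ℝ) * (y6 : ℝ) + ((1991800 : ℝ) * (y7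 : ℝ) + ((10010808 : ℝ) * (y8 : ℝ) + ((50164920 : ℝ) * (y9 : ℝ) + ((10562500 : ℝ) * (y10 : ℝ) + ((53067500 : ℝ) * (y11 : ℝ) + ((265842900 : ℝ) * (y12 : ℝ) + ((281250000 : ℝ) * (y13 : ℝ) + 0)))))))))))))) + (l1 ^ 3 * l2 ^ 2 * l3 ^ 0) * ((10 : ℝ) * (y0 : ℝ) + ((294 : ℝ) * (y1 : ℝ) + ((1566 : ℝ) * (y2 : ℝ) + ((8571 : ℝ) * (y3 : ℝ) + ((45387 : ℝ) * (y4 : ℝ) + ((239355 : ℝ) * (y5 : ℝ) + ((247825 : ℝ) * (y6 : ℝ) + ((1304757 : ℝ) * (y7 : ℝ) + ((6841017 : ℝ) * (y8 : ℝ) + ((35718813 : ℝ) * (y9 : ℝ) + ((7110000 : ℝ) * (y10 : ℝ) + ((37224900 : ℝ) * (y11 : ℝ) + ((194110344 : ℝ) * (y12 : ℝ) + ((202500000 : ℝ) * (y13 : ℝ) + 0)))))))))))))) + (l1 ^ 4 * l2 ^ 0 * l3 ^ 1) * ((5 : ℝ) * (y0 : ℝ) + ((125 : ℝ) * (y1 : ℝ) + ((593 : ℝ)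 * (y2 : ℝ) + ((3125 : ℝ) * (y3 : ℝ) + ((14825 : ℝ) * (y4 : ℝ) + ((70317 : ℝ) * (y5 : ℝ) + ((78125 : ℝ) * (y6 : ℝ) + ((370625 : ℝ) * (y7 : ℝ) + ((1757925 : ℝ) * (y8 : ℝ) + ((8336601 : ℝ) * (y9 : ℝ) + ((1953125 : ℝ) * (y10 : ℝ) + ((9265625 : ℝ) * (y11 : ℝ) + ((43948125 : ℝ) * (y12 : ℝ) + ((48828125 : ℝ) * (y13 : ℝ) + 0)))))))))))))) + (l1 ^ 4 * l2 ^ 1 * l3 ^ 0) * ((5 : ℝ) * (y0 : ℝ) + ((136 : ℝ) * (y1 : ℝ) + ((684 : ℝ) * (y2 : ℝ) + ((3675 : ℝ) * (y3 : ℝ) + ((18387 : ℝ) * (y4 : ℝ) + ((91611 : ℝ) * (y5 : ℝ) + ((98750 : ℝ) * (y6 : ℝ) + ((491850 : ℝ) * (y7 : ℝ) + ((2440854 : ℝ) * (y8 : ℝ) + ((12073698 : ℝ) * (y9 : ℝ) + ((2640625 : ℝ) * (y10 : ℝ) + ((13100625 : ℝ) * (y11 : ℝ) + ((64785825 : ℝ) * (y12 : ℝ) + ((70312500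 : ℝ) * (y13 : ℝ) + 0)))))))))))))) + (l1 ^ 5 * l2 ^ 0 * l3 ^ 0) * ((1 : ℝ) * (y0 : ℝ) + ((25 : ℝ) * (y1 : ℝ) + ((117 : ℝ) * (y2 : ℝ) + ((625 : ℝ) * (y3 : ℝ) + ((2925 : ℝ) * (y4 : ℝ) + ((13689 : ℝ) * (y5 : ℝ) + ((15625 : ℝ) * (y6 : ℝ) + ((73125 : ℝ) * (y7 : ℝ) + ((342225 : ℝ) * (y8 : ℝ) + ((1601613 : ℝ) * (y9 : ℝ) + ((390625 : ℝ) * (y10 : ℝ) + ((1828125 : ℝ) * (y11 : ℝ) + ((8555625 : ℝ) * (y12 : ℝ) + ((9765625 : ℝ) * (y13 : ℝ) + 0)))))))))))))) := by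
    have hl3 : l3 = 1 - l1 - l2 := by linarith
    subst hl3
    unfold evalRow
    ring
  rw [key]
  exact add_nonneg (add_nonneg (add_nonneg (add_nonneg (add_nonneg (add_nonneg (add_nonneg (add_nonneg (add_nonneg (add_nonneg (add_nonneg (add_nonneg (add_nonneg (add_nonneg (add_nonneg (add_nonneg (add_nonneg (add_nonneg (add_nonneg (add_nonneg (mul_nonneg (by positivity) H0) (mul_nonneg (by positivity) H1)) (mul_nonneg (by positivity) H2)) (mul_nonneg (by positivity) H3)) (mul_nonneg (by positivity) H4)) (mul_nonneg (by positivity) H5)) (mul_nonneg (by positivity) H6)) (mul_nonneg (by positivity) H7)) (mul_nonneg (by positivity) H8)) (mul_nonneg (by positivity) H9)) (mul_nonneg (by positivity) H10)) (mul_nonneg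 (by positivity) H11)) (mul_nonneg (by positivity) H12)) (mul_nonneg (by positivity) H13)) (mul_nonneg (by positivity) H14)) (mul_nonneg (by positivity) H15)) (mul_nonneg (by positivity) H16)) (mul_nonneg (by positivity) H17)) (mul_nonneg (by positivity) H18)) (mul_nonneg (by positivity) H19)) (mul_nonneg (by positivity) H20)

end Crest.Agent.Lib.Bc.Q3
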