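import Crest.Agent.Lib.Bc.Compare
import Crest.Agent.Lib.Bc.Models
import Crest.Prelude.Def_Broadcast
/-!
# Row 163: S0244 reduced to the critical parameters.

`s0244_of_critical`: the full statement of S0244 follows from
* the `lam >= 0` part in both models (e.g. `Cert 3` via `Dir1.lean`);
* the single `b`-ary case `(b, lam) = (4, -1/2)` and the Poisson case `(d, lam) = (4, -1/2)`;
* the critical cases `lam = -1/sqrt b` for `b >= 5` and `lam = -1/sqrt d` for `d > 4`.

The reductions are helper69's `leaf_dominated`, `gw_dominated` and `tendsto_tvU_of_dominated`.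
-/
open scoped BigOperators
open Filter Topology
open Crest.ProbabilityR.Broadcast
namespace Crest.Agent.Lib.Bc

lemma channel3_nonneg {lam : ℝ} (h0 : -(1 / 2 : ℝ) ≤ lam) (h1 : lam ≤ 1) (i j : Fin 3) :
    0 ≤ channel 3 lam i j := by
  apply channel_nonneg (q := 3) (by norm_num) (Or.inl _) h1
  norm_num
  linarith

/-- `b`-ary comparison: if `|lam| <= mu`, `lam < 0`, `mu <= 1/2`, `b <= b'`, the advantage at
`(b, lam)` tends to `0` as soon as the advantage at `(b', -mu)` does. -/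
theorem advantage_tendsto_of_le {b b' : ℕ} (hb : b ≤ b') {lam mu : ℝ} (hlam : lam ≤ 0) (hmu0 : 0 < mu)
    (hmu : mu ≤ 1 / 2) (hle : -mu ≤ lam)
    (h : Tendsto (advantage 3 b' (-mu)) atTop (𝓝 0)) : Tendsto (advantage 3 b lam) atTop (𝓝 0) := by
  have hq : (0 : ℕ) < 3 := by norm_num
  set r : ℝ := lam / (-mu) with hr
  have hrmu : r * (-mu) = lam := by
    rw [hr]
    field_simp
  have hr0 : 0 ≤ r := by
    rw [hr]
    exact div_nonneg_of_nonpos hlam (by linarith)
  have hr1 : r ≤ 1 := by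
    rw [hr, div_le_one_of_neg (by linarith)]
    linarith
  have hl0 : -(1 / 2 : ℝ) ≤ lam := by linarith
  have hl1 : lam ≤ 1 := by linarith
  have hm0 : -(1 / 2 : ℝ) ≤ -mu := by linarith
  have hm1 : -mu ≤ 1 := by linarith
  have hch' : ∀ i j : Fin 3, 0 ≤ channel 3 (-mu) i j := channel3_nonneg hm0 hm1
  have hch : ∀ i j : Fin 3, 0 ≤ channel 3 (r * (-mu)) i j := by
    rw [hrmu]
    exact channel3_nonneg hl0 hl1
  have hr0' : (0 : ℝ) ≤ 1 + (((3 : ℕ) : ℝ) - 1) * r := by
    push_cast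
    nlinarith
  have key : Tendsto (fun n => (leafSL 3 b (r * (-mu)) n hq hch).Φ (tvU 3)) atTop (𝓝 0) := by
    refine tendsto_tvU_of_dominated hq
      (M' := fun n => leafSL 3 b' (-mu) n hq hch') (fun n => ?_) ?_
    · exact leaf_dominated hq hb hr0' hr1 hch' hch n
    · refine h.congr fun n => ?_
      exact advantage_eq b' (-mu) n hq hch'
  refine key.congr fun n => ?_
  rw [← advantage_eq b (r * (-mu)) n hq hch, hrmu]

/-- Poisson comparison. -/
theorem gwAdvantage_tendsto_of_le {d d' : ℝ} (hd : 0 ≤ d) (hdd : d ≤ d') {lam mu : ℝ} (hlam : lam ≤ 0)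
    (hmu0 : 0 < mu) (hmu : mu ≤ 1 / 2) (hle : -mu ≤ lam)
    (h : Tendsto (gwAdvantage 3 (-mu) d') atTop (𝓝 0)) : Tendsto (gwAdvantage 3 lam d) atTop (𝓝 0) := by
  have hq : (0 : ℕ) < 3 := by norm_num
  set r : ℝ := lam / (-mu) with hr
  have hrmu : r * (-mu) = lam := by
    rw [hr]
    field_simp
  have hr0 : 0 ≤ r := by
    rw [hr]
    exact div_nonneg_of_nonpos hlam (by linarith)
  have hr1 : r ≤ 1 := by
    rw [hr, div_le_one_of_neg (by linarith)]
    linarith
  have hl0 : -(1 / 2 : ℝ) ≤ lam := by linarith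
  have hl1 : lam ≤ 1 := by linarith
  have hm0 : -(1 / 2 : ℝ) ≤ -mu := by linarith
  have hm1 : -mu ≤ 1 := by linarith
  have hch' : ∀ i j : Fin 3, 0 ≤ channel 3 (-mu) i j := channel3_nonneg hm0 hm1
  have hch : ∀ i j : Fin 3, 0 ≤ channel 3 (r * (-mu)) i j := by
    rw [hrmu]
    exact channel3_nonneg hl0 hl1
  have hr0' : (0 : ℝ) ≤ 1 + (((3 : ℕ) : ℝ) - 1) * r := by
    push_cast
    nlinarith
  have hd' : 0 ≤ d' := hd.trans hdd
  have key : Tendsto (fun n => (gwSL 3 (r * (-mu)) d n hd hq hch).Φ (tvU 3)) atTop (𝓝 0) := by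
    refine tendsto_tvU_of_dominated hq
      (M' := fun n => gwSL 3 (-mu) d' n hd' hq hch') (fun n => ?_) ?_
    · exact gw_dominated hq hd hdd hr0' hr1 hch' hch n
    · refine h.congr fun n => ?_
      exact gwAdvantage_eq (-mu) d' n hd' hq hch'
  refine key.congr fun n => ?_
  rw [← gwAdvantage_eq (r * (-mu)) d n hd hq hch, hrmu]

/-- **S0244 from the critical cases.** -/
theorem s0244_of_critical
    (hpos : ∀ b : ℕ, 2 ≤ b → ∀ lam : ℝ, 0 ≤ lam → lam ≤ 1 → (b : ℝ) * lam ^ 2 ≤ 1 →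
      Tendsto (advantage 3 b lam) atTop (𝓝 0))
    (hposP : ∀ d : ℝ, 1 < d → ∀ lam : ℝ, 0 ≤ lam → lam ≤ 1 → d * lam ^ 2 ≤ 1 →
      Tendsto (gwAdvantage 3 lam d) atTop (𝓝 0))
    (h4 : Tendsto (advantage 3 4 (-(1 / 2 : ℝ))) atTop (𝓝 0))
    (hP4 : Tendsto (gwAdvantage 3 (-(1 / 2 : ℝ)) 4) atTop (𝓝 0))
    (hb : ∀ b : ℕ, 5 ≤ b → Tendsto (advantage 3 b (-(1 / Real.sqrt b))) atTop (𝓝 0))
    (hd : ∀ d : ℝ, 4 < d → Tendsto (gwAdvantage 3 (-(1 / Real.sqrt d)) d) atTop (𝓝 0)) :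
    (∀ b : ℕ, 2 ≤ b → ∀ lam : ℝ, -(1 / 2 : ℝ) ≤ lam → lam ≤ 1 → (b : ℝ) * lam ^ 2 ≤ 1 →
      Tendsto (advantage 3 b lam) atTop (𝓝 0)) ∧
    (∀ d : ℝ, 1 < d → ∀ lam : ℝ, -(1 / 2 : ℝ) ≤ lam → lam ≤ 1 → d * lam ^ 2 ≤ 1 →
      Tendsto (gwAdvantage 3 lam d) atTop (𝓝 0)) := by
  constructor
  · intro b hb2 lam h0 h1 hkey
    rcases le_or_gt 0 lam with hl | hl
    · exact hpos b hb2 lam hl h1 hkey
    rcases le_or_gt b 4 with hb4 | hb4
    · exact advantage_tendsto_of_le hb4 hl.le (by norm_num) le_rfl h0 h4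
    · have hb5 : 5 ≤ b := hb4
      have hb5R : (5 : ℝ) ≤ b := by exact_mod_cast hb5
      have hs : 0 < Real.sqrt b := Real.sqrt_pos.2 (by linarith)
      have hs2 : (2 : ℝ) ≤ Real.sqrt b := by
        rw [show (2 : ℝ) = Real.sqrt 4 by
          rw [show (4 : ℝ) = 2 ^ 2 by norm_num, Real.sqrt_sq (by norm_num)]]
        exact Real.sqrt_le_sqrt (by linarith)
      refine advantage_tendsto_of_le le_rfl hl.le (by positivity) ?_ ?_ (hb b hb5)
      · rw [div_le_div_iff₀ hs (by norm_num)]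
        linarith
      · -- `-(1/√b) ≤ lam` from `b lam² ≤ 1`
        have hss : Real.sqrt b * Real.sqrt b = b := Real.mul_self_sqrt (by linarith)
        have : (Real.sqrt b * (-lam)) ^ 2 ≤ 1 := by
          rw [mul_pow, neg_pow_two, pow_two (Real.sqrt b), hss]
          exact hkey
        have h2 : Real.sqrt b * (-lam) ≤ 1 := by
          nlinarith [mul_pos hs (neg_pos.2 hl)]
        have h3 : -lam ≤ 1 / Real.sqrt b := by
          rw [le_div_iff₀ hs]
          linarith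
        linarith
  · intro d hd1 lam h0 h1 hkey
    rcases le_or_gt 0 lam with hl | hl
    · exact hposP d hd1 lam hl h1 hkey
    rcases le_or_gt d 4 with hd4 | hd4
    · exact gwAdvantage_tendsto_of_le (by linarith) hd4 hl.le (by norm_num) le_rfl h0 hP4
    · have hs : 0 < Real.sqrt d := Real.sqrt_pos.2 (by linarith)
      have hs2 : (2 : ℝ) ≤ Real.sqrt d := by
        rw [show (2 : ℝ) = Real.sqrt 4 by
          rw [show (4 : ℝ) = 2 ^ 2 by norm_num, Real.sqrt_sq (by norm_num)]]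
        exact Real.sqrt_le_sqrt hd4.le
      refine gwAdvantage_tendsto_of_le (by linarith) le_rfl hl.le (by positivity) ?_ ?_ (hd d hd4)
      · rw [div_le_div_iff₀ hs (by norm_num)]
        linarith
      · have hss : Real.sqrt d * Real.sqrt d = d := Real.mul_self_sqrt (by linarith)
        have : (Real.sqrt d * (-lam)) ^ 2 ≤ 1 := by
          rw [mul_pow, neg_pow_two, pow_two (Real.sqrt d), hss]
          exact hkey
        have h2 : Real.sqrt d * (-lam) ≤ 1 := by
          nlinarith [mul_pos hs (neg_pos.2 hl)]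
        have h3 : -lam ≤ 1 / Real.sqrt d := by
          rw [le_div_iff₀ hs]
          linarith
        linarith

end Crest.Agent.Lib.Bc
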