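import Crest.Agent.Lib.Bc.SymAvg
/-!
# Row 163: symmetrised monomials in terms of elementary symmetric functions (helper62)

`e1n x, e2n x, ...` are the elementary symmetric functions of `x : Fin n → ℝ`, `n = 3, 4`; written out.
`symM3_a_b_c` (`symM4_a_b_c_d`): `symM ![a,b,c] x` as an integer polynomial in them, for all partitions of degree at most 8 (generated by /tmp/h62/sa/geninv.py).
-/
set_option autoImplicit false
set_option linter.unusedSimpArgs false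
open scoped BigOperators
namespace Crest.Agent.Lib.Bc.SymAvg
open PolyFast (E den den_add' den_sub' den_mul' den_neg' den_pow' den_var' den_num' eq_of_check')


/-- the elementary symmetric function of degree 1 in 3 variables -/
noncomputable def e13 (x : Fin 3 → ℝ) : ℝ := x 0 + x 1 + x 2
/-- the same, as an expression -/
noncomputable def e1E3 : E := E.var 0 + E.var 1 + E.var 2
lemma den_e1E3 (x : Fin 3 → ℝ) : den (vec3 x) e1E3 = e13 x := by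
  simp [e1E3, e13, vec3, den_add', den_mul', den_var']

/-- the elementary symmetric function of degree 2 in 3 variables -/
noncomputable def e23 (x : Fin 3 → ℝ) : ℝ := x 0 * x 1 + x 0 * x 2 + x 1 * x 2
/-- the same, as an expression -/
noncomputable def e2E3 : E := E.var 0 * E.var 1 + E.var 0 * E.var 2 + E.var 1 * E.var 2
lemma den_e2E3 (x : Fin 3 → ℝ) : den (vec3 x) e2E3 = e23 x := by
  simp [e2E3, e23, vec3, den_add', den_mul', den_var']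

/-- the elementary symmetric function of degree 3 in 3 variables -/
noncomputable def e33 (x : Fin 3 → ℝ) : ℝ := x 0 * x 1 * x 2
/-- the same, as an expression -/
noncomputable def e3E3 : E := E.var 0 * E.var 1 * E.var 2
lemma den_e3E3 (x : Fin 3 → ℝ) : den (vec3 x) e3E3 = e33 x := by
  simp [e3E3, e33, vec3, den_add', den_mul', den_var']

theorem symM3_0_0_0 (x : Fin 3 → ℝ) : symM ![0, 0, 0] x = (6) * (1) := by
  rw [← den_symE3 0 0 0 x, eq_of_check' (n := 3) (vec3 x) rfl (symE3 0 0 0) ((.num (6) : E) * ((.num 1))) (by decide +kernel)]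
  simp [den_add', den_mul', den_pow', den_num', den_e1E3, den_e2E3, den_e3E3]

theorem symM3_1_0_0 (x : Fin 3 → ℝ) : symM ![1, 0, 0] x = (2) * (e13 x) := by
  rw [← den_symE3 1 0 0 x, eq_of_check' (n := 3) (vec3 x) rfl (symE3 1 0 0) ((.num (2) : E) * (e1E3)) (by decide +kernel)]
  simp [den_add', den_mul', den_pow', den_num', den_e1E3, den_e2E3, den_e3E3]

theorem symM3_2_0_0 (x : Fin 3 → ℝ) : symM ![2, 0, 0] x = (2) * (e13 x ^ 2) + (-4) * (e23 x) := by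
  rw [← den_symE3 2 0 0 x, eq_of_check' (n := 3) (vec3 x) rfl (symE3 2 0 0) ((.num (2) : E) * (e1E3 ^ 2) + (.num (-4) : E) * (e2E3)) (by decide +kernel)]
  simp [den_add', den_mul', den_pow', den_num', den_e1E3, den_e2E3, den_e3E3]

theorem symM3_1_1_0 (x : Fin 3 → ℝ) : symM ![1, 1, 0] x = (2) * (e23 x) := by
  rw [← den_symE3 1 1 0 x, eq_of_check' (n := 3) (vec3 x) rfl (symE3 1 1 0) ((.num (2) : E) * (e2E3)) (by decide +kernel)]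
  simp [den_add', den_mul', den_pow', den_num', den_e1E3, den_e2E3, den_e3E3]

theorem symM3_3_0_0 (x : Fin 3 → ℝ) : symM ![3, 0, 0] x = (2) * (e13 x ^ 3) + (-6) * (e13 x * e23 x) + (6) * (e33 x) := by
  rw [← den_symE3 3 0 0 x, eq_of_check' (n := 3) (vec3 x) rfl (symE3 3 0 0) ((.num (2) : E) * (e1E3 ^ 3) + (.num (-6) : E) * (e1E3 * e2E3) + (.num (6) : E) * (e3E3)) (by decide +kernel)]
  simp [den_add', den_mul', den_pow', den_num', den_e1E3, den_e2E3, den_e3E3]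

theorem symM3_2_1_0 (x : Fin 3 → ℝ) : symM ![2, 1, 0] x = (1) * (e13 x * e23 x) + (-3) * (e33 x) := by
  rw [← den_symE3 2 1 0 x, eq_of_check' (n := 3) (vec3 x) rfl (symE3 2 1 0) ((.num (1) : E) * (e1E3 * e2E3) + (.num (-3) : E) * (e3E3)) (by decide +kernel)]
  simp [den_add', den_mul', den_pow', den_num', den_e1E3, den_e2E3, den_e3E3]

theorem symM3_1_1_1 (x : Fin 3 → ℝ) : symM ![1, 1, 1] x = (6) * (e33 x) := by
  rw [← den_symE3 1 1 1 x, eq_of_check' (n := 3) (vec3 x) rfl (symE3 1 1 1) ((.num (6) : E) * (e3E3)) (by decide +kernel)]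
  simp [den_add', den_mul', den_pow', den_num', den_e1E3, den_e2E3, den_e3E3]

theorem symM3_4_0_0 (x : Fin 3 → ℝ) : symM ![4, 0, 0] x = (2) * (e13 x ^ 4) + (-8) * (e13 x ^ 2 * e23 x) + (8) * (e13 x * e33 x) + (4) * (e23 x ^ 2) := by
  rw [← den_symE3 4 0 0 x, eq_of_check' (n := 3) (vec3 x) rfl (symE3 4 0 0) ((.num (2) : E) * (e1E3 ^ 4) + (.num (-8) : E) * (e1E3 ^ 2 * e2E3) + (.num (8) : E) * (e1E3 * e3E3) + (.num (4) : E) * (e2E3 ^ 2)) (by decide +kernel)]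
  simp [den_add', den_mul', den_pow', den_num', den_e1E3, den_e2E3, den_e3E3]

theorem symM3_3_1_0 (x : Fin 3 → ℝ) : symM ![3, 1, 0] x = (1) * (e13 x ^ 2 * e23 x) + (-1) * (e13 x * e33 x) + (-2) * (e23 x ^ 2) := by
  rw [← den_symE3 3 1 0 x, eq_of_check' (n := 3) (vec3 x) rfl (symE3 3 1 0) ((.num (1) : E) * (e1E3 ^ 2 * e2E3) + (.num (-1) : E) * (e1E3 * e3E3) + (.num (-2) : E) * (e2E3 ^ 2)) (by decide +kernel)]
  simp [den_add', den_mul', den_pow', den_num', den_e1E3, den_e2E3, den_e3E3]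

theorem symM3_2_2_0 (x : Fin 3 → ℝ) : symM ![2, 2, 0] x = (-4) * (e13 x * e33 x) + (2) * (e23 x ^ 2) := by
  rw [← den_symE3 2 2 0 x, eq_of_check' (n := 3) (vec3 x) rfl (symE3 2 2 0) ((.num (-4) : E) * (e1E3 * e3E3) + (.num (2) : E) * (e2E3 ^ 2)) (by decide +kernel)]
  simp [den_add', den_mul', den_pow', den_num', den_e1E3, den_e2E3, den_e3E3]

theorem symM3_2_1_1 (x : Fin 3 → ℝ) : symM ![2, 1, 1] x = (2) * (e13 x * e33 x) := by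
  rw [← den_symE3 2 1 1 x, eq_of_check' (n := 3) (vec3 x) rfl (symE3 2 1 1) ((.num (2) : E) * (e1E3 * e3E3)) (by decide +kernel)]
  simp [den_add', den_mul', den_pow', den_num', den_e1E3, den_e2E3, den_e3E3]

theorem symM3_5_0_0 (x : Fin 3 → ℝ) : symM ![5, 0, 0] x = (2) * (e13 x ^ 5) + (-10) * (e13 x ^ 3 * e23 x) + (10) * (e13 x ^ 2 * e33 x) + (10) * (e13 x * e23 x ^ 2) + (-10) * (e23 x * e33 x) := by
  rw [← den_symE3 5 0 0 x, eq_of_check' (n := 3) (vec3 x) rfl (symE3 5 0 0) ((.num (2) : E) * (e1E3 ^ 5) + (.num (-10) : E) * (e1E3 ^ 3 * e2E3) + (.num (10) : E) * (e1E3 ^ 2 * e3E3) + (.num (10) : E) * (e1E3 * e2E3 ^ 2) + (.num (-10) : E) * (e2E3 * e3E3)) (by decide +kernel)]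
  simp [den_add', den_mul', den_pow', den_num', den_e1E3, den_e2E3, den_e3E3]

theorem symM3_4_1_0 (x : Fin 3 → ℝ) : symM ![4, 1, 0] x = (1) * (e13 x ^ 3 * e23 x) + (-1) * (e13 x ^ 2 * e33 x) + (-3) * (e13 x * e23 x ^ 2) + (5) * (e23 x * e33 x) := by
  rw [← den_symE3 4 1 0 x, eq_of_check' (n := 3) (vec3 x) rfl (symE3 4 1 0) ((.num (1) : E) * (e1E3 ^ 3 * e2E3) + (.num (-1) : E) * (e1E3 ^ 2 * e3E3) + (.num (-3) : E) * (e1E3 * e2E3 ^ 2) + (.num (5) : E) * (e2E3 * e3E3)) (by decide +kernel)]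
  simp [den_add', den_mul', den_pow', den_num', den_e1E3, den_e2E3, den_e3E3]

theorem symM3_3_2_0 (x : Fin 3 → ℝ) : symM ![3, 2, 0] x = (-2) * (e13 x ^ 2 * e33 x) + (1) * (e13 x * e23 x ^ 2) + (-1) * (e23 x * e33 x) := by
  rw [← den_symE3 3 2 0 x, eq_of_check' (n := 3) (vec3 x) rfl (symE3 3 2 0) ((.num (-2) : E) * (e1E3 ^ 2 * e3E3) + (.num (1) : E) * (e1E3 * e2E3 ^ 2) + (.num (-1) : E) * (e2E3 * e3E3)) (by decide +kernel)]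
  simp [den_add', den_mul', den_pow', den_num', den_e1E3, den_e2E3, den_e3E3]

theorem symM3_3_1_1 (x : Fin 3 → ℝ) : symM ![3, 1, 1] x = (2) * (e13 x ^ 2 * e33 x) + (-4) * (e23 x * e33 x) := by
  rw [← den_symE3 3 1 1 x, eq_of_check' (n := 3) (vec3 x) rfl (symE3 3 1 1) ((.num (2) : E) * (e1E3 ^ 2 * e3E3) + (.num (-4) : E) * (e2E3 * e3E3)) (by decide +kernel)]
  simp [den_add', den_mul', den_pow', den_num', den_e1E3, den_e2E3, den_e3E3]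

theorem symM3_2_2_1 (x : Fin 3 → ℝ) : symM ![2, 2, 1] x = (2) * (e23 x * e33 x) := by
  rw [← den_symE3 2 2 1 x, eq_of_check' (n := 3) (vec3 x) rfl (symE3 2 2 1) ((.num (2) : E) * (e2E3 * e3E3)) (by decide +kernel)]
  simp [den_add', den_mul', den_pow', den_num', den_e1E3, den_e2E3, den_e3E3]

theorem symM3_6_0_0 (x : Fin 3 → ℝ) : symM ![6, 0, 0] x = (2) * (e13 x ^ 6) + (-12) * (e13 x ^ 4 * e23 x) + (12) * (e13 x ^ 3 * e33 x) + (18) * (e13 x ^ 2 * e23 x ^ 2) + (-24) * (e13 x * e23 x * e33 x) + (-4) * (e23 x ^ 3) + (6) * (e33 x ^ 2) := by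
  rw [← den_symE3 6 0 0 x, eq_of_check' (n := 3) (vec3 x) rfl (symE3 6 0 0) ((.num (2) : E) * (e1E3 ^ 6) + (.num (-12) : E) * (e1E3 ^ 4 * e2E3) + (.num (12) : E) * (e1E3 ^ 3 * e3E3) + (.num (18) : E) * (e1E3 ^ 2 * e2E3 ^ 2) + (.num (-24) : E) * (e1E3 * e2E3 * e3E3) + (.num (-4) : E) * (e2E3 ^ 3) + (.num (6) : E) * (e3E3 ^ 2)) (by decide +kernel)]
  simp [den_add', den_mul', den_pow', den_num', den_e1E3, den_e2E3, den_e3E3]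

theorem symM3_5_1_0 (x : Fin 3 → ℝ) : symM ![5, 1, 0] x = (1) * (e13 x ^ 4 * e23 x) + (-1) * (e13 x ^ 3 * e33 x) + (-4) * (e13 x ^ 2 * e23 x ^ 2) + (7) * (e13 x * e23 x * e33 x) + (2) * (e23 x ^ 3) + (-3) * (e33 x ^ 2) := by
  rw [← den_symE3 5 1 0 x, eq_of_check' (n := 3) (vec3 x) rfl (symE3 5 1 0) ((.num (1) : E) * (e1E3 ^ 4 * e2E3) + (.num (-1) : E) * (e1E3 ^ 3 * e3E3) + (.num (-4) : E) * (e1E3 ^ 2 * e2E3 ^ 2) + (.num (7) : E) * (e1E3 * e2E3 * e3E3) + (.num (2) : E) * (e2E3 ^ 3) + (.num (-3) : E) * (e3E3 ^ 2)) (by decide +kernel)]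
  simp [den_add', den_mul', den_pow', den_num', den_e1E3, den_e2E3, den_e3E3]

theorem symM3_4_2_0 (x : Fin 3 → ℝ) : symM ![4, 2, 0] x = (-2) * (e13 x ^ 3 * e33 x) + (1) * (e13 x ^ 2 * e23 x ^ 2) + (4) * (e13 x * e23 x * e33 x) + (-2) * (e23 x ^ 3) + (-3) * (e33 x ^ 2) := by
  rw [← den_symE3 4 2 0 x, eq_of_check' (n := 3) (vec3 x) rfl (symE3 4 2 0) ((.num (-2) : E) * (e1E3 ^ 3 * e3E3) + (.num (1) : E) * (e1E3 ^ 2 * e2E3 ^ 2) + (.num (4) : E) * (e1E3 * e2E3 * e3E3) + (.num (-2) : E) * (e2E3 ^ 3) + (.num (-3) : E) * (e3E3 ^ 2)) (by decide +kernel)]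
  simp [den_add', den_mul', den_pow', den_num', den_e1E3, den_e2E3, den_e3E3]

theorem symM3_4_1_1 (x : Fin 3 → ℝ) : symM ![4, 1, 1] x = (2) * (e13 x ^ 3 * e33 x) + (-6) * (e13 x * e23 x * e33 x) + (6) * (e33 x ^ 2) := by
  rw [← den_symE3 4 1 1 x, eq_of_check' (n := 3) (vec3 x) rfl (symE3 4 1 1) ((.num (2) : E) * (e1E3 ^ 3 * e3E3) + (.num (-6) : E) * (e1E3 * e2E3 * e3E3) + (.num (6) : E) * (e3E3 ^ 2)) (by decide +kernel)]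
  simp [den_add', den_mul', den_pow', den_num', den_e1E3, den_e2E3, den_e3E3]

theorem symM3_3_3_0 (x : Fin 3 → ℝ) : symM ![3, 3, 0] x = (-6) * (e13 x * e23 x * e33 x) + (2) * (e23 x ^ 3) + (6) * (e33 x ^ 2) := by
  rw [← den_symE3 3 3 0 x, eq_of_check' (n := 3) (vec3 x) rfl (symE3 3 3 0) ((.num (-6) : E) * (e1E3 * e2E3 * e3E3) + (.num (2) : E) * (e2E3 ^ 3) + (.num (6) : E) * (e3E3 ^ 2)) (by decide +kernel)]
  simp [den_add', den_mul', den_pow', den_num', den_e1E3, den_e2E3, den_e3E3]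

theorem symM3_3_2_1 (x : Fin 3 → ℝ) : symM ![3, 2, 1] x = (1) * (e13 x * e23 x * e33 x) + (-3) * (e33 x ^ 2) := by
  rw [← den_symE3 3 2 1 x, eq_of_check' (n := 3) (vec3 x) rfl (symE3 3 2 1) ((.num (1) : E) * (e1E3 * e2E3 * e3E3) + (.num (-3) : E) * (e3E3 ^ 2)) (by decide +kernel)]
  simp [den_add', den_mul', den_pow', den_num', den_e1E3, den_e2E3, den_e3E3]

theorem symM3_2_2_2 (x : Fin 3 → ℝ) : symM ![2, 2, 2] x = (6) * (e33 x ^ 2) := by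
  rw [← den_symE3 2 2 2 x, eq_of_check' (n := 3) (vec3 x) rfl (symE3 2 2 2) ((.num (6) : E) * (e3E3 ^ 2)) (by decide +kernel)]
  simp [den_add', den_mul', den_pow', den_num', den_e1E3, den_e2E3, den_e3E3]

theorem symM3_7_0_0 (x : Fin 3 → ℝ) : symM ![7, 0, 0] x = (2) * (e13 x ^ 7) + (-14) * (e13 x ^ 5 * e23 x) + (14) * (e13 x ^ 4 * e33 x) + (28) * (e13 x ^ 3 * e23 x ^ 2) + (-42) * (e13 x ^ 2 * e23 x * e33 x) + (-14) * (e13 x * e23 x ^ 3) + (14) * (e13 x * e33 x ^ 2) + (14) * (e23 x ^ 2 * e33 x) := by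
  rw [← den_symE3 7 0 0 x, eq_of_check' (n := 3) (vec3 x) rfl (symE3 7 0 0) ((.num (2) : E) * (e1E3 ^ 7) + (.num (-14) : E) * (e1E3 ^ 5 * e2E3) + (.num (14) : E) * (e1E3 ^ 4 * e3E3) + (.num (28) : E) * (e1E3 ^ 3 * e2E3 ^ 2) + (.num (-42) : E) * (e1E3 ^ 2 * e2E3 * e3E3) + (.num (-14) : E) * (e1E3 * e2E3 ^ 3) + (.num (14) : E) * (e1E3 * e3E3 ^ 2) + (.num (14) : E) * (e2E3 ^ 2 * e3E3)) (by decide +kernel)]
  simp [den_add', den_mul', den_pow', den_num', den_e1E3, den_e2E3, den_e3E3]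

theorem symM3_6_1_0 (x : Fin 3 → ℝ) : symM ![6, 1, 0] x = (1) * (e13 x ^ 5 * e23 x) + (-1) * (e13 x ^ 4 * e33 x) + (-5) * (e13 x ^ 3 * e23 x ^ 2) + (9) * (e13 x ^ 2 * e23 x * e33 x) + (5) * (e13 x * e23 x ^ 3) + (-4) * (e13 x * e33 x ^ 2) + (-7) * (e23 x ^ 2 * e33 x) := by
  rw [← den_symE3 6 1 0 x, eq_of_check' (n := 3) (vec3 x) rfl (symE3 6 1 0) ((.num (1) : E) * (e1E3 ^ 5 * e2E3) + (.num (-1) : E) * (e1E3 ^ 4 * e3E3) + (.num (-5) : E) * (e1E3 ^ 3 * e2E3 ^ 2) + (.num (9) : E) * (e1E3 ^ 2 * e2E3 * e3E3) + (.num (5) : E) * (e1E3 * e2E3 ^ 3) + (.num (-4) : E) * (e1E3 * e3E3 ^ 2) + (.num (-7) : E) * (e2E3 ^ 2 * e3E3)) (by decide +kernel)]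
  simp [den_add', den_mul', den_pow', den_num', den_e1E3, den_e2E3, den_e3E3]

theorem symM3_5_2_0 (x : Fin 3 → ℝ) : symM ![5, 2, 0] x = (-2) * (e13 x ^ 4 * e33 x) + (1) * (e13 x ^ 3 * e23 x ^ 2) + (6) * (e13 x ^ 2 * e23 x * e33 x) + (-3) * (e13 x * e23 x ^ 3) + (-7) * (e13 x * e33 x ^ 2) + (3) * (e23 x ^ 2 * e33 x) := by
  rw [← den_symE3 5 2 0 x, eq_of_check' (n := 3) (vec3 x) rfl (symE3 5 2 0) ((.num (-2) : E) * (e1E3 ^ 4 * e3E3) + (.num (1) : E) * (e1E3 ^ 3 * e2E3 ^ 2) + (.num (6) : E) * (e1E3 ^ 2 * e2E3 * e3E3) + (.num (-3) : E) * (e1E3 * e2E3 ^ 3) + (.num (-7) : E) * (e1E3 * e3E3 ^ 2) + (.num (3) : E) * (e2E3 ^ 2 * e3E3)) (by decide +kernel)]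
  simp [den_add', den_mul', den_pow', den_num', den_e1E3, den_e2E3, den_e3E3]

theorem symM3_5_1_1 (x : Fin 3 → ℝ) : symM ![5, 1, 1] x = (2) * (e13 x ^ 4 * e33 x) + (-8) * (e13 x ^ 2 * e23 x * e33 x) + (8) * (e13 x * e33 x ^ 2) + (4) * (e23 x ^ 2 * e33 x) := by
  rw [← den_symE3 5 1 1 x, eq_of_check' (n := 3) (vec3 x) rfl (symE3 5 1 1) ((.num (2) : E) * (e1E3 ^ 4 * e3E3) + (.num (-8) : E) * (e1E3 ^ 2 * e2E3 * e3E3) + (.num (8) : E) * (e1E3 * e3E3 ^ 2) + (.num (4) : E) * (e2E3 ^ 2 * e3E3)) (by decide +kernel)]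
  simp [den_add', den_mul', den_pow', den_num', den_e1E3, den_e2E3, den_e3E3]

theorem symM3_4_3_0 (x : Fin 3 → ℝ) : symM ![4, 3, 0] x = (-3) * (e13 x ^ 2 * e23 x * e33 x) + (1) * (e13 x * e23 x ^ 3) + (5) * (e13 x * e33 x ^ 2) + (-1) * (e23 x ^ 2 * e33 x) := by
  rw [← den_symE3 4 3 0 x, eq_of_check' (n := 3) (vec3 x) rfl (symE3 4 3 0) ((.num (-3) : E) * (e1E3 ^ 2 * e2E3 * e3E3) + (.num (1) : E) * (e1E3 * e2E3 ^ 3) + (.num (5) : E) * (e1E3 * e3E3 ^ 2) + (.num (-1) : E) * (e2E3 ^ 2 * e3E3)) (by decide +kernel)]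
  simp [den_add', den_mul', den_pow', den_num', den_e1E3, den_e2E3, den_e3E3]

theorem symM3_4_2_1 (x : Fin 3 → ℝ) : symM ![4, 2, 1] x = (1) * (e13 x ^ 2 * e23 x * e33 x) + (-1) * (e13 x * e33 x ^ 2) + (-2) * (e23 x ^ 2 * e33 x) := by
  rw [← den_symE3 4 2 1 x, eq_of_check' (n := 3) (vec3 x) rfl (symE3 4 2 1) ((.num (1) : E) * (e1E3 ^ 2 * e2E3 * e3E3) + (.num (-1) : E) * (e1E3 * e3E3 ^ 2) + (.num (-2) : E) * (e2E3 ^ 2 * e3E3)) (by decide +kernel)]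
  simp [den_add', den_mul', den_pow', den_num', den_e1E3, den_e2E3, den_e3E3]

theorem symM3_3_3_1 (x : Fin 3 → ℝ) : symM ![3, 3, 1] x = (-4) * (e13 x * e33 x ^ 2) + (2) * (e23 x ^ 2 * e33 x) := by
  rw [← den_symE3 3 3 1 x, eq_of_check' (n := 3) (vec3 x) rfl (symE3 3 3 1) ((.num (-4) : E) * (e1E3 * e3E3 ^ 2) + (.num (2) : E) * (e2E3 ^ 2 * e3E3)) (by decide +kernel)]
  simp [den_add', den_mul', den_pow', den_num', den_e1E3, den_e2E3, den_e3E3]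

theorem symM3_3_2_2 (x : Fin 3 → ℝ) : symM ![3, 2, 2] x = (2) * (e13 x * e33 x ^ 2) := by
  rw [← den_symE3 3 2 2 x, eq_of_check' (n := 3) (vec3 x) rfl (symE3 3 2 2) ((.num (2) : E) * (e1E3 * e3E3 ^ 2)) (by decide +kernel)]
  simp [den_add', den_mul', den_pow', den_num', den_e1E3, den_e2E3, den_e3E3]

theorem symM3_8_0_0 (x : Fin 3 → ℝ) : symM ![8, 0, 0] x = (2) * (e13 x ^ 8) + (-16) * (e13 x ^ 6 * e23 x) + (16) * (e13 x ^ 5 * e33 x) + (40) * (e13 x ^ 4 * e23 x ^ 2) + (-64) * (e13 x ^ 3 * e23 x * e33 x) + (-32) * (e13 x ^ 2 * e23 x ^ 3) + (24) * (e13 x ^ 2 * e33 x ^ 2) + (48) * (e13 x * e23 x ^ 2 * e33 x) + (4) * (e23 x ^ 4) + (-16) * (e23 x * e33 x ^ 2) := by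
  rw [← den_symE3 8 0 0 x, eq_of_check' (n := 3) (vec3 x) rfl (symE3 8 0 0) ((.num (2) : E) * (e1E3 ^ 8) + (.num (-16) : E) * (e1E3 ^ 6 * e2E3) + (.num (16) : E) * (e1E3 ^ 5 * e3E3) + (.num (40) : E) * (e1E3 ^ 4 * e2E3 ^ 2) + (.num (-64) : E) * (e1E3 ^ 3 * e2E3 * e3E3) + (.num (-32) : E) * (e1E3 ^ 2 * e2E3 ^ 3) + (.num (24) : E) * (e1E3 ^ 2 * e3E3 ^ 2) + (.num (48) : E) * (e1E3 * e2E3 ^ 2 * e3E3) + (.num (4) : E) * (e2E3 ^ 4) + (.num (-16) : E) * (e2E3 * e3E3 ^ 2)) (by decide +kernel)]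
  simp [den_add', den_mul', den_pow', den_num', den_e1E3, den_e2E3, den_e3E3]

theorem symM3_7_1_0 (x : Fin 3 → ℝ) : symM ![7, 1, 0] x = (1) * (e13 x ^ 6 * e23 x) + (-1) * (e13 x ^ 5 * e33 x) + (-6) * (e13 x ^ 4 * e23 x ^ 2) + (11) * (e13 x ^ 3 * e23 x * e33 x) + (9) * (e13 x ^ 2 * e23 x ^ 3) + (-5) * (e13 x ^ 2 * e33 x ^ 2) + (-17) * (e13 x * e23 x ^ 2 * e33 x) + (-2) * (e23 x ^ 4) + (8) * (e23 x * e33 x ^ 2) := by
  rw [← den_symE3 7 1 0 x, eq_of_check' (n := 3) (vec3 x) rfl (symE3 7 1 0) ((.num (1) : E) * (e1E3 ^ 6 * e2E3) + (.num (-1) : E) * (e1E3 ^ 5 * e3E3) + (.num (-6) : E) * (e1E3 ^ 4 * e2E3 ^ 2) + (.num (11) : E) * (e1E3 ^ 3 * e2E3 * e3E3) + (.num (9) : E) * (e1E3 ^ 2 * e2E3 ^ 3) + (.num (-5) : E) * (e1E3 ^ 2 * e3E3 ^ 2) + (.num (-17) : E) * (e1E3 * e2E3 ^ 2 * e3E3) + (.num (-2) : E) * (e2E3 ^ 4) + (.num (8) : E) * (e2E3 * e3E3 ^ 2))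 (by decide +kernel)]
  simp [den_add', den_mul', den_pow', den_num', den_e1E3, den_e2E3, den_e3E3]

theorem symM3_6_2_0 (x : Fin 3 → ℝ) : symM ![6, 2, 0] x = (-2) * (e13 x ^ 5 * e33 x) + (1) * (e13 x ^ 4 * e23 x ^ 2) + (8) * (e13 x ^ 3 * e23 x * e33 x) + (-4) * (e13 x ^ 2 * e23 x ^ 3) + (-9) * (e13 x ^ 2 * e33 x ^ 2) + (2) * (e23 x ^ 4) + (2) * (e23 x * e33 x ^ 2) := by
  rw [← den_symE3 6 2 0 x, eq_of_check' (n := 3) (vec3 x) rfl (symE3 6 2 0) ((.num (-2) : E) * (e1E3 ^ 5 * e3E3) + (.num (1) : E) * (e1E3 ^ 4 * e2E3 ^ 2) + (.num (8) : E) * (e1E3 ^ 3 * e2E3 * e3E3) + (.num (-4) : E) * (e1E3 ^ 2 * e2E3 ^ 3) + (.num (-9) : E) * (e1E3 ^ 2 * e3E3 ^ 2) + (.num (2) : E) * (e2E3 ^ 4) + (.num (2) : E) * (e2E3 * e3E3 ^ 2)) (by decide +kernel)]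
  simp [den_add', den_mul', den_pow', den_num', den_e1E3, den_e2E3, den_e3E3]

theorem symM3_6_1_1 (x : Fin 3 → ℝ) : symM ![6, 1, 1] x = (2) * (e13 x ^ 5 * e33 x) + (-10) * (e13 x ^ 3 * e23 x * e33 x) + (10) * (e13 x ^ 2 * e33 x ^ 2) + (10) * (e13 x * e23 x ^ 2 * e33 x) + (-10) * (e23 x * e33 x ^ 2) := by
  rw [← den_symE3 6 1 1 x, eq_of_check' (n := 3) (vec3 x) rfl (symE3 6 1 1) ((.num (2) : E) * (e1E3 ^ 5 * e3E3) + (.num (-10) : E) * (e1E3 ^ 3 * e2E3 * e3E3) + (.num (10) : E) * (e1E3 ^ 2 * e3E3 ^ 2) + (.num (10) : E) * (e1E3 * e2E3 ^ 2 * e3E3) + (.num (-10) : E) * (e2E3 * e3E3 ^ 2)) (by decide +kernel)]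
  simp [den_add', den_mul', den_pow', den_num', den_e1E3, den_e2E3, den_e3E3]

theorem symM3_5_3_0 (x : Fin 3 → ℝ) : symM ![5, 3, 0] x = (-3) * (e13 x ^ 3 * e23 x * e33 x) + (1) * (e13 x ^ 2 * e23 x ^ 3) + (3) * (e13 x ^ 2 * e33 x ^ 2) + (6) * (e13 x * e23 x ^ 2 * e33 x) + (-2) * (e23 x ^ 4) + (-7) * (e23 x * e33 x ^ 2) := by
  rw [← den_symE3 5 3 0 x, eq_of_check' (n := 3) (vec3 x) rfl (symE3 5 3 0) ((.num (-3) : E) * (e1E3 ^ 3 * e2E3 * e3E3) + (.num (1) : E) * (e1E3 ^ 2 * e2E3 ^ 3) + (.num (3) : E) * (e1E3 ^ 2 * e3E3 ^ 2) + (.num (6) : E) * (e1E3 * e2E3 ^ 2 * e3E3) + (.num (-2) : E) * (e2E3 ^ 4) + (.num (-7) : E) * (e2E3 * e3E3 ^ 2)) (by decide +kernel)]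
  simp [den_add', den_mul', den_pow', den_num', den_e1E3, den_e2E3, den_e3E3]

theorem symM3_5_2_1 (x : Fin 3 → ℝ) : symM ![5, 2, 1] x = (1) * (e13 x ^ 3 * e23 x * e33 x) + (-1) * (e13 x ^ 2 * e33 x ^ 2) + (-3) * (e13 x * e23 x ^ 2 * e33 x) + (5) * (e23 x * e33 x ^ 2) := by
  rw [← den_symE3 5 2 1 x, eq_of_check' (n := 3) (vec3 x) rfl (symE3 5 2 1) ((.num (1) : E) * (e1E3 ^ 3 * e2E3 * e3E3) + (.num (-1) : E) * (e1E3 ^ 2 * e3E3 ^ 2) + (.num (-3) : E) * (e1E3 * e2E3 ^ 2 * e3E3) + (.num (5) : E) * (e2E3 * e3E3 ^ 2)) (by decide +kernel)]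
  simp [den_add', den_mul', den_pow', den_num', den_e1E3, den_e2E3, den_e3E3]

theorem symM3_4_4_0 (x : Fin 3 → ℝ) : symM ![4, 4, 0] x = (4) * (e13 x ^ 2 * e33 x ^ 2) + (-8) * (e13 x * e23 x ^ 2 * e33 x) + (2) * (e23 x ^ 4) + (8) * (e23 x * e33 x ^ 2) := by
  rw [← den_symE3 4 4 0 x, eq_of_check' (n := 3) (vec3 x) rfl (symE3 4 4 0) ((.num (4) : E) * (e1E3 ^ 2 * e3E3 ^ 2) + (.num (-8) : E) * (e1E3 * e2E3 ^ 2 * e3E3) + (.num (2) : E) * (e2E3 ^ 4) + (.num (8) : E) * (e2E3 * e3E3 ^ 2)) (by decide +kernel)]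
  simp [den_add', den_mul', den_pow', den_num', den_e1E3, den_e2E3, den_e3E3]

theorem symM3_4_3_1 (x : Fin 3 → ℝ) : symM ![4, 3, 1] x = (-2) * (e13 x ^ 2 * e33 x ^ 2) + (1) * (e13 x * e23 x ^ 2 * e33 x) + (-1) * (e23 x * e33 x ^ 2) := by
  rw [← den_symE3 4 3 1 x, eq_of_check' (n := 3) (vec3 x) rfl (symE3 4 3 1) ((.num (-2) : E) * (e1E3 ^ 2 * e3E3 ^ 2) + (.num (1) : E) * (e1E3 * e2E3 ^ 2 * e3E3) + (.num (-1) : E) * (e2E3 * e3E3 ^ 2)) (by decide +kernel)]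
  simp [den_add', den_mul', den_pow', den_num', den_e1E3, den_e2E3, den_e3E3]

theorem symM3_4_2_2 (x : Fin 3 → ℝ) : symM ![4, 2, 2] x = (2) * (e13 x ^ 2 * e33 x ^ 2) + (-4) * (e23 x * e33 x ^ 2) := by
  rw [← den_symE3 4 2 2 x, eq_of_check' (n := 3) (vec3 x) rfl (symE3 4 2 2) ((.num (2) : E) * (e1E3 ^ 2 * e3E3 ^ 2) + (.num (-4) : E) * (e2E3 * e3E3 ^ 2)) (by decide +kernel)]
  simp [den_add', den_mul', den_pow', den_num', den_e1E3, den_e2E3, den_e3E3]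

theorem symM3_3_3_2 (x : Fin 3 → ℝ) : symM ![3, 3, 2] x = (2) * (e23 x * e33 x ^ 2) := by
  rw [← den_symE3 3 3 2 x, eq_of_check' (n := 3) (vec3 x) rfl (symE3 3 3 2) ((.num (2) : E) * (e2E3 * e3E3 ^ 2)) (by decide +kernel)]
  simp [den_add', den_mul', den_pow', den_num', den_e1E3, den_e2E3, den_e3E3]

/-- the elementary symmetric function of degree 1 in 4 variables -/
noncomputable def e14 (x : Fin 4 → ℝ) : ℝ := x 0 + x 1 + x 2 + x 3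
/-- the same, as an expression -/
noncomputable def e1E4 : E := E.var 0 + E.var 1 + E.var 2 + E.var 3
lemma den_e1E4 (x : Fin 4 → ℝ) : den (vec4 x) e1E4 = e14 x := by
  simp [e1E4, e14, vec4, den_add', den_mul', den_var']

/-- the elementary symmetric function of degree 2 in 4 variables -/
noncomputable def e24 (x : Fin 4 → ℝ) : ℝ := x 0 * x 1 + x 0 * x 2 + x 0 * x 3 + x 1 * x 2 + x 1 * x 3 + x 2 * x 3
/-- the same, as an expression -/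
noncomputable def e2E4 : E := E.var 0 * E.var 1 + E.var 0 * E.var 2 + E.var 0 * E.var 3 + E.var 1 * E.var 2 + E.var 1 * E.var 3 + E.var 2 * E.var 3
lemma den_e2E4 (x : Fin 4 → ℝ) : den (vec4 x) e2E4 = e24 x := by
  simp [e2E4, e24, vec4, den_add', den_mul', den_var']

/-- the elementary symmetric function of degree 3 in 4 variables -/
noncomputable def e34 (x : Fin 4 → ℝ) : ℝ := x 0 * x 1 * x 2 + x 0 * x 1 * x 3 + x 0 * x 2 * x 3 + x 1 * x 2 * x 3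
/-- the same, as an expression -/
noncomputable def e3E4 : E := E.var 0 * E.var 1 * E.var 2 + E.var 0 * E.var 1 * E.var 3 + E.var 0 * E.var 2 * E.var 3 + E.var 1 * E.var 2 * E.var 3
lemma den_e3E4 (x : Fin 4 → ℝ) : den (vec4 x) e3E4 = e34 x := by
  simp [e3E4, e34, vec4, den_add', den_mul', den_var']

/-- the elementary symmetric function of degree 4 in 4 variables -/
noncomputable def e44 (x : Fin 4 → ℝ) : ℝ := x 0 * x 1 * x 2 * x 3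
/-- the same, as an expression -/
noncomputable def e4E4 : E := E.var 0 * E.var 1 * E.var 2 * E.var 3
lemma den_e4E4 (x : Fin 4 → ℝ) : den (vec4 x) e4E4 = e44 x := by
  simp [e4E4, e44, vec4, den_add', den_mul', den_var']

theorem symM4_0_0_0_0 (x : Fin 4 → ℝ) : symM ![0, 0, 0, 0] x = (24) * (1) := by
  rw [← den_symE4 0 0 0 0 x, eq_of_check' (n := 4) (vec4 x) rfl (symE4 0 0 0 0) ((.num (24) : E) * ((.num 1))) (by decide +kernel)]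
  simp [den_add', den_mul', den_pow', den_num', den_e1E4, den_e2E4, den_e3E4, den_e4E4]

theorem symM4_1_0_0_0 (x : Fin 4 → ℝ) : symM ![1, 0, 0, 0] x = (6) * (e14 x) := by
  rw [← den_symE4 1 0 0 0 x, eq_of_check' (n := 4) (vec4 x) rfl (symE4 1 0 0 0) ((.num (6) : E) * (e1E4)) (by decide +kernel)]
  simp [den_add', den_mul', den_pow', den_num', den_e1E4, den_e2E4, den_e3E4, den_e4E4]

theorem symM4_2_0_0_0 (x : Fin 4 → ℝ) : symM ![2, 0, 0, 0] x = (6) * (e14 x ^ 2) + (-12) * (e24 x) := by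
  rw [← den_symE4 2 0 0 0 x, eq_of_check' (n := 4) (vec4 x) rfl (symE4 2 0 0 0) ((.num (6) : E) * (e1E4 ^ 2) + (.num (-12) : E) * (e2E4)) (by decide +kernel)]
  simp [den_add', den_mul', den_pow', den_num', den_e1E4, den_e2E4, den_e3E4, den_e4E4]

theorem symM4_1_1_0_0 (x : Fin 4 → ℝ) : symM ![1, 1, 0, 0] x = (4) * (e24 x) := by
  rw [← den_symE4 1 1 0 0 x, eq_of_check' (n := 4) (vec4 x) rfl (symE4 1 1 0 0) ((.num (4) : E) * (e2E4)) (by decide +kernel)]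
  simp [den_add', den_mul', den_pow', den_num', den_e1E4, den_e2E4, den_e3E4, den_e4E4]

theorem symM4_3_0_0_0 (x : Fin 4 → ℝ) : symM ![3, 0, 0, 0] x = (6) * (e14 x ^ 3) + (-18) * (e14 x * e24 x) + (18) * (e34 x) := by
  rw [← den_symE4 3 0 0 0 x, eq_of_check' (n := 4) (vec4 x) rfl (symE4 3 0 0 0) ((.num (6) : E) * (e1E4 ^ 3) + (.num (-18) : E) * (e1E4 * e2E4) + (.num (18) : E) * (e3E4)) (by decide +kernel)]
  simp [den_add', den_mul', den_pow', den_num', den_e1E4, den_e2E4, den_e3E4, den_e4E4]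

theorem symM4_2_1_0_0 (x : Fin 4 → ℝ) : symM ![2, 1, 0, 0] x = (2) * (e14 x * e24 x) + (-6) * (e34 x) := by
  rw [← den_symE4 2 1 0 0 x, eq_of_check' (n := 4) (vec4 x) rfl (symE4 2 1 0 0) ((.num (2) : E) * (e1E4 * e2E4) + (.num (-6) : E) * (e3E4)) (by decide +kernel)]
  simp [den_add', den_mul', den_pow', den_num', den_e1E4, den_e2E4, den_e3E4, den_e4E4]

theorem symM4_1_1_1_0 (x : Fin 4 → ℝ) : symM ![1, 1, 1, 0] x = (6) * (e34 x) := by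
  rw [← den_symE4 1 1 1 0 x, eq_of_check' (n := 4) (vec4 x) rfl (symE4 1 1 1 0) ((.num (6) : E) * (e3E4)) (by decide +kernel)]
  simp [den_add', den_mul', den_pow', den_num', den_e1E4, den_e2E4, den_e3E4, den_e4E4]

theorem symM4_4_0_0_0 (x : Fin 4 → ℝ) : symM ![4, 0, 0, 0] x = (6) * (e14 x ^ 4) + (-24) * (e14 x ^ 2 * e24 x) + (24) * (e14 x * e34 x) + (12) * (e24 x ^ 2) + (-24) * (e44 x) := by
  rw [← den_symE4 4 0 0 0 x, eq_of_check' (n := 4) (vec4 x) rfl (symE4 4 0 0 0) ((.num (6) : E) * (e1E4 ^ 4) + (.num (-24) : E) * (e1E4 ^ 2 * e2E4) + (.num (24) : E) * (e1E4 * e3E4) + (.num (12) : E) * (e2E4 ^ 2) + (.num (-24) : E) * (e4E4)) (by decide +kernel)]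
  simp [den_add', den_mul', den_pow', den_num', den_e1E4, den_e2E4, den_e3E4, den_e4E4]

theorem symM4_3_1_0_0 (x : Fin 4 → ℝ) : symM ![3, 1, 0, 0] x = (2) * (e14 x ^ 2 * e24 x) + (-2) * (e14 x * e34 x) + (-4) * (e24 x ^ 2) + (8) * (e44 x) := by
  rw [← den_symE4 3 1 0 0 x, eq_of_check' (n := 4) (vec4 x) rfl (symE4 3 1 0 0) ((.num (2) : E) * (e1E4 ^ 2 * e2E4) + (.num (-2) : E) * (e1E4 * e3E4) + (.num (-4) : E) * (e2E4 ^ 2) + (.num (8) : E) * (e4E4)) (by decide +kernel)]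
  simp [den_add', den_mul', den_pow', den_num', den_e1E4, den_e2E4, den_e3E4, den_e4E4]

theorem symM4_2_2_0_0 (x : Fin 4 → ℝ) : symM ![2, 2, 0, 0] x = (-8) * (e14 x * e34 x) + (4) * (e24 x ^ 2) + (8) * (e44 x) := by
  rw [← den_symE4 2 2 0 0 x, eq_of_check' (n := 4) (vec4 x) rfl (symE4 2 2 0 0) ((.num (-8) : E) * (e1E4 * e3E4) + (.num (4) : E) * (e2E4 ^ 2) + (.num (8) : E) * (e4E4)) (by decide +kernel)]
  simp [den_add', den_mul', den_pow', den_num', den_e1E4, den_e2E4, den_e3E4, den_e4E4]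

theorem symM4_2_1_1_0 (x : Fin 4 → ℝ) : symM ![2, 1, 1, 0] x = (2) * (e14 x * e34 x) + (-8) * (e44 x) := by
  rw [← den_symE4 2 1 1 0 x, eq_of_check' (n := 4) (vec4 x) rfl (symE4 2 1 1 0) ((.num (2) : E) * (e1E4 * e3E4) + (.num (-8) : E) * (e4E4)) (by decide +kernel)]
  simp [den_add', den_mul', den_pow', den_num', den_e1E4, den_e2E4, den_e3E4, den_e4E4]

theorem symM4_1_1_1_1 (x : Fin 4 → ℝ) : symM ![1, 1, 1, 1] x = (24) * (e44 x) := by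
  rw [← den_symE4 1 1 1 1 x, eq_of_check' (n := 4) (vec4 x) rfl (symE4 1 1 1 1) ((.num (24) : E) * (e4E4)) (by decide +kernel)]
  simp [den_add', den_mul', den_pow', den_num', den_e1E4, den_e2E4, den_e3E4, den_e4E4]

theorem symM4_5_0_0_0 (x : Fin 4 → ℝ) : symM ![5, 0, 0, 0] x = (6) * (e14 x ^ 5) + (-30) * (e14 x ^ 3 * e24 x) + (30) * (e14 x ^ 2 * e34 x) + (30) * (e14 x * e24 x ^ 2) + (-30) * (e14 x * e44 x) + (-30) * (e24 x * e34 x) := by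
  rw [← den_symE4 5 0 0 0 x, eq_of_check' (n := 4) (vec4 x) rfl (symE4 5 0 0 0) ((.num (6) : E) * (e1E4 ^ 5) + (.num (-30) : E) * (e1E4 ^ 3 * e2E4) + (.num (30) : E) * (e1E4 ^ 2 * e3E4) + (.num (30) : E) * (e1E4 * e2E4 ^ 2) + (.num (-30) : E) * (e1E4 * e4E4) + (.num (-30) : E) * (e2E4 * e3E4)) (by decide +kernel)]
  simp [den_add', den_mul', den_pow', den_num', den_e1E4, den_e2E4, den_e3E4, den_e4E4]

theorem symM4_4_1_0_0 (x : Fin 4 → ℝ) : symM ![4, 1, 0, 0] x = (2) * (e14 x ^ 3 * e24 x) + (-2) * (e14 x ^ 2 * e34 x) + (-6) * (e14 x * e24 x ^ 2) + (2) * (e14 x * e44 x) + (10) * (e24 x * e34 x) := by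
  rw [← den_symE4 4 1 0 0 x, eq_of_check' (n := 4) (vec4 x) rfl (symE4 4 1 0 0) ((.num (2) : E) * (e1E4 ^ 3 * e2E4) + (.num (-2) : E) * (e1E4 ^ 2 * e3E4) + (.num (-6) : E) * (e1E4 * e2E4 ^ 2) + (.num (2) : E) * (e1E4 * e4E4) + (.num (10) : E) * (e2E4 * e3E4)) (by decide +kernel)]
  simp [den_add', den_mul', den_pow', den_num', den_e1E4, den_e2E4, den_e3E4, den_e4E4]

theorem symM4_3_2_0_0 (x : Fin 4 → ℝ) : symM ![3, 2, 0, 0] x = (-4) * (e14 x ^ 2 * e34 x) + (2) * (e14 x * e24 x ^ 2) + (10) * (e14 x * e44 x) + (-2) * (e24 x * e34 x) := by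
  rw [← den_symE4 3 2 0 0 x, eq_of_check' (n := 4) (vec4 x) rfl (symE4 3 2 0 0) ((.num (-4) : E) * (e1E4 ^ 2 * e3E4) + (.num (2) : E) * (e1E4 * e2E4 ^ 2) + (.num (10) : E) * (e1E4 * e4E4) + (.num (-2) : E) * (e2E4 * e3E4)) (by decide +kernel)]
  simp [den_add', den_mul', den_pow', den_num', den_e1E4, den_e2E4, den_e3E4, den_e4E4]

theorem symM4_3_1_1_0 (x : Fin 4 → ℝ) : symM ![3, 1, 1, 0] x = (2) * (e14 x ^ 2 * e34 x) + (-2) * (e14 x * e44 x) + (-4) * (e24 x * e34 x) := by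
  rw [← den_symE4 3 1 1 0 x, eq_of_check' (n := 4) (vec4 x) rfl (symE4 3 1 1 0) ((.num (2) : E) * (e1E4 ^ 2 * e3E4) + (.num (-2) : E) * (e1E4 * e4E4) + (.num (-4) : E) * (e2E4 * e3E4)) (by decide +kernel)]
  simp [den_add', den_mul', den_pow', den_num', den_e1E4, den_e2E4, den_e3E4, den_e4E4]

theorem symM4_2_2_1_0 (x : Fin 4 → ℝ) : symM ![2, 2, 1, 0] x = (-6) * (e14 x * e44 x) + (2) * (e24 x * e34 x) := by
  rw [← den_symE4 2 2 1 0 x, eq_of_check' (n := 4) (vec4 x) rfl (symE4 2 2 1 0) ((.num (-6) : E) * (e1E4 * e4E4) + (.num (2) : E) * (e2E4 * e3E4)) (by decide +kernel)]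
  simp [den_add', den_mul', den_pow', den_num', den_e1E4, den_e2E4, den_e3E4, den_e4E4]

theorem symM4_2_1_1_1 (x : Fin 4 → ℝ) : symM ![2, 1, 1, 1] x = (6) * (e14 x * e44 x) := by
  rw [← den_symE4 2 1 1 1 x, eq_of_check' (n := 4) (vec4 x) rfl (symE4 2 1 1 1) ((.num (6) : E) * (e1E4 * e4E4)) (by decide +kernel)]
  simp [den_add', den_mul', den_pow', den_num', den_e1E4, den_e2E4, den_e3E4, den_e4E4]

theorem symM4_6_0_0_0 (x : Fin 4 → ℝ) : symM ![6, 0, 0, 0] x = (6) * (e14 x ^ 6) + (-36) * (e14 x ^ 4 * e24 x) + (36) * (e14 x ^ 3 * e34 x) + (54) * (e14 x ^ 2 * e24 x ^ 2) + (-36) * (e14 x ^ 2 * e44 x) + (-72) * (e14 x * e24 x * e34 x) + (-12) * (e24 x ^ 3) + (36) * (e24 x * e44 x) + (18) * (e34 x ^ 2) := by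
  rw [← den_symE4 6 0 0 0 x, eq_of_check' (n := 4) (vec4 x) rfl (symE4 6 0 0 0) ((.num (6) : E) * (e1E4 ^ 6) + (.num (-36) : E) * (e1E4 ^ 4 * e2E4) + (.num (36) : E) * (e1E4 ^ 3 * e3E4) + (.num (54) : E) * (e1E4 ^ 2 * e2E4 ^ 2) + (.num (-36) : E) * (e1E4 ^ 2 * e4E4) + (.num (-72) : E) * (e1E4 * e2E4 * e3E4) + (.num (-12) : E) * (e2E4 ^ 3) + (.num (36) : E) * (e2E4 * e4E4) + (.num (18) : E) * (e3E4 ^ 2)) (by decide +kernel)]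
  simp [den_add', den_mul', den_pow', den_num', den_e1E4, den_e2E4, den_e3E4, den_e4E4]

theorem symM4_5_1_0_0 (x : Fin 4 → ℝ) : symM ![5, 1, 0, 0] x = (2) * (e14 x ^ 4 * e24 x) + (-2) * (e14 x ^ 3 * e34 x) + (-8) * (e14 x ^ 2 * e24 x ^ 2) + (2) * (e14 x ^ 2 * e44 x) + (14) * (e14 x * e24 x * e34 x) + (4) * (e24 x ^ 3) + (-12) * (e24 x * e44 x) + (-6) * (e34 x ^ 2) := by
  rw [← den_symE4 5 1 0 0 x, eq_of_check' (n := 4) (vec4 x) rfl (symE4 5 1 0 0) ((.num (2) : E) * (e1E4 ^ 4 * e2E4) + (.num (-2) : E) * (e1E4 ^ 3 * e3E4) + (.num (-8) : E) * (e1E4 ^ 2 * e2E4 ^ 2) + (.num (2) : E) * (e1E4 ^ 2 * e4E4) + (.num (14) : E) * (e1E4 * e2E4 * e3E4) + (.num (4) : E) * (e2E4 ^ 3) + (.num (-12) : E) * (e2E4 * e4E4) + (.num (-6) : E) * (e3E4 ^ 2)) (by decide +kernel)]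
  simp [den_add', den_mul', den_pow', den_num', den_e1E4, den_e2E4, den_e3E4, den_e4E4]

theorem symM4_4_2_0_0 (x : Fin 4 → ℝ) : symM ![4, 2, 0, 0] x = (-4) * (e14 x ^ 3 * e34 x) + (2) * (e14 x ^ 2 * e24 x ^ 2) + (4) * (e14 x ^ 2 * e44 x) + (8) * (e14 x * e24 x * e34 x) + (-4) * (e24 x ^ 3) + (4) * (e24 x * e44 x) + (-6) * (e34 x ^ 2) := by
  rw [← den_symE4 4 2 0 0 x, eq_of_check' (n := 4) (vec4 x) rfl (symE4 4 2 0 0) ((.num (-4) : E) * (e1E4 ^ 3 * e3E4) + (.num (2) : E) * (e1E4 ^ 2 * e2E4 ^ 2) + (.num (4) : E) * (e1E4 ^ 2 * e4E4) + (.num (8) : E) * (e1E4 * e2E4 * e3E4) + (.num (-4) : E) * (e2E4 ^ 3) + (.num (4) : E) * (e2E4 * e4E4) + (.num (-6) : E) * (e3E4 ^ 2)) (by decide +kernel)]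
  simp [den_add', den_mul', den_pow', den_num', den_e1E4, den_e2E4, den_e3E4, den_e4E4]

theorem symM4_4_1_1_0 (x : Fin 4 → ℝ) : symM ![4, 1, 1, 0] x = (2) * (e14 x ^ 3 * e34 x) + (-2) * (e14 x ^ 2 * e44 x) + (-6) * (e14 x * e24 x * e34 x) + (4) * (e24 x * e44 x) + (6) * (e34 x ^ 2) := by
  rw [← den_symE4 4 1 1 0 x, eq_of_check' (n := 4) (vec4 x) rfl (symE4 4 1 1 0) ((.num (2) : E) * (e1E4 ^ 3 * e3E4) + (.num (-2) : E) * (e1E4 ^ 2 * e4E4) + (.num (-6) : E) * (e1E4 * e2E4 * e3E4) + (.num (4) : E) * (e2E4 * e4E4) + (.num (6) : E) * (e3E4 ^ 2)) (by decide +kernel)]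
  simp [den_add', den_mul', den_pow', den_num', den_e1E4, den_e2E4, den_e3E4, den_e4E4]

theorem symM4_3_3_0_0 (x : Fin 4 → ℝ) : symM ![3, 3, 0, 0] x = (12) * (e14 x ^ 2 * e44 x) + (-12) * (e14 x * e24 x * e34 x) + (4) * (e24 x ^ 3) + (-12) * (e24 x * e44 x) + (12) * (e34 x ^ 2) := by
  rw [← den_symE4 3 3 0 0 x, eq_of_check' (n := 4) (vec4 x) rfl (symE4 3 3 0 0) ((.num (12) : E) * (e1E4 ^ 2 * e4E4) + (.num (-12) : E) * (e1E4 * e2E4 * e3E4) + (.num (4) : E) * (e2E4 ^ 3) + (.num (-12) : E) * (e2E4 * e4E4) + (.num (12) : E) * (e3E4 ^ 2)) (by decide +kernel)]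
  simp [den_add', den_mul', den_pow', den_num', den_e1E4, den_e2E4, den_e3E4, den_e4E4]

theorem symM4_3_2_1_0 (x : Fin 4 → ℝ) : symM ![3, 2, 1, 0] x = (-3) * (e14 x ^ 2 * e44 x) + (1) * (e14 x * e24 x * e34 x) + (4) * (e24 x * e44 x) + (-3) * (e34 x ^ 2) := by
  rw [← den_symE4 3 2 1 0 x, eq_of_check' (n := 4) (vec4 x) rfl (symE4 3 2 1 0) ((.num (-3) : E) * (e1E4 ^ 2 * e4E4) + (.num (1) : E) * (e1E4 * e2E4 * e3E4) + (.num (4) : E) * (e2E4 * e4E4) + (.num (-3) : E) * (e3E4 ^ 2)) (by decide +kernel)]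
  simp [den_add', den_mul', den_pow', den_num', den_e1E4, den_e2E4, den_e3E4, den_e4E4]

theorem symM4_3_1_1_1 (x : Fin 4 → ℝ) : symM ![3, 1, 1, 1] x = (6) * (e14 x ^ 2 * e44 x) + (-12) * (e24 x * e44 x) := by
  rw [← den_symE4 3 1 1 1 x, eq_of_check' (n := 4) (vec4 x) rfl (symE4 3 1 1 1) ((.num (6) : E) * (e1E4 ^ 2 * e4E4) + (.num (-12) : E) * (e2E4 * e4E4)) (by decide +kernel)]
  simp [den_add', den_mul', den_pow', den_num', den_e1E4, den_e2E4, den_e3E4, den_e4E4]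

theorem symM4_2_2_2_0 (x : Fin 4 → ℝ) : symM ![2, 2, 2, 0] x = (-12) * (e24 x * e44 x) + (6) * (e34 x ^ 2) := by
  rw [← den_symE4 2 2 2 0 x, eq_of_check' (n := 4) (vec4 x) rfl (symE4 2 2 2 0) ((.num (-12) : E) * (e2E4 * e4E4) + (.num (6) : E) * (e3E4 ^ 2)) (by decide +kernel)]
  simp [den_add', den_mul', den_pow', den_num', den_e1E4, den_e2E4, den_e3E4, den_e4E4]

theorem symM4_2_2_1_1 (x : Fin 4 → ℝ) : symM ![2, 2, 1, 1] x = (4) * (e24 x * e44 x) := by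
  rw [← den_symE4 2 2 1 1 x, eq_of_check' (n := 4) (vec4 x) rfl (symE4 2 2 1 1) ((.num (4) : E) * (e2E4 * e4E4)) (by decide +kernel)]
  simp [den_add', den_mul', den_pow', den_num', den_e1E4, den_e2E4, den_e3E4, den_e4E4]

theorem symM4_7_0_0_0 (x : Fin 4 → ℝ) : symM ![7, 0, 0, 0] x = (6) * (e14 x ^ 7) + (-42) * (e14 x ^ 5 * e24 x) + (42) * (e14 x ^ 4 * e34 x) + (84) * (e14 x ^ 3 * e24 x ^ 2) + (-42) * (e14 x ^ 3 * e44 x) + (-126) * (e14 x ^ 2 * e24 x * e34 x) + (-42) * (e14 x * e24 x ^ 3) + (84) * (e14 x * e24 x * e44 x) + (42) * (e14 x * e34 x ^ 2) + (42) * (e24 x ^ 2 * e34 x) + (-42) * (e34 x * e44 x) := by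
  rw [← den_symE4 7 0 0 0 x, eq_of_check' (n := 4) (vec4 x) rfl (symE4 7 0 0 0) ((.num (6) : E) * (e1E4 ^ 7) + (.num (-42) : E) * (e1E4 ^ 5 * e2E4) + (.num (42) : E) * (e1E4 ^ 4 * e3E4) + (.num (84) : E) * (e1E4 ^ 3 * e2E4 ^ 2) + (.num (-42) : E) * (e1E4 ^ 3 * e4E4) + (.num (-126) : E) * (e1E4 ^ 2 * e2E4 * e3E4) + (.num (-42) : E) * (e1E4 * e2E4 ^ 3) + (.num (84) : E) * (e1E4 * e2E4 * e4E4) + (.num (42) : E) * (e1E4 * e3E4 ^ 2) + (.num (42) : E) * (e2E4 ^ 2 * e3E4) + (.num (-42) : E) * (e3E4 * e4E4)) (by decide +kernel)]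
  simp [den_add', den_mul', den_pow', den_num', den_e1E4, den_e2E4, den_e3E4, den_e4E4]

theorem symM4_6_1_0_0 (x : Fin 4 → ℝ) : symM ![6, 1, 0, 0] x = (2) * (e14 x ^ 5 * e24 x) + (-2) * (e14 x ^ 4 * e34 x) + (-10) * (e14 x ^ 3 * e24 x ^ 2) + (2) * (e14 x ^ 3 * e44 x) + (18) * (e14 x ^ 2 * e24 x * e34 x) + (10) * (e14 x * e24 x ^ 3) + (-16) * (e14 x * e24 x * e44 x) + (-8) * (e14 x * e34 x ^ 2) + (-14) * (e24 x ^ 2 * e34 x) + (14) * (e34 x * e44 x) := by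
  rw [← den_symE4 6 1 0 0 x, eq_of_check' (n := 4) (vec4 x) rfl (symE4 6 1 0 0) ((.num (2) : E) * (e1E4 ^ 5 * e2E4) + (.num (-2) : E) * (e1E4 ^ 4 * e3E4) + (.num (-10) : E) * (e1E4 ^ 3 * e2E4 ^ 2) + (.num (2) : E) * (e1E4 ^ 3 * e4E4) + (.num (18) : E) * (e1E4 ^ 2 * e2E4 * e3E4) + (.num (10) : E) * (e1E4 * e2E4 ^ 3) + (.num (-16) : E) * (e1E4 * e2E4 * e4E4) + (.num (-8) : E) * (e1E4 * e3E4 ^ 2) + (.num (-14) : E) * (e2E4 ^ 2 * e3E4) + (.num (14) : E) * (e3E4 * e4E4)) (by decide +kernel)]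
  simp [den_add', den_mul', den_pow', den_num', den_e1E4, den_e2E4, den_e3E4, den_e4E4]

theorem symM4_5_2_0_0 (x : Fin 4 → ℝ) : symM ![5, 2, 0, 0] x = (-4) * (e14 x ^ 4 * e34 x) + (2) * (e14 x ^ 3 * e24 x ^ 2) + (4) * (e14 x ^ 3 * e44 x) + (12) * (e14 x ^ 2 * e24 x * e34 x) + (-6) * (e14 x * e24 x ^ 3) + (-8) * (e14 x * e24 x * e44 x) + (-14) * (e14 x * e34 x ^ 2) + (6) * (e24 x ^ 2 * e34 x) + (14) * (e34 x * e44 x) := by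
  rw [← den_symE4 5 2 0 0 x, eq_of_check' (n := 4) (vec4 x) rfl (symE4 5 2 0 0) ((.num (-4) : E) * (e1E4 ^ 4 * e3E4) + (.num (2) : E) * (e1E4 ^ 3 * e2E4 ^ 2) + (.num (4) : E) * (e1E4 ^ 3 * e4E4) + (.num (12) : E) * (e1E4 ^ 2 * e2E4 * e3E4) + (.num (-6) : E) * (e1E4 * e2E4 ^ 3) + (.num (-8) : E) * (e1E4 * e2E4 * e4E4) + (.num (-14) : E) * (e1E4 * e3E4 ^ 2) + (.num (6) : E) * (e2E4 ^ 2 * e3E4) + (.num (14) : E) * (e3E4 * e4E4)) (by decide +kernel)]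
  simp [den_add', den_mul', den_pow', den_num', den_e1E4, den_e2E4, den_e3E4, den_e4E4]

theorem symM4_5_1_1_0 (x : Fin 4 → ℝ) : symM ![5, 1, 1, 0] x = (2) * (e14 x ^ 4 * e34 x) + (-2) * (e14 x ^ 3 * e44 x) + (-8) * (e14 x ^ 2 * e24 x * e34 x) + (6) * (e14 x * e24 x * e44 x) + (8) * (e14 x * e34 x ^ 2) + (4) * (e24 x ^ 2 * e34 x) + (-14) * (e34 x * e44 x) := by
  rw [← den_symE4 5 1 1 0 x, eq_of_check' (n := 4) (vec4 x) rfl (symE4 5 1 1 0) ((.num (2) : E) * (e1E4 ^ 4 * e3E4) + (.num (-2) : E) * (e1E4 ^ 3 * e4E4) + (.num (-8) : E) * (e1E4 ^ 2 * e2E4 * e3E4) + (.num (6) : E) * (e1E4 * e2E4 * e4E4) + (.num (8) : E) * (e1E4 * e3E4 ^ 2) + (.num (4) : E) * (e2E4 ^ 2 * e3E4) + (.num (-14) : E) * (e3E4 * e4E4)) (by decide +kernel)]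
  simp [den_add', den_mul', den_pow', den_num', den_e1E4, den_e2E4, den_e3E4, den_e4E4]

theorem symM4_4_3_0_0 (x : Fin 4 → ℝ) : symM ![4, 3, 0, 0] x = (6) * (e14 x ^ 3 * e44 x) + (-6) * (e14 x ^ 2 * e24 x * e34 x) + (2) * (e14 x * e24 x ^ 3) + (-4) * (e14 x * e24 x * e44 x) + (10) * (e14 x * e34 x ^ 2) + (-2) * (e24 x ^ 2 * e34 x) + (-10) * (e34 x * e44 x) := by
  rw [← den_symE4 4 3 0 0 x, eq_of_check' (n := 4) (vec4 x) rfl (symE4 4 3 0 0) ((.num (6) : E) * (e1E4 ^ 3 * e4E4) + (.num (-6) : E) * (e1E4 ^ 2 * e2E4 * e3E4) + (.num (2) : E) * (e1E4 * e2E4 ^ 3) + (.num (-4) : E) * (e1E4 * e2E4 * e4E4) + (.num (10) : E) * (e1E4 * e3E4 ^ 2) + (.num (-2) : E) * (e2E4 ^ 2 * e3E4) + (.num (-10) : E) * (e3E4 * e4E4)) (by decide +kernel)]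
  simp [den_add', den_mul', den_pow', den_num', den_e1E4, den_e2E4, den_e3E4, den_e4E4]

theorem symM4_4_2_1_0 (x : Fin 4 → ℝ) : symM ![4, 2, 1, 0] x = (-3) * (e14 x ^ 3 * e44 x) + (1) * (e14 x ^ 2 * e24 x * e34 x) + (8) * (e14 x * e24 x * e44 x) + (-1) * (e14 x * e34 x ^ 2) + (-2) * (e24 x ^ 2 * e34 x) + (-2) * (e34 x * e44 x) := by
  rw [← den_symE4 4 2 1 0 x, eq_of_check' (n := 4) (vec4 x) rfl (symE4 4 2 1 0) ((.num (-3) : E) * (e1E4 ^ 3 * e4E4) + (.num (1) : E) * (e1E4 ^ 2 * e2E4 * e3E4) + (.num (8) : E) * (e1E4 * e2E4 * e4E4) + (.num (-1) : E) * (e1E4 * e3E4 ^ 2) + (.num (-2) : E) * (e2E4 ^ 2 * e3E4) + (.num (-2) : E) * (e3E4 * e4E4)) (by decide +kernel)]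
  simp [den_add', den_mul', den_pow', den_num', den_e1E4, den_e2E4, den_e3E4, den_e4E4]

theorem symM4_4_1_1_1 (x : Fin 4 → ℝ) : symM ![4, 1, 1, 1] x = (6) * (e14 x ^ 3 * e44 x) + (-18) * (e14 x * e24 x * e44 x) + (18) * (e34 x * e44 x) := by
  rw [← den_symE4 4 1 1 1 x, eq_of_check' (n := 4) (vec4 x) rfl (symE4 4 1 1 1) ((.num (6) : E) * (e1E4 ^ 3 * e4E4) + (.num (-18) : E) * (e1E4 * e2E4 * e4E4) + (.num (18) : E) * (e3E4 * e4E4)) (by decide +kernel)]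
  simp [den_add', den_mul', den_pow', den_num', den_e1E4, den_e2E4, den_e3E4, den_e4E4]

theorem symM4_3_3_1_0 (x : Fin 4 → ℝ) : symM ![3, 3, 1, 0] x = (-2) * (e14 x * e24 x * e44 x) + (-4) * (e14 x * e34 x ^ 2) + (2) * (e24 x ^ 2 * e34 x) + (10) * (e34 x * e44 x) := by
  rw [← den_symE4 3 3 1 0 x, eq_of_check' (n := 4) (vec4 x) rfl (symE4 3 3 1 0) ((.num (-2) : E) * (e1E4 * e2E4 * e4E4) + (.num (-4) : E) * (e1E4 * e3E4 ^ 2) + (.num (2) : E) * (e2E4 ^ 2 * e3E4) + (.num (10) : E) * (e3E4 * e4E4)) (by decide +kernel)]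
  simp [den_add', den_mul', den_pow', den_num', den_e1E4, den_e2E4, den_e3E4, den_e4E4]

theorem symM4_3_2_2_0 (x : Fin 4 → ℝ) : symM ![3, 2, 2, 0] x = (-4) * (e14 x * e24 x * e44 x) + (2) * (e14 x * e34 x ^ 2) + (-2) * (e34 x * e44 x) := by
  rw [← den_symE4 3 2 2 0 x, eq_of_check' (n := 4) (vec4 x) rfl (symE4 3 2 2 0) ((.num (-4) : E) * (e1E4 * e2E4 * e4E4) + (.num (2) : E) * (e1E4 * e3E4 ^ 2) + (.num (-2) : E) * (e3E4 * e4E4)) (by decide +kernel)]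
  simp [den_add', den_mul', den_pow', den_num', den_e1E4, den_e2E4, den_e3E4, den_e4E4]

theorem symM4_3_2_1_1 (x : Fin 4 → ℝ) : symM ![3, 2, 1, 1] x = (2) * (e14 x * e24 x * e44 x) + (-6) * (e34 x * e44 x) := by
  rw [← den_symE4 3 2 1 1 x, eq_of_check' (n := 4) (vec4 x) rfl (symE4 3 2 1 1) ((.num (2) : E) * (e1E4 * e2E4 * e4E4) + (.num (-6) : E) * (e3E4 * e4E4)) (by decide +kernel)]
  simp [den_add', den_mul', den_pow', den_num', den_e1E4, den_e2E4, den_e3E4, den_e4E4]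

theorem symM4_2_2_2_1 (x : Fin 4 → ℝ) : symM ![2, 2, 2, 1] x = (6) * (e34 x * e44 x) := by
  rw [← den_symE4 2 2 2 1 x, eq_of_check' (n := 4) (vec4 x) rfl (symE4 2 2 2 1) ((.num (6) : E) * (e3E4 * e4E4)) (by decide +kernel)]
  simp [den_add', den_mul', den_pow', den_num', den_e1E4, den_e2E4, den_e3E4, den_e4E4]

theorem symM4_8_0_0_0 (x : Fin 4 → ℝ) : symM ![8, 0, 0, 0] x = (6) * (e14 x ^ 8) + (-48) * (e14 x ^ 6 * e24 x) + (48) * (e14 x ^ 5 * e34 x) + (120) * (e14 x ^ 4 * e24 x ^ 2) + (-48) * (e14 x ^ 4 * e44 x) + (-192) * (e14 x ^ 3 * e24 x * e34 x) + (-96) * (e14 x ^ 2 * e24 x ^ 3) + (144) * (e14 x ^ 2 * e24 x * e44 x) + (72) * (e14 x ^ 2 * e34 x ^ 2) + (144) * (e14 x * e24 x ^ 2 * e34 x) + (-96) * (e14 x * e34 x * e44 x) + (12) * (e24 x ^ 4) + (-48) * (e24 x ^ 2 * e44 x) + (-48) * (e24 x * e34 x ^ 2) + (24) * (e44 x ^ 2) := by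
  rw [← den_symE4 8 0 0 0 x, eq_of_check' (n := 4) (vec4 x) rfl (symE4 8 0 0 0) ((.num (6) : E) * (e1E4 ^ 8) + (.num (-48) : E) * (e1E4 ^ 6 * e2E4) + (.num (48) : E) * (e1E4 ^ 5 * e3E4) + (.num (120) : E) * (e1E4 ^ 4 * e2E4 ^ 2) + (.num (-48) : E) * (e1E4 ^ 4 * e4E4) + (.num (-192) : E) * (e1E4 ^ 3 * e2E4 * e3E4) + (.num (-96) : E) * (e1E4 ^ 2 * e2E4 ^ 3) + (.num (144) : E) * (e1E4 ^ 2 * e2E4 * e4E4) + (.num (72) : E) * (e1E4 ^ 2 * e3E4 ^ 2) + (.num (144) : E) * (e1E4 * e2E4 ^ 2 * e3E4) + (.num (-96) : E) * (e1E4 * e3E4 * e4E4) + (.num (12) : E) * (e2E4 ^ 4) + (.num (-48) : E) * (e2E4 ^ 2 * e4E4) + (.num (-48) : E) * (e2E4 * e3E4 ^ 2) + (.num (24) : E) * (e4E4 ^ 2)) (by decide +kernel)]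
  simp [den_add', den_mul', den_pow', den_num', den_e1E4, den_e2E4, den_e3E4, den_e4E4]

theorem symM4_7_1_0_0 (x : Fin 4 → ℝ) : symM ![7, 1, 0, 0] x = (2) * (e14 x ^ 6 * e24 x) + (-2) * (e14 x ^ 5 * e34 x) + (-12) * (e14 x ^ 4 * e24 x ^ 2) + (2) * (e14 x ^ 4 * e44 x) + (22) * (e14 x ^ 3 * e24 x * e34 x) + (18) * (e14 x ^ 2 * e24 x ^ 3) + (-20) * (e14 x ^ 2 * e24 x * e44 x) + (-10) * (e14 x ^ 2 * e34 x ^ 2) + (-34) * (e14 x * e24 x ^ 2 * e34 x) + (18) * (e14 x * e34 x * e44 x) + (-4) * (e24 x ^ 4) + (16) * (e24 x ^ 2 * e44 x) + (16) * (e24 x * e34 x ^ 2) + (-8) * (e44 x ^ 2) := by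
  rw [← den_symE4 7 1 0 0 x, eq_of_check' (n := 4) (vec4 x) rfl (symE4 7 1 0 0) ((.num (2) : E) * (e1E4 ^ 6 * e2E4) + (.num (-2) : E) * (e1E4 ^ 5 * e3E4) + (.num (-12) : E) * (e1E4 ^ 4 * e2E4 ^ 2) + (.num (2) : E) * (e1E4 ^ 4 * e4E4) + (.num (22) : E) * (e1E4 ^ 3 * e2E4 * e3E4) + (.num (18) : E) * (e1E4 ^ 2 * e2E4 ^ 3) + (.num (-20) : E) * (e1E4 ^ 2 * e2E4 * e4E4) + (.num (-10) : E) * (e1E4 ^ 2 * e3E4 ^ 2) + (.num (-34) : E) * (e1E4 * e2E4 ^ 2 * e3E4) + (.num (18) : E) * (e1E4 * e3E4 * e4E4) + (.num (-4) : E) * (e2E4 ^ 4) + (.num (16) : E) * (e2E4 ^ 2 * e4E4) + (.num (16) : E) * (e2E4 * e3E4 ^ 2) + (.num (-8) : E) * (e4E4 ^ 2)) (by decide +kernel)]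
  simp [den_add', den_mul', den_pow', den_num', den_e1E4, den_e2E4, den_e3E4, den_e4E4]

theorem symM4_6_2_0_0 (x : Fin 4 → ℝ) : symM ![6, 2, 0, 0] x = (-4) * (e14 x ^ 5 * e34 x) + (2) * (e14 x ^ 4 * e24 x ^ 2) + (4) * (e14 x ^ 4 * e44 x) + (16) * (e14 x ^ 3 * e24 x * e34 x) + (-8) * (e14 x ^ 2 * e24 x ^ 3) + (-12) * (e14 x ^ 2 * e24 x * e44 x) + (-18) * (e14 x ^ 2 * e34 x ^ 2) + (32) * (e14 x * e34 x * e44 x) + (4) * (e24 x ^ 4) + (-8) * (e24 x ^ 2 * e44 x) + (4) * (e24 x * e34 x ^ 2) + (-8) * (e44 x ^ 2) := by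
  rw [← den_symE4 6 2 0 0 x, eq_of_check' (n := 4) (vec4 x) rfl (symE4 6 2 0 0) ((.num (-4) : E) * (e1E4 ^ 5 * e3E4) + (.num (2) : E) * (e1E4 ^ 4 * e2E4 ^ 2) + (.num (4) : E) * (e1E4 ^ 4 * e4E4) + (.num (16) : E) * (e1E4 ^ 3 * e2E4 * e3E4) + (.num (-8) : E) * (e1E4 ^ 2 * e2E4 ^ 3) + (.num (-12) : E) * (e1E4 ^ 2 * e2E4 * e4E4) + (.num (-18) : E) * (e1E4 ^ 2 * e3E4 ^ 2) + (.num (32) : E) * (e1E4 * e3E4 * e4E4) + (.num (4) : E) * (e2E4 ^ 4) + (.num (-8) : E) * (e2E4 ^ 2 * e4E4) + (.num (4) : E) * (e2E4 * e3E4 ^ 2) + (.num (-8) : E) * (e4E4 ^ 2)) (by decide +kernel)]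
  simp [den_add', den_mul', den_pow', den_num', den_e1E4, den_e2E4, den_e3E4, den_e4E4]

theorem symM4_6_1_1_0 (x : Fin 4 → ℝ) : symM ![6, 1, 1, 0] x = (2) * (e14 x ^ 5 * e34 x) + (-2) * (e14 x ^ 4 * e44 x) + (-10) * (e14 x ^ 3 * e24 x * e34 x) + (8) * (e14 x ^ 2 * e24 x * e44 x) + (10) * (e14 x ^ 2 * e34 x ^ 2) + (10) * (e14 x * e24 x ^ 2 * e34 x) + (-18) * (e14 x * e34 x * e44 x) + (-4) * (e24 x ^ 2 * e44 x) + (-10) * (e24 x * e34 x ^ 2) + (8) * (e44 x ^ 2) := by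
  rw [← den_symE4 6 1 1 0 x, eq_of_check' (n := 4) (vec4 x) rfl (symE4 6 1 1 0) ((.num (2) : E) * (e1E4 ^ 5 * e3E4) + (.num (-2) : E) * (e1E4 ^ 4 * e4E4) + (.num (-10) : E) * (e1E4 ^ 3 * e2E4 * e3E4) + (.num (8) : E) * (e1E4 ^ 2 * e2E4 * e4E4) + (.num (10) : E) * (e1E4 ^ 2 * e3E4 ^ 2) + (.num (10) : E) * (e1E4 * e2E4 ^ 2 * e3E4) + (.num (-18) : E) * (e1E4 * e3E4 * e4E4) + (.num (-4) : E) * (e2E4 ^ 2 * e4E4) + (.num (-10) : E) * (e2E4 * e3E4 ^ 2) + (.num (8) : E) * (e4E4 ^ 2)) (by decide +kernel)]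
  simp [den_add', den_mul', den_pow', den_num', den_e1E4, den_e2E4, den_e3E4, den_e4E4]

theorem symM4_5_3_0_0 (x : Fin 4 → ℝ) : symM ![5, 3, 0, 0] x = (6) * (e14 x ^ 4 * e44 x) + (-6) * (e14 x ^ 3 * e24 x * e34 x) + (2) * (e14 x ^ 2 * e24 x ^ 3) + (-18) * (e14 x ^ 2 * e24 x * e44 x) + (6) * (e14 x ^ 2 * e34 x ^ 2) + (12) * (e14 x * e24 x ^ 2 * e34 x) + (2) * (e14 x * e34 x * e44 x) + (-4) * (e24 x ^ 4) + (16) * (e24 x ^ 2 * e44 x) + (-14) * (e24 x * e34 x ^ 2) + (-8) * (e44 x ^ 2) := by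
  rw [← den_symE4 5 3 0 0 x, eq_of_check' (n := 4) (vec4 x) rfl (symE4 5 3 0 0) ((.num (6) : E) * (e1E4 ^ 4 * e4E4) + (.num (-6) : E) * (e1E4 ^ 3 * e2E4 * e3E4) + (.num (2) : E) * (e1E4 ^ 2 * e2E4 ^ 3) + (.num (-18) : E) * (e1E4 ^ 2 * e2E4 * e4E4) + (.num (6) : E) * (e1E4 ^ 2 * e3E4 ^ 2) + (.num (12) : E) * (e1E4 * e2E4 ^ 2 * e3E4) + (.num (2) : E) * (e1E4 * e3E4 * e4E4) + (.num (-4) : E) * (e2E4 ^ 4) + (.num (16) : E) * (e2E4 ^ 2 * e4E4) + (.num (-14) : E) * (e2E4 * e3E4 ^ 2) + (.num (-8) : E) * (e4E4 ^ 2)) (by decide +kernel)]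
  simp [den_add', den_mul', den_pow', den_num', den_e1E4, den_e2E4, den_e3E4, den_e4E4]

theorem symM4_5_2_1_0 (x : Fin 4 → ℝ) : symM ![5, 2, 1, 0] x = (-3) * (e14 x ^ 4 * e44 x) + (1) * (e14 x ^ 3 * e24 x * e34 x) + (11) * (e14 x ^ 2 * e24 x * e44 x) + (-1) * (e14 x ^ 2 * e34 x ^ 2) + (-3) * (e14 x * e24 x ^ 2 * e34 x) + (-10) * (e14 x * e34 x * e44 x) + (-4) * (e24 x ^ 2 * e44 x) + (5) * (e24 x * e34 x ^ 2) + (8) * (e44 x ^ 2) := by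
  rw [← den_symE4 5 2 1 0 x, eq_of_check' (n := 4) (vec4 x) rfl (symE4 5 2 1 0) ((.num (-3) : E) * (e1E4 ^ 4 * e4E4) + (.num (1) : E) * (e1E4 ^ 3 * e2E4 * e3E4) + (.num (11) : E) * (e1E4 ^ 2 * e2E4 * e4E4) + (.num (-1) : E) * (e1E4 ^ 2 * e3E4 ^ 2) + (.num (-3) : E) * (e1E4 * e2E4 ^ 2 * e3E4) + (.num (-10) : E) * (e1E4 * e3E4 * e4E4) + (.num (-4) : E) * (e2E4 ^ 2 * e4E4) + (.num (5) : E) * (e2E4 * e3E4 ^ 2) + (.num (8) : E) * (e4E4 ^ 2)) (by decide +kernel)]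
  simp [den_add', den_mul', den_pow', den_num', den_e1E4, den_e2E4, den_e3E4, den_e4E4]

theorem symM4_5_1_1_1 (x : Fin 4 → ℝ) : symM ![5, 1, 1, 1] x = (6) * (e14 x ^ 4 * e44 x) + (-24) * (e14 x ^ 2 * e24 x * e44 x) + (24) * (e14 x * e34 x * e44 x) + (12) * (e24 x ^ 2 * e44 x) + (-24) * (e44 x ^ 2) := by
  rw [← den_symE4 5 1 1 1 x, eq_of_check' (n := 4) (vec4 x) rfl (symE4 5 1 1 1) ((.num (6) : E) * (e1E4 ^ 4 * e4E4) + (.num (-24) : E) * (e1E4 ^ 2 * e2E4 * e4E4) + (.num (24) : E) * (e1E4 * e3E4 * e4E4) + (.num (12) : E) * (e2E4 ^ 2 * e4E4) + (.num (-24) : E) * (e4E4 ^ 2)) (by decide +kernel)]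
  simp [den_add', den_mul', den_pow', den_num', den_e1E4, den_e2E4, den_e3E4, den_e4E4]

theorem symM4_4_4_0_0 (x : Fin 4 → ℝ) : symM ![4, 4, 0, 0] x = (16) * (e14 x ^ 2 * e24 x * e44 x) + (8) * (e14 x ^ 2 * e34 x ^ 2) + (-16) * (e14 x * e24 x ^ 2 * e34 x) + (-32) * (e14 x * e34 x * e44 x) + (4) * (e24 x ^ 4) + (-16) * (e24 x ^ 2 * e44 x) + (16) * (e24 x * e34 x ^ 2) + (24) * (e44 x ^ 2) := by
  rw [← den_symE4 4 4 0 0 x, eq_of_check' (n := 4) (vec4 x) rfl (symE4 4 4 0 0) ((.num (16) : E) * (e1E4 ^ 2 * e2E4 * e4E4) + (.num (8) : E) * (e1E4 ^ 2 * e3E4 ^ 2) + (.num (-16) : E) * (e1E4 * e2E4 ^ 2 * e3E4) + (.num (-32) : E) * (e1E4 * e3E4 * e4E4) + (.num (4) : E) * (e2E4 ^ 4) + (.num (-16) : E) * (e2E4 ^ 2 * e4E4) + (.num (16) : E) * (e2E4 * e3E4 ^ 2) + (.num (24) : E) * (e4E4 ^ 2)) (by decide +kernel)]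
  simp [den_add', den_mul', den_pow', den_num', den_e1E4, den_e2E4, den_e3E4, den_e4E4]

theorem symM4_4_3_1_0 (x : Fin 4 → ℝ) : symM ![4, 3, 1, 0] x = (-1) * (e14 x ^ 2 * e24 x * e44 x) + (-2) * (e14 x ^ 2 * e34 x ^ 2) + (1) * (e14 x * e24 x ^ 2 * e34 x) + (10) * (e14 x * e34 x * e44 x) + (-1) * (e24 x * e34 x ^ 2) + (-8) * (e44 x ^ 2) := by
  rw [← den_symE4 4 3 1 0 x, eq_of_check' (n := 4) (vec4 x) rfl (symE4 4 3 1 0) ((.num (-1) : E) * (e1E4 ^ 2 * e2E4 * e4E4) + (.num (-2) : E) * (e1E4 ^ 2 * e3E4 ^ 2) + (.num (1) : E) * (e1E4 * e2E4 ^ 2 * e3E4) + (.num (10) : E) * (e1E4 * e3E4 * e4E4) + (.num (-1) : E) * (e2E4 * e3E4 ^ 2) + (.num (-8) : E) * (e4E4 ^ 2)) (by decide +kernel)]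
  simp [den_add', den_mul', den_pow', den_num', den_e1E4, den_e2E4, den_e3E4, den_e4E4]

theorem symM4_4_2_2_0 (x : Fin 4 → ℝ) : symM ![4, 2, 2, 0] x = (-4) * (e14 x ^ 2 * e24 x * e44 x) + (2) * (e14 x ^ 2 * e34 x ^ 2) + (8) * (e24 x ^ 2 * e44 x) + (-4) * (e24 x * e34 x ^ 2) + (-8) * (e44 x ^ 2) := by
  rw [← den_symE4 4 2 2 0 x, eq_of_check' (n := 4) (vec4 x) rfl (symE4 4 2 2 0) ((.num (-4) : E) * (e1E4 ^ 2 * e2E4 * e4E4) + (.num (2) : E) * (e1E4 ^ 2 * e3E4 ^ 2) + (.num (8) : E) * (e2E4 ^ 2 * e4E4) + (.num (-4) : E) * (e2E4 * e3E4 ^ 2) + (.num (-8) : E) * (e4E4 ^ 2)) (by decide +kernel)]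
  simp [den_add', den_mul', den_pow', den_num', den_e1E4, den_e2E4, den_e3E4, den_e4E4]

theorem symM4_4_2_1_1 (x : Fin 4 → ℝ) : symM ![4, 2, 1, 1] x = (2) * (e14 x ^ 2 * e24 x * e44 x) + (-2) * (e14 x * e34 x * e44 x) + (-4) * (e24 x ^ 2 * e44 x) + (8) * (e44 x ^ 2) := by
  rw [← den_symE4 4 2 1 1 x, eq_of_check' (n := 4) (vec4 x) rfl (symE4 4 2 1 1) ((.num (2) : E) * (e1E4 ^ 2 * e2E4 * e4E4) + (.num (-2) : E) * (e1E4 * e3E4 * e4E4) + (.num (-4) : E) * (e2E4 ^ 2 * e4E4) + (.num (8) : E) * (e4E4 ^ 2)) (by decide +kernel)]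
  simp [den_add', den_mul', den_pow', den_num', den_e1E4, den_e2E4, den_e3E4, den_e4E4]

theorem symM4_3_3_2_0 (x : Fin 4 → ℝ) : symM ![3, 3, 2, 0] x = (-2) * (e14 x * e34 x * e44 x) + (-4) * (e24 x ^ 2 * e44 x) + (2) * (e24 x * e34 x ^ 2) + (8) * (e44 x ^ 2) := by
  rw [← den_symE4 3 3 2 0 x, eq_of_check' (n := 4) (vec4 x) rfl (symE4 3 3 2 0) ((.num (-2) : E) * (e1E4 * e3E4 * e4E4) + (.num (-4) : E) * (e2E4 ^ 2 * e4E4) + (.num (2) : E) * (e2E4 * e3E4 ^ 2) + (.num (8) : E) * (e4E4 ^ 2)) (by decide +kernel)]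
  simp [den_add', den_mul', den_pow', den_num', den_e1E4, den_e2E4, den_e3E4, den_e4E4]

theorem symM4_3_3_1_1 (x : Fin 4 → ℝ) : symM ![3, 3, 1, 1] x = (-8) * (e14 x * e34 x * e44 x) + (4) * (e24 x ^ 2 * e44 x) + (8) * (e44 x ^ 2) := by
  rw [← den_symE4 3 3 1 1 x, eq_of_check' (n := 4) (vec4 x) rfl (symE4 3 3 1 1) ((.num (-8) : E) * (e1E4 * e3E4 * e4E4) + (.num (4) : E) * (e2E4 ^ 2 * e4E4) + (.num (8) : E) * (e4E4 ^ 2)) (by decide +kernel)]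
  simp [den_add', den_mul', den_pow', den_num', den_e1E4, den_e2E4, den_e3E4, den_e4E4]

theorem symM4_3_2_2_1 (x : Fin 4 → ℝ) : symM ![3, 2, 2, 1] x = (2) * (e14 x * e34 x * e44 x) + (-8) * (e44 x ^ 2) := by
  rw [← den_symE4 3 2 2 1 x, eq_of_check' (n := 4) (vec4 x) rfl (symE4 3 2 2 1) ((.num (2) : E) * (e1E4 * e3E4 * e4E4) + (.num (-8) : E) * (e4E4 ^ 2)) (by decide +kernel)]
  simp [den_add', den_mul', den_pow', den_num', den_e1E4, den_e2E4, den_e3E4, den_e4E4]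

theorem symM4_2_2_2_2 (x : Fin 4 → ℝ) : symM ![2, 2, 2, 2] x = (24) * (e44 x ^ 2) := by
  rw [← den_symE4 2 2 2 2 x, eq_of_check' (n := 4) (vec4 x) rfl (symE4 2 2 2 2) ((.num (24) : E) * (e4E4 ^ 2)) (by decide +kernel)]
  simp [den_add', den_mul', den_pow', den_num', den_e1E4, den_e2E4, den_e3E4, den_e4E4]

end Crest.Agent.Lib.Bc.SymAvg
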