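import Mathlib
/-!
# Row 163, `(b,lam) = (4,-1/2)`, tail: the polynomial inequality (helper43)

`F4 s ρ r τ` is the closed form of `E[P]` for the degree 5 majorant of `a + a²/6` at four children (`Tail4.lean`).
`F4_le`: `F4 s p r T ≤ s + r/6 - s²/100` on `0 ≤ s ≤ 1/16`, `s² ≤ r ≤ s`, `-s/2 ≤ p ≤ s`, `p² ≤ s r`, `-r/2 ≤ T ≤ r`.
The proof is a certificate: `s * (right - left)` is an explicit nonnegative combination of products of the constraints
(coefficients found by a linear program, rational after rounding, checked by `ring` and `positivity`).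
-/
namespace Crest.Agent.Lib.Bc.Tail4

/-- the closed form, as a sum over the classes of exponents -/
noncomputable def F4 (s p r T : ℝ) : ℝ :=
    (7/6) * (1) ^ 4 +
    (-14/3) * (1 + (-1/4) * s) ^ 4 +
    (7/3) * (1 + (-3/4) * s + (-1/4) * p) ^ 4 +
    (14/3) * (1 + (1/8) * p) ^ 4 +
    (-68/27) * (1 + (-3/4) * s + (-1/4) * p) ^ 4 +
    (-26/27) * (1 + (1/2) * p + (3/16) * r) ^ 4 +
    (25/54) * (1 + (-1) * s + (-1/4) * p + (3/16) * r + (1/16) * T) ^ 4 +
    (-32/27) * (1 + (3/4) * s + (1/8) * p + (-3/16) * r) ^ 4 +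
    (26/81) * (1 + (-1/4) * s + (-1/4) * p + (-3/8) * r + (-1/8) * T) ^ 4 +
    (7/27) * (1 + (1/2) * s + (7/8) * p + (3/16) * r + (-1/32) * T) ^ 4 +
    (10/81) * (1 + 2 * s + (-1/4) * p + (-3/8) * r + (5/32) * T) ^ 4

set_option maxRecDepth 100000 in
lemma cert_pos {s p r q g1 g2 g3 g4 g5 g6 : ℝ} (hs : 0 ≤ s) (hp : 0 ≤ p) (hr : 0 ≤ r) (hq : 0 ≤ q)
    (h1 : 0 ≤ g1) (h2 : 0 ≤ g2) (h3 : 0 ≤ g3) (h4 : 0 ≤ g4) (h5 : 0 ≤ g5) (h6 : 0 ≤ g6)
    (e1 : g1 = 1 / 16 - s) (e2 : g2 = s - r) (e3 : g3 = r - s ^ 2) (e4 : g4 = s - p)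
    (e5 : g5 = s * r - p ^ 2) (e6 : g6 = (3 / 2) * r - q) :
    0 ≤ s * (s + r / 6 - (1 / 100) * s ^ 2 - F4 s p r (r - q)) := by
  have key : s * (s + r / 6 - (1 / 100) * s ^ 2 - F4 s p r (r - q)) =
      (12813/262144) * (g5) +
      (3621/262144) * (g2 * q) +
      (91047/1048576) * (g5 * q) +
      (2161/131072) * (g6 * q) +
      (17/1048576) * (g4 * q) +
      (420629/1048576) * (g1 * q ^ 2) +
      (2955/131072) * (g2 * q ^ 2) +
      (7/262144) * (g6 * q ^ 2) +
      (21537/524288) * (g4 * q ^ 2) +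
      (251801/1048576) * (g1 * q ^ 3) +
      (41/1048576) * (g2 * q ^ 3) +
      (72163/1048576) * (g6 * q ^ 3) +
      (7/524288) * (g4 * q ^ 3) +
      (14051/1048576) * (g2 * q ^ 4) +
      (32155/1048576) * (g6 * q ^ 4) +
      (27/1048576) * (g4 * q ^ 4) +
      (3399/262144) * (g5 * p) +
      (81841/262144) * (g5 * p * q) +
      (172207/262144) * (g1 * p * q ^ 2) +
      (716977/1048576) * (g4 * p * q ^ 2) +
      (216273/1048576) * (g6 * p * q ^ 3) +
      (79619/524288) * (g4 * p * q ^ 3) +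
      (868537/524288) * (g3 * p * r * q) +
      (134487/524288) * (g1 * p ^ 2) +
      (5/524288) * (g5 * p ^ 2) +
      (2817/1048576) * (g2 * p ^ 2 * q ^ 2) +
      (1863/1048576) * (g6 * p ^ 2 * q ^ 2) +
      (298171/1048576) * (g4 * p ^ 2 * q ^ 2) +
      (13/524288) * (g2 * p ^ 4) +
      (5/524288) * (g6 * p ^ 4) +
      (5/524288) * (g4 * p ^ 4) +
      (365477/524288) * (g3 * s * q ^ 2) +
      (13603/524288) * (g2 * s * q ^ 3) +
      (37765/131072) * (g4 * s * p * q ^ 2) +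
      (708089/1048576) * (g4 * s * p ^ 2 * q) +
      (100143/1048576) * (g4 * s * p ^ 3) +
      (2061807/1048576) * (g1 * s ^ 2 * q) +
      (95/4194304) * (g1 * s ^ 3 * r) +
      (60933/131072) * (g1 * g2 * q) +
      (219347/524288) * (g1 * g2 * s ^ 2) +
      (72609/262144) * (g1 * g6 * q) +
      (125761/524288) * (g1 * g6 * q ^ 2) +
      (8221/65536) * (g1 * g6 * r) +
      (679/1048576) * (g1 * g6 * r ^ 2 * q) +
      (2867/131072) * (g1 * g6 * r ^ 3) +
      (45055/524288) * (g1 * g6 * p * r ^ 2) +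
      (719543/1048576) * (g1 * g6 * s) +
      (1504001/524288) * (g1 * g6 * s ^ 2) +
      (1169365/524288) * (g1 * g6 * s ^ 3) +
      (843995/524288) * (g1 * g4 * s ^ 2) +
      (51935/262144) * (g2 * g2 * s * q) +
      (861/65536) * (g2 * g2 * s * r ^ 2) +
      (509469/524288) * (g2 * g2 * s * p) +
      (13111/131072) * (g2 * g2 * s * p * r) +
      (6171/524288) * (g2 * g3) +
      (5/524288) * (g2 * g3 * r) +
      (1737099/1048576) * (g2 * g3 * p * q) +
      (1040101/1048576) * (g2 * g3 * s * r) +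
      (1050629/524288) * (g2 * g3 * s ^ 2) +
      (22871/262144) * (g2 * g5) +
      (36129/65536) * (g2 * g5 * p) +
      (441083/1048576) * (g2 * g5 * p * q) +
      (1051383/1048576) * (g2 * g5 * s * p) +
      (7/1048576) * (g2 * g6 * q) +
      (34225/1048576) * (g2 * g6 * q ^ 3) +
      (15/1048576) * (g2 * g6 * r * q ^ 2) +
      (245071/1048576) * (g2 * g6 * r ^ 2) +
      (3/262144) * (g2 * g6 * r ^ 2 * q) +
      (7/1048576) * (g2 * g6 * r ^ 3) +
      (7/1048576) * (g2 * g6 * p) +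
      (324449/1048576) * (g2 * g6 * p * q ^ 2) +
      (5639/1048576) * (g2 * g6 * p * r) +
      (3/262144) * (g2 * g6 * p * r * q) +
      (7/1048576) * (g2 * g6 * p * r ^ 2) +
      (235523/524288) * (g2 * g6 * p ^ 2) +
      (7/1048576) * (g2 * g6 * p ^ 2 * r) +
      (6147/1048576) * (g2 * g6 * p ^ 3) +
      (19461/524288) * (g2 * g6 * s * q) +
      (36777/1048576) * (g2 * g6 * s * q ^ 2) +
      (1814453/1048576) * (g2 * g6 * s ^ 3) +
      (1023103/1048576) * (g3 * g6 * s * p) +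
      (578075/1048576) * (g3 * g4 * p ^ 2) +
      (716967/1048576) * (g5 * g6 * q) +
      (3/262144) * (g5 * g6 * r * q) +
      (195971/262144) * (g5 * g6 * s) +
      (766187/1048576) * (g5 * g6 * s * p) +
      (72153/1048576) * (g6 * g6 * q ^ 2) +
      (22805/1048576) * (g6 * g6 * q ^ 3) +
      (27061/262144) * (g6 * g6 * r * q) +
      (40605/262144) * (g6 * g6 * r ^ 2) +
      (3/1048576) * (g6 * g6 * p * q) +
      (108145/524288) * (g6 * g6 * p * q ^ 2) +
      (19969/1048576) * (g6 * g6 * s * q ^ 2) +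
      (358027/1048576) * (g6 * g6 * s * r) +
      (5163/32768) * (g6 * g6 * s * p * q) +
      (13677/1048576) * (g6 * g6 * s ^ 2 * q) +
      (10021/16384) * (g6 * g6 * s ^ 3) +
      (7/1048576) * (g6 * g4) +
      (3/262144) * (g6 * g4 * q) +
      (67381/1048576) * (g6 * g4 * p) +
      (298161/1048576) * (g6 * g4 * p ^ 2 * q) +
      (294195/1048576) * (g6 * g4 * s * p * q) +
      (23655/1048576) * (g4 * g4 * q) +
      (302197/524288) * (g4 * g4 * r * q) +
      (353279/524288) * (g4 * g4 * r ^ 2) +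
      (327353/1048576) * (g4 * g4 * p * q) +
      (4605/524288) * (g4 * g4 * p * r ^ 2) +
      (135089/524288) * (g4 * g4 * s * q) +
      (40813/524288) * (g4 * g4 * s * r) +
      (186627/524288) * (g4 * g4 * s * p) +
      (182913/524288) * (g4 * g4 * s * p * q) +
      (62981/1048576) * (g4 * g4 * s * p * r) +
      (735/131072) * (g4 * g4 * s ^ 2 * p) +
      (28797/1048576) * ((p - 6 * s ^ 2) ^ 2) +
      (5633/1048576) * ((p - (13/2) * s ^ 2) ^ 2) +
      (13585/1048576) * ((p - (15/2) * s ^ 2) ^ 2 * p) +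
      (9577/1048576) * ((p - (17/2) * s ^ 2) ^ 2 * r) +
      (146415/16777216) * (q ^ 2) +
      (169/16777216) * (q ^ 3) +
      (5/524288) * (q ^ 4) +
      (4675/524288) * (q ^ 5) +
      (89/8388608) * (r * q) +
      (173/16777216) * (r * q ^ 2) +
      (23/2097152) * (r * q ^ 3) +
      (17/2097152) * (r * q ^ 4) +
      (21/2097152) * (r ^ 2) +
      (21/2097152) * (r ^ 2 * q) +
      (163/16777216) * (r ^ 2 * q ^ 2) +
      (45/4194304) * (r ^ 2 * q ^ 3) +
      (5/524288) * (r ^ 3) +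
      (315/33554432) * (r ^ 3 * q) +
      (21/2097152) * (r ^ 3 * q ^ 2) +
      (45/4194304) * (r ^ 4) +
      (11/1048576) * (r ^ 4 * q) +
      (21/2097152) * (r ^ 5) +
      (5/524288) * (p * q) +
      (41/4194304) * (p * q ^ 2) +
      (11/1048576) * (p * q ^ 3) +
      (5/524288) * (p * q ^ 4) +
      (21/2097152) * (p * r) +
      (11/1048576) * (p * r * q) +
      (9/1048576) * (p * r * q ^ 2) +
      (23/2097152) * (p * r * q ^ 3) +
      (21/2097152) * (p * r ^ 2) +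
      (89/8388608) * (p * r ^ 2 * q) +
      (9/1048576) * (p * r ^ 2 * q ^ 2) +
      (171/16777216) * (p * r ^ 3) +
      (11/1048576) * (p * r ^ 3 * q) +
      (21/2097152) * (p * r ^ 4) +
      (89/8388608) * (p ^ 2) +
      (11/1048576) * (p ^ 2 * q) +
      (5/524288) * (p ^ 2 * q ^ 2) +
      (161101/1048576) * (p ^ 2 * q ^ 3) +
      (21/2097152) * (p ^ 2 * r) +
      (21/2097152) * (p ^ 2 * r * q) +
      (21/2097152) * (p ^ 2 * r * q ^ 2) +
      (11/1048576) * (p ^ 2 * r ^ 2) +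
      (11/1048576) * (p ^ 2 * r ^ 2 * q) +
      (21/2097152) * (p ^ 2 * r ^ 3) +
      (11/1048576) * (p ^ 3) +
      (11/1048576) * (p ^ 3 * q) +
      (5/524288) * (p ^ 3 * q ^ 2) +
      (11/1048576) * (p ^ 3 * r) +
      (23/2097152) * (p ^ 3 * r * q) +
      (21/2097152) * (p ^ 3 * r ^ 2) +
      (5/524288) * (p ^ 4) +
      (5/524288) * (p ^ 4 * q) +
      (11/1048576) * (p ^ 4 * r) +
      (5/524288) * (p ^ 5) +
      (175/16777216) * (s * q) +
      (5/524288) * (s * q ^ 2) +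
      (1/98304) * (s * q ^ 3) +
      (11/1048576) * (s * q ^ 4) +
      (331/33554432) * (s * r) +
      (21/2097152) * (s * r * q) +
      (11/1048576) * (s * r * q ^ 2) +
      (19/2097152) * (s * r * q ^ 3) +
      (5/524288) * (s * r ^ 2) +
      (17/2097152) * (s * r ^ 2 * q) +
      (47/4194304) * (s * r ^ 2 * q ^ 2) +
      (133/12582912) * (s * r ^ 3) +
      (19/2097152) * (s * r ^ 3 * q) +
      (21/2097152) * (s * r ^ 4) +
      (5/524288) * (s * p * q) +
      (11/1048576) * (s * p * q ^ 2) +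
      (11/1048576) * (s * p * q ^ 3) +
      (5/524288) * (s * p * r) +
      (11/1048576) * (s * p * r * q) +
      (21/2097152) * (s * p * r * q ^ 2) +
      (9/1048576) * (s * p * r ^ 2) +
      (5/524288) * (s * p * r ^ 2 * q) +
      (21/2097152) * (s * p * r ^ 3) +
      (5/524288) * (s * p ^ 2) +
      (5/524288) * (s * p ^ 2 * q) +
      (5/524288) * (s * p ^ 2 * q ^ 2) +
      (5/524288) * (s * p ^ 2 * r) +
      (5/524288) * (s * p ^ 2 * r * q) +
      (19/2097152) * (s * p ^ 2 * r ^ 2) +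
      (5/524288) * (s * p ^ 3) +
      (5/524288) * (s * p ^ 3 * q) +
      (1/98304) * (s * p ^ 3 * r) +
      (11/1048576) * (s * p ^ 4) +
      (179/16777216) * (s ^ 2 * q) +
      (5/524288) * (s ^ 2 * q ^ 2) +
      (17/1572864) * (s ^ 2 * q ^ 3) +
      (171/16777216) * (s ^ 2 * r) +
      (11/1048576) * (s ^ 2 * r * q) +
      (19/2097152) * (s ^ 2 * r * q ^ 2) +
      (11/1048576) * (s ^ 2 * r ^ 2) +
      (43/4194304) * (s ^ 2 * r ^ 2 * q) +
      (1/98304) * (s ^ 2 * r ^ 3) +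
      (35/8388608) * (s ^ 2 * p) +
      (11/1048576) * (s ^ 2 * p * q) +
      (11/1048576) * (s ^ 2 * p * q ^ 2) +
      (17/1048576) * (s ^ 2 * p * r) +
      (21/2097152) * (s ^ 2 * p * r * q) +
      (25/2097152) * (s ^ 2 * p * r ^ 2) +
      (11/1048576) * (s ^ 2 * p ^ 2) +
      (11/1048576) * (s ^ 2 * p ^ 2 * q) +
      (5/524288) * (s ^ 2 * p ^ 2 * r) +
      (31/3145728) * (s ^ 2 * p ^ 3) +
      (1049/104857600) * (s ^ 3) +
      (77/8388608) * (s ^ 3 * q) +
      (5/524288) * (s ^ 3 * q ^ 2) +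
      (613/67108864) * (s ^ 3 * r) +
      (11/1048576) * (s ^ 3 * r * q) +
      (21/2097152) * (s ^ 3 * r ^ 2) +
      (5/524288) * (s ^ 3 * p) +
      (5/524288) * (s ^ 3 * p * q) +
      (21/2097152) * (s ^ 3 * p * r) +
      (11/1048576) * (s ^ 3 * p ^ 2) +
      (119/4194304) * (s ^ 4) +
      (11/1048576) * (s ^ 4 * q) +
      (47/4194304) * (s ^ 4 * p) +
      (5/524288) * (s ^ 5) := by
    subst e1 e2 e3 e4 e5 e6
    unfold F4
    ring
  rw [key]
  positivity

set_option maxRecDepth 100000 in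
lemma cert_neg {s p r q g1 g2 g3 g4 g5 g6 : ℝ} (hs : 0 ≤ s) (hp : 0 ≤ p) (hr : 0 ≤ r) (hq : 0 ≤ q)
    (h1 : 0 ≤ g1) (h2 : 0 ≤ g2) (h3 : 0 ≤ g3) (h4 : 0 ≤ g4) (h5 : 0 ≤ g5) (h6 : 0 ≤ g6)
    (e1 : g1 = 1 / 16 - s) (e2 : g2 = s - r) (e3 : g3 = r - s ^ 2) (e4 : g4 = (1 / 2) * s - p)
    (e5 : g5 = s * r - p ^ 2) (e6 : g6 = (3 / 2) * r - q) :
    0 ≤ s * (s + r / 6 - (1 / 100) * s ^ 2 - F4 s (-p) r (r - q)) := by
  have key : s * (s + r / 6 - (1 / 100) * s ^ 2 - F4 s (-p) r (r - q)) =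
      (20845/1048576) * (g5) +
      (1499/65536) * (g2 * q) +
      (37289/1048576) * (g3 * q) +
      (320073/1048576) * (g5 * q) +
      (1515/1048576) * (g6 * q) +
      (17/1048576) * (g4 * q) +
      (345291/1048576) * (g1 * q ^ 2) +
      (381/524288) * (g2 * q ^ 2) +
      (19985/524288) * (g5 * q ^ 2) +
      (493/1048576) * (g6 * q ^ 2) +
      (4963/1048576) * (g1 * q ^ 3) +
      (81/524288) * (g2 * q ^ 3) +
      (17/1048576) * (g5 * q ^ 3) +
      (49/524288) * (g6 * q ^ 3) +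
      (703/524288) * (g1 * q ^ 4) +
      (43/1048576) * (g2 * q ^ 4) +
      (12367/1048576) * (g6 * q ^ 4) +
      (9571/262144) * (g4 * q ^ 4) +
      (149849/1048576) * (g6 * p * q) +
      (87193/1048576) * (g2 * p * q ^ 2) +
      (63381/1048576) * (g5 * p * q ^ 2) +
      (135015/1048576) * (g6 * p * q ^ 2) +
      (29/1048576) * (g4 * p * r ^ 3) +
      (166675/524288) * (g1 * p ^ 2) +
      (480083/1048576) * (g3 * p ^ 2) +
      (5/524288) * (g4 * p ^ 2) +
      (380611/1048576) * (g4 * p ^ 2 * q) +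
      (5/524288) * (g4 * p ^ 3) +
      (20201/524288) * (g2 * p ^ 3 * q) +
      (26923/1048576) * (g6 * p ^ 3 * q) +
      (13/524288) * (g2 * p ^ 4) +
      (5/524288) * (g6 * p ^ 4) +
      (5/524288) * (g4 * p ^ 4) +
      (192155/262144) * (g6 * s * q ^ 2) +
      (13557/524288) * (g4 * s * p) +
      (50069/524288) * (g5 * s * p ^ 2) +
      (12657/524288) * (g6 * s * p ^ 2 * q) +
      (17117/1048576) * (g6 * s * p ^ 3) +
      (2200753/1048576) * (g1 * s ^ 2 * q) +
      (194653/524288) * (g3 * s ^ 2 * q) +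
      (242049/1048576) * (g6 * s ^ 2 * q ^ 2) +
      (851279/1048576) * (g4 * s ^ 2 * p * r) +
      (11781/524288) * (g6 * s ^ 2 * p ^ 2) +
      (584749/524288) * (g1 * s ^ 3 * p) +
      (642703/1048576) * (g1 * g1 * q ^ 2) +
      (44189/1048576) * (g1 * g1 * q ^ 3) +
      (197869/262144) * (g1 * g2 * q) +
      (276605/131072) * (g1 * g2 * s * p) +
      (40487/524288) * (g1 * g5 * q ^ 2) +
      (90345/262144) * (g1 * g6 * q) +
      (35583/262144) * (g1 * g6 * p) +
      (1104311/1048576) * (g1 * g6 * s) +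
      (242525/1048576) * (g1 * g6 * s * p) +
      (3463923/1048576) * (g1 * g6 * s ^ 2) +
      (472695/1048576) * (g1 * g4 * s ^ 2 * q) +
      (186209/524288) * (g2 * g2 * p) +
      (50635/524288) * (g2 * g2 * p ^ 2) +
      (60293/524288) * (g2 * g2 * s) +
      (5849/131072) * (g2 * g2 * s * p * q) +
      (299/1048576) * (g2 * g2 * s ^ 2 * q) +
      (5/524288) * (g2 * g3) +
      (25/1048576) * (g2 * g3 * r * q) +
      (940457/1048576) * (g2 * g3 * p) +
      (425989/524288) * (g2 * g3 * s) +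
      (1050629/524288) * (g2 * g3 * s ^ 2) +
      (938155/1048576) * (g2 * g5 * p) +
      (294917/524288) * (g2 * g5 * s ^ 2) +
      (3/262144) * (g2 * g6 * q) +
      (18551/1048576) * (g2 * g6 * q ^ 3) +
      (7/1048576) * (g2 * g6 * r) +
      (15/1048576) * (g2 * g6 * r * q ^ 2) +
      (22177/262144) * (g2 * g6 * r ^ 2) +
      (3/262144) * (g2 * g6 * r ^ 2 * q) +
      (7/1048576) * (g2 * g6 * r ^ 3) +
      (28841/262144) * (g2 * g6 * p * q) +
      (57425/1048576) * (g2 * g6 * p * q ^ 2) +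
      (7/1048576) * (g2 * g6 * p * r ^ 2) +
      (4481/65536) * (g2 * g6 * p ^ 2) +
      (303523/262144) * (g2 * g6 * s * q) +
      (1719/131072) * (g2 * g6 * s * r ^ 2) +
      (190365/1048576) * (g2 * g6 * s * p * q) +
      (125929/524288) * (g2 * g6 * s ^ 2 * q) +
      (85669/524288) * (g2 * g6 * s ^ 2 * p) +
      (57385/1048576) * (g2 * g4 * q ^ 3) +
      (399439/1048576) * (g3 * g3 * p) +
      (11477/32768) * (g3 * g5 * p) +
      (88701/1048576) * (g3 * g6 * r ^ 2) +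
      (17963/16384) * (g3 * g6 * s ^ 2) +
      (295069/1048576) * (g5 * g6) +
      (42237/1048576) * (g5 * g6 * q) +
      (56581/1048576) * (g5 * g6 * s * r) +
      (1142939/1048576) * (g5 * g4 * s) +
      (3089/262144) * (g6 * g6 * q ^ 3) +
      (3/1048576) * (g6 * g6 * r * q) +
      (4683/65536) * (g6 * g6 * p) +
      (76901/1048576) * (g6 * g6 * p * q) +
      (38273/1048576) * (g6 * g6 * p * q ^ 2) +
      (2783/1048576) * (g6 * g6 * p ^ 2) +
      (3/524288) * (g6 * g6 * p ^ 2 * q) +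
      (1/131072) * (g6 * g6 * p ^ 2 * r) +
      (24335/32768) * (g6 * g6 * s * q) +
      (595/1048576) * (g6 * g6 * s * q ^ 2) +
      (3633/1048576) * (g6 * g6 * s * r * q) +
      (114783/1048576) * (g6 * g6 * s * p * q) +
      (13431/1048576) * (g6 * g6 * s * p * r) +
      (923/32768) * (g6 * g6 * s * p ^ 2) +
      (266233/524288) * (g6 * g6 * s ^ 2) +
      (86637/524288) * (g6 * g6 * s ^ 2 * q) +
      (159845/1048576) * (g6 * g6 * s ^ 2 * p) +
      (162247/1048576) * (g6 * g6 * s ^ 3) +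
      (8903/1048576) * (g6 * g4) +
      (7/1048576) * (g6 * g4 * r ^ 2) +
      (3/262144) * (g6 * g4 * r ^ 2 * q) +
      (12497/524288) * (g6 * g4 * p) +
      (380601/1048576) * (g6 * g4 * p ^ 2) +
      (7/1048576) * (g6 * g4 * p ^ 2 * r) +
      (45147/524288) * (g4 * g4 * p * q ^ 2) +
      (2561/268435456) * (q ^ 2) +
      (2611/268435456) * (q ^ 3) +
      (81/8388608) * (q ^ 4) +
      (11/1048576) * (q ^ 5) +
      (83/8388608) * (r * q) +
      (21/2097152) * (r * q ^ 2) +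
      (3/262144) * (r * q ^ 3) +
      (19/2097152) * (r * q ^ 4) +
      (5/524288) * (r ^ 2) +
      (11/1048576) * (r ^ 2 * q) +
      (9/1048576) * (r ^ 2 * q ^ 2) +
      (21/2097152) * (r ^ 2 * q ^ 3) +
      (21/2097152) * (r ^ 3) +
      (45/4194304) * (r ^ 3 * q) +
      (21/2097152) * (r ^ 3 * q ^ 2) +
      (21/2097152) * (r ^ 4) +
      (11/1048576) * (r ^ 4 * q) +
      (21/2097152) * (r ^ 5) +
      (39/4194304) * (p * q) +
      (74921/1048576) * (p * q ^ 2) +
      (29057/524288) * (p * q ^ 3) +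
      (11/1048576) * (p * q ^ 4) +
      (87/8388608) * (p * r) +
      (21/2097152) * (p * r * q) +
      (19/2097152) * (p * r * q ^ 2) +
      (9/1048576) * (p * r * q ^ 3) +
      (3/262144) * (p * r ^ 2) +
      (47/4194304) * (p * r ^ 2 * q) +
      (45/4194304) * (p * r ^ 2 * q ^ 2) +
      (21/2097152) * (p * r ^ 3) +
      (11/1048576) * (p * r ^ 3 * q) +
      (21/2097152) * (p * r ^ 4) +
      (85/8388608) * (p ^ 2) +
      (5/524288) * (p ^ 2 * q) +
      (87/8388608) * (p ^ 2 * q ^ 2) +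
      (11/1048576) * (p ^ 2 * q ^ 3) +
      (23/2097152) * (p ^ 2 * r) +
      (17/2097152) * (p ^ 2 * r * q) +
      (5/524288) * (p ^ 2 * r * q ^ 2) +
      (49/4194304) * (p ^ 2 * r ^ 2) +
      (21/2097152) * (p ^ 2 * r ^ 2 * q) +
      (11/1048576) * (p ^ 2 * r ^ 3) +
      (5/524288) * (p ^ 3) +
      (5/524288) * (p ^ 3 * q) +
      (5/524288) * (p ^ 3 * q ^ 2) +
      (21/2097152) * (p ^ 3 * r) +
      (21/2097152) * (p ^ 3 * r * q) +
      (21/2097152) * (p ^ 3 * r ^ 2) +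
      (5/524288) * (p ^ 4) +
      (5/524288) * (p ^ 4 * q) +
      (11/1048576) * (p ^ 4 * r) +
      (5/524288) * (p ^ 5) +
      (179/16777216) * (s * q) +
      (87/8388608) * (s * q ^ 2) +
      (271/25165824) * (s * q ^ 3) +
      (5/524288) * (s * q ^ 4) +
      (339/33554432) * (s * r) +
      (11/1048576) * (s * r * q) +
      (65/8388608) * (s * r * q ^ 2) +
      (3/262144) * (s * r * q ^ 3) +
      (5/524288) * (s * r ^ 2) +
      (13/1048576) * (s * r ^ 2 * q) +
      (39/4194304) * (s * r ^ 2 * q ^ 2) +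
      (121/12582912) * (s * r ^ 3) +
      (39/4194304) * (s * r ^ 3 * q) +
      (21/2097152) * (s * r ^ 4) +
      (173/16777216) * (s * p * q) +
      (11/1048576) * (s * p * q ^ 2) +
      (11/1048576) * (s * p * q ^ 3) +
      (297/33554432) * (s * p * r) +
      (5/524288) * (s * p * r * q) +
      (21/2097152) * (s * p * r * q ^ 2) +
      (11/1048576) * (s * p * r ^ 2) +
      (39/4194304) * (s * p * r ^ 2 * q) +
      (45/4194304) * (s * p * r ^ 3) +
      (11/1048576) * (s * p ^ 2) +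
      (11/1048576) * (s * p ^ 2 * q) +
      (5/524288) * (s * p ^ 2 * q ^ 2) +
      (37/4194304) * (s * p ^ 2 * r) +
      (23/2097152) * (s * p ^ 2 * r * q) +
      (41/4194304) * (s * p ^ 2 * r ^ 2) +
      (11/1048576) * (s * p ^ 3) +
      (11/1048576) * (s * p ^ 3 * q) +
      (59/6291456) * (s * p ^ 3 * r) +
      (11/1048576) * (s * p ^ 4) +
      (81/8388608) * (s ^ 2 * q) +
      (11/1048576) * (s ^ 2 * q ^ 2) +
      (65/6291456) * (s ^ 2 * q ^ 3) +
      (375/33554432) * (s ^ 2 * r) +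
      (5/524288) * (s ^ 2 * r * q) +
      (17/2097152) * (s ^ 2 * r * q ^ 2) +
      (19/2097152) * (s ^ 2 * r ^ 2) +
      (25/2097152) * (s ^ 2 * r ^ 2 * q) +
      (1/98304) * (s ^ 2 * r ^ 3) +
      (21/2097152) * (s ^ 2 * p) +
      (167/16777216) * (s ^ 2 * p * q) +
      (21/2097152) * (s ^ 2 * p * q ^ 2) +
      (17/2097152) * (s ^ 2 * p * r) +
      (19/2097152) * (s ^ 2 * p * r * q) +
      (47/4194304) * (s ^ 2 * p * r ^ 2) +
      (21/2097152) * (s ^ 2 * p ^ 2) +
      (5/524288) * (s ^ 2 * p ^ 2 * q) +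
      (3/262144) * (s ^ 2 * p ^ 2 * r) +
      (1/98304) * (s ^ 2 * p ^ 3) +
      (1/102400) * (s ^ 3) +
      (329/33554432) * (s ^ 3 * q) +
      (11/1048576) * (s ^ 3 * q ^ 2) +
      (11/1048576) * (s ^ 3 * r) +
      (9/1048576) * (s ^ 3 * r * q) +
      (41/4194304) * (s ^ 3 * r ^ 2) +
      (91/8388608) * (s ^ 3 * p) +
      (11/1048576) * (s ^ 3 * p * q) +
      (19/2097152) * (s ^ 3 * p * r) +
      (5/524288) * (s ^ 3 * p ^ 2) +
      (5/524288) * (s ^ 4) +
      (21/2097152) * (s ^ 4 * q) +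
      (3/262144) * (s ^ 4 * r) +
      (11/1048576) * (s ^ 4 * p) +
      (5/524288) * (s ^ 5) := by
    subst e1 e2 e3 e4 e5 e6
    unfold F4
    ring
  rw [key]
  positivity

/-- the polynomial inequality -/
theorem F4_le {s p r T : ℝ} (hs : 0 ≤ s) (hs1 : s ≤ 1 / 16) (hr1 : s ^ 2 ≤ r) (hr2 : r ≤ s)
    (hp1 : -(s / 2) ≤ p) (hp2 : p ≤ s) (hp3 : p ^ 2 ≤ s * r) (hT1 : -(r / 2) ≤ T) (hT2 : T ≤ r) :
    F4 s p r T ≤ s + r / 6 - (1 / 100) * s ^ 2 := by
  have hr : 0 ≤ r := le_trans (sq_nonneg s) hr1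
  rcases eq_or_lt_of_le hs with h0 | hpos
  · -- `s = 0`
    have hr0 : r = 0 := le_antisymm (by rw [← h0] at hr2; exact hr2) hr
    have hp0 : p = 0 := le_antisymm (by rw [← h0] at hp2; exact hp2) (by rw [← h0] at hp1; simpa using hp1)
    have hT0 : T = 0 := le_antisymm (by rw [hr0] at hT2; exact hT2) (by rw [hr0] at hT1; simpa using hT1)
    rw [← h0, hr0, hp0, hT0]
    unfold F4
    norm_num
  · have hq : 0 ≤ r - T := by linarith
    have main : 0 ≤ s * (s + r / 6 - (1 / 100) * s ^ 2 - F4 s p r T) := by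
      rcases le_total 0 p with h | h
      · have := cert_pos (s := s) (p := p) (r := r) (q := r - T) hs h hr hq (g1 := 1 / 16 - s) (g2 := s - r)
          (g3 := r - s ^ 2) (g4 := s - p) (g5 := s * r - p ^ 2) (g6 := (3 / 2) * r - (r - T))
          (by linarith) (by linarith) (by linarith) (by linarith) (by linarith) (by linarith)
          rfl rfl rfl rfl rfl rfl
        simpa using this
      · have := cert_neg (s := s) (p := -p) (r := r) (q := r - T) hs (by linarith) hr hq (g1 := 1 / 16 - s)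
          (g2 := s - r) (g3 := r - s ^ 2) (g4 := (1 / 2) * s - (-p)) (g5 := s * r - (-p) ^ 2)
          (g6 := (3 / 2) * r - (r - T))
          (by linarith) (by linarith) (by linarith) (by linarith) (by nlinarith) (by linarith)
          rfl rfl rfl rfl rfl rfl
        simpa using this
    have := nonneg_of_mul_nonneg_right main hpos
    linarith

end Crest.Agent.Lib.Bc.Tail4
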