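import Crest.Agent.Lib.Bc.CloAbstract
import Crest.Agent.Lib.Bc.Tail4Cert
/-!
# Row 163: one-step Lyapunov tail at `(b, lam) = (4, -1/2)`, class free (helper43)

Potential `phi = a + a²/6`, `Ψ(M) = momS M + (1/6) momR M`. For every symmetric law `M` with `momS M ≤ 1/16`,
with `K = M.tilt (-1/2)`:  `Ψ(K.pow 4) ≤ Ψ(M) - (momS M)²/100` (`step`).

Majorant (per-child degree 5): `Kz phi ≤ Pf Z X`, with
`Pf - Kz phi = (X/Z³)(Z-1)²[Z²(1+2g-2Z+(1+4g)Z²) - g X(3Z²+2Z+1)] ≥ 0`, `g = 1/6`, since `X ≤ Z²`.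
The expectation of `Pf` over four i.i.d. children is the closed form `F4` of the four moments, and `F4_le` is the
polynomial inequality.

`H4_of_exit`: if `Ψ(M_N) ≤ 1/16` at some level `N`, the advantage at `(4, -1/2)` tends to `0`.
-/
open scoped BigOperators
open Crest.ProbabilityR.Broadcast Filter Topology
namespace Crest.Agent.Lib.Bc.Tail4

/-- the potential -/
noncomputable def phi (x : Fin 3 → ℝ) : ℝ := aFn 3 x + (1 / 6) * aFn 3 x ^ 2

/-- the majorant in `Z`, `X` -/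
noncomputable def Pf (Z X : ℝ) : ℝ :=
  (7 / 6) * Z + X * (-(14 / 3) + 7 * Z - (16 / 3) * Z ^ 2 + (5 / 3) * Z ^ 3) + (1 / 6) * X ^ 2 * (4 - 3 * Z)

lemma BddS_phi : SLaw.BddS phi :=
  SLaw.BddS.add BddS_aFn3 (SLaw.BddS.const_mul (1 / 6) (SLaw.BddS.pow BddS_aFn3 2))

lemma Φ_phi (H : SLaw 3) : H.Φ phi = momS H + (1 / 6) * momR H := by
  have h3 : 0 < 3 := by norm_num
  unfold phi
  rw [H.Φ_add h3 BddS_aFn3 (SLaw.BddS.const_mul (1 / 6) (SLaw.BddS.pow BddS_aFn3 2)),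
    H.Φ_const_mul h3 _ (SLaw.BddS.pow BddS_aFn3 2)]
  rfl

lemma Kz_phi (ℓ : Fin 3 → ℝ) :
    Kz 3 phi ℓ = Kz 3 (aFn 3) ℓ + (1 / 6) * Kz 3 (fun x => aFn 3 x ^ 2) ℓ := by
  unfold Kz phi
  ring

theorem Kz_phi_le {ℓ : Fin 3 → ℝ} (h : ∀ i, 0 ≤ ℓ i) : Kz 3 phi ℓ ≤ Pf (Zl ℓ) (Xt ℓ) := by
  rw [Kz_phi, Kz_aFn h, Kz_a2 h]
  by_cases hZ : Zl ℓ = 0
  · have hX : Xt ℓ = 0 := by
      unfold Xt; rw [zero_of_Zl h hZ 0, zero_of_Zl h hZ 1]; simp
    simp [hZ, hX, Pf]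
  · have hpos : 0 < Zl ℓ := lt_of_le_of_ne (Zl_nonneg h) (Ne.symm hZ)
    have hX : 0 ≤ Xt ℓ := Xt_nonneg h
    have hle : Xt ℓ ≤ Zl ℓ ^ 2 := Xt_le_Zsq
    generalize Zl ℓ = Z at *
    generalize Xt ℓ = X at *
    have key : Pf Z X - (Z - X / Z + (1 / 6) * (Z - 2 * (X / Z) + X ^ 2 / Z ^ 3))
        = (X / Z ^ 3) * (Z - 1) ^ 2
          * (Z ^ 2 * (4 / 3 - 2 * Z + (5 / 3) * Z ^ 2) - (1 / 6) * X * (3 * Z ^ 2 + 2 * Z + 1)) := by
      unfold Pf
      field_simp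
      ring
    have br : 0 ≤ Z ^ 2 * (4 / 3 - 2 * Z + (5 / 3) * Z ^ 2) - (1 / 6) * X * (3 * Z ^ 2 + 2 * Z + 1) := by
      have h1 : 0 ≤ 3 * Z ^ 2 + 2 * Z + 1 := by positivity
      have h2 : (1 / 6) * X * (3 * Z ^ 2 + 2 * Z + 1) ≤ (1 / 6) * Z ^ 2 * (3 * Z ^ 2 + 2 * Z + 1) := by
        apply mul_le_mul_of_nonneg_right _ h1
        linarith
      have h3 : Z ^ 2 * (4 / 3 - 2 * Z + (5 / 3) * Z ^ 2) - (1 / 6) * Z ^ 2 * (3 * Z ^ 2 + 2 * Z + 1)
          = (7 / 6) * (Z * (1 - Z)) ^ 2 := by ring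
      have h4 := sq_nonneg (Z * (1 - Z))
      linarith
    have : 0 ≤ (X / Z ^ 3) * (Z - 1) ^ 2
          * (Z ^ 2 * (4 / 3 - 2 * Z + (5 / 3) * Z ^ 2) - (1 / 6) * X * (3 * Z ^ 2 + 2 * Z + 1)) :=
      mul_nonneg (mul_nonneg (div_nonneg hX (by positivity)) (sq_nonneg _)) br
    linarith

/-! ## Expectations through lists of monomials -/

/-- a polynomial in the hats, as a list of (coefficient, exponents) -/
noncomputable def evalL (L : List (ℝ × ℕ × ℕ × ℕ)) (ℓ : Fin 3 → ℝ) : ℝ :=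
  (L.map fun t => t.1 * (ℓ 0 ^ t.2.1 * ℓ 1 ^ t.2.2.1 * ℓ 2 ^ t.2.2.2)).sum

/-- its expectation over `c` i.i.d. children -/
noncomputable def evalM (H : SLaw 3) (c : ℕ) (L : List (ℝ × ℕ × ℕ × ℕ)) : ℝ :=
  (L.map fun t => t.1 * MM H t.2.1 t.2.2.1 t.2.2.2 ^ c).sum

theorem Φ_pow_le_list (H : SLaw 3) {f : (Fin 3 → ℝ) → ℝ} (hf : SLaw.BddS f) (c : ℕ) (L : List (ℝ × ℕ × ℕ × ℕ))
    (hle : ∀ ℓ : Fin 3 → ℝ, (∀ i, 0 ≤ ℓ i) → Kz 3 f ℓ ≤ evalL L ℓ) :
    (H.pow c).Φ f ≤ evalM H c L := by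
  have h3 : 0 < 3 := by norm_num
  have h := SLaw.Φ_pow_le_poly H h3 hf (Finset.univ : Finset (Fin L.length)) (fun i => (L[i.1]).1)
    (fun i => ![(L[i.1]).2.1, (L[i.1]).2.2.1, (L[i.1]).2.2.2]) c (fun ℓ hℓ => by
      refine (hle ℓ hℓ).trans (le_of_eq ?_)
      unfold evalL
      rw [← Fin.sum_univ_fun_getElem]
      refine Finset.sum_congr rfl fun i _ => ?_
      simp [Fin.prod_univ_three])
  refine h.trans (le_of_eq ?_)
  unfold evalM
  rw [← Fin.sum_univ_fun_getElem]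
  refine Finset.sum_congr rfl fun i _ => ?_
  rw [monoFn_eq_mono3]
  rfl

/-- the monomials of `Pf` -/
noncomputable def L43 : List (ℝ × ℕ × ℕ × ℕ) := [
    ((7/18), 0, 0, 1),
    ((7/18), 0, 1, 0),
    ((-14/9), 0, 1, 1),
    ((7/9), 0, 1, 2),
    ((-16/81), 0, 1, 3),
    ((5/243), 0, 1, 4),
    ((7/9), 0, 2, 1),
    ((-26/81), 0, 2, 2),
    ((7/162), 0, 2, 3),
    ((-16/81), 0, 3, 1),
    ((7/162), 0, 3, 2),
    ((5/243), 0, 4, 1),
    ((7/18), 1, 0, 0),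
    ((-14/9), 1, 0, 1),
    ((7/9), 1, 0, 2),
    ((-16/81), 1, 0, 3),
    ((5/243), 1, 0, 4),
    ((-14/9), 1, 1, 0),
    ((7/3), 1, 1, 1),
    ((-68/81), 1, 1, 2),
    ((26/243), 1, 1, 3),
    ((7/9), 1, 2, 0),
    ((-68/81), 1, 2, 1),
    ((25/162), 1, 2, 2),
    ((-16/81), 1, 3, 0),
    ((26/243), 1, 3, 1),
    ((5/243), 1, 4, 0),
    ((7/9), 2, 0, 1),
    ((-26/81), 2, 0, 2),
    ((7/162), 2, 0, 3),
    ((7/9), 2, 1, 0),
    ((-68/81), 2, 1, 1),
    ((25/162), 2, 1, 2),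
    ((-26/81), 2, 2, 0),
    ((25/162), 2, 2, 1),
    ((7/162), 2, 3, 0),
    ((-16/81), 3, 0, 1),
    ((7/162), 3, 0, 2),
    ((-16/81), 3, 1, 0),
    ((26/243), 3, 1, 1),
    ((7/162), 3, 2, 0),
    ((5/243), 4, 0, 1),
    ((5/243), 4, 1, 0)]

lemma evalL_L43 (ℓ : Fin 3 → ℝ) : evalL L43 ℓ = Pf (Zl ℓ) (Xt ℓ) := by
  simp only [evalL, L43, List.map_cons, List.map_nil, List.sum_cons, List.sum_nil]
  unfold Pf Zl Xt
  ring

set_option maxRecDepth 100000 in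
lemma evalM_L43 (H : SLaw 3) {s p r T : ℝ} (hS : momS H = (1 / 4) * s) (hC : momC H = (-1 / 8) * p)
    (hR : momR H = (1 / 16) * r) (hT : momT H = (-1 / 32) * T) : evalM H 4 L43 = F4 s p r T := by
  have e001 := ((MM_swap12 H 0 0 1).trans (MM_swap01 H 0 1 0)).trans (MM_100 H)
  have e010 := (MM_swap01 H 0 1 0).trans (MM_100 H)
  have e011 := ((MM_swap01 H 0 1 1).trans (MM_swap12 H 1 0 1)).trans (MM_110 H)
  have e012 := (((MM_swap01 H 0 1 2).trans (MM_swap12 H 1 0 2)).trans (MM_swap01 H 1 2 0)).trans (MM_210 H)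
  have e013 := (((MM_swap01 H 0 1 3).trans (MM_swap12 H 1 0 3)).trans (MM_swap01 H 1 3 0)).trans (MM_310 H)
  have e014 := (((MM_swap01 H 0 1 4).trans (MM_swap12 H 1 0 4)).trans (MM_swap01 H 1 4 0)).trans (MM_410 H)
  have e021 := ((MM_swap01 H 0 2 1).trans (MM_swap12 H 2 0 1)).trans (MM_210 H)
  have e022 := ((MM_swap01 H 0 2 2).trans (MM_swap12 H 2 0 2)).trans (MM_220 H)
  have e023 := (((MM_swap01 H 0 2 3).trans (MM_swap12 H 2 0 3)).trans (MM_swap01 H 2 3 0)).trans (MM_320 H)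
  have e031 := ((MM_swap01 H 0 3 1).trans (MM_swap12 H 3 0 1)).trans (MM_310 H)
  have e032 := ((MM_swap01 H 0 3 2).trans (MM_swap12 H 3 0 2)).trans (MM_320 H)
  have e041 := ((MM_swap01 H 0 4 1).trans (MM_swap12 H 4 0 1)).trans (MM_410 H)
  have e100 := MM_100 H
  have e101 := (MM_swap12 H 1 0 1).trans (MM_110 H)
  have e102 := ((MM_swap12 H 1 0 2).trans (MM_swap01 H 1 2 0)).trans (MM_210 H)
  have e103 := ((MM_swap12 H 1 0 3).trans (MM_swap01 H 1 3 0)).trans (MM_310 H)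
  have e104 := ((MM_swap12 H 1 0 4).trans (MM_swap01 H 1 4 0)).trans (MM_410 H)
  have e110 := MM_110 H
  have e111 := MM_111 H
  have e112 := ((MM_swap12 H 1 1 2).trans (MM_swap01 H 1 2 1)).trans (MM_211 H)
  have e113 := ((MM_swap12 H 1 1 3).trans (MM_swap01 H 1 3 1)).trans (MM_311 H)
  have e120 := (MM_swap01 H 1 2 0).trans (MM_210 H)
  have e121 := (MM_swap01 H 1 2 1).trans (MM_211 H)
  have e122 := ((MM_swap01 H 1 2 2).trans (MM_swap12 H 2 1 2)).trans (MM_221 H)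
  have e130 := (MM_swap01 H 1 3 0).trans (MM_310 H)
  have e131 := (MM_swap01 H 1 3 1).trans (MM_311 H)
  have e140 := (MM_swap01 H 1 4 0).trans (MM_410 H)
  have e201 := (MM_swap12 H 2 0 1).trans (MM_210 H)
  have e202 := (MM_swap12 H 2 0 2).trans (MM_220 H)
  have e203 := ((MM_swap12 H 2 0 3).trans (MM_swap01 H 2 3 0)).trans (MM_320 H)
  have e210 := MM_210 H
  have e211 := MM_211 H
  have e212 := (MM_swap12 H 2 1 2).trans (MM_221 H)
  have e220 := MM_220 H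
  have e221 := MM_221 H
  have e230 := (MM_swap01 H 2 3 0).trans (MM_320 H)
  have e301 := (MM_swap12 H 3 0 1).trans (MM_310 H)
  have e302 := (MM_swap12 H 3 0 2).trans (MM_320 H)
  have e310 := MM_310 H
  have e311 := MM_311 H
  have e320 := MM_320 H
  have e401 := (MM_swap12 H 4 0 1).trans (MM_410 H)
  have e410 := MM_410 H
  simp only [evalM, L43, List.map_cons, List.map_nil, List.sum_cons, List.sum_nil, e001, e010, e011, e012, e013, e014, e021, e022, e023, e031, e032, e041, e100, e101, e102, e103, e104, e110, e111, e112, e113, e120, e121, e122, e130, e131, e140, e201, e202, e203, e210, e211, e212, e220, e221, e230, e301, e302, e310, e311, e320, e401, e410]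
  rw [hS, hC, hR, hT]
  unfold F4
  ring

/-! ## Constraints on the moments -/

lemma momC_sq_le (H : SLaw 3) : momC H ^ 2 ≤ momS H * momR H := by
  have h3 : 0 < 3 := by norm_num
  have hs0 := momS_nonneg H
  have hc1 := momC_le_momS H
  have hc2 := neg_half_momS_le_momC H
  rcases eq_or_lt_of_le hs0 with h0 | hpos
  · have : momC H = 0 := le_antisymm (by rw [← h0] at hc1; exact hc1) (by rw [← h0] at hc2; simpa using hc2)
    rw [this, ← h0]
    norm_num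
  · set t := momC H / momS H with ht
    have hb := Φ_lin H 0 (t ^ 2) (-2 * t) 1 0 0 0 0
    have hpt : ∀ x ∈ Simp 3, (fun _ => (0 : ℝ)) x ≤ (fun x => 0 + t ^ 2 * aFn 3 x + (-2 * t) * cFn x + 1 * aFn 3 x ^ 2
        + 0 * (aFn 3 x * cFn x) + 0 * aFn 3 x ^ 3 + 0 * cFn x ^ 2 + 0 * (aFn 3 x ^ 2 * cFn x)) x := by
      intro x hx
      have ha := aFn3_nonneg hx
      have hsq := cFn_sq_le hx
      show (0 : ℝ) ≤ _
      beta_reduce
      rcases eq_or_lt_of_le ha with h | h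
      · have hc : cFn x = 0 := by
          have : cFn x ^ 2 ≤ 0 := by rw [← h] at hsq; simpa using hsq
          nlinarith [sq_nonneg (cFn x)]
        rw [hc, ← h]
        norm_num
      · have hm : 0 ≤ aFn 3 x * (t ^ 2 * aFn 3 x - 2 * t * cFn x + aFn 3 x ^ 2) := by
          have e : aFn 3 x * (t ^ 2 * aFn 3 x - 2 * t * cFn x + aFn 3 x ^ 2)
              = (t * aFn 3 x - cFn x) ^ 2 + (aFn 3 x ^ 3 - cFn x ^ 2) := by ring
          rw [e]
          have := sq_nonneg (t * aFn 3 x - cFn x)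
          linarith
        have := nonneg_of_mul_nonneg_right hm h
        linarith
    have hmono := H.Φ_mono h3 (SLaw.BddS.const 0) (by
      rw [SLaw.BddS]
      have h1 := SLaw.BddS.const_mul (t ^ 2) BddS_aFn3
      have h2 := SLaw.BddS.const_mul (-2 * t) BddS_cFn
      have h4 := SLaw.BddS.const_mul 1 (SLaw.BddS.pow BddS_aFn3 2)
      have h5 := SLaw.BddS.const_mul 0 (SLaw.BddS.mul BddS_aFn3 BddS_cFn)
      have h6 := SLaw.BddS.const_mul 0 (SLaw.BddS.pow BddS_aFn3 3)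
      have h7 := SLaw.BddS.const_mul 0 (SLaw.BddS.pow BddS_cFn 2)
      have h8 := SLaw.BddS.const_mul 0 (SLaw.BddS.mul (SLaw.BddS.pow BddS_aFn3 2) BddS_cFn)
      exact SLaw.BddS.add (SLaw.BddS.add (SLaw.BddS.add (SLaw.BddS.add (SLaw.BddS.add (SLaw.BddS.add
        (SLaw.BddS.add (SLaw.BddS.const 0) h1) h2) h4) h5) h6) h7) h8) hpt
    rw [H.Φ_const h3, hb] at hmono
    have e2 : t * momS H = momC H := by rw [ht]; field_simp
    have : momS H * (0 + t ^ 2 * momS H + -2 * t * momC H + 1 * momR H + 0 * momT H + 0 * momA3 H + 0 * momC2 H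
        + 0 * momA2C H) = momS H * momR H - momC H ^ 2 := by
      rw [← e2]
      ring
    have h5 := mul_nonneg hs0 hmono
    rw [this] at h5
    linarith

/-! ## One step -/

/-- **one step**: the potential drops, for every law with `s ≤ 1/16` -/
theorem step (M : SLaw 3) (hch : ∀ i j : Fin 3, 0 ≤ channel 3 (-(1 / 2)) i j) (hs : momS M ≤ 1 / 16) :
    ((M.tilt (-(1 / 2)) hch).pow 4).Φ phi ≤ momS M + (1 / 6) * momR M - (1 / 100) * momS M ^ 2 := by
  have h1 := Φ_pow_le_list (M.tilt (-(1 / 2)) hch) BddS_phi 4 L43 (fun ℓ hℓ => by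
    rw [evalL_L43]
    exact Kz_phi_le hℓ)
  have hS : momS (M.tilt (-(1 / 2)) hch) = (1 / 4) * momS M := by rw [momS_tilt]; norm_num
  have hC : momC (M.tilt (-(1 / 2)) hch) = (-1 / 8) * momC M := by rw [momC_tilt]; norm_num
  have hR : momR (M.tilt (-(1 / 2)) hch) = (1 / 16) * momR M := by rw [momR_tilt]; norm_num
  have hT : momT (M.tilt (-(1 / 2)) hch) = (-1 / 32) * momT M := by rw [momT_tilt]; norm_num
  rw [evalM_L43 _ hS hC hR hT] at h1
  have h2 := F4_le (momS_nonneg M) hs (sq_momS_le_momR M) (momR_le_momS M) (p := momC M) (T := momT M)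
    (by have := neg_half_momS_le_momC M; linarith) (momC_le_momS M) (momC_sq_le M)
    (by have := neg_half_momR_le_momT M; linarith) (momT_le_momR M)
  linarith

/-! ## The tail -/

/-- **the tail at `(4, -1/2)`**. -/
theorem H4_of_exit (hch : ∀ i j : Fin 3, 0 ≤ channel 3 (-(1 / 2)) i j) (N : ℕ)
    (hN : momS (leafSL 3 4 (-(1 / 2)) N (by norm_num) hch)
      + (1 / 6) * momR (leafSL 3 4 (-(1 / 2)) N (by norm_num) hch) ≤ 1 / 16) :
    Tendsto (advantage 3 4 (-(1 / 2))) atTop (𝓝 0) := by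
  have h3 : 0 < 3 := by norm_num
  set L : ℕ → SLaw 3 := fun n => leafSL 3 4 (-(1 / 2)) n h3 hch with hL
  have hstep : ∀ n, momS (L n) ≤ 1 / 16 →
      momS (L (n + 1)) + (1 / 6) * momR (L (n + 1)) ≤ momS (L n) + (1 / 6) * momR (L n) - (1 / 100) * momS (L n) ^ 2 := by
    intro n hn
    rw [← Φ_phi]
    show (leafSL 3 4 (-(1 / 2)) (n + 1) h3 hch).Φ phi ≤ _
    rw [leafSL_succ 4 (-(1 / 2)) n h3 hch BddS_phi]
    exact step (L n) hch hn
  have hle : ∀ n, momS (L n) ≤ momS (L n) + (1 / 6) * momR (L n) := by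
    intro n
    have := le_trans (sq_nonneg _) (sq_momS_le_momR (L n))
    linarith
  have hanti : Antitone fun n => momS (L n) := momS_leaf_antitone 4 (-(1 / 2)) h3 hch
  have hlim : Tendsto (fun n => momS (L n)) atTop (𝓝 0) := by
    refine tendsto_zero_of_forall_lt hanti (fun n => momS_nonneg _) (fun ε hε => ?_)
    by_contra hcon
    push Not at hcon
    have hind : ∀ k : ℕ, momS (L (N + k)) + (1 / 6) * momR (L (N + k)) ≤ 1 / 16 - k * ((1 / 100) * ε ^ 2) := by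
      intro k
      induction k with
      | zero =>
        have hN' : momS (L N) + (1 / 6) * momR (L N) ≤ 1 / 16 := hN
        simpa using hN'
      | succ k ih =>
        have hk : momS (L (N + k)) ≤ 1 / 16 := by
          have h5 := hle (N + k)
          have h6 : (0 : ℝ) ≤ k * ((1 / 100) * ε ^ 2) := by positivity
          linarith
        have h7 := hstep (N + k) hk
        have h8 : ε ^ 2 ≤ momS (L (N + k)) ^ 2 := by
          have := hcon (N + k)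
          exact pow_le_pow_left₀ hε.le this 2
        rw [← add_assoc]
        push_cast
        nlinarith
    obtain ⟨k, hk⟩ := exists_nat_gt ((1 / 16) / ((1 / 100) * ε ^ 2))
    have hpos : 0 < (1 / 100) * ε ^ 2 := by positivity
    rw [div_lt_iff₀ hpos] at hk
    have h9 := hind k
    have h10 := hle (N + k)
    have h11 := momS_nonneg (L (N + k))
    linarith
  exact advantage_tendsto_of_momS 4 (-(1 / 2)) hch hlim

end Crest.Agent.Lib.Bc.Tail4
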